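import Mathlib

set_option autoImplicit false

/-!
# Row 180: double centraliser theorem for finite-dimensional division algebras

`B` is a finite-dimensional algebra over a field `F` which is a domain.
For a subalgebra `L` containing the centre `Z`: `[L : F] [C(L) : F] = [B : F] [Z : F]` and
`C(C(L)) = L`.  The proof is by two "shortest relation" lemmas.
-/

open Module

namespace Crest.Agent.R180.DCT

section Rel

variable {B : Type*} [DivisionRing B]

/-- If `∑ c_i l x_i = 0` for all `l ∈ L` and the `x_i` are left independent over the centraliser
of `L`, then all `c_i = 0`. -/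
theorem relL {ι : Type*} (L : Set B) (h1 : (1 : B) ∈ L)
    (hmul : ∀ a ∈ L, ∀ b ∈ L, a * b ∈ L)
    (x : ι → B) (s : Finset ι)
    (hx : ∀ c : ι → B, (∀ i ∈ s, ∀ l ∈ L, l * c i = c i * l) → ∑ i ∈ s, c i * x i = 0 →
      ∀ i ∈ s, c i = 0) :
    ∀ c : ι → B, (∀ l ∈ L, ∑ i ∈ s, c i * l * x i = 0) → ∀ i ∈ s, c i = 0 := by
  classical
  induction s using Finset.induction_on with
  | empty => intro c _ i hi; simp at hi
  | insert a s ha ih =>
    intro c hc
    have ih' := ih (by
      intro d hd hsum
      have := hx (fun i => if i = a then 0 else d i) (by
        intro i hi l hl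
        by_cases hia : i = a
        · simp [hia]
        · simp only [hia, if_false]
          exact hd i ((Finset.mem_insert.mp hi).resolve_left hia) l hl) (by
        rw [Finset.sum_insert ha]
        simp only [if_true, zero_mul, zero_add]
        rw [← hsum]
        refine Finset.sum_congr rfl fun i hi => ?_
        rw [if_neg (ne_of_mem_of_not_mem hi ha)])
      intro i hi
      have h2 := this i (Finset.mem_insert_of_mem hi)
      rwa [if_neg (ne_of_mem_of_not_mem hi ha)] at h2)
    by_cases hca : c a = 0
    · have h3 := ih' c (by
        intro l hl
        have := hc l hl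
        rwa [Finset.sum_insert ha, hca, zero_mul, zero_mul, zero_add] at this)
      intro i hi
      rcases Finset.mem_insert.mp hi with h | h
      · rw [h]; exact hca
      · exact h3 i h
    · exfalso
      set d : ι → B := fun i => (c a)⁻¹ * c i with hd
      have hda : d a = 1 := inv_mul_cancel₀ hca
      have hdsum : ∀ l ∈ L, ∑ i ∈ insert a s, d i * l * x i = 0 := by
        intro l hl
        have := congrArg (fun t => (c a)⁻¹ * t) (hc l hl)
        simp only [mul_zero, Finset.mul_sum] at this
        rw [← this]
        refine Finset.sum_congr rfl fun i _ => ?_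
        simp only [hd, mul_assoc]
      have hcomm : ∀ i ∈ insert a s, ∀ l ∈ L, l * d i = d i * l := by
        intro i hi m hm
        have h4 := ih' (fun i => m * d i - d i * m) (by
          intro l hl
          have e1 := hdsum (m * l) (hmul m hm l hl)
          have e2 := congrArg (fun t => m * t) (hdsum l hl)
          simp only [mul_zero, Finset.mul_sum] at e2
          rw [Finset.sum_insert ha] at e1 e2
          have e3 : ∑ i ∈ s, (m * d i - d i * m) * l * x i =
              ∑ i ∈ s, m * (d i * l * x i) - ∑ i ∈ s, d i * (m * l) * x i := by
            rw [← Finset.sum_sub_distrib]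
            refine Finset.sum_congr rfl fun i _ => ?_
            simp only [sub_mul, mul_assoc]
          rw [e3]
          have e4 : m * (d a * l * x a) = d a * (m * l) * x a := by
            rw [hda]; simp only [one_mul, mul_assoc]
          rw [← e4] at e1
          have e5 : ∑ i ∈ s, m * (d i * l * x i) = - (m * (d a * l * x a)) := by
            rw [eq_neg_iff_add_eq_zero, add_comm]; exact e2
          have e6 : ∑ i ∈ s, d i * (m * l) * x i = - (m * (d a * l * x a)) := by
            rw [eq_neg_iff_add_eq_zero, add_comm]; exact e1
          rw [e5, e6, sub_self])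
        rcases Finset.mem_insert.mp hi with h | h
        · rw [h, hda, mul_one, one_mul]
        · exact sub_eq_zero.mp (h4 i h)
      have h5 := hx d hcomm (by
        have := hdsum 1 h1
        simpa only [mul_one] using this) a (Finset.mem_insert_self a s)
      rw [hda] at h5
      exact one_ne_zero h5

/-- If `∑ l_j x b_j = 0` for all `x` and the `l_j` are independent over the centre,
then all `b_j = 0`. -/
theorem relR {κ : Type*} (l : κ → B) (s : Finset κ)
    (hl : ∀ z : κ → B, (∀ j ∈ s, ∀ y : B, y * z j = z j * y) → ∑ j ∈ s, l j * z j = 0 →
      ∀ j ∈ s, z j = 0) :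
    ∀ b : κ → B, (∀ x : B, ∑ j ∈ s, l j * x * b j = 0) → ∀ j ∈ s, b j = 0 := by
  classical
  induction s using Finset.induction_on with
  | empty => intro c _ i hi; simp at hi
  | insert a s ha ih =>
    intro c hc
    have ih' := ih (by
      intro d hd hsum
      have := hl (fun i => if i = a then 0 else d i) (by
        intro i hi y
        by_cases hia : i = a
        · simp [hia]
        · simp only [hia, if_false]
          exact hd i ((Finset.mem_insert.mp hi).resolve_left hia) y) (by
        rw [Finset.sum_insert ha]
        simp only [if_true, mul_zero, zero_add]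
        rw [← hsum]
        refine Finset.sum_congr rfl fun i hi => ?_
        rw [if_neg (ne_of_mem_of_not_mem hi ha)])
      intro i hi
      have h2 := this i (Finset.mem_insert_of_mem hi)
      rwa [if_neg (ne_of_mem_of_not_mem hi ha)] at h2)
    by_cases hca : c a = 0
    · have h3 := ih' c (by
        intro y
        have := hc y
        rwa [Finset.sum_insert ha, hca, mul_zero, zero_add] at this)
      intro i hi
      rcases Finset.mem_insert.mp hi with h | h
      · rw [h]; exact hca
      · exact h3 i h
    · exfalso
      set d : κ → B := fun i => c i * (c a)⁻¹ with hd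
      have hda : d a = 1 := mul_inv_cancel₀ hca
      have hdsum : ∀ y : B, ∑ i ∈ insert a s, l i * y * d i = 0 := by
        intro y
        have := congrArg (fun t => t * (c a)⁻¹) (hc y)
        simp only [zero_mul, Finset.sum_mul] at this
        rw [← this]
        refine Finset.sum_congr rfl fun i _ => ?_
        simp only [hd, mul_assoc]
      have hcomm : ∀ i ∈ insert a s, ∀ y : B, y * d i = d i * y := by
        intro i hi m
        have h4 := ih' (fun i => m * d i - d i * m) (by
          intro y
          have e1 := hdsum (y * m)
          have e2 := congrArg (fun t => t * m) (hdsum y)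
          simp only [zero_mul, Finset.sum_mul] at e2
          rw [Finset.sum_insert ha] at e1 e2
          have e3 : ∑ i ∈ s, l i * y * (m * d i - d i * m) =
              ∑ i ∈ s, l i * (y * m) * d i - ∑ i ∈ s, l i * y * d i * m := by
            rw [← Finset.sum_sub_distrib]
            refine Finset.sum_congr rfl fun i _ => ?_
            simp only [mul_sub, mul_assoc]
          rw [e3]
          have e4 : l a * (y * m) * d a = l a * y * d a * m := by
            rw [hda]; simp only [mul_one, mul_assoc]
          rw [e4] at e1
          have e5 : ∑ i ∈ s, l i * (y * m) * d i = - (l a * y * d a * m) := by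
            rw [eq_neg_iff_add_eq_zero, add_comm]; exact e1
          have e6 : ∑ i ∈ s, l i * y * d i * m = - (l a * y * d a * m) := by
            rw [eq_neg_iff_add_eq_zero, add_comm]; exact e2
          rw [e5, e6, sub_self])
        rcases Finset.mem_insert.mp hi with h | h
        · rw [h, hda, mul_one, one_mul]
        · exact sub_eq_zero.mp (h4 i h)
      have h5 := hl d hcomm (by
        have := hdsum 1
        simpa only [mul_one] using this) a (Finset.mem_insert_self a s)
      rw [hda] at h5
      exact one_ne_zero h5

end Rel

section Main

variable {F B : Type*} [Field F] [DivisionRing B] [Algebra F B] [FiniteDimensional F B]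

/-- Double centraliser dimension formula, `DivisionRing` version. -/
theorem finrank_mul_centralizer_aux (L : Subalgebra F B) (hL : Subalgebra.center F B ≤ L) :
    finrank F L * finrank F (Subalgebra.centralizer F (L : Set B)) =
      finrank F B * finrank F (Subalgebra.center F B) := by
  classical
  set Z := Subalgebra.center F B with hZ
  set C := Subalgebra.centralizer F (L : Set B) with hC
  let _ : DivisionRing C := divisionRingOfFiniteDimensional F C
  let _ : Field Z := fieldOfFiniteDimensional F Z
  have : Module.Finite C B := Module.Finite.of_restrictScalars_finite F C B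
  have : Module.Finite Z B := Module.Finite.of_restrictScalars_finite F Z B
  -- `L` as a `Z`-submodule
  let L' : Submodule Z B :=
    { carrier := L
      add_mem' := fun ha hb => L.add_mem ha hb
      zero_mem' := L.zero_mem
      smul_mem' := fun z x hx => L.mul_mem (hL z.2) hx }
  have hL'F : finrank F L' = finrank F L := rfl
  set r := finrank C B with hr
  set k := finrank Z L' with hk
  have hBr : finrank F C * r = finrank F B := Module.finrank_mul_finrank F C B
  have hLk : finrank F Z * k = finrank F L := by
    rw [← hL'F]; exact Module.finrank_mul_finrank F Z L'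
  let x := Module.finBasis C B
  let l := Module.finBasis Z L'
  have hinv : ∀ z : B, (∀ y : B, y * z = z * y) → z ∈ Z := by
    intro z hz
    rw [hZ, Subalgebra.mem_center_iff]
    exact hz
  -- first map
  let T : (Fin k → B) →ₗ[F] (Fin r → B) :=
    LinearMap.pi fun i => ∑ j, (LinearMap.mulLeft F ((l j : B) * x i)).comp (LinearMap.proj j)
  have hT : Function.Injective T := by
    rw [injective_iff_map_eq_zero]
    intro b hb
    have h1 : ∀ i, ∑ j, (l j : B) * x i * b j = 0 := by
      intro i
      have := congrFun hb i
      simpa [T, mul_assoc] using this
    have h2 : ∀ y : B, ∑ j ∈ Finset.univ, (l j : B) * y * b j = 0 := by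
      intro y
      rw [← x.sum_repr y]
      have : ∀ j, (l j : B) * (∑ i, x.repr y i • x i) * b j =
          ∑ i, ((x.repr y i : C) : B) * ((l j : B) * x i * b j) := by
        intro j
        rw [Finset.mul_sum, Finset.sum_mul]
        refine Finset.sum_congr rfl fun i _ => ?_
        have hc : (l j : B) * ((x.repr y i : C) : B) = ((x.repr y i : C) : B) * (l j : B) := by
          have h3 := (Subalgebra.mem_centralizer_iff F).mp (x.repr y i : C).2
          exact h3 _ (l j).2
        change (l j : B) * (((x.repr y i : C) : B) * x i) * b j = _
        rw [← mul_assoc, hc]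
        simp only [mul_assoc]
      simp_rw [this]
      rw [Finset.sum_comm]
      refine Finset.sum_eq_zero fun i _ => ?_
      rw [← Finset.mul_sum, h1 i, mul_zero]
    have h3 := relR (fun j => (l j : B)) Finset.univ (by
      intro z hz hsum
      have h4 := Fintype.linearIndependent_iff.mp l.linearIndependent
        (fun j => ⟨z j, hinv _ (hz j (Finset.mem_univ j))⟩) (by
          apply Subtype.ext
          rw [Submodule.coe_sum, Submodule.coe_zero, ← hsum]
          refine Finset.sum_congr rfl fun j _ => ?_
          change z j * (l j : B) = _
          exact (hz j (Finset.mem_univ j) (l j : B)).symm)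
      intro j _
      exact congrArg Subtype.val (h4 j)) b h2
    funext j
    exact h3 j (Finset.mem_univ j)
  -- second map
  let S : (Fin r → B) →ₗ[F] (Fin k → B) :=
    LinearMap.pi fun j => ∑ i, (LinearMap.mulRight F ((l j : B) * x i)).comp (LinearMap.proj i)
  have hS : Function.Injective S := by
    rw [injective_iff_map_eq_zero]
    intro c hc
    have h1 : ∀ j, ∑ i, c i * ((l j : B) * x i) = 0 := by
      intro j
      have := congrFun hc j
      simpa [S, mul_assoc] using this
    have h2 : ∀ m ∈ (L : Set B), ∑ i ∈ Finset.univ, c i * m * x i = 0 := by
      intro m hm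
      have hm' : (⟨m, hm⟩ : L') = ∑ j, l.repr ⟨m, hm⟩ j • l j := (l.sum_repr _).symm
      have hm2 : m = ∑ j, ((l.repr ⟨m, hm⟩ j : Z) : B) * (l j : B) := by
        have := congrArg Subtype.val hm'
        rw [Submodule.coe_sum] at this
        exact this
      have : ∀ i, c i * m * x i =
          ∑ j, ((l.repr ⟨m, hm⟩ j : Z) : B) * (c i * ((l j : B) * x i)) := by
        intro i
        conv_lhs => rw [hm2]
        rw [Finset.mul_sum, Finset.sum_mul]
        refine Finset.sum_congr rfl fun j _ => ?_
        have hz : c i * ((l.repr ⟨m, hm⟩ j : Z) : B) = ((l.repr ⟨m, hm⟩ j : Z) : B) * c i := by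
          have h3 := Subalgebra.mem_center_iff.mp (l.repr ⟨m, hm⟩ j : Z).2
          exact h3 (c i)
        rw [← mul_assoc (c i), hz]
        simp only [mul_assoc]
      simp_rw [this]
      rw [Finset.sum_comm]
      refine Finset.sum_eq_zero fun j _ => ?_
      rw [← Finset.mul_sum, h1 j, mul_zero]
    have h3 := relL (L : Set B) L.one_mem (fun a ha b hb => L.mul_mem ha hb) (fun i => x i)
      Finset.univ (by
      intro z hz hsum
      have h4 := Fintype.linearIndependent_iff.mp x.linearIndependent
        (fun i => ⟨z i, by
          rw [hC, Subalgebra.mem_centralizer_iff]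
          intro g hg
          exact hz i (Finset.mem_univ i) g hg⟩) (by
          rw [← hsum]
          exact Finset.sum_congr rfl fun i _ => rfl)
      intro i _
      exact congrArg Subtype.val (h4 i)) c h2
    funext i
    exact h3 i (Finset.mem_univ i)
  have hB : 0 < finrank F B := finrank_pos
  have d1 : k * finrank F B ≤ r * finrank F B := by
    have := LinearMap.finrank_le_finrank_of_injective hT
    simpa [Module.finrank_pi_fintype] using this
  have d2 : r * finrank F B ≤ k * finrank F B := by
    have := LinearMap.finrank_le_finrank_of_injective hS
    simpa [Module.finrank_pi_fintype] using this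
  have hkr : k = r := le_antisymm (Nat.le_of_mul_le_mul_right d1 hB)
    (Nat.le_of_mul_le_mul_right d2 hB)
  rw [← hLk, ← hBr, hkr]
  ring

end Main

section Dom

variable {F B : Type*} [Field F] [Ring B] [IsDomain B] [Algebra F B] [FiniteDimensional F B]

/-- Double centraliser dimension formula: `[L:F][C(L):F] = [B:F][Z(B):F]` for subalgebras `L`
containing the centre. -/
theorem finrank_mul_centralizer (L : Subalgebra F B) (hL : Subalgebra.center F B ≤ L) :
    finrank F L * finrank F (Subalgebra.centralizer F (L : Set B)) =
      finrank F B * finrank F (Subalgebra.center F B) := by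
  let _ : DivisionRing B := divisionRingOfFiniteDimensional F B
  exact finrank_mul_centralizer_aux L hL
















end Dom

end Crest.Agent.R180.DCT
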