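import Crest.Agent.R180.LaurentLemmas

set_option autoImplicit false
noncomputable section

/-!
# Row 180: residue algebras, traces and generation for Laurent series algebras
-/

namespace Crest.Agent.R180

namespace LD

section algebra
variable {F K : Type} [Field F] [Ring K] [Algebra F K]

/-- the residue algebra of a subalgebra of `K((t))` -/
def resAlg (S : Subalgebra (LF F) (LD K)) : Subalgebra F K where
  carrier := {v | ∃ x ∈ S, IsInt x ∧ x.co 0 = v}
  mul_mem' := by
    rintro a b ⟨x, hx, hx', rfl⟩ ⟨y, hy, hy', rfl⟩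
    exact ⟨x * y, S.mul_mem hx hy, hx'.mul hy', hx'.co_mul_zero hy'⟩
  add_mem' := by
    rintro a b ⟨x, hx, hx', rfl⟩ ⟨y, hy, hy', rfl⟩
    exact ⟨x + y, S.add_mem hx hy, hx'.add hy', co_add _ _ _⟩
  algebraMap_mem' := by
    intro c
    refine ⟨algebraMap (LF F) (LD K) (LF.C c), S.algebraMap_mem _, ?_, ?_⟩
    · change IsInt (LF.toLD (LF.C c) : LD K)
      rw [toLD_C]; exact isInt_C _
    · change (LF.toLD (LF.C c) : LD K).co 0 = _
      rw [toLD_C, co_C_zero]


theorem toSubmodule_resAlg (S : Subalgebra (LF F) (LD K)) :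
    Subalgebra.toSubmodule (resAlg S) = resSp (Subalgebra.toSubmodule S) := by
  ext v
  rfl

theorem finrank_resAlg [Module.Finite F K] (S : Subalgebra (LF F) (LD K)) :
    Module.finrank F (resAlg S) = Module.finrank (LF F) S := by
  have h := finrank_resSp (Subalgebra.toSubmodule S)
  rw [← toSubmodule_resAlg] at h
  exact h

/-- constants of a generated subalgebra -/
theorem C_mem_adjoin (s : Set K) (k : K) (hk : k ∈ Algebra.adjoin F s) :
    (C k : LD K) ∈ Algebra.adjoin (LF F) (C '' s : Set (LD K)) := by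
  induction hk using Algebra.adjoin_induction with
  | mem x hx => exact Algebra.subset_adjoin ⟨x, hx, rfl⟩
  | algebraMap c =>
    rw [← toLD_C (F := F)]
    exact Subalgebra.algebraMap_mem _ _
  | add x y _ _ hx hy => rw [map_add]; exact add_mem hx hy
  | mul x y _ _ hx hy => rw [map_mul]; exact mul_mem hx hy

theorem eq_top_of_C_mem [Module.Finite F K] (S : Subalgebra (LF F) (LD K))
    (h : ∀ k, (C k : LD K) ∈ S) : S = ⊤ := by
  rw [eq_top_iff]
  intro x _
  rw [← (basis (Module.finBasis F K)).sum_repr x]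
  refine sum_mem fun i _ => S.smul_mem ?_ _
  rw [basis_apply]
  exact h _

theorem adjoin_C_image_eq_top [Module.Finite F K] (s : Set K) (hs : Algebra.adjoin F s = ⊤) :
    Algebra.adjoin (LF F) (C '' s : Set (LD K)) = ⊤ := by
  apply eq_top_of_C_mem
  intro k
  apply C_mem_adjoin
  rw [hs]; exact Algebra.mem_top

/-- generation is insensitive to scaling by a power of `t` -/
theorem adjoin_tp_C_eq_top [Module.Finite F K] {ι : Type*} (z : ι → K) (e : ℤ)
    (hz : Algebra.adjoin F (Set.range z) = ⊤) :
    Algebra.adjoin (LF F) (Set.range fun j => (tp e * C (z j) : LD K)) = ⊤ := by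
  rw [eq_top_iff, ← adjoin_C_image_eq_top (Set.range z) hz]
  apply Algebra.adjoin_le
  rintro _ ⟨_, ⟨j, rfl⟩, rfl⟩
  have h1 : (C (z j) : LD K) = (LF.tp (-e) : LF F) • (tp e * C (z j)) := by
    rw [smul_def, toLD_tp, ← mul_assoc, tp_mul_tp, neg_add_cancel, tp_zero, one_mul]
  rw [SetLike.mem_coe, h1]
  refine Subalgebra.smul_mem _ (Algebra.subset_adjoin ?_) _
  exact ⟨j, rfl⟩

/-- the regular trace is computed coefficientwise -/
theorem co_trace [Module.Finite F K] (x : LD K) (n : ℤ) :
    (LinearMap.trace (LF F) (LD K) (LinearMap.mulLeft (LF F) x)).co n =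
      LinearMap.trace F K (LinearMap.mulLeft F (x.co n)) := by
  classical
  let b := Module.finBasis F K
  rw [LinearMap.trace_eq_matrix_trace (LF F) (basis b),
    LinearMap.trace_eq_matrix_trace F b, Matrix.trace, Matrix.trace, LF_co_sum]
  refine Finset.sum_congr rfl fun i _ => ?_
  rw [Matrix.diag_apply, Matrix.diag_apply, LinearMap.toMatrix_apply, LinearMap.toMatrix_apply,
    basis_repr_co, basis_apply, LinearMap.mulLeft_apply, LinearMap.mulLeft_apply, mul_C_co]

end algebra

end LD

end Crest.Agent.R180
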