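import Mathlib

-- ▼ part R180/Laurent
section

set_option autoImplicit false

/-!
# Row 180: Laurent series over (possibly noncommutative) rings

`LF F` : Laurent series field over a field `F` (type synonym of `HahnSeries ℤ F`).
`LD K` : Laurent series ring over a ring `K` (type synonym, to avoid instance diamonds).
`LD K` is an algebra over `LF F` when `K` is an `F`-algebra.
-/

noncomputable section

namespace Crest.Agent.R180

open HahnSeries

/-- Laurent series over a ring (coefficient ring of the new stage). -/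
def LD (K : Type) [Zero K] : Type := HahnSeries ℤ K

/-- Laurent series over a field (scalar field of the new stage). -/
def LF (F : Type) [Zero F] : Type := HahnSeries ℤ F

/-- coefficientwise ring hom on Hahn series -/
def hmap {R S : Type} [Ring R] [Ring S] (φ : R →+* S) : HahnSeries ℤ R →+* HahnSeries ℤ S where
  toFun x := x.map φ
  map_one' := by
    ext n; simp [HahnSeries.coeff_one, apply_ite φ]
  map_zero' := by ext n; simp
  map_add' x y := by ext n; simp
  map_mul' x y := HahnSeries.map_mul (φ : R →ₙ+* S)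

namespace LD

variable {K : Type}

instance instRing [Ring K] : Ring (LD K) := inferInstanceAs (Ring (HahnSeries ℤ K))
instance instDomain [Ring K] [IsDomain K] : IsDomain (LD K) :=
  inferInstanceAs (IsDomain (HahnSeries ℤ K))

/-- coefficient -/
def co [Zero K] (x : LD K) (n : ℤ) : K := HahnSeries.coeff (x : HahnSeries ℤ K) n

theorem ext [Zero K] {x y : LD K} (h : ∀ n, x.co n = y.co n) : x = y := HahnSeries.ext (funext h)

@[simp] theorem co_zero [Ring K] (n : ℤ) : (0 : LD K).co n = 0 := rfl
@[simp] theorem co_add [Ring K] (x y : LD K) (n : ℤ) : (x + y).co n = x.co n + y.co n := rfl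
@[simp] theorem co_neg [Ring K] (x : LD K) (n : ℤ) : (-x).co n = - x.co n := rfl
@[simp] theorem co_sub [Ring K] (x y : LD K) (n : ℤ) : (x - y).co n = x.co n - y.co n := by
  rw [sub_eq_add_neg, co_add, co_neg, sub_eq_add_neg]

/-- power series as Laurent series -/
def ofPS [Ring K] : PowerSeries K →+* LD K := HahnSeries.ofPowerSeries ℤ K

/-- constants -/
def C [Ring K] : K →+* LD K := ofPS.comp (PowerSeries.C)

/-- the uniformizer `t` and its powers -/
def tp [Ring K] (n : ℤ) : LD K := (HahnSeries.single n (1 : K) : HahnSeries ℤ K)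

/-- functoriality -/
def map {K' : Type} [Ring K] [Ring K'] (φ : K →+* K') : LD K →+* LD K' := hmap φ

@[simp] theorem co_map {K' : Type} [Ring K] [Ring K'] (φ : K →+* K') (x : LD K) (n : ℤ) :
    (map φ x).co n = φ (x.co n) := rfl

end LD

namespace LF

variable {F : Type}

instance instField [Field F] : Field (LF F) := inferInstanceAs (Field (HahnSeries ℤ F))

/-- coefficient -/
def co [Zero F] (x : LF F) (n : ℤ) : F := HahnSeries.coeff (x : HahnSeries ℤ F) n

theorem ext [Zero F] {x y : LF F} (h : ∀ n, x.co n = y.co n) : x = y := HahnSeries.ext (funext h)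

@[simp] theorem co_zero [Field F] (n : ℤ) : (0 : LF F).co n = 0 := rfl
@[simp] theorem co_add [Field F] (x y : LF F) (n : ℤ) : (x + y).co n = x.co n + y.co n := rfl
@[simp] theorem co_neg [Field F] (x : LF F) (n : ℤ) : (-x).co n = - x.co n := rfl

/-- power series as Laurent series -/
def ofPS [Field F] : PowerSeries F →+* LF F := HahnSeries.ofPowerSeries ℤ F

/-- constants -/
def C [Field F] : F →+* LF F := ofPS.comp (PowerSeries.C)

/-- powers of the uniformizer `t` -/
def tp [Field F] (n : ℤ) : LF F := (HahnSeries.single n (1 : F) : HahnSeries ℤ F)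

instance instCharZero [Field F] [CharZero F] : CharZero (LF F) :=
  charZero_of_injective_ringHom (f := (C : F →+* LF F)) (RingHom.injective _)

/-- the structure map `LF F → LD K` -/
def toLD {K : Type} [Field F] [Ring K] [Algebra F K] : LF F →+* LD K := hmap (algebraMap F K)

@[simp] theorem co_toLD {K : Type} [Field F] [Ring K] [Algebra F K] (x : LF F) (n : ℤ) :
    (toLD x : LD K).co n = algebraMap F K (x.co n) := rfl

theorem toLD_commutes {K : Type} [Field F] [Ring K] [Algebra F K] (x : LF F) (y : LD K) :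
    (toLD x : LD K) * y = y * toLD x := by
  apply HahnSeries.ext
  funext n
  have h1 := @HahnSeries.coeff_mul ℤ K _ _ _ _ (hmap (algebraMap F K) x : HahnSeries ℤ K) (y : HahnSeries ℤ K) n
  have h2 := @HahnSeries.coeff_mul ℤ K _ _ _ _ (y : HahnSeries ℤ K) (hmap (algebraMap F K) x : HahnSeries ℤ K) n
  refine h1.trans (Eq.trans ?_ h2.symm)
  refine Finset.sum_nbij' Prod.swap Prod.swap ?_ ?_ ?_ ?_ ?_
  · rintro ⟨a, b⟩ h
    simp only [Prod.swap, Finset.mem_antidiagonal] at h ⊢
    exact ⟨h.2.1, h.1, by rw [add_comm]; exact h.2.2⟩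
  · rintro ⟨a, b⟩ h
    simp only [Prod.swap, Finset.mem_antidiagonal] at h ⊢
    exact ⟨h.2.1, h.1, by rw [add_comm]; exact h.2.2⟩
  · rintro ⟨a, b⟩ _; rfl
  · rintro ⟨a, b⟩ _; rfl
  · rintro ⟨a, b⟩ _
    exact Algebra.commutes (x.co a) (HahnSeries.coeff (y : HahnSeries ℤ K) b)

end LF

namespace LD

variable {F K : Type} [Field F] [Ring K] [Algebra F K]

instance instAlgebra : Algebra (LF F) (LD K) :=
  RingHom.toAlgebra' LF.toLD LF.toLD_commutes

theorem algebraMap_eq (x : LF F) : algebraMap (LF F) (LD K) x = LF.toLD x := rfl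

end LD

end Crest.Agent.R180
end
end

-- ▼ part R180/LaurentLemmas

set_option autoImplicit false
set_option linter.style.longLine false
noncomputable section
namespace Crest.Agent.R180

open HahnSeries

namespace LD

section basics
variable {K : Type} [Ring K]

/-- integral elements -/
def IsInt (x : LD K) : Prop := ∀ n : ℤ, n < 0 → x.co n = 0

theorem co_ofPS (x : PowerSeries K) (n : ℕ) : (ofPS x).co (n : ℤ) = PowerSeries.coeff n x :=
  HahnSeries.ofPowerSeries_apply_coeff x n

theorem co_ofPS_neg (x : PowerSeries K) (n : ℤ) (hn : n < 0) : (ofPS x).co n = 0 := by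
  change (HahnSeries.ofPowerSeries ℤ K x).coeff n = 0
  rw [HahnSeries.ofPowerSeries_apply]
  apply HahnSeries.embDomain_of_notMem_range
  rintro ⟨m, hm⟩
  simp only [Nat.castOrderEmbedding_apply] at hm
  omega

theorem ofPS_injective : Function.Injective (ofPS : PowerSeries K →+* LD K) :=
  HahnSeries.ofPowerSeries_injective

theorem isInt_ofPS (x : PowerSeries K) : IsInt (ofPS x) := fun n hn => co_ofPS_neg x n hn

theorem isInt_iff (x : LD K) : IsInt x ↔ ∃ y : PowerSeries K, x = ofPS y := by
  constructor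
  · intro h
    refine ⟨PowerSeries.mk fun n => x.co n, ?_⟩
    apply LD.ext
    intro n
    rcases lt_or_ge n 0 with hn | hn
    · rw [h n hn, co_ofPS_neg _ n hn]
    · obtain ⟨m, rfl⟩ := Int.eq_ofNat_of_zero_le hn
      rw [co_ofPS, PowerSeries.coeff_mk]
  · rintro ⟨y, rfl⟩
    exact isInt_ofPS y

theorem IsInt.mul {x y : LD K} (hx : IsInt x) (hy : IsInt y) : IsInt (x * y) := by
  obtain ⟨a, rfl⟩ := (isInt_iff x).mp hx
  obtain ⟨b, rfl⟩ := (isInt_iff y).mp hy
  rw [← map_mul]
  exact isInt_ofPS _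

theorem IsInt.add {x y : LD K} (hx : IsInt x) (hy : IsInt y) : IsInt (x + y) := by
  intro n hn
  rw [co_add, hx n hn, hy n hn, add_zero]

theorem IsInt.neg {x : LD K} (hx : IsInt x) : IsInt (-x) := by
  intro n hn
  rw [co_neg, hx n hn, neg_zero]

theorem IsInt.sub {x y : LD K} (hx : IsInt x) (hy : IsInt y) : IsInt (x - y) := by
  intro n hn
  rw [co_sub, hx n hn, hy n hn, sub_zero]

theorem isInt_zero : IsInt (0 : LD K) := fun _ _ => rfl

theorem IsInt.sum {ι : Type*} {s : Finset ι} {f : ι → LD K} (h : ∀ i ∈ s, IsInt (f i)) :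
    IsInt (∑ i ∈ s, f i) := by
  classical
  induction s using Finset.induction_on with
  | empty => simpa using isInt_zero
  | insert a s ha ih =>
    rw [Finset.sum_insert ha]
    exact (h a (Finset.mem_insert_self a s)).add (ih fun i hi => h i (Finset.mem_insert_of_mem hi))

/-- coefficient as an additive hom -/
def coHom (n : ℤ) : LD K →+ K where
  toFun x := x.co n
  map_zero' := rfl
  map_add' _ _ := rfl

@[simp] theorem coHom_apply (n : ℤ) (x : LD K) : coHom n x = x.co n := rfl

theorem co_sum {ι : Type*} (s : Finset ι) (f : ι → LD K) (n : ℤ) :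
    (∑ i ∈ s, f i).co n = ∑ i ∈ s, (f i).co n := map_sum (coHom n) f s

theorem IsInt.co_mul_zero {x y : LD K} (hx : IsInt x) (hy : IsInt y) :
    (x * y).co 0 = x.co 0 * y.co 0 := by
  obtain ⟨a, rfl⟩ := (isInt_iff x).mp hx
  obtain ⟨b, rfl⟩ := (isInt_iff y).mp hy
  rw [← map_mul]
  have h := fun z : PowerSeries K => co_ofPS z 0
  simp only [Nat.cast_zero] at h
  rw [h, h, h, PowerSeries.coeff_zero_eq_constantCoeff_apply,
    PowerSeries.coeff_zero_eq_constantCoeff_apply,
    PowerSeries.coeff_zero_eq_constantCoeff_apply, map_mul]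

theorem C_eq (k : K) : (C k : LD K) = (HahnSeries.single 0 k : HahnSeries ℤ K) :=
  HahnSeries.ofPowerSeries_C k

theorem co_C (k : K) (n : ℤ) : (C k).co n = if n = 0 then k else 0 := by
  rw [C_eq]
  change (HahnSeries.single (0 : ℤ) k).coeff n = _
  rw [HahnSeries.coeff_single]
  split_ifs <;> rfl

theorem co_one (n : ℤ) : (1 : LD K).co n = if n = 0 then 1 else 0 := by
  change (1 : HahnSeries ℤ K).coeff n = _
  rw [HahnSeries.coeff_one]
  split_ifs <;> rfl

/-- constants and scalars commute as expected -/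
theorem C_mul_co (k : K) (x : LD K) (n : ℤ) : (C k * x).co n = k * x.co n := by
  rw [C_eq]
  exact HahnSeries.coeff_single_zero_mul (Γ := ℤ) (R := K) (r := k) (x := x) (a := n)

theorem mul_C_co (k : K) (x : LD K) (n : ℤ) : (x * C k).co n = x.co n * k := by
  rw [C_eq]
  exact HahnSeries.coeff_mul_single_zero (Γ := ℤ) (R := K) (r := k) (x := x) (a := n)

theorem co_tp_mul (m n : ℤ) (x : LD K) : (tp m * x).co n = x.co (n - m) := by
  have h := HahnSeries.coeff_single_mul (Γ' := ℤ) (R := K) (r := 1) (x := x) (a := n) (b := m)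
  rw [one_mul] at h
  exact h

theorem co_mul_tp (m n : ℤ) (x : LD K) : (x * tp m).co n = x.co (n - m) := by
  have h := HahnSeries.coeff_mul_single (Γ' := ℤ) (R := K) (r := 1) (x := x) (a := n) (b := m)
  rw [mul_one] at h
  exact h

theorem tp_commute (m : ℤ) (x : LD K) : tp m * x = x * tp m := by
  apply LD.ext; intro n
  rw [co_tp_mul, co_mul_tp]

theorem tp_zero : (tp 0 : LD K) = 1 := rfl

theorem co_tp (m n : ℤ) : (tp m : LD K).co n = if n = m then 1 else 0 := by
  change (HahnSeries.single m (1 : K)).coeff n = _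
  rw [HahnSeries.coeff_single]
  split_ifs <;> rfl

theorem tp_mul_tp (m n : ℤ) : (tp m * tp n : LD K) = tp (m + n) := by
  apply LD.ext; intro k
  rw [co_tp_mul, co_tp, co_tp]
  by_cases h : k = m + n
  · rw [if_pos h, if_pos (by omega)]
  · rw [if_neg h, if_neg (by omega)]

/-- the support is bounded below -/
theorem exists_bound (x : LD K) : ∃ N : ℤ, ∀ n < N, x.co n = 0 :=
  ⟨HahnSeries.order (x : HahnSeries ℤ K), fun _ hn => HahnSeries.coeff_eq_zero_of_lt_order hn⟩

/-- every nonzero element is `t^k` times an integral element with nonzero residue -/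
theorem exists_normal {x : LD K} (hx : x ≠ 0) :
    ∃ (k : ℤ) (y : LD K), x = tp k * y ∧ IsInt y ∧ y.co 0 ≠ 0 := by
  have hx' : (x : HahnSeries ℤ K) ≠ 0 := hx
  refine ⟨HahnSeries.order (x : HahnSeries ℤ K), tp (-HahnSeries.order (x : HahnSeries ℤ K)) * x,
    ?_, ?_, ?_⟩
  · rw [← mul_assoc, tp_mul_tp, add_neg_cancel, tp_zero, one_mul]
  · intro n hn
    rw [co_tp_mul]
    apply HahnSeries.coeff_eq_zero_of_lt_order
    omega
  · rw [co_tp_mul, zero_sub, neg_neg]
    exact mt (HahnSeries.coeff_order_eq_zero).mp hx'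

end basics

section algebra
variable {F K : Type} [Field F] [Ring K] [Algebra F K]

theorem toLD_tp (n : ℤ) : (LF.toLD (LF.tp n : LF F) : LD K) = tp n := by
  apply LD.ext; intro k
  rw [LF.co_toLD, co_tp]
  change algebraMap F K ((HahnSeries.single n (1 : F)).coeff k) = _
  rw [HahnSeries.coeff_single]
  split_ifs
  · rw [map_one]
  · rw [map_zero]

theorem toLD_C (c : F) : (LF.toLD (LF.C c) : LD K) = C (algebraMap F K c) := by
  apply LD.ext; intro k
  rw [LF.co_toLD, co_C]
  have h : (LF.C c : LF F) = (HahnSeries.single 0 c : HahnSeries ℤ F) :=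
    HahnSeries.ofPowerSeries_C c
  rw [h]
  change algebraMap F K ((HahnSeries.single (0:ℤ) c).coeff k) = _
  rw [HahnSeries.coeff_single]
  split_ifs
  · rfl
  · rw [map_zero]

theorem smul_def (a : LF F) (x : LD K) : a • x = LF.toLD a * x := Algebra.smul_def a x

theorem co_smul_C (a : LF F) (k : K) (n : ℤ) : (a • (C k : LD K)).co n = a.co n • k := by
  rw [smul_def, mul_C_co, LF.co_toLD, Algebra.smul_def]

theorem co_C_smul (c : F) (x : LD K) (n : ℤ) : ((LF.C c : LF F) • x).co n = c • x.co n := by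
  rw [smul_def, toLD_C, C_mul_co, Algebra.smul_def]

theorem co_tp_smul (m n : ℤ) (x : LD K) : ((LF.tp m : LF F) • x).co n = x.co (n - m) := by
  rw [smul_def, toLD_tp, co_tp_mul]

theorem LF_co_sum {ι : Type*} (s : Finset ι) (f : ι → LF F) (n : ℤ) :
    (∑ i ∈ s, f i).co n = ∑ i ∈ s, (f i).co n := by
  classical
  induction s using Finset.induction_on with
  | empty => simp
  | insert a s ha ih => rw [Finset.sum_insert ha, Finset.sum_insert ha, LF.co_add, ih]

/-- a Laurent series with prescribed coefficients supported in the support of a given one -/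
theorem exists_LF_of_support {R : Type} [Zero R] (x : LD R) (f : ℤ → F)
    (h : ∀ n, x.co n = 0 → f n = 0) : ∃ a : LF F, ∀ n, a.co n = f n := by
  refine ⟨(⟨f, (HahnSeries.isPWO_support (x : HahnSeries ℤ R)).mono ?_⟩ : HahnSeries ℤ F),
    fun n => rfl⟩
  intro n hn hx
  exact hn (h n hx)

/-- combination map -/
def comb {ι : Type} [Fintype ι] (b : Module.Basis ι F K) : (ι → LF F) →ₗ[LF F] LD K :=
  ∑ i, (LinearMap.proj i : (ι → LF F) →ₗ[LF F] LF F).smulRight (C (b i) : LD K)

theorem comb_apply {ι : Type} [Fintype ι] (b : Module.Basis ι F K) (c : ι → LF F) :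
    comb b c = ∑ i, c i • (C (b i) : LD K) := by
  simp [comb]

theorem co_comb {ι : Type} [Fintype ι] (b : Module.Basis ι F K) (c : ι → LF F) (n : ℤ) :
    (comb b c).co n = ∑ i, (c i).co n • b i := by
  rw [comb_apply, co_sum]
  exact Finset.sum_congr rfl fun i _ => co_smul_C _ _ _

theorem comb_bijective {ι : Type} [Fintype ι] (b : Module.Basis ι F K) :
    Function.Bijective (comb b) := by
  constructor
  · rw [← LinearMap.ker_eq_bot, LinearMap.ker_eq_bot']
    intro c hc
    funext i
    apply LF.ext; intro n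
    have h := co_comb b c n
    rw [hc, co_zero] at h
    exact (Fintype.linearIndependent_iff.mp b.linearIndependent) (fun i => (c i).co n) h.symm i
  · intro x
    have h : ∀ i, ∃ a : LF F, ∀ n, a.co n = b.repr (x.co n) i := fun i =>
      exists_LF_of_support x _ fun n hn => by rw [hn, map_zero, Finsupp.zero_apply]
    choose a ha using h
    refine ⟨a, ?_⟩
    apply LD.ext; intro n
    rw [co_comb]
    simp_rw [ha]
    exact b.sum_repr (x.co n)

/-- the `LF F`-basis of `LD K` given by an `F`-basis of `K` -/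
def basis {ι : Type} [Fintype ι] (b : Module.Basis ι F K) : Module.Basis ι (LF F) (LD K) :=
  Module.Basis.ofEquivFun (LinearEquiv.ofBijective (comb b) (comb_bijective b)).symm

theorem basis_apply {ι : Type} [Fintype ι] (b : Module.Basis ι F K) (i : ι) :
    basis b i = C (b i) := by
  classical
  rw [basis, Module.Basis.coe_ofEquivFun]
  change comb b (Pi.single i 1) = _
  rw [comb_apply, Finset.sum_eq_single i]
  · simp
  · intro j _ hj
    rw [Pi.single_eq_of_ne hj, zero_smul]
  · simp

theorem basis_repr_co {ι : Type} [Fintype ι] (b : Module.Basis ι F K) (x : LD K) (i : ι) (n : ℤ) :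
    ((basis b).repr x i).co n = b.repr (x.co n) i := by
  have h : x.co n = ∑ j, ((basis b).repr x j).co n • b j := by
    have h1 := (basis b).sum_repr x
    have h2 := congrArg (fun y : LD K => y.co n) h1
    rw [← h2, co_sum]
    refine Finset.sum_congr rfl fun j _ => ?_
    rw [basis_apply, co_smul_C]
  conv_rhs => rw [h]
  rw [map_sum, Finsupp.finsetSum_apply]
  simp only [map_smul, Module.Basis.repr_self, Finsupp.smul_apply, smul_eq_mul]
  classical
  rw [Finset.sum_eq_single i]
  · simp
  · intro j _ hj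
    rw [Finsupp.single_eq_of_ne' hj, mul_zero]
  · simp

instance instFinite [Module.Finite F K] : Module.Finite (LF F) (LD K) :=
  Module.Finite.of_basis (basis (Module.finBasis F K))

theorem LF_co_mul_tp (m n : ℤ) (x : LF F) : (LF.tp m * x).co n = x.co (n - m) := by
  have h := HahnSeries.coeff_single_mul (Γ' := ℤ) (R := F) (r := 1) (x := x) (a := n) (b := m)
  rw [one_mul] at h
  exact h

theorem LF_tp_mul_tp (m n : ℤ) : (LF.tp m * LF.tp n : LF F) = LF.tp (m + n) := by
  change (HahnSeries.single m (1 : F) : HahnSeries ℤ F) * HahnSeries.single n (1 : F) = _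
  rw [HahnSeries.single_mul_single, one_mul]
  rfl

theorem LF_tp_zero : (LF.tp 0 : LF F) = 1 := rfl

theorem LF_tp_ne_zero (n : ℤ) : (LF.tp n : LF F) ≠ 0 := by
  intro h
  have h1 : (LF.tp n * LF.tp (-n) : LF F) = 1 := by rw [LF_tp_mul_tp, add_neg_cancel, LF_tp_zero]
  rw [h, zero_mul] at h1
  exact zero_ne_one h1

theorem isInt_toLD (a : LF F) (h : ∀ n : ℤ, n < 0 → a.co n = 0) : IsInt (LF.toLD a : LD K) := by
  intro n hn
  rw [LF.co_toLD, h n hn, map_zero]

theorem co_smul_of_bound (g : LF F) (x : LD K) (k : ℤ) (hg : ∀ n < k, g.co n = 0) (hx : IsInt x) :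
    (∀ n < k, (g • x).co n = 0) ∧ (g • x).co k = g.co k • x.co 0 := by
  set g' : LF F := LF.tp (-k) * g with hg'
  have h1 : g = LF.tp k * g' := by
    rw [hg', ← mul_assoc, LF_tp_mul_tp, add_neg_cancel, LF_tp_zero, one_mul]
  have h2 : ∀ n : ℤ, n < 0 → g'.co n = 0 := by
    intro n hn
    rw [hg', LF_co_mul_tp]
    exact hg _ (by omega)
  have h3 : IsInt (g' • x) := by
    rw [smul_def]
    exact (isInt_toLD g' h2).mul hx
  constructor
  · intro n hn
    rw [h1, mul_smul, co_tp_smul]
    exact h3 _ (by omega)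
  · have e1 : (LF.tp k * g').co k = g'.co 0 := by
      have := LF_co_mul_tp k k g'
      rwa [sub_self] at this
    rw [h1, e1, mul_smul, co_tp_smul, sub_self, smul_def, (isInt_toLD g' h2).co_mul_zero hx,
      LF.co_toLD, Algebra.smul_def]

theorem exists_min_order {ι : Type*} (s : Finset ι) (g : ι → LF F) (h : ∃ i ∈ s, g i ≠ 0) :
    ∃ k : ℤ, (∀ i ∈ s, ∀ n < k, (g i).co n = 0) ∧ ∃ i ∈ s, (g i).co k ≠ 0 := by
  classical
  have hb : ∃ b : ℤ, ∀ n : ℤ, (∃ i ∈ s, (g i).co n ≠ 0) → b ≤ n := by
    choose N hN using fun i : ι =>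
      (⟨HahnSeries.order (g i : HahnSeries ℤ F), fun _ hn => HahnSeries.coeff_eq_zero_of_lt_order hn⟩ :
        ∃ N : ℤ, ∀ n < N, (g i).co n = 0)
    obtain ⟨i0, hi0, _⟩ := h
    refine ⟨s.inf' ⟨i0, hi0⟩ N, ?_⟩
    rintro n ⟨i, hi, hne⟩
    by_contra hlt
    rw [not_le] at hlt
    apply hne
    apply hN i n
    exact lt_of_lt_of_le hlt (Finset.inf'_le N hi)
  have hne : ∃ n : ℤ, ∃ i ∈ s, (g i).co n ≠ 0 := by
    obtain ⟨i, hi, hgi⟩ := h
    by_contra hcon
    push Not at hcon
    apply hgi
    apply LF.ext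
    intro n
    exact hcon n i hi
  obtain ⟨k, hk1, hk2⟩ := Int.exists_least_of_bdd hb hne
  refine ⟨k, fun i hi n hn => ?_, hk1⟩
  by_contra hcon
  have := hk2 n ⟨i, hi, hcon⟩
  omega

/-- residues independent ⇒ independent -/
theorem linearIndependent_of_residues {ι : Type*} (x : ι → LD K) (hx : ∀ i, IsInt (x i))
    (h : LinearIndependent F (fun i => (x i).co 0)) : LinearIndependent (LF F) x := by
  rw [linearIndependent_iff'] at h ⊢
  intro s g hg
  by_contra hcon
  push Not at hcon
  obtain ⟨k, hk1, i, hi, hk2⟩ := exists_min_order s g hcon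
  apply hk2
  apply h s (fun i => (g i).co k) ?_ i hi
  have h1 := congrArg (fun y : LD K => y.co k) hg
  simp only [co_zero] at h1
  rw [co_sum] at h1
  rw [← h1]
  exact Finset.sum_congr rfl fun j hj => ((co_smul_of_bound (g j) (x j) k (hk1 j hj) (hx j)).2).symm

theorem isInt_C (k : K) : IsInt (C k : LD K) := by
  intro n hn
  rw [co_C, if_neg (by omega)]

theorem co_C_zero (k : K) : (C k : LD K).co 0 = k := by rw [co_C, if_pos rfl]

theorem finrank_eq' [Module.Finite F K] :
    Module.finrank (LF F) (LD K) = Module.finrank F K := by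
  rw [Module.finrank_eq_card_basis (basis (Module.finBasis F K)), Fintype.card_fin]

theorem finrank_eq : Module.finrank (LF F) (LD K) = Module.finrank F K := by
  by_cases h : Module.Finite F K
  · exact finrank_eq'
  · rw [Module.finrank_of_infinite_dimensional h]
    by_cases h' : Module.Finite (LF F) (LD K)
    · exfalso
      apply h
      have hli : LinearIndependent (LF F) (fun i => (C (Module.Basis.ofVectorSpace F K i) : LD K)) := by
        apply linearIndependent_of_residues _ (fun i => isInt_C _)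
        simpa only [co_C_zero] using (Module.Basis.ofVectorSpace F K).linearIndependent
      have hfin := hli.finite
      exact Module.Finite.of_basis (Module.Basis.ofVectorSpace F K)
    · exact Module.finrank_of_infinite_dimensional h'

instance instCentral [Module.Finite F K] [Algebra.IsCentral F K] :
    Algebra.IsCentral (LF F) (LD K) := by
  refine ⟨fun x hx => ?_⟩
  rw [Subalgebra.mem_center_iff] at hx
  have h1 : ∀ n, ∃ c : F, algebraMap F K c = x.co n := by
    intro n
    have : x.co n ∈ Subalgebra.center F K := by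
      rw [Subalgebra.mem_center_iff]
      intro k
      have h2 := congrArg (fun y : LD K => y.co n) (hx (C k))
      simp only [C_mul_co, mul_C_co] at h2
      exact h2
    have h3 := Algebra.IsCentral.out this
    rw [Algebra.mem_bot] at h3
    exact h3
  have h2 : ∀ n, ∃ c : F, algebraMap F K c = x.co n ∧ (x.co n = 0 → c = 0) := by
    intro n
    by_cases hn : x.co n = 0
    · exact ⟨0, by rw [hn, map_zero], fun _ => rfl⟩
    · obtain ⟨c, hc⟩ := h1 n
      exact ⟨c, hc, fun h => absurd h hn⟩
  choose c hc1 hc2 using h2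
  obtain ⟨a, ha⟩ := exists_LF_of_support x c hc2
  rw [Algebra.mem_bot]
  refine ⟨a, ?_⟩
  change LF.toLD a = x
  apply LD.ext; intro n
  rw [LF.co_toLD, ha, hc1]

/-- Laurent series with all coefficients in a subalgebra -/
def sub (B : Subalgebra F K) : Subalgebra (LF F) (LD K) where
  carrier := {x | ∀ n, x.co n ∈ B}
  mul_mem' := by
    intro x y hx hy n
    have h : (x * y).co n = ∑ ij ∈ Finset.antidiagonal (HahnSeries.isPWO_support (x : HahnSeries ℤ K))
      (HahnSeries.isPWO_support (y : HahnSeries ℤ K)) n, x.co ij.1 * y.co ij.2 := rfl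
    rw [h]
    exact Subalgebra.sum_mem _ fun ij _ => B.mul_mem (hx ij.1) (hy ij.2)
  add_mem' := by
    intro x y hx hy n
    rw [co_add]
    exact B.add_mem (hx n) (hy n)
  algebraMap_mem' := by
    intro a n
    change (LF.toLD a : LD K).co n ∈ B
    rw [LF.co_toLD]
    exact B.algebraMap_mem _



/-- residue space of an `LF F`-subspace -/
def resSp (S : Submodule (LF F) (LD K)) : Submodule F K where
  carrier := {v | ∃ x ∈ S, IsInt x ∧ x.co 0 = v}
  add_mem' := by
    rintro a b ⟨x, hx, hx', rfl⟩ ⟨y, hy, hy', rfl⟩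
    exact ⟨x + y, S.add_mem hx hy, hx'.add hy', co_add _ _ _⟩
  zero_mem' := ⟨0, S.zero_mem, isInt_zero, rfl⟩
  smul_mem' := by
    rintro c a ⟨x, hx, hx', rfl⟩
    refine ⟨(LF.C c : LF F) • x, S.smul_mem _ hx, ?_, co_C_smul _ _ _⟩
    intro n hn
    rw [co_C_smul, hx' n hn, smul_zero]

theorem mem_resSp (S : Submodule (LF F) (LD K)) (v : K) :
    v ∈ resSp S ↔ ∃ x ∈ S, IsInt x ∧ x.co 0 = v := Iff.rfl

/-- An integral family whose residues span the residue space of `S` spans `S`. -/
theorem mem_span_of_residues {ι : Type*} [Fintype ι] (S : Submodule (LF F) (LD K)) (x : ι → LD K)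
    (hxS : ∀ i, x i ∈ S) (hx : ∀ i, IsInt (x i))
    (h : ∀ v ∈ resSp S, ∃ c : ι → F, v = ∑ i, c i • (x i).co 0) (y : LD K) (hy : y ∈ S) :
    y ∈ Submodule.span (LF F) (Set.range x) := by
  classical
  -- coordinates of residues
  have hc : ∀ y : LD K, ∃ c : ι → F, (y ∈ S ∧ IsInt y) → y.co 0 = ∑ i, c i • (x i).co 0 := by
    intro y
    by_cases hyS : y ∈ S ∧ IsInt y
    · obtain ⟨c, hc⟩ := h (y.co 0) ⟨y, hyS.1, hyS.2, rfl⟩
      exact ⟨c, fun _ => hc⟩
    · exact ⟨0, fun h => absurd h hyS⟩
  choose c hc using hc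
  let T : LD K → LD K := fun y => (LF.tp (-1) : LF F) • (y - ∑ i, (LF.C (c y i) : LF F) • x i)
  have hco : ∀ y : LD K, ∀ n, (∑ i, (LF.C (c y i) : LF F) • x i).co n =
      ∑ i, c y i • (x i).co n := by
    intro y n
    rw [co_sum]
    exact Finset.sum_congr rfl fun i _ => co_C_smul _ _ _
  have hT : ∀ y, (y ∈ S ∧ IsInt y) → (T y ∈ S ∧ IsInt (T y)) := by
    intro y hy
    refine ⟨S.smul_mem _ (S.sub_mem hy.1 (Submodule.sum_mem _ fun i _ => S.smul_mem _ (hxS i))), ?_⟩
    intro n hn
    change ((LF.tp (-1) : LF F) • (y - ∑ i, (LF.C (c y i) : LF F) • x i)).co n = 0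
    rw [co_tp_smul, co_sub, hco]
    rcases lt_or_eq_of_le (show n - -1 ≤ 0 by omega) with h1 | h1
    · rw [hy.2 _ h1, zero_sub, neg_eq_zero]
      refine Finset.sum_eq_zero fun i _ => ?_
      rw [hx i _ h1, smul_zero]
    · rw [h1, ← hc y hy, sub_self]
  have hTy : ∀ y, y = (LF.tp 1 : LF F) • T y + ∑ i, (LF.C (c y i) : LF F) • x i := by
    intro y
    change y = (LF.tp 1 : LF F) • ((LF.tp (-1) : LF F) • (y - ∑ i, (LF.C (c y i) : LF F) • x i)) + _
    rw [← mul_smul, LF_tp_mul_tp, add_neg_cancel, LF_tp_zero, one_smul, sub_add_cancel]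
  -- reduce to integral `y`
  suffices hint : ∀ y : LD K, y ∈ S → IsInt y → y ∈ Submodule.span (LF F) (Set.range x) by
    obtain ⟨N, hN⟩ := exists_bound y
    have h1 : (LF.tp (-N) : LF F) • y ∈ Submodule.span (LF F) (Set.range x) := by
      apply hint _ (S.smul_mem _ hy)
      intro n hn
      rw [co_tp_smul]
      exact hN _ (by omega)
    have h2 : y = (LF.tp N : LF F) • ((LF.tp (-N) : LF F) • y) := by
      rw [← mul_smul, LF_tp_mul_tp, add_neg_cancel, LF_tp_zero, one_smul]
    rw [h2]
    exact Submodule.smul_mem _ _ h1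
  intro y hyS hyI
  let s : ι → LD K → LF F := fun i y => LF.ofPS (PowerSeries.mk fun n => c (T^[n] y) i)
  have hs : ∀ (i : ι) (y : LD K) (n : ℕ), (s i y).co n = c (T^[n] y) i := by
    intro i y n
    have h1 : (s i y).co (n : ℤ) = PowerSeries.coeff n (PowerSeries.mk fun n => c (T^[n] y) i) :=
      HahnSeries.ofPowerSeries_apply_coeff _ n
    rw [h1, PowerSeries.coeff_mk]
  have hs' : ∀ (i : ι) (y : LD K) (n : ℤ), n < 0 → (s i y).co n = 0 := by
    intro i y n hn
    change (HahnSeries.ofPowerSeries ℤ F _).coeff n = 0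
    rw [HahnSeries.ofPowerSeries_apply]
    apply HahnSeries.embDomain_of_notMem_range
    rintro ⟨m, hm⟩
    simp only [Nat.castOrderEmbedding_apply] at hm
    omega
  have hrec : ∀ (i : ι) (y : LD K), s i y = LF.C (c y i) + LF.tp 1 * s i (T y) := by
    intro i y
    apply LF.ext; intro n
    rw [LF.co_add, LF_co_mul_tp]
    have hC : (LF.C (c y i) : LF F).co n = if n = 0 then c y i else 0 := by
      have h : (LF.C (c y i) : LF F) = (HahnSeries.single 0 (c y i) : HahnSeries ℤ F) :=
        HahnSeries.ofPowerSeries_C _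
      rw [h]
      change (HahnSeries.single (0:ℤ) (c y i)).coeff n = _
      rw [HahnSeries.coeff_single]
      split_ifs <;> rfl
    rw [hC]
    rcases lt_trichotomy n 0 with hn | hn | hn
    · rw [hs' i y n hn, hs' i (T y) (n - 1) (by omega), if_neg (by omega), add_zero]
    · subst hn
      rw [if_pos rfl, hs' i (T y) (0 - 1) (by omega), add_zero]
      exact_mod_cast hs i y 0
    · obtain ⟨m, rfl⟩ : ∃ m : ℕ, n = (m : ℤ) + 1 := ⟨(n - 1).toNat, by omega⟩
      rw [if_neg (by omega), zero_add, add_sub_cancel_right, hs i (T y) m]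
      have := hs i y (m + 1)
      rw [Nat.cast_add, Nat.cast_one] at this
      rw [this]
      rfl
  have key : ∀ N : ℕ, ∀ y : LD K, (y ∈ S ∧ IsInt y) → ∀ k : ℤ, k < N →
      (y - ∑ i, s i y • x i).co k = 0 := by
    intro N
    induction N with
    | zero =>
      intro y hy k hk
      rw [co_sub, hy.2 k (by exact_mod_cast hk), co_sum, zero_sub, neg_eq_zero]
      refine Finset.sum_eq_zero fun i _ => ?_
      rw [smul_def]
      exact ((isInt_toLD _ (hs' i y)).mul (hx i)) k (by exact_mod_cast hk)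
    | succ N ih =>
      intro y hy k hk
      have e : y - ∑ i, s i y • x i = (LF.tp 1 : LF F) • (T y - ∑ i, s i (T y) • x i) := by
        have e1 : ∑ i, s i y • x i = ∑ i, (LF.C (c y i) : LF F) • x i +
            (LF.tp 1 : LF F) • ∑ i, s i (T y) • x i := by
          rw [Finset.smul_sum, ← Finset.sum_add_distrib]
          refine Finset.sum_congr rfl fun i _ => ?_
          rw [hrec i y, add_smul, mul_smul]
        rw [e1, smul_sub, sub_eq_iff_eq_add]
        refine (hTy y).trans ?_
        abel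
      rw [e, co_tp_smul]
      apply ih _ (hT y hy)
      push_cast at hk
      omega
  have hy0 : y = ∑ i, s i y • x i := by
    rw [← sub_eq_zero]
    apply LD.ext; intro k
    rw [co_zero]
    exact key (k.toNat + 1) y ⟨hyS, hyI⟩ k (by push_cast; omega)
  rw [hy0]
  exact Submodule.sum_mem _ fun i _ => Submodule.smul_mem _ _ (Submodule.subset_span ⟨i, rfl⟩)

theorem finrank_resSp [Module.Finite F K] (S : Submodule (LF F) (LD K)) :
    Module.finrank F (resSp S) = Module.finrank (LF F) S := by
  let b := Module.finBasis F (resSp S)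
  have hb : ∀ i, ∃ x ∈ S, IsInt x ∧ x.co 0 = (b i : K) := fun i => (mem_resSp S _).mp (b i).2
  choose x hxS hx hxb using hb
  have hli : LinearIndependent (LF F) x := by
    apply linearIndependent_of_residues x hx
    simp_rw [hxb]
    exact b.linearIndependent.map' (resSp S).subtype (Submodule.ker_subtype _)
  have hspan : S = Submodule.span (LF F) (Set.range x) := by
    apply le_antisymm
    · intro y hy
      refine mem_span_of_residues S x hxS hx ?_ y hy
      intro v hv
      refine ⟨fun i => b.repr ⟨v, hv⟩ i, ?_⟩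
      have h1 := congrArg Subtype.val (b.sum_repr ⟨v, hv⟩)
      rw [Submodule.coe_sum] at h1
      refine h1.symm.trans ?_
      exact Finset.sum_congr rfl fun i _ => by rw [hxb]; rfl
    · rw [Submodule.span_le]
      rintro _ ⟨i, rfl⟩
      exact hxS i
  have h2 : Module.finrank (LF F) (Submodule.span (LF F) (Set.range x)) =
      Fintype.card (Fin (Module.finrank F (resSp S))) := finrank_span_eq_card hli
  rw [← hspan, Fintype.card_fin] at h2
  exact h2.symm


/-- valuation bound for linear functionals on `LD K` -/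
theorem functional_bound [Module.Finite F K] {ι : Type*} [Finite ι]
    (f : (ι → LD K) →ₗ[LF F] LF F) :
    ∃ M : ℤ, ∀ (z : ι → LD K) (n : ℤ), (∀ i, ∀ k < n, (z i).co k = 0) →
      ∀ k < n - M, (f z).co k = 0 := by
  classical
  cases nonempty_fintype ι
  let b := Module.finBasis F K
  have hb : ∀ g : LF F, ∃ N : ℤ, ∀ n < N, g.co n = 0 := fun g =>
    ⟨HahnSeries.order (g : HahnSeries ℤ F), fun _ hn => HahnSeries.coeff_eq_zero_of_lt_order hn⟩
  let e : ι → Fin (Module.finrank F K) → (ι → LD K) := fun i j => Pi.single i (basis b j)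
  choose N hN using fun p : ι × Fin (Module.finrank F K) => hb (f (e p.1 p.2))
  obtain ⟨M, hM⟩ : ∃ M : ℤ, ∀ p, -M ≤ N p := by
    obtain ⟨M0, hM0⟩ := (Set.finite_range N).bddBelow
    exact ⟨-M0, fun p => by rw [neg_neg]; exact hM0 ⟨p, rfl⟩⟩
  refine ⟨M, fun z n hz k hk => ?_⟩
  have h1 : z = ∑ i, ∑ j, (basis b).repr (z i) j • e i j := by
    funext i'
    rw [Finset.sum_apply, Finset.sum_eq_single i']
    · rw [Finset.sum_apply]
      conv_lhs => rw [← (basis b).sum_repr (z i')]
      refine Finset.sum_congr rfl fun j _ => ?_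
      simp [e]
    · intro i _ hi
      rw [Finset.sum_apply]
      refine Finset.sum_eq_zero fun j _ => ?_
      simp [e, Pi.single_eq_of_ne hi.symm]
    · simp
  rw [h1, map_sum, LF_co_sum]
  refine Finset.sum_eq_zero fun i _ => ?_
  rw [map_sum, LF_co_sum]
  refine Finset.sum_eq_zero fun j _ => ?_
  rw [map_smul, smul_eq_mul]
  -- product of a series of order ≥ n and one of order ≥ -M
  have h2 : ∀ m < n, ((basis b).repr (z i) j).co m = 0 := by
    intro m hm
    rw [basis_repr_co, hz i m hm, map_zero, Finsupp.zero_apply]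
  have h3 : ∀ m < -M, (f (e i j)).co m = 0 := fun m hm => hN (i, j) m (by
    have := hM (i, j); omega)
  have h4 : (((basis b).repr (z i) j) * f (e i j)).co k =
      ∑ ij ∈ Finset.antidiagonal
        (HahnSeries.isPWO_support ((basis b).repr (z i) j : HahnSeries ℤ F))
        (HahnSeries.isPWO_support (f (e i j) : HahnSeries ℤ F)) k,
        ((basis b).repr (z i) j).co ij.1 * (f (e i j)).co ij.2 := rfl
  rw [h4]
  refine Finset.sum_eq_zero fun ij hij => ?_
  rw [Finset.mem_antidiagonal] at hij
  rcases lt_or_ge ij.1 n with h5 | h5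
  · rw [h2 _ h5, zero_mul]
  · rw [h3 _ (by have := hij.2.2; omega), mul_zero]

/-- closedness of subspaces in finite-dimensional spaces -/
theorem closed_pi [Module.Finite F K] {ι : Type} [Finite ι]
    (S : Submodule (LF F) (ι → LD K)) (y : ι → LD K)
    (h : ∀ n : ℤ, ∃ s ∈ S, ∀ i, ∀ k < n, (y i - s i).co k = 0) : y ∈ S := by
  by_contra hy
  obtain ⟨f, hf1, hf2⟩ := Submodule.exists_le_ker_of_notMem hy
  obtain ⟨M, hM⟩ := functional_bound f
  apply hf1
  apply LF.ext; intro k
  obtain ⟨s, hs, hs'⟩ := h (k + 1 + M)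
  have h1 : f y = f (y - s) := by
    have : f s = 0 := hf2 hs
    rw [map_sub, this, sub_zero]
  rw [h1]
  exact hM (y - s) (k + 1 + M) hs' k (by omega)

end algebra

end LD

namespace LF
variable {F : Type} [Field F]

def IsInt (x : LF F) : Prop := ∀ n : ℤ, n < 0 → x.co n = 0

theorem co_ofPS (x : PowerSeries F) (n : ℕ) : (ofPS x).co (n : ℤ) = PowerSeries.coeff n x :=
  HahnSeries.ofPowerSeries_apply_coeff x n

theorem co_ofPS_neg (x : PowerSeries F) (n : ℤ) (hn : n < 0) : (ofPS x).co n = 0 := by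
  change (HahnSeries.ofPowerSeries ℤ F x).coeff n = 0
  rw [HahnSeries.ofPowerSeries_apply]
  apply HahnSeries.embDomain_of_notMem_range
  rintro ⟨m, hm⟩
  simp only [Nat.castOrderEmbedding_apply] at hm
  omega

theorem isInt_ofPS (x : PowerSeries F) : IsInt (ofPS x) := fun n hn => co_ofPS_neg x n hn

theorem isInt_iff (x : LF F) : IsInt x ↔ ∃ y : PowerSeries F, x = ofPS y := by
  constructor
  · intro h
    refine ⟨PowerSeries.mk fun n => x.co n, ?_⟩
    apply LF.ext
    intro n
    rcases lt_or_ge n 0 with hn | hn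
    · rw [h n hn, co_ofPS_neg _ n hn]
    · obtain ⟨m, rfl⟩ := Int.eq_ofNat_of_zero_le hn
      rw [co_ofPS, PowerSeries.coeff_mk]
  · rintro ⟨y, rfl⟩
    exact isInt_ofPS y

theorem co_C (c : F) (n : ℤ) : (C c : LF F).co n = if n = 0 then c else 0 := by
  have h : (LF.C c : LF F) = (HahnSeries.single 0 c : HahnSeries ℤ F) :=
    HahnSeries.ofPowerSeries_C c
  rw [h]
  change (HahnSeries.single (0:ℤ) c).coeff n = _
  rw [HahnSeries.coeff_single]
  split_ifs <;> rfl

theorem isInt_C (c : F) : IsInt (C c : LF F) := by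
  intro n hn
  rw [co_C, if_neg (by omega)]

theorem IsInt.mul {x y : LF F} (hx : IsInt x) (hy : IsInt y) : IsInt (x * y) := by
  obtain ⟨a, rfl⟩ := (isInt_iff x).mp hx
  obtain ⟨b, rfl⟩ := (isInt_iff y).mp hy
  rw [← map_mul]
  exact isInt_ofPS _

theorem isInt_zero : IsInt (0 : LF F) := fun _ _ => rfl

theorem IsInt.add {x y : LF F} (hx : IsInt x) (hy : IsInt y) : IsInt (x + y) := by
  intro n hn
  rw [co_add, hx n hn, hy n hn, add_zero]

theorem IsInt.sum {ι : Type*} {s : Finset ι} {f : ι → LF F} (h : ∀ i ∈ s, IsInt (f i)) :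
    IsInt (∑ i ∈ s, f i) := by
  classical
  induction s using Finset.induction_on with
  | empty => simpa using isInt_zero
  | insert a s ha ih =>
    rw [Finset.sum_insert ha]
    exact (h a (Finset.mem_insert_self a s)).add (ih fun i hi => h i (Finset.mem_insert_of_mem hi))

theorem co_sum {ι : Type*} (s : Finset ι) (f : ι → LF F) (n : ℤ) :
    (∑ i ∈ s, f i).co n = ∑ i ∈ s, (f i).co n := LD.LF_co_sum s f n

theorem co_mul_zero {x y : LF F} (hx : IsInt x) (hy : IsInt y) :
    (x * y).co 0 = x.co 0 * y.co 0 := by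
  obtain ⟨a, rfl⟩ := (isInt_iff x).mp hx
  obtain ⟨b, rfl⟩ := (isInt_iff y).mp hy
  rw [← map_mul]
  have h := fun z : PowerSeries F => co_ofPS z 0
  simp only [Nat.cast_zero] at h
  rw [h, h, h, PowerSeries.coeff_zero_eq_constantCoeff_apply,
    PowerSeries.coeff_zero_eq_constantCoeff_apply,
    PowerSeries.coeff_zero_eq_constantCoeff_apply, map_mul]

theorem tp_ne_zero (n : ℤ) : (tp n : LF F) ≠ 0 := LD.LF_tp_ne_zero n

theorem co_tp_mul (m n : ℤ) (x : LF F) : (tp m * x).co n = x.co (n - m) := LD.LF_co_mul_tp m n x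

theorem tp_mul_tp (m n : ℤ) : (tp m * tp n : LF F) = tp (m + n) := LD.LF_tp_mul_tp m n

theorem tp_zero : (tp 0 : LF F) = 1 := rfl

/-- every nonzero element is `t^k` times an integral element with nonzero residue -/
theorem exists_normal {x : LF F} (hx : x ≠ 0) :
    ∃ (k : ℤ) (y : LF F), x = tp k * y ∧ IsInt y ∧ y.co 0 ≠ 0 := by
  obtain ⟨k, hk1, i, hi, hk2⟩ := LD.exists_min_order ({()} : Finset Unit) (fun _ => x)
    ⟨(), Finset.mem_singleton_self _, hx⟩
  refine ⟨k, tp (-k) * x, ?_, ?_, ?_⟩
  · rw [← mul_assoc, tp_mul_tp, add_neg_cancel, tp_zero, one_mul]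
  · intro n hn
    rw [co_tp_mul]
    exact hk1 () (Finset.mem_singleton_self _) _ (by omega)
  · rw [co_tp_mul, zero_sub, neg_neg]
    exact hk2

/-- residue space in coordinates -/
def resPi {ι : Type} (S : Submodule (LF F) (ι → LF F)) : Submodule F (ι → F) where
  carrier := {v | ∃ x ∈ S, (∀ i, IsInt (x i)) ∧ ∀ i, (x i).co 0 = v i}
  add_mem' := by
    rintro a b ⟨x, hx, hx', hxa⟩ ⟨y, hy, hy', hyb⟩
    refine ⟨x + y, S.add_mem hx hy, fun i => (hx' i).add (hy' i), fun i => ?_⟩
    rw [Pi.add_apply, Pi.add_apply, co_add, hxa, hyb]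
  zero_mem' := ⟨0, S.zero_mem, fun _ => isInt_zero, fun _ => rfl⟩
  smul_mem' := by
    rintro c a ⟨x, hx, hx', hxa⟩
    refine ⟨(C c : LF F) • x, S.smul_mem _ hx, fun i => (isInt_C c).mul (hx' i), fun i => ?_⟩
    rw [Pi.smul_apply, smul_eq_mul, co_mul_zero (isInt_C c) (hx' i), hxa, co_C, if_pos rfl,
      Pi.smul_apply, smul_eq_mul]

theorem mem_resPi {ι : Type} (S : Submodule (LF F) (ι → LF F)) (v : ι → F) :
    v ∈ resPi S ↔ ∃ x ∈ S, (∀ i, IsInt (x i)) ∧ ∀ i, (x i).co 0 = v i := Iff.rfl

/-- `(ι → F((t))) ≃ (ι → F)((t))` -/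
def piEquiv (ι : Type) [Fintype ι] : (ι → LF F) ≃ₗ[LF F] LD (ι → F) :=
  (LD.basis (Pi.basisFun F ι)).equivFun.symm

theorem co_piEquiv {ι : Type} [Fintype ι] (c : ι → LF F) (n : ℤ) (i : ι) :
    (piEquiv ι c : LD (ι → F)).co n i = (c i).co n := by
  have h := LD.basis_repr_co (Pi.basisFun F ι) (piEquiv ι c) i n
  have h1 : (LD.basis (Pi.basisFun F ι)).repr (piEquiv ι c) i = c i := by
    have := congrFun ((LD.basis (Pi.basisFun F ι)).equivFun.apply_symm_apply c) i
    exact this
  rw [h1] at h
  rw [h]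
  simp

theorem resPi_eq {ι : Type} [Fintype ι] (S : Submodule (LF F) (ι → LF F)) :
    resPi S = LD.resSp (S.map (piEquiv ι : (ι → LF F) ≃ₗ[LF F] LD (ι → F)).toLinearMap) := by
  ext v
  rw [mem_resPi, LD.mem_resSp]
  constructor
  · rintro ⟨x, hx, hx', hxv⟩
    refine ⟨piEquiv ι x, ⟨x, hx, rfl⟩, ?_, ?_⟩
    · intro n hn
      funext i
      rw [co_piEquiv, hx' i n hn]
      rfl
    · funext i
      rw [co_piEquiv, hxv]
  · rintro ⟨_, ⟨x, hx, rfl⟩, hint, hres⟩
    refine ⟨x, hx, ?_, ?_⟩
    · intro i n hn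
      have := congrFun (hint n hn) i
      exact (co_piEquiv x n i).symm.trans this
    · intro i
      have := congrFun hres i
      exact (co_piEquiv x 0 i).symm.trans this

theorem finrank_resPi {ι : Type} [Finite ι] (S : Submodule (LF F) (ι → LF F)) :
    Module.finrank F (resPi S) = Module.finrank (LF F) S := by
  cases nonempty_fintype ι
  rw [resPi_eq, LD.finrank_resSp]
  exact LinearEquiv.finrank_map_eq (piEquiv ι) S

/-- rank can only go up under deformation: residue matrix has smaller rank -/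
theorem rank_residue_le {m n : Type} [Fintype m] [Fintype n] [DecidableEq m] [DecidableEq n]
    (M : Matrix m n (LF F)) (hM : ∀ i j, IsInt (M i j)) :
    (M.map (fun x => x.co 0)).rank ≤ M.rank := by
  rw [Matrix.rank_eq_finrank_span_cols, Matrix.rank_eq_finrank_span_cols,
    ← finrank_resPi (Submodule.span (LF F) (Set.range M.col))]
  apply Submodule.finrank_mono
  rw [Submodule.span_le]
  rintro _ ⟨j, rfl⟩
  exact ⟨M.col j, Submodule.subset_span ⟨j, rfl⟩, fun i => hM i j, fun i => rfl⟩

end LF

section gram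

variable {k V W : Type*} [Field k] [AddCommGroup V] [Module k V] [AddCommGroup W] [Module k W]

theorem gram_rank_le [FiniteDimensional k W] [FiniteDimensional k V] {r s : Type*} [Fintype r] [Fintype s]
    (φ : V →ₗ[k] W →ₗ[k] k) (x : r → V) (y : s → W) :
    (Matrix.of fun i j => φ (x i) (y j)).rank ≤ Module.finrank k (LinearMap.range φ) := by
  classical
  rw [← Matrix.rank_transpose]
  let L : (r → k) →ₗ[k] V := Fintype.linearCombination k x
  let R : (W →ₗ[k] k) →ₗ[k] (s → k) := LinearMap.pi fun j => LinearMap.applyₗ (y j)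
  have h : (Matrix.of fun i j => φ (x i) (y j)).transpose.mulVecLin = R ∘ₗ φ ∘ₗ L := by
    apply LinearMap.ext
    intro c
    funext j
    simp only [Matrix.mulVecLin_apply, Matrix.mulVec, dotProduct, Matrix.transpose_apply,
      Matrix.of_apply, LinearMap.comp_apply, R, L, LinearMap.pi_apply, LinearMap.applyₗ_apply_apply,
      Fintype.linearCombination_apply, map_sum, map_smul, smul_eq_mul]
    exact Finset.sum_congr rfl fun i _ => mul_comm _ _
  rw [Matrix.rank, h, LinearMap.range_comp]
  refine (Submodule.finrank_map_le _ _).trans ?_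
  exact Submodule.finrank_mono (LinearMap.range_comp_le_range _ _)


end gram

namespace LF
variable {F : Type} [Field F]


end LF


end Crest.Agent.R180
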