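import Crest.Agent.R180.Basic

set_option autoImplicit false

/-!
# Row 180: substitution homomorphisms `NC ι K →+* S` into complete filtered rings
-/

namespace Crest.Agent.R180

/-- A separated, complete, multiplicative filtration on a ring. -/
structure CFilt (S : Type*) [Ring S] where
  I : ℕ → AddSubgroup S
  top : ∀ a, a ∈ I 0
  anti : ∀ n a, a ∈ I (n + 1) → a ∈ I n
  mul : ∀ {m n : ℕ} {a b : S}, a ∈ I m → b ∈ I n → a * b ∈ I (m + n)
  sep : ∀ a, (∀ n, a ∈ I n) → a = 0
  complete : ∀ s : ℕ → S, (∀ n, s (n + 1) - s n ∈ I n) → ∃ a, ∀ n, a - s n ∈ I n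

namespace CFilt

variable {S : Type*} [Ring S] (F : CFilt S)

theorem mono {m n : ℕ} (h : m ≤ n) {a : S} (ha : a ∈ F.I n) : a ∈ F.I m := by
  induction n, h using Nat.le_induction with
  | base => exact ha
  | succ n _ ih => exact ih (F.anti n a ha)

theorem mul_left {n : ℕ} {a b : S} (hb : b ∈ F.I n) : a * b ∈ F.I n := by
  simpa using F.mul (F.top a) hb

theorem mul_right {n : ℕ} {a b : S} (ha : a ∈ F.I n) : a * b ∈ F.I n := by
  simpa using F.mul ha (F.top b)

theorem eq_of_sub_mem {a b : S} (h : ∀ n, a - b ∈ F.I n) : a = b :=
  sub_eq_zero.1 (F.sep _ h)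

end CFilt

namespace NC

variable {ι K : Type} [Ring K] [Fintype ι] {S : Type*} [Ring S]

/-- partial sums of the substitution -/
noncomputable def substAux (φ : K →+* S) (X : ι → S) : ℕ → NC ι K → S
  | 0, _ => 0
  | (n + 1), f => φ (f []) + ∑ i, X i * substAux φ X n (ld i f)

variable (F : CFilt S) (φ : K →+* S) (X : ι → S)

theorem substAux_succ (n : ℕ) (f : NC ι K) :
    substAux φ X (n + 1) f = φ (f []) + ∑ i, X i * substAux φ X n (ld i f) := rfl

theorem substAux_cauchy (hX : ∀ i, X i ∈ F.I 1) (n : ℕ) (f : NC ι K) :
    substAux φ X (n + 1) f - substAux φ X n f ∈ F.I n := by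
  induction n generalizing f with
  | zero => exact F.top _
  | succ n ih =>
    rw [substAux_succ φ X (n + 1), substAux_succ φ X n, add_sub_add_left_eq_sub,
      ← Finset.sum_sub_distrib]
    refine AddSubgroup.sum_mem _ fun i _ => ?_
    rw [← mul_sub]
    have h := F.mul (hX i) (ih (ld i f))
    rwa [add_comm 1 n] at h

/-- underlying function of the substitution -/
noncomputable def substFun (hX : ∀ i, X i ∈ F.I 1) (f : NC ι K) : S :=
  (F.complete (fun n => substAux φ X n f) (fun n => substAux_cauchy F φ X hX n f)).choose

theorem substFun_spec (hX : ∀ i, X i ∈ F.I 1) (f : NC ι K) (n : ℕ) :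
    substFun F φ X hX f - substAux φ X n f ∈ F.I n :=
  (F.complete (fun n => substAux φ X n f) (fun n => substAux_cauchy F φ X hX n f)).choose_spec n

theorem substFun_eq (hX : ∀ i, X i ∈ F.I 1) (f : NC ι K) :
    substFun F φ X hX f = φ (f []) + ∑ i, X i * substFun F φ X hX (ld i f) := by
  refine F.eq_of_sub_mem fun n => ?_
  have h1 := substFun_spec F φ X hX f (n + 1)
  have h2 : (∑ i, X i * substFun F φ X hX (ld i f)) - ∑ i, X i * substAux φ X n (ld i f) ∈ F.I n := by
    rw [← Finset.sum_sub_distrib]
    refine AddSubgroup.sum_mem _ fun i _ => ?_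
    rw [← mul_sub]
    exact F.mul_left (substFun_spec F φ X hX (ld i f) n)
  have h3 := AddSubgroup.sub_mem _ (F.anti n _ h1) h2
  convert h3 using 1
  rw [substAux_succ]
  abel

/-- Characterisation: anything satisfying the functional equation is the substitution. -/
theorem substFun_unique (hX : ∀ i, X i ∈ F.I 1) (g : NC ι K → S)
    (hg : ∀ f, g f = φ (f []) + ∑ i, X i * g (ld i f)) (f : NC ι K) :
    g f = substFun F φ X hX f := by
  refine F.eq_of_sub_mem fun n => ?_
  induction n generalizing f with
  | zero => exact F.top _
  | succ n ih =>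
    rw [hg, substFun_eq, add_sub_add_left_eq_sub, ← Finset.sum_sub_distrib]
    refine AddSubgroup.sum_mem _ fun i _ => ?_
    rw [← mul_sub]
    have h := F.mul (hX i) (ih (ld i f))
    rwa [add_comm 1 n] at h

theorem substFun_add (hX : ∀ i, X i ∈ F.I 1) (f g : NC ι K) :
    substFun F φ X hX (f + g) = substFun F φ X hX f + substFun F φ X hX g := by
  refine F.eq_of_sub_mem fun n => ?_
  induction n generalizing f g with
  | zero => exact F.top _
  | succ n ih =>
    have key : substFun F φ X hX (f + g) - (substFun F φ X hX f + substFun F φ X hX g) =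
        ∑ i, X i * (substFun F φ X hX (ld i f + ld i g) -
          (substFun F φ X hX (ld i f) + substFun F φ X hX (ld i g))) := by
      rw [substFun_eq F φ X hX (f + g), substFun_eq F φ X hX f, substFun_eq F φ X hX g]
      simp only [add_apply, map_add, ld_add, mul_sub, mul_add, Finset.sum_sub_distrib,
        Finset.sum_add_distrib]
      abel
    rw [key]
    refine AddSubgroup.sum_mem _ fun i _ => ?_
    rw [add_comm n 1]
    exact F.mul (hX i) (ih _ _)

theorem substFun_zero (hX : ∀ i, X i ∈ F.I 1) : substFun F φ X hX (0 : NC ι K) = 0 := by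
  have := substFun_add F φ X hX (0 : NC ι K) 0
  rw [add_zero] at this
  simpa using this

theorem substFun_C (hX : ∀ i, X i ∈ F.I 1) (k : K) :
    substFun F φ X hX (C k : NC ι K) = φ k := by
  rw [substFun_eq]
  simp [substFun_zero]

theorem substFun_mul (hX : ∀ i, X i ∈ F.I 1) (hc : ∀ k i, φ k * X i = X i * φ k)
    (f g : NC ι K) :
    substFun F φ X hX (f * g) = substFun F φ X hX f * substFun F φ X hX g := by
  have hCm : ∀ (k : K) (g : NC ι K), substFun F φ X hX (C k * g) = φ k * substFun F φ X hX g := by
    intro k g
    refine F.eq_of_sub_mem fun n => ?_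
    induction n generalizing g with
    | zero => exact F.top _
    | succ n ih =>
      have key : substFun F φ X hX (C k * g) - φ k * substFun F φ X hX g =
          ∑ i, X i * (substFun F φ X hX (C k * ld i g) - φ k * substFun F φ X hX (ld i g)) := by
        rw [substFun_eq F φ X hX (C k * g), substFun_eq F φ X hX g]
        have : ∀ i, ld i (C k * g) = C k * ld i g := by
          intro i; rw [ld_mul']; simp
        simp only [this, mul_sub, mul_add, Finset.sum_sub_distrib, mul_nil, C_nil, map_mul,
          Finset.mul_sum]
        have h2 : ∀ i, φ k * (X i * substFun F φ X hX (ld i g)) =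
            X i * (φ k * substFun F φ X hX (ld i g)) := by
          intro i; rw [← mul_assoc, hc, mul_assoc]
        simp only [h2]
        abel
      rw [key]
      refine AddSubgroup.sum_mem _ fun i _ => ?_
      rw [add_comm n 1]
      exact F.mul (hX i) (ih _)
  refine F.eq_of_sub_mem fun n => ?_
  induction n generalizing f with
  | zero => exact F.top _
  | succ n ih =>
    have key : substFun F φ X hX (f * g) - substFun F φ X hX f * substFun F φ X hX g =
        ∑ i, X i * (substFun F φ X hX (ld i f * g) -
          substFun F φ X hX (ld i f) * substFun F φ X hX g) := by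
      rw [substFun_eq F φ X hX (f * g)]
      conv_lhs => rw [substFun_eq F φ X hX f]
      simp only [ld_mul', substFun_add, hCm, mul_nil, map_mul, mul_sub, mul_add,
        Finset.sum_sub_distrib, Finset.sum_add_distrib, add_mul, Finset.sum_mul]
      have h2 : φ (f []) * substFun F φ X hX g =
          φ (f []) * φ (g []) + ∑ i, X i * (φ (f []) * substFun F φ X hX (ld i g)) := by
        conv_lhs => rw [substFun_eq F φ X hX g]
        rw [mul_add, Finset.mul_sum]
        congr 1
        refine Finset.sum_congr rfl fun i _ => ?_
        rw [← mul_assoc, hc, mul_assoc]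
      rw [h2]
      simp only [mul_assoc]
      abel
    rw [key]
    refine AddSubgroup.sum_mem _ fun i _ => ?_
    rw [add_comm n 1]
    exact F.mul (hX i) (ih _)

/-- **Substitution homomorphism** `NC ι K →+* S`, `letter i ↦ X i`, `k ↦ φ k`. -/
noncomputable def subst (hX : ∀ i, X i ∈ F.I 1) (hc : ∀ k i, φ k * X i = X i * φ k) :
    NC ι K →+* S where
  toFun := substFun F φ X hX
  map_one' := by
    have := substFun_C F φ X hX (1 : K)
    rw [map_one, map_one] at this
    exact this
  map_zero' := substFun_zero F φ X hX
  map_add' := substFun_add F φ X hX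
  map_mul' := substFun_mul F φ X hX hc

variable (hX : ∀ i, X i ∈ F.I 1) (hc : ∀ k i, φ k * X i = X i * φ k)

theorem subst_eq (f : NC ι K) :
    subst F φ X hX hc f = φ (f []) + ∑ i, X i * subst F φ X hX hc (ld i f) :=
  substFun_eq F φ X hX f

@[simp] theorem subst_C (k : K) : subst F φ X hX hc (C k) = φ k := substFun_C F φ X hX k


theorem subst_unique (g : NC ι K → S)
    (hg : ∀ f, g f = φ (f []) + ∑ i, X i * g (ld i f)) (f : NC ι K) :
    g f = subst F φ X hX hc f := substFun_unique F φ X hX g hg f

omit [Fintype ι] in
@[simp] theorem ld_X [DecidableEq ι] (i j : ι) :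
    ld j (NC.X i : NC ι K) = if j = i then 1 else 0 := by
  apply ext'; intro w
  cases w with
  | nil => by_cases h : j = i <;> simp [h]
  | cons s w => by_cases h : j = i <;> simp [h]

@[simp] theorem subst_X [DecidableEq ι] (i : ι) : subst F φ X hX hc (NC.X i) = X i := by
  rw [subst_eq]
  simp [apply_ite (subst F φ X hX hc)]

/-- series vanishing on words of length `< n` go to `F.I n` -/
theorem subst_mem (n : ℕ) (f : NC ι K) (hf : ∀ w : List ι, w.length < n → f w = 0) :
    subst F φ X hX hc f ∈ F.I n := by
  induction n generalizing f with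
  | zero => exact F.top _
  | succ n ih =>
    rw [subst_eq, hf [] (by simp), map_zero, zero_add]
    refine AddSubgroup.sum_mem _ fun i _ => ?_
    rw [add_comm n 1]
    exact F.mul (hX i) (ih _ fun w hw => hf (i :: w) (by simpa using hw))

end NC

namespace CFilt

/-- the discrete filtration -/
def discrete (E : Type*) [Ring E] : CFilt E where
  I n := if n = 0 then ⊤ else ⊥
  top a := by simp
  anti n a h := by
    rw [if_neg (Nat.succ_ne_zero n)] at h
    rw [AddSubgroup.mem_bot] at h
    subst h
    exact AddSubgroup.zero_mem _
  mul {m n a b} ha hb := by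
    by_cases hm : m = 0
    · by_cases hn : n = 0
      · simp [hm, hn]
      · rw [if_neg hn, AddSubgroup.mem_bot] at hb
        rw [hb, mul_zero]; exact AddSubgroup.zero_mem _
    · rw [if_neg hm, AddSubgroup.mem_bot] at ha
      rw [ha, zero_mul]; exact AddSubgroup.zero_mem _
  sep a h := by simpa using h 1
  complete s h := by
    refine ⟨s 1, fun n => ?_⟩
    by_cases hn : n = 0
    · simp [hn]
    · rw [if_neg hn, AddSubgroup.mem_bot]
      have : ∀ m, s (m + 1) = s 1 := by
        intro m
        induction m with
        | zero => rfl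
        | succ m ih =>
          have := h (m + 1)
          rw [if_neg (Nat.succ_ne_zero m), AddSubgroup.mem_bot, sub_eq_zero] at this
          rw [this, ih]
      obtain ⟨m, rfl⟩ := Nat.exists_eq_succ_of_ne_zero hn
      rw [Nat.succ_eq_add_one, this m, sub_self]

theorem mem_discrete {E : Type*} [Ring E] {n : ℕ} {a : E} :
    a ∈ (discrete E).I n ↔ (n = 0 ∨ a = 0) := by
  unfold discrete
  by_cases h : n = 0 <;> simp [h]

/-- the `ε`-adic filtration of `E⟦ε⟧` -/
def powerSeries (E : Type*) [Ring E] : CFilt (PowerSeries E) where
  I n :=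
    { carrier := {f | ∀ j < n, PowerSeries.coeff j f = 0}
      add_mem' := fun {a b} ha hb j hj => by simp [ha j hj, hb j hj]
      zero_mem' := fun j _ => by simp
      neg_mem' := fun {a} ha j hj => by simp [ha j hj] }
  top a := fun j hj => absurd hj (Nat.not_lt_zero j)
  anti n a h := fun j hj => h j (Nat.lt_succ_of_lt hj)
  mul {m n a b} ha hb := fun k hk => by
    rw [PowerSeries.coeff_mul]
    refine Finset.sum_eq_zero fun p hp => ?_
    rw [Finset.HasAntidiagonal.mem_antidiagonal] at hp
    by_cases h : p.1 < m
    · rw [ha p.1 h, zero_mul]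
    · rw [hb p.2 (by omega), mul_zero]
  sep a h := by
    ext j
    simpa using h (j + 1) j (Nat.lt_succ_self j)
  complete s h := by
    refine ⟨PowerSeries.mk fun j => PowerSeries.coeff j (s (j + 1)), fun n j hj => ?_⟩
    rw [map_sub, PowerSeries.coeff_mk, sub_eq_zero]
    have : ∀ m, j + 1 ≤ m → PowerSeries.coeff j (s m) = PowerSeries.coeff j (s (j + 1)) := by
      intro m hm
      induction m, hm using Nat.le_induction with
      | base => rfl
      | succ m hm ih =>
        have := h m j (by omega)
        rw [map_sub, sub_eq_zero] at this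
        rw [this, ih]
    exact (this n hj).symm

theorem mem_powerSeries {E : Type*} [Ring E] {n : ℕ} {a : PowerSeries E} :
    a ∈ (powerSeries E).I n ↔ ∀ j < n, PowerSeries.coeff j a = 0 := Iff.rfl

theorem nc_mul_aux {σ E : Type} [Ring E] (G : CFilt E) (m n : ℕ) (f g : NC σ E)
    (hf : ∀ w : List σ, f w ∈ G.I (m - w.length)) (hg : ∀ w : List σ, g w ∈ G.I (n - w.length))
    (w : List σ) : (f * g) w ∈ G.I (m + n - w.length) := by
  induction w generalizing f m with
  | nil => simpa using G.mul (hf []) (hg [])
  | cons s w ih =>
    rw [NC.mul_cons]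
    refine AddSubgroup.add_mem _ ?_ ?_
    · refine G.mono ?_ (ih (m - 1) (NC.ld s f) fun v => ?_)
      · simp only [List.length_cons]; omega
      · have := hf (s :: v)
        rw [NC.ld_apply]
        refine G.mono ?_ this
        simp only [List.length_cons]; omega
    · refine G.mono ?_ (G.mul (hf []) (hg (s :: w)))
      simp only [List.length_cons, List.length_nil]; omega

/-- The total-degree filtration on `NC σ E` coming from a filtration on `E`. -/
def nc {σ E : Type} [Ring E] (G : CFilt E) : CFilt (NC σ E) where
  I n :=
    { carrier := {f | ∀ w : List σ, f w ∈ G.I (n - w.length)}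
      add_mem' := fun {a b} ha hb w => AddSubgroup.add_mem _ (ha w) (hb w)
      zero_mem' := fun w => AddSubgroup.zero_mem _
      neg_mem' := fun {a} ha w => AddSubgroup.neg_mem _ (ha w) }
  top a := fun w => by simpa using G.top (a w)
  anti n a h := fun w => G.mono (by omega) (h w)
  mul {m n a b} ha hb := fun w => nc_mul_aux G m n a b ha hb w
  sep a h := by
    refine NC.ext' fun w => G.sep _ fun n => ?_
    have := h (n + w.length) w
    simpa using this
  complete s h := by
    have key : ∀ w : List σ, ∃ a : E, ∀ k, a - s (k + w.length) w ∈ G.I k := by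
      intro w
      refine G.complete (fun k => s (k + w.length) w) fun k => ?_
      have := h (k + w.length) w
      have e : k + 1 + w.length = k + w.length + 1 := by omega
      simp only [e]
      simpa using this
    choose a ha using key
    refine ⟨⟨a⟩, fun n w => ?_⟩
    by_cases hn : w.length ≤ n
    · have := ha w (n - w.length)
      rwa [Nat.sub_add_cancel hn] at this
    · have e : n - w.length = 0 := by omega
      rw [e]; exact G.top _

theorem mem_nc {σ E : Type} [Ring E] {G : CFilt E} {n : ℕ} {f : NC σ E} :
    f ∈ (nc G : CFilt (NC σ E)).I n ↔ ∀ w : List σ, f w ∈ G.I (n - w.length) := Iff.rfl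

/-- membership in the first step: only the constant coefficient matters -/
theorem mem_nc_one {σ E : Type} [Ring E] {G : CFilt E} {f : NC σ E} :
    f ∈ (nc G : CFilt (NC σ E)).I 1 ↔ f [] ∈ G.I 1 := by
  rw [mem_nc]
  constructor
  · intro h; simpa using h []
  · intro h w
    cases w with
    | nil => simpa using h
    | cons s w =>
      have e : 1 - (s :: w).length = 0 := by simp only [List.length_cons]; omega
      rw [e]; exact G.top _

end CFilt

namespace NC

variable {ι K : Type} [Ring K] [Fintype ι]


/-- Every ring hom out of `NC ι K` sending the letters to `F.I 1`-elements `X i`, is the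
substitution (automatic continuity, since `f = f [] + ∑ X i * ld i f`). -/
theorem decomp [DecidableEq ι] (f : NC ι K) : f = C (f []) + ∑ i, NC.X i * ld i f := by
  apply ext'; intro w
  rw [add_apply, sum_apply]
  cases w with
  | nil => simp
  | cons s w =>
    simp only [C_cons, zero_add]
    have : ∀ i, (NC.X i * ld i f : NC ι K) (s :: w) = if s = i then f (i :: w) else 0 := by
      intro i
      rw [mul_cons, ld_X, X_nil, zero_mul, add_zero]
      by_cases h : s = i
      · rw [if_pos h, if_pos h, one_mul]; rfl
      · rw [if_neg h, if_neg h, zero_mul]; rfl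
    simp [this]


end NC

end Crest.Agent.R180
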