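import Mathlib
import Crest.Agent.R180.Subst
import Crest.Agent.R180.LaurentLemmas
import Crest.Agent.R180.StmtA

-- ▼ part R180/Cen0
section

set_option autoImplicit false

/-! # Row 180: base change of finite-dimensional central algebras

`E ⊗[F] D` is finite over `F1` and central over `F1` if `E/F1` and `D/F` are. -/

namespace Crest.Agent.R180

open scoped TensorProduct
open TensorProduct


theorem cenD0_aux (F D F1 E : Type) [Field F] [Ring D] [Algebra F D] [Algebra.IsCentral F D]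
    [Nontrivial D] [Field F1] [Algebra F F1] [Ring E] [Algebra F1 E] [Algebra F E]
    [IsScalarTower F F1 E] [Algebra.IsCentral F1 E] : Algebra.IsCentral F1 (E ⊗[F] D) := by
  constructor
  intro x hx
  rw [Subalgebra.mem_center_iff] at hx
  have h1 : x ∈ Subalgebra.centralizer F
      ((Algebra.TensorProduct.includeRight : D →ₐ[F] E ⊗[F] D).range : Set (E ⊗[F] D)) := by
    rw [Subalgebra.mem_centralizer_iff]
    intro y _
    exact hx y
  rw [Subalgebra.centralizer_range_includeRight_eq_center_tensorProduct] at h1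
  obtain ⟨z, rfl⟩ := h1
  have h2 : ∃ e : E, (Algebra.TensorProduct.map (AlgHom.id F E)
      (Subalgebra.center F D).val) z = e ⊗ₜ[F] (1 : D) := by
    clear hx
    induction z using TensorProduct.induction_on with
    | zero => exact ⟨0, by simp⟩
    | tmul e d =>
      obtain ⟨c, hc⟩ := Algebra.IsCentral.mem_center_iff F |>.1 d.2
      refine ⟨c • e, ?_⟩
      rw [Algebra.TensorProduct.map_tmul, TensorProduct.smul_tmul]
      change e ⊗ₜ[F] (d : D) = _
      rw [hc, Algebra.algebraMap_eq_smul_one]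
    | add a b ha hb =>
      obtain ⟨e, he⟩ := ha
      obtain ⟨e', he'⟩ := hb
      exact ⟨e + e', by rw [map_add, he, he', TensorProduct.add_tmul]⟩
  obtain ⟨e, he⟩ := h2
  have he' : (Algebra.TensorProduct.map (AlgHom.id F E)
      (Subalgebra.center F D).val).toRingHom z = e ⊗ₜ[F] (1 : D) := he
  rw [he'] at hx ⊢
  have h3 : e ∈ Subalgebra.center F1 E := by
    rw [Subalgebra.mem_center_iff]
    intro b
    have h4 := hx (b ⊗ₜ[F] (1 : D))
    rw [Algebra.TensorProduct.tmul_mul_tmul, Algebra.TensorProduct.tmul_mul_tmul] at h4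
    have h5 : Function.Injective (Algebra.TensorProduct.includeLeft : E →ₐ[F] E ⊗[F] D) :=
      Algebra.TensorProduct.includeLeft_injective (S := F) (FaithfulSMul.algebraMap_injective F D)
    apply h5
    simpa using h4
  obtain ⟨c, hc⟩ := Algebra.IsCentral.mem_center_iff F1 |>.1 h3
  rw [Algebra.mem_bot]
  exact ⟨c, by rw [hc]; rfl⟩

end Crest.Agent.R180
end

-- ▼ part R180/Move

set_option autoImplicit false
noncomputable section
namespace Crest.Agent.R180

open TensorProduct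

/-- A finite-dimensional central division algebra `D` over a field `F` of characteristic zero. -/
structure DA : Type 1 where
  F : Type
  D : Type
  [fF : Field F]
  [cz : CharZero F]
  [rD : Ring D]
  [dD : IsDomain D]
  [aD : Algebra F D]
  [fd : FiniteDimensional F D]
  [ce : Algebra.IsCentral F D]

attribute [instance] DA.fF DA.cz DA.rD DA.dD DA.aD DA.fd DA.ce

/-- Admissible extension of `A`: a field `F1 ⊇ F` and a finite-dimensional central `F1`-algebra `E`
such that `E ⊗[F] D` is a domain. -/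
structure Adm (A : DA) : Type 1 where
  F1 : Type
  E : Type
  [f1 : Field F1]
  [a1 : Algebra A.F F1]
  [rE : Ring E]
  [aE : Algebra F1 E]
  [aE' : Algebra A.F E]
  [tw : IsScalarTower A.F F1 E]
  [fdE : FiniteDimensional F1 E]
  [ceE : Algebra.IsCentral F1 E]
  [dom : IsDomain (E ⊗[A.F] A.D)]

attribute [instance] Adm.f1 Adm.a1 Adm.rE Adm.aE Adm.aE' Adm.tw Adm.fdE Adm.ceE Adm.dom

/-- the coefficient algebra `D₀ = E ⊗ D` over `F1` -/
abbrev Adm.D0 {A : DA} (M : Adm A) : Type := M.E ⊗[A.F] A.D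

instance Adm.finD0 {A : DA} (M : Adm A) : FiniteDimensional M.F1 M.D0 := by
  have : Module.Finite M.E (M.E ⊗[A.F] A.D) := inferInstance
  exact Module.Finite.trans M.E (M.E ⊗[A.F] A.D)

/-- inclusion `D → D₀` -/
def Adm.jD {A : DA} (M : Adm A) : A.D →+* M.D0 :=
  (Algebra.TensorProduct.includeRight : A.D →ₐ[A.F] M.E ⊗[A.F] A.D).toRingHom
/-- inclusion `E → D₀` -/
def Adm.jE {A : DA} (M : Adm A) : M.E →+* M.D0 :=
  (Algebra.TensorProduct.includeLeft : M.E →ₐ[M.F1] M.E ⊗[A.F] A.D).toRingHom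

theorem Adm.jE_jD_comm {A : DA} (M : Adm A) (e : M.E) (d : A.D) :
    M.jE e * M.jD d = M.jD d * M.jE e := by
  change (e ⊗ₜ[A.F] (1 : A.D)) * ((1 : M.E) ⊗ₜ[A.F] d) = ((1 : M.E) ⊗ₜ[A.F] d) * (e ⊗ₜ[A.F] (1 : A.D))
  rw [Algebra.TensorProduct.tmul_mul_tmul, Algebra.TensorProduct.tmul_mul_tmul]
  simp

instance Adm.domE {A : DA} (M : Adm A) : IsDomain M.E := by
  have hinj : Function.Injective M.jE :=
    Algebra.TensorProduct.includeLeft_injective (S := A.F) (algebraMap A.F A.D).injective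
  exact Function.Injective.isDomain M.jE hinj

instance Adm.cenD0 {A : DA} (M : Adm A) : Algebra.IsCentral M.F1 M.D0 :=
  cenD0_aux A.F A.D M.F1 M.E

instance Adm.cz1 {A : DA} (M : Adm A) : CharZero M.F1 :=
  charZero_of_injective_algebraMap (algebraMap A.F M.F1).injective

/-- the target of a move: `LD (E ⊗ D)` over `LF F1` -/
def DA.mv (A : DA) (M : Adm A) : DA where
  F := LF M.F1
  D := LD M.D0

/-- inclusion `D → D' = D₀((t))` -/
def Adm.inc {A : DA} (M : Adm A) : A.D →+* (A.mv M).D := (LD.C (K := M.D0)).comp M.jD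
/-- inclusion `E((t)) → D'` -/
def Adm.incE {A : DA} (M : Adm A) : LD M.E →+* (A.mv M).D := LD.map M.jE

/-- the images of the letters in `NC μ (D₀⟦t⟧)` -/
def Adm.let0 {A : DA} (M : Adm A) {m μ : ℕ} (X : Fin m → NC (Fin μ) (PowerSeries M.E))
    (j : Fin m) : NC (Fin μ) (PowerSeries M.D0) := NC.map (PowerSeries.map M.jE) (X j)

/-- filtration of `NC μ (D₀⟦t⟧)` by total degree (`t`-order plus length) -/
abbrev Adm.filt {A : DA} (M : Adm A) (μ : ℕ) : CFilt (NC (Fin μ) (PowerSeries M.D0)) :=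
  CFilt.nc (CFilt.powerSeries M.D0)

theorem Adm.let0_mem {A : DA} (M : Adm A) {m μ : ℕ} (X : Fin m → NC (Fin μ) (PowerSeries M.E))
    (hX : ∀ j, PowerSeries.constantCoeff (X j []) = 0) (j : Fin m) :
    M.let0 X j ∈ (M.filt μ).I 1 := by
  rw [CFilt.mem_nc_one, CFilt.mem_powerSeries]
  intro i hi
  have : i = 0 := by omega
  subst this
  have h := hX j
  rw [← PowerSeries.coeff_zero_eq_constantCoeff_apply] at h
  simp only [Adm.let0, NC.map_apply, PowerSeries.coeff_map, h, map_zero]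

/-- coefficients: `D → NC μ (D₀⟦t⟧)` -/
def Adm.phi0 {A : DA} (M : Adm A) (μ : ℕ) : A.D →+* NC (Fin μ) (PowerSeries M.D0) :=
  (NC.C.comp (PowerSeries.C (R := M.D0))).comp M.jD

theorem Adm.let0_comm {A : DA} (M : Adm A) {m μ : ℕ} (X : Fin m → NC (Fin μ) (PowerSeries M.E))
    (k : A.D) (j : Fin m) : M.phi0 μ k * M.let0 X j = M.let0 X j * M.phi0 μ k := by
  apply NC.ext'; intro w
  simp only [Adm.phi0, RingHom.comp_apply, NC.C_mul_apply, NC.mul_C_apply, Adm.let0, NC.map_apply]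
  ext n
  rw [PowerSeries.coeff_C_mul, PowerSeries.coeff_mul_C, PowerSeries.coeff_map, M.jE_jD_comm]

/-- the evaluation `NC m D → NC μ (D₀⟦t⟧)` of a move -/
def Adm.hX0 {A : DA} (M : Adm A) {m μ : ℕ} (X : Fin m → NC (Fin μ) (PowerSeries M.E))
    (hX : ∀ j, PowerSeries.constantCoeff (X j []) = 0) :
    NC (Fin m) A.D →+* NC (Fin μ) (PowerSeries M.D0) :=
  NC.subst (M.filt μ) (M.phi0 μ) (M.let0 X) (M.let0_mem X hX) (M.let0_comm X)

/-- the move homomorphism -/
def Adm.hX {A : DA} (M : Adm A) {m μ : ℕ} (X : Fin m → NC (Fin μ) (PowerSeries M.E))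
    (hX : ∀ j, PowerSeries.constantCoeff (X j []) = 0) :
    NC (Fin m) A.D →+* NC (Fin μ) (A.mv M).D :=
  (NC.map (LD.ofPS (K := M.D0))).comp (M.hX0 X hX)

/-- base point of a move: the constant terms `e j ∈ E((t))` -/
def Adm.pt {A : DA} (M : Adm A) {m μ : ℕ} (X : Fin m → NC (Fin μ) (PowerSeries M.E))
    (j : Fin m) : LD M.E := LD.ofPS (X j [])
/-- directions of a move: the linear coefficients `c i j ∈ E((t))` -/
def Adm.dir {A : DA} (M : Adm A) {m μ : ℕ} (X : Fin m → NC (Fin μ) (PowerSeries M.E))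
    (i : Fin μ) (j : Fin m) : LD M.E := LD.ofPS (X j [i])

/-- good moves: zero constant coefficient, the base point generates `E((t))`, the directions are
linearly independent modulo inner directions. -/
structure Good' {A : DA} (M : Adm A) {m μ : ℕ} (X : Fin m → NC (Fin μ) (PowerSeries M.E)) :
    Prop where
  x0 : ∀ j, PowerSeries.constantCoeff (X j []) = 0
  gen : Algebra.adjoin (LF M.F1) (Set.range (M.pt X)) = ⊤
  indep : ∀ (l : Fin μ → LF M.F1) (g : LD M.E),
    (∀ j, ∑ i, l i • M.dir X i j = g * M.pt X j - M.pt X j * g) → l = 0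

/-- predicates on (division algebra, number of letters, element) closed under good moves -/
def MoveClosed (P : (A : DA) → (m : ℕ) → NC (Fin m) A.D → Prop) : Prop :=
  ∀ (A : DA) (m : ℕ) (a : NC (Fin m) A.D), P A m a →
    ∀ (M : Adm A) (μ : ℕ) (X : Fin m → NC (Fin μ) (PowerSeries M.E)) (hX : Good' M X),
      P (A.mv M) μ (M.hX X hX.x0 a)

/-- reachability from an initial stage by dense homomorphisms -/
def Reach (A₀ : DA) (𝒜 : Subalgebra A₀.F (NC (Fin 2) A₀.D)) (a₀ : NC (Fin 2) A₀.D)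
    (A : DA) (m : ℕ) (a : NC (Fin m) A.D) : Prop :=
  ∃ (i : A₀.F →+* A.F) (h : NC (Fin 2) A₀.D →+* NC (Fin m) A.D),
    (∀ c, h (algebraMap A₀.F _ c) = algebraMap A.F _ (i c)) ∧ h a₀ = a ∧
    NC.Dense (Algebra.adjoin A.F (h '' (𝒜 : Set (NC (Fin 2) A₀.D))))

/-! ### Representations -/

/-- closure (in the `𝔪`-adic topology) of the subalgebra generated by the constants `Λ` and `γ` -/
def Kcl {F D : Type} [Field F] [Ring D] [Algebra F D] {m : ℕ} (Λ : Subalgebra F D)
    (γ f : NC (Fin m) D) : Prop :=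
  ∀ k : ℕ, ∃ g ∈ Algebra.adjoin F ((fun d => (NC.C d : NC (Fin m) D)) '' (Λ : Set D) ∪ {γ}),
    ∀ w : List (Fin m), w.length < k → f w = g w

/-- `RS P A m Λ γ`: some element `a` with `P a` is conjugate to an element of the closure of
`Λ[γ]`, where `Λ` is a commutative subalgebra commuting with `γ` and `γ` has no constant term. -/
structure RS (P : (A : DA) → (m : ℕ) → NC (Fin m) A.D → Prop) (A : DA) (m : ℕ)
    (Λ : Subalgebra A.F A.D) (γ : NC (Fin m) A.D) : Prop where
  comm : ∀ a ∈ Λ, ∀ b ∈ Λ, a * b = b * a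
  zero : γ [] = 0
  cent : ∀ w, ∀ a ∈ Λ, a * γ w = γ w * a
  rep : ∃ (a v v' : NC (Fin m) A.D), v * v' = 1 ∧ v' * v = 1 ∧ P A m a ∧ Kcl Λ γ (v * a * v')

/-! ### Linear and quadratic parts, S-configurations -/

/-- linear part of `γ` as a map `F^m → D` -/
def lin {A : DA} {m : ℕ} (γ : NC (Fin m) A.D) : (Fin m → A.F) →ₗ[A.F] A.D :=
  ∑ i, (LinearMap.proj i : (Fin m → A.F) →ₗ[A.F] A.F).smulRight (γ [i])

theorem lin_apply {A : DA} {m : ℕ} (γ : NC (Fin m) A.D) (x : Fin m → A.F) :
    lin γ x = ∑ i, x i • γ [i] := by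
  simp [lin]

/-- matrix of the quadratic part of `γ` paired with a functional -/
def qmat {A : DA} {m : ℕ} (γ : NC (Fin m) A.D) (h : A.D →ₗ[A.F] A.F) :
    Matrix (Fin m) (Fin m) A.F := fun i j => h (γ [i, j])

/-- rank of the bilinear form with matrix `M` on the subspace `W` -/
def brk {F : Type} [Field F] {m : ℕ} (M : Matrix (Fin m) (Fin m) F)
    (W : Submodule F (Fin m → F)) : ℕ :=
  Module.finrank F (LinearMap.range ((Matrix.toBilin' M).domRestrict₁₂ W W))

/-- configurations of the S-phase -/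
structure SC (P : (A : DA) → (m : ℕ) → NC (Fin m) A.D → Prop) (A : DA) (m : ℕ)
    (Λ1 Λ B : Subalgebra A.F A.D) (γ : NC (Fin m) A.D) : Prop where
  rs : RS P A m Λ1 γ
  ΛB : Λ ≤ B
  Λc : ∀ a ∈ Λ, ∀ b ∈ B, a * b = b * a
  Λ1c : ∀ a ∈ Λ1, ∀ b ∈ B, a * b = b * a
  mem : ∀ w, γ w ∈ B
  /-- the image of the linear part together with `Λ` spans `B` -/
  Q : ∀ b ∈ B, ∃ x : Fin m → A.F, ∃ l ∈ Λ, b = lin γ x + l
  dim : Module.finrank A.F B + 2 ≤ m
  ND : ∀ h : A.D →ₗ[A.F] A.F, (∀ i, h (γ [i]) = 0) → (∃ b ∈ B, h b ≠ 0) →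
    5 * (Module.finrank A.F B - Module.finrank A.F (LinearMap.range (lin γ))) ≤
      brk (qmat γ h) (LinearMap.ker (lin γ))

end Crest.Agent.R180
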