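import Crest.Agent.R180.Basic
import Crest.Agent.R180.TS
import Crest.Agent.R180.PolFun

-- ▼ part R180/NFsep
section

set_option autoImplicit false

/-!
# Row 180: normal-form separation (combinatorial part)

`γ₁ = ∑ g s • t_s` a nonzero linear form with central coefficients in a field `Φ`, `p` homogeneous
of degree `k`.  If all cyclic sums of `p * γ₁ ^ i` vanish for one `i ≥ k`, then
`p = b * γ₁ - γ₁ * b` for some `b` homogeneous of degree `k - 1`.
-/

namespace Crest.Agent.R180

namespace NC

section Lin

variable {σ Γ Φ : Type} [Ring Γ] [Field Φ] [Algebra Φ Γ]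

/-- underlying function of a linear form -/
def linFun (g : σ → Φ) : List σ → Γ
  | [] => 0
  | [s] => algebraMap Φ Γ (g s)
  | (_ :: _ :: _) => 0

/-- the linear form `∑ g s • t_s` -/
def linS (g : σ → Φ) : NC σ Γ := ⟨linFun g⟩

@[simp] theorem lin_nil (g : σ → Φ) : (linS g : NC σ Γ) [] = 0 := rfl
@[simp] theorem lin_single (g : σ → Φ) (s : σ) : (linS g : NC σ Γ) [s] = algebraMap Φ Γ (g s) := rfl
@[simp] theorem lin_cons_cons (g : σ → Φ) (s r : σ) (w : List σ) :
    (linS g : NC σ Γ) (s :: r :: w) = 0 := rfl

theorem lin_append_single (g : σ → Φ) (a s : σ) (v : List σ) :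
    (linS g : NC σ Γ) (a :: (v ++ [s])) = 0 := by
  cases v <;> rfl




theorem mul_lin_append (g : σ → Φ) (f : NC σ Γ) (w : List σ) (s : σ) :
    (f * (linS g : NC σ Γ)) (w ++ [s]) = g s • f w := by
  induction w generalizing f with
  | nil =>
    rw [List.nil_append, mul_cons, mul_nil, lin_nil, mul_zero, zero_add, lin_single,
      Algebra.smul_def, Algebra.commutes]
  | cons a w ih =>
    rw [List.cons_append, mul_cons, ih, lin_append_single, mul_zero, add_zero, ld_apply]

/-- homogeneous of degree `k` -/
def Hom (k : ℕ) (f : NC σ Γ) : Prop := ∀ w : List σ, w.length ≠ k → f w = 0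

/-- `f * linS g ^ i` on words -/
theorem mul_lin_pow_apply (g : σ → Φ) (f : NC σ Γ) (v x : List σ) :
    (f * (linS g : NC σ Γ) ^ x.length) (v ++ x) = (x.map g).prod • f v := by
  induction x using List.reverseRecOn generalizing f with
  | nil => simp
  | append_singleton x s ih =>
    rw [List.length_append, List.length_singleton, pow_succ, ← mul_assoc, ← List.append_assoc,
      mul_lin_append, ih]
    simp [mul_comm, smul_smul]

/-- cyclic sum -/
def cyc (f : NC σ Γ) (w : List σ) : Γ := ∑ r ∈ Finset.range w.length, f (w.rotate r)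






end Lin

section Mono

variable {σ Γ Φ : Type} [DecidableEq σ] [Fintype σ] [Ring Γ] [Field Φ] [Algebra Φ Γ]

/-- a monomial -/
def mono (u : List σ) (c : Γ) : NC σ Γ := ⟨fun v => if v = u then c else 0⟩




variable (B : Submodule Φ Γ) (g : σ → Φ) (s₀ : σ)

/-- normal: supported on words not starting with `s₀`, and the pure power. -/
def Nrm (k : ℕ) (h : NC σ Γ) : Prop :=
  ∀ v : List σ, h v ≠ 0 → v.length = k ∧ (v.head? ≠ some s₀ ∨ v = List.replicate k s₀)

/-- decomposable modulo brackets into normal words -/
def RR (k : ℕ) (f : NC σ Γ) : Prop :=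
  ∃ b h : NC σ Γ, Hom (k - 1) b ∧ (∀ w, b w ∈ B) ∧ Nrm s₀ k h ∧ (∀ w, h w ∈ B) ∧
    f = (b * linS g - linS g * b) + h

omit [DecidableEq σ] [Fintype σ] in
theorem Nrm.add {k : ℕ} {h h' : NC σ Γ} (H : Nrm s₀ k h) (H' : Nrm s₀ k h') :
    Nrm s₀ k (h + h') := by
  intro v hv
  by_cases h0 : h v = 0
  · rw [add_apply, h0, zero_add] at hv; exact H' v hv
  · exact H v h0

omit [DecidableEq σ] [Fintype σ] in
theorem RR.add {k : ℕ} {f f' : NC σ Γ} (H : RR B g s₀ k f) (H' : RR B g s₀ k f') :
    RR B g s₀ k (f + f') := by
  obtain ⟨b, h, h1, h2, h3, h4, h5⟩ := H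
  obtain ⟨b', h', h1', h2', h3', h4', h5'⟩ := H'
  refine ⟨b + b', h + h', ?_, ?_, h3.add s₀ h3', ?_, ?_⟩
  · intro w hw; rw [add_apply, h1 w hw, h1' w hw, add_zero]
  · intro w; exact B.add_mem (h2 w) (h2' w)
  · intro w; exact B.add_mem (h4 w) (h4' w)
  · rw [h5, h5', add_mul, mul_add]; abel

omit [DecidableEq σ] [Fintype σ] in
theorem RR.neg {k : ℕ} {f : NC σ Γ} (H : RR B g s₀ k f) : RR B g s₀ k (-f) := by
  obtain ⟨b, h, h1, h2, h3, h4, h5⟩ := H
  refine ⟨-b, -h, ?_, ?_, ?_, ?_, ?_⟩
  · intro w hw; rw [neg_apply, h1 w hw, neg_zero]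
  · intro w; exact B.neg_mem (h2 w)
  · intro v hv; exact h3 v (by simpa using hv)
  · intro w; exact B.neg_mem (h4 w)
  · rw [h5]; simp only [neg_mul, mul_neg]; abel

omit [DecidableEq σ] [Fintype σ] in
theorem RR.zero {k : ℕ} : RR B g s₀ k (0 : NC σ Γ) := by
  refine ⟨0, 0, fun _ _ => rfl, fun _ => B.zero_mem, fun v hv => absurd rfl hv, fun _ => B.zero_mem,
    by simp⟩

omit [DecidableEq σ] [Fintype σ] in
theorem RR.sum {k : ℕ} {ι : Type} (t : Finset ι) (f : ι → NC σ Γ)
    (H : ∀ i ∈ t, RR B g s₀ k (f i)) : RR B g s₀ k (∑ i ∈ t, f i) := by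
  classical
  induction t using Finset.induction_on with
  | empty => simpa using RR.zero B g s₀
  | insert a t ha ih =>
    rw [Finset.sum_insert ha]
    exact (H a (by simp)).add B g s₀ (ih fun i hi => H i (by simp [hi]))





omit [DecidableEq σ] [Fintype σ] in
/-- value of `q * linS g ^ i` on a word of length `k + i` -/
theorem mul_lin_pow_take (k i : ℕ) (q : NC σ Γ) (y : List σ) (hy : y.length = k + i) :
    (q * (linS g : NC σ Γ) ^ i) y = ((y.drop k).map g).prod • q (y.take k) := by
  have h1 : (y.drop k).length = i := by simp; omega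
  have := mul_lin_pow_apply g q (y.take k) (y.drop k)
  rw [List.take_append_drop, h1] at this
  exact this

omit [Fintype σ] in
theorem Nrm.eq_zero [CharZero Φ] (hg : g s₀ = 1) (k i : ℕ) (hik : k ≤ i) (hi : 0 < i)
    (q : NC σ Γ) (hq : Nrm s₀ k q)
    (hc : ∀ w : List σ, w.length = k + i → cyc (q * (linS g : NC σ Γ) ^ i) w = 0) : q = 0 := by
  -- the pure word
  have hpure : q (List.replicate k s₀) = 0 := by
    have h1 := hc (List.replicate (k + i) s₀) (by simp)
    unfold cyc at h1
    have h2 : ∀ r ∈ Finset.range (List.replicate (k + i) s₀).length,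
        (q * (linS g : NC σ Γ) ^ i) ((List.replicate (k + i) s₀).rotate r) =
        q (List.replicate k s₀) := by
      intro r _
      rw [List.rotate_replicate, mul_lin_pow_take g k i q _ (by simp)]
      simp [hg]
    rw [Finset.sum_congr rfl h2, Finset.sum_const, Finset.card_range, List.length_replicate,
      ← Nat.cast_smul_eq_nsmul Φ] at h1
    have h3 : ((k + i : ℕ) : Φ) ≠ 0 := by exact_mod_cast (by omega : k + i ≠ 0)
    exact (smul_eq_zero.mp h1).resolve_left h3
  have hstart : ∀ z : List σ, z.head? = some s₀ → q z = 0 := by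
    intro z hz
    by_contra hne
    obtain ⟨h1, h2⟩ := hq z hne
    rcases h2 with h2 | h2
    · exact h2 hz
    · rw [h2] at hne; exact hne hpure
  -- strong induction on `k - count s₀ v`
  have key : ∀ n : ℕ, ∀ v : List σ, v.length = k → k - v.count s₀ = n → q v = 0 := by
    intro n
    induction n using Nat.strong_induction_on with
    | _ n ih =>
    intro v hv hn
    by_cases hvh : v.head? = some s₀
    · exact hstart v hvh
    by_cases hv0 : v = []
    · subst hv0
      simp at hv
      subst hv
      exact hpure
    have h1 := hc (v ++ List.replicate i s₀) (by simp; omega)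
    unfold cyc at h1
    rw [Finset.sum_eq_single 0] at h1
    · rw [List.rotate_zero, mul_lin_pow_take g k i q _ (by simp; omega), ← hv] at h1
      simpa [hg] using h1
    · intro r hr hr0
      have hrlt : r < k + i := by
        have := Finset.mem_range.mp hr
        simp at this; omega
      rw [mul_lin_pow_take g k i q _ (by simp; omega)]
      have hz : q (((v ++ List.replicate i s₀).rotate r).take k) = 0 := by
        rw [List.rotate_eq_drop_append_take (by simp; omega)]
        by_cases hrk : k ≤ r
        · apply hstart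
          have h2 : (v ++ List.replicate i s₀).drop r = List.replicate (k + i - r) s₀ := by
            rw [List.drop_append, List.drop_eq_nil_of_le (by omega), List.nil_append,
              List.drop_replicate]
            congr 1; omega
          rw [h2]
          obtain ⟨m, hm⟩ : ∃ m, k + i - r = m + 1 := ⟨k + i - r - 1, by omega⟩
          obtain ⟨k', hk'⟩ : ∃ k', k = k' + 1 := ⟨k - 1, by
            have : 0 < v.length := List.length_pos_of_ne_nil hv0
            omega⟩
          rw [hm, List.replicate_succ, List.cons_append]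
          rw [hk', List.take_succ_cons]
          rfl
        · push Not at hrk
          have h2 : (((v ++ List.replicate i s₀).drop r) ++
              ((v ++ List.replicate i s₀).take r)).take k = v.drop r ++ List.replicate r s₀ := by
            rw [List.take_append_of_le_length (by simp; omega), List.drop_append_of_le_length
              (by omega), List.take_append, List.take_of_length_le (by simp; omega),
              List.take_replicate]
            congr 2
            simp; omega
          rw [h2]
          apply ih (k - (v.drop r ++ List.replicate r s₀).count s₀) _ _ (by simp; omega) rfl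
          have h3 : (v.take r).count s₀ < r := by
            obtain ⟨x, v', hx⟩ := List.exists_cons_of_ne_nil hv0
            obtain ⟨r', hr'⟩ : ∃ r', r = r' + 1 := ⟨r - 1, by omega⟩
            subst hx
            have hxs : x ≠ s₀ := by simpa using hvh
            rw [hr', List.take_succ_cons, List.count_cons_of_ne hxs]
            have := List.count_le_length (a := s₀) (l := v'.take r')
            simp at this
            omega
          have h4 : v.count s₀ = (v.take r).count s₀ + (v.drop r).count s₀ := by
            rw [← List.count_append, List.take_append_drop]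
          have h5 : (v.drop r ++ List.replicate r s₀).count s₀ = (v.drop r).count s₀ + r := by
            rw [List.count_append, List.count_replicate_self]
          have h6 := List.count_le_length (a := s₀) (l := v.drop r ++ List.replicate r s₀)
          simp only [List.length_append, List.length_drop, List.length_replicate] at h6
          omega
      rw [hz, smul_zero]
    · intro h0
      simp at h0
      omega
  apply ext'; intro v
  by_cases hv : v.length = k
  · exact key _ v hv rfl
  · by_contra hne
    exact hv (hq v hne).1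



end Mono

end NC

end Crest.Agent.R180
end

-- ▼ part R180/RegPoint

set_option autoImplicit false

/-!
# Row 180: existence of regular generating points

`E` central division algebra over `K₁ ⊇ K`, `Γ` a finite-dimensional division algebra over `K`,
`θ(z) = ∑ z i ⊗ γ₁ i ∈ E ⊗ Γ`.
-/

open scoped TensorProduct

namespace Crest.Agent.R180

namespace RegPt

section Basic

variable {K K₁ E Γ ι : Type} [Field K] [Field K₁] [Algebra K K₁] [Ring E] [Algebra K₁ E]
  [Algebra K E] [IsScalarTower K K₁ E] [Ring Γ] [Algebra K Γ] [Fintype ι]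



/-- the linear functional `e ⊗ g ↦ ξ g • τ e` -/
noncomputable def tx (K K₁ : Type) {E Γ : Type} [Field K] [Field K₁] [Algebra K K₁] [Ring E]
    [Algebra K₁ E] [Algebra K E] [IsScalarTower K K₁ E] [Ring Γ] [Algebra K Γ]
    (τ : E →ₗ[K₁] K₁) (ξ : Γ →ₗ[K] K) : E ⊗[K] Γ →ₗ[K₁] K₁ :=
  TensorProduct.AlgebraTensorModule.lift
    { toFun := fun e =>
        { toFun := fun g => ξ g • τ e
          map_add' := fun g g' => by rw [map_add, add_smul]
          map_smul' := fun c g => by rw [map_smul, smul_eq_mul, mul_smul]; rfl }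
      map_add' := fun e e' => by ext g; simp
      map_smul' := fun c e => by
        ext g
        simp only [map_smul, LinearMap.coe_mk, AddHom.coe_mk, RingHom.id_apply,
          LinearMap.smul_apply, smul_eq_mul]
        rw [mul_smul_comm] }

@[simp] theorem tx_tmul (τ : E →ₗ[K₁] K₁) (ξ : Γ →ₗ[K] K) (e : E) (g : Γ) :
    tx K K₁ τ ξ (e ⊗ₜ g) = ξ g • τ e := rfl


/-- evaluation of the degree `n` part -/
noncomputable def ev (n : ℕ) (q : NC ι Γ) (z : ι → E) : E ⊗[K] Γ :=
  ∑ w : Fin n → ι, (List.ofFn fun j => z (w j)).prod ⊗ₜ[K] q (List.ofFn w)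



end Basic

section Sep

variable {K K₁ E Γ ι : Type} [Field K] [CharZero K] [Field K₁] [Algebra K K₁] [Ring E] [IsDomain E]
  [Algebra K₁ E] [Algebra K E] [IsScalarTower K K₁ E] [FiniteDimensional K₁ E]
  [Algebra.IsCentral K₁ E] [Ring Γ] [IsDomain Γ] [Algebra K Γ] [FiniteDimensional K Γ] [Fintype ι]
  [DecidableEq ι]

/-- the value `p(z)` -/
noncomputable def pv (k : ℕ) (p : (Fin k → ι) → Γ) (z : ι → E) : E ⊗[K] Γ :=
  ∑ w : Fin k → ι, (List.ofFn fun j => z (w j)).prod ⊗ₜ[K] p w


end Sep

section Indep

variable {K K₁ E Γ : Type} [Field K] [Field K₁] [Algebra K K₁] [Ring E]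
  [Algebra K₁ E] [Algebra K E] [IsScalarTower K K₁ E] [Ring Γ] [Algebra K Γ]



end Indep

section Final

variable {K K₁ E Γ ι : Type} [Field K] [CharZero K] [Field K₁] [Algebra K K₁] [Ring E] [IsDomain E]
  [Algebra K₁ E] [Algebra K E] [IsScalarTower K K₁ E] [FiniteDimensional K₁ E]
  [Algebra.IsCentral K₁ E] [Ring Γ] [IsDomain Γ] [Algebra K Γ] [FiniteDimensional K Γ] [Fintype ι]
  [DecidableEq ι]



end Final

end RegPt

end Crest.Agent.R180
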