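import Crest.Agent.R180.Euler
import Crest.Agent.R180.Move
import Crest.Agent.R180.RegPoint

-- ▼ part R180/EulerMv
section

set_option autoImplicit false
noncomputable section

/-!
# Row 180: values of `γ` at homogeneous base points `z = t z₁`
-/

namespace Crest.Agent.R180

open TensorProduct RegPt

theorem pv_zero_eq {A : DA} (M : Adm A) {m : ℕ} (f : NC (Fin m) A.D) (z : Fin m → M.E) :
    pv (K := A.F) 0 (fun w => f (List.ofFn w)) z = M.jD (f []) := by
  unfold pv
  rw [Fintype.sum_unique]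
  simp [Adm.jD]

theorem pv_succ_eq {A : DA} (M : Adm A) {m : ℕ} (n : ℕ) (f : NC (Fin m) A.D) (z : Fin m → M.E) :
    pv (K := A.F) (n + 1) (fun w => f (List.ofFn w)) z =
      ∑ i, M.jE (z i) * pv (K := A.F) n (fun w => (NC.ld i f) (List.ofFn w)) z := by
  unfold pv
  rw [← (Fin.consEquiv (fun _ : Fin (n + 1) => Fin m)).sum_comp, Fintype.sum_prod_type]
  refine Finset.sum_congr rfl fun i _ => ?_
  rw [Finset.mul_sum]
  refine Finset.sum_congr rfl fun w _ => ?_
  change _ ⊗ₜ[A.F] f (List.ofFn _) = _ * (_ ⊗ₜ[A.F] f (i :: List.ofFn w))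
  have h1 : List.ofFn (Fin.consEquiv (fun _ : Fin (n + 1) => Fin m) (i, w)) = i :: List.ofFn w := by
    simp [Fin.consEquiv, List.ofFn_succ]
  have h2 : (List.ofFn fun j => z ((Fin.consEquiv (fun _ : Fin (n + 1) => Fin m) (i, w)) j)).prod =
      z i * (List.ofFn fun j => z (w j)).prod := by
    simp [Fin.consEquiv, List.ofFn_succ]
  rw [h1, h2]
  change _ = (z i ⊗ₜ[A.F] (1 : A.D)) * _
  rw [Algebra.TensorProduct.tmul_mul_tmul, one_mul]

theorem Adm.let0_nil {A : DA} (M : Adm A) {m μ : ℕ}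
    (X : Fin m → NC (Fin μ) (PowerSeries M.E)) (z : Fin m → M.E)
    (hz : ∀ j, X j [] = PowerSeries.X * PowerSeries.C (z j)) (j : Fin m) :
    M.let0 X j [] = PowerSeries.X * PowerSeries.C (M.jE (z j)) := by
  rw [Adm.let0, NC.map_apply, hz, map_mul, PowerSeries.map_X, PowerSeries.map_C]

/-- the value of `f` at a homogeneous point -/
theorem Adm.coeff_hX0_nil {A : DA} (M : Adm A) {m μ : ℕ}
    (X : Fin m → NC (Fin μ) (PowerSeries M.E))
    (hX : ∀ j, PowerSeries.constantCoeff (X j []) = 0) (z : Fin m → M.E)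
    (hz : ∀ j, X j [] = PowerSeries.X * PowerSeries.C (z j)) (n : ℕ) (f : NC (Fin m) A.D) :
    PowerSeries.coeff n (M.hX0 X hX f []) = pv (K := A.F) n (fun w => f (List.ofFn w)) z := by
  induction n generalizing f with
  | zero =>
    rw [Adm.hX0, NC.subst_eq, NC.add_apply, NC.sum_apply, map_add, map_sum, pv_zero_eq,
      Finset.sum_eq_zero, add_zero]
    · simp [Adm.phi0]
    · intro i _
      rw [NC.mul_nil, M.let0_nil X z hz, mul_assoc, PowerSeries.coeff_zero_X_mul]
  | succ n ih =>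
    rw [Adm.hX0, NC.subst_eq, NC.add_apply, NC.sum_apply, map_add, map_sum, pv_succ_eq]
    have h0 : PowerSeries.coeff (n + 1) ((M.phi0 μ (f [])) []) = 0 := by
      simp [Adm.phi0]
    rw [h0, zero_add]
    refine Finset.sum_congr rfl fun i _ => ?_
    rw [NC.mul_nil, M.let0_nil X z hz, mul_assoc, PowerSeries.coeff_succ_X_mul,
      PowerSeries.coeff_C_mul]
    congr 1
    exact ih (NC.ld i f)

/-- contraction: a map with `Δ f = ∑ z_j Δ (ld j f)`, `z_j ∈ (t)`, vanishes -/
theorem eq_zero_of_contract {A : DA} {S : Type} [Ring S] {m : ℕ} (z : Fin m → PowerSeries S)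
    (hz : ∀ j, PowerSeries.constantCoeff (z j) = 0) (Δ : NC (Fin m) A.D → PowerSeries S)
    (hΔ : ∀ f, Δ f = ∑ j, z j * Δ (NC.ld j f)) (f : NC (Fin m) A.D) : Δ f = 0 := by
  have key : ∀ n : ℕ, ∀ f, ∀ k < n, PowerSeries.coeff k (Δ f) = 0 := by
    intro n
    induction n with
    | zero => intro f k hk; omega
    | succ n ih =>
      intro f k hk
      rw [hΔ, map_sum]
      refine Finset.sum_eq_zero fun j _ => ?_
      rw [PowerSeries.coeff_mul]
      refine Finset.sum_eq_zero fun p hp => ?_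
      rw [Finset.HasAntidiagonal.mem_antidiagonal] at hp
      rcases Nat.eq_zero_or_pos p.1 with h0 | h0
      · rw [h0, PowerSeries.coeff_zero_eq_constantCoeff_apply, hz, zero_mul]
      · rw [ih (NC.ld j f) p.2 (by omega), mul_zero]
  ext k
  rw [key (k + 1) f k (Nat.lt_succ_self k), map_zero]

theorem Adm.hX0_nil_eq {A : DA} (M : Adm A) {m μ : ℕ} (X : Fin m → NC (Fin μ) (PowerSeries M.E))
    (hX : ∀ j, PowerSeries.constantCoeff (X j []) = 0) (f : NC (Fin m) A.D) :
    M.hX0 X hX f [] = PowerSeries.C (M.jD (f [])) +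
      ∑ j, M.let0 X j [] * M.hX0 X hX (NC.ld j f) [] := by
  conv_lhs => rw [Adm.hX0, NC.subst_eq, NC.add_apply, NC.sum_apply]
  rfl

theorem Adm.hX0_single_eq {A : DA} (M : Adm A) {m μ : ℕ}
    (X : Fin m → NC (Fin μ) (PowerSeries M.E))
    (hX : ∀ j, PowerSeries.constantCoeff (X j []) = 0) (f : NC (Fin m) A.D) (i : Fin μ) :
    M.hX0 X hX f [i] = ∑ j, (M.let0 X j [i] * M.hX0 X hX (NC.ld j f) [] +
      M.let0 X j [] * M.hX0 X hX (NC.ld j f) [i]) := by
  conv_lhs => rw [Adm.hX0, NC.subst_eq, NC.add_apply, NC.sum_apply]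
  have h0 : (M.phi0 μ (f [])) [i] = 0 := rfl
  rw [h0, zero_add]
  refine Finset.sum_congr rfl fun j _ => ?_
  rw [NC.mul_cons, NC.mul_nil]
  rfl

/-- **Chain rule**: for a derivation `θ` of `D₀⟦t⟧` killing the constants `D`, whose values on
the base point are combinations of the directions, `θ(γ(z))` is the same combination of the
linear coefficients. -/
theorem Adm.chain {A : DA} (M : Adm A) {m μ : ℕ} (X : Fin m → NC (Fin μ) (PowerSeries M.E))
    (hX : ∀ j, PowerSeries.constantCoeff (X j []) = 0)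
    (θ : PowerSeries M.D0 →+ PowerSeries M.D0)
    (hθ : ∀ x y, θ (x * y) = θ x * y + x * θ y)
    (hθ0 : ∀ a : A.D, θ (PowerSeries.C (M.jD a)) = 0)
    (a : Fin μ → PowerSeries M.D0) (ha : ∀ i x, a i * x = x * a i)
    (h : ∀ j, θ (M.let0 X j []) = ∑ i, a i * M.let0 X j [i]) (f : NC (Fin m) A.D) :
    θ (M.hX0 X hX f []) = ∑ i, a i * M.hX0 X hX f [i] := by
  rw [← sub_eq_zero]
  refine eq_zero_of_contract (fun j => M.let0 X j []) ?_
    (fun f => θ (M.hX0 X hX f []) - ∑ i, a i * M.hX0 X hX f [i]) ?_ f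
  · intro j
    rw [Adm.let0, NC.map_apply, ← PowerSeries.coeff_zero_eq_constantCoeff_apply,
      PowerSeries.coeff_map, PowerSeries.coeff_zero_eq_constantCoeff_apply, hX, map_zero]
  · intro f
    have e1 : θ (M.hX0 X hX f []) = ∑ j, (θ (M.let0 X j []) * M.hX0 X hX (NC.ld j f) [] +
        M.let0 X j [] * θ (M.hX0 X hX (NC.ld j f) [])) := by
      rw [M.hX0_nil_eq X hX f, map_add, hθ0, zero_add, map_sum]
      exact Finset.sum_congr rfl fun j _ => hθ _ _
    have e2 : ∑ i, a i * M.hX0 X hX f [i] = ∑ j, (θ (M.let0 X j []) * M.hX0 X hX (NC.ld j f) [] +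
        M.let0 X j [] * ∑ i, a i * M.hX0 X hX (NC.ld j f) [i]) := by
      have e3 : ∀ i, a i * M.hX0 X hX f [i] = ∑ j, (a i * M.let0 X j [i] *
          M.hX0 X hX (NC.ld j f) [] + M.let0 X j [] * (a i * M.hX0 X hX (NC.ld j f) [i])) := by
        intro i
        rw [M.hX0_single_eq X hX f i, Finset.mul_sum]
        refine Finset.sum_congr rfl fun j _ => ?_
        rw [mul_add, mul_assoc, ← mul_assoc (a i) (M.let0 X j []), ha i (M.let0 X j []),
          mul_assoc (M.let0 X j [])]
      rw [Finset.sum_congr rfl fun i _ => e3 i, Finset.sum_comm]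
      refine Finset.sum_congr rfl fun j _ => ?_
      rw [Finset.sum_add_distrib, h, Finset.sum_mul, Finset.mul_sum]
    change θ (M.hX0 X hX f []) - ∑ i, a i * M.hX0 X hX f [i] = ∑ j, M.let0 X j [] *
      (θ (M.hX0 X hX (NC.ld j f) []) - ∑ i, a i * M.hX0 X hX (NC.ld j f) [i])
    rw [e1, e2, ← Finset.sum_sub_distrib]
    refine Finset.sum_congr rfl fun j _ => ?_
    rw [mul_sub]
    abel

end Crest.Agent.R180
end
end

-- ▼ part R180/MinAPrep

set_option autoImplicit false
noncomputable section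

/-!
# Row 180, ROUTE M, steps (0) and (A): algebraic preparations
-/

namespace Crest.Agent.R180

open TensorProduct

namespace MinA

section logder

variable {F K : Type} [Field F] [CharZero F] [Ring K] [IsDomain K] [Algebra F K]

/-- if `v x = w` with `v = t^k b + ⋯`, `w = t^k (k b) + ⋯`, then `x = k + O(t)` -/
theorem residue_of_mul_eq (v x w : LD K) (k : ℤ) (hk : (k : K) ≠ 0) (hv : ∀ n < k, v.co n = 0)
    (hb : v.co k ≠ 0) (hw : ∀ n < k, w.co n = 0) (hwk : w.co k = (k : K) * v.co k)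
    (h : v * x = w) : LD.IsInt x ∧ x.co 0 = (k : K) := by
  have hw0 : w ≠ 0 := by
    intro h0
    rw [h0, LD.co_zero] at hwk
    exact (mul_ne_zero hk hb) hwk.symm
  have hx0 : x ≠ 0 := by
    rintro rfl
    rw [mul_zero] at h
    exact hw0 h.symm
  obtain ⟨e, y, rfl, hy, hy0⟩ := LD.exists_normal hx0
  obtain ⟨v1, hv1⟩ : ∃ v1 : LD K, v1 = LD.tp (-k) * v := ⟨_, rfl⟩
  have hv1i : LD.IsInt v1 := by
    intro n hn
    rw [hv1, LD.co_tp_mul]
    exact hv _ (by omega)
  have hv10 : v1.co 0 = v.co k := by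
    rw [hv1, LD.co_tp_mul]
    congr 1; omega
  have hvv : v = LD.tp k * v1 := by
    rw [hv1, ← mul_assoc, LD.tp_mul_tp, add_neg_cancel, LD.tp_zero, one_mul]
  have h1 : LD.tp (k + e) * (v1 * y) = w := by
    rw [← h]
    conv_rhs => rw [hvv]
    calc LD.tp (k + e) * (v1 * y) = LD.tp k * (LD.tp e * v1) * y := by
          rw [← LD.tp_mul_tp]; simp only [mul_assoc]
      _ = LD.tp k * (v1 * LD.tp e) * y := by rw [LD.tp_commute e v1]
      _ = LD.tp k * v1 * (LD.tp e * y) := by simp only [mul_assoc]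
  have h2 : (v1 * y).co 0 = v.co k * y.co 0 := by rw [hv1i.co_mul_zero hy, hv10]
  have h3 : w.co (k + e) ≠ 0 := by
    rw [← h1, LD.co_tp_mul, sub_self, h2]
    exact mul_ne_zero hb hy0
  have he : e = 0 := by
    rcases lt_trichotomy e 0 with he | he | he
    · exact absurd (hw _ (by omega)) h3
    · exact he
    · exfalso
      have h4 : w.co k = 0 := by
        rw [← h1, LD.co_tp_mul]
        exact (hv1i.mul hy) _ (by omega)
      rw [hwk] at h4
      exact (mul_ne_zero hk hb) h4
  subst he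
  rw [LD.tp_zero, one_mul]
  refine ⟨hy, ?_⟩
  rw [add_zero] at h1
  have h4 : v.co k * y.co 0 = (k : K) * v.co k := by
    rw [← hwk, ← h1, LD.co_tp_mul, sub_self, h2]
  have h5 : v.co k * (y.co 0 - (k : K)) = 0 := by
    rw [mul_sub, h4, (Int.cast_commute k (v.co k)).eq, sub_self]
  exact sub_eq_zero.mp ((mul_eq_zero.mp h5).resolve_left hb)

variable [Module.Finite F K]

/-- the logarithmic derivative has nonzero trace -/
theorem trace_logder_ne_zero (v x w : LD K) (k : ℤ) (hk : k ≠ 0)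
    (hv : ∀ n < k, v.co n = 0)
    (hb : v.co k ≠ 0) (hw : ∀ n < k, w.co n = 0) (hwk : w.co k = (k : K) * v.co k)
    (h : v * x = w) :
    LinearMap.trace (LF F) (LD K) (LinearMap.mulLeft (LF F) x) ≠ 0 := by
  have hcK : CharZero K := charZero_of_injective_algebraMap (algebraMap F K).injective
  obtain ⟨hxi, hx0⟩ := residue_of_mul_eq v x w k (Int.cast_ne_zero.mpr hk) hv hb hw hwk h
  intro h0
  have h1 := LD.co_trace (F := F) x 0
  rw [h0, hx0] at h1
  have h2 : LinearMap.mulLeft F (k : K) = (k : F) • (LinearMap.id : K →ₗ[F] K) := by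
    ext a
    rw [LinearMap.mulLeft_apply, LinearMap.smul_apply, LinearMap.id_apply, Algebra.smul_def,
      map_intCast]
  rw [h2, map_smul, LinearMap.trace_id, LF.co_zero, smul_eq_mul] at h1
  have h3 : (k : F) ≠ 0 := Int.cast_ne_zero.mpr hk
  have h4 : 0 < Module.finrank F K := Module.finrank_pos
  have h5 : (Module.finrank F K : F) ≠ 0 := Nat.cast_ne_zero.mpr h4.ne'
  exact (mul_ne_zero h3 h5) h1.symm

end logder

section trace

variable {F K : Type} [Field F] [Ring K] [Algebra F K]

/-- the regular trace -/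
def rt (F : Type) {K : Type} [Field F] [Ring K] [Algebra F K] : K →ₗ[F] F :=
  (LinearMap.trace F K) ∘ₗ (LinearMap.mul F K)

theorem rt_apply (x : K) : rt F x = LinearMap.trace F K (LinearMap.mulLeft F x) := rfl

theorem rt_comm [Module.Finite F K] (x y : K) : rt F (x * y) = rt F (y * x) := by
  have h1 : ∀ a b : K, LinearMap.mul F K (a * b) = LinearMap.mul F K a * LinearMap.mul F K b := by
    intro a b; ext c; simp [mul_assoc]
  simp only [rt, LinearMap.comp_apply]
  rw [h1, h1]
  exact LinearMap.trace_mul_comm F _ _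


end trace

section eul

/-- the derivation `t d/dt` -/
def eul {R : Type} [Ring R] : PowerSeries R →+ PowerSeries R where
  toFun x := PowerSeries.mk fun n => n • PowerSeries.coeff n x
  map_zero' := by ext n; simp
  map_add' x y := by ext n; simp

@[simp] theorem coeff_eul {R : Type} [Ring R] (n : ℕ) (x : PowerSeries R) :
    PowerSeries.coeff n (eul x) = n • PowerSeries.coeff n x := by
  change PowerSeries.coeff n (PowerSeries.mk fun n => n • PowerSeries.coeff n x) = _
  rw [PowerSeries.coeff_mk]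

theorem eul_mul {R : Type} [Ring R] (x y : PowerSeries R) :
    eul (x * y) = eul x * y + x * eul y := by
  ext n
  rw [coeff_eul, map_add, PowerSeries.coeff_mul, PowerSeries.coeff_mul, PowerSeries.coeff_mul,
    Finset.smul_sum, ← Finset.sum_add_distrib]
  refine Finset.sum_congr rfl fun p hp => ?_
  rw [Finset.HasAntidiagonal.mem_antidiagonal] at hp
  rw [coeff_eul, coeff_eul, ← hp, add_smul, smul_mul_assoc, mul_smul_comm]

theorem eul_C {R : Type} [Ring R] (a : R) : eul (PowerSeries.C a) = 0 := by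
  ext n
  rw [coeff_eul, map_zero, PowerSeries.coeff_C]
  split_ifs with h
  · rw [h, zero_smul]
  · rw [smul_zero]

/-- `t^N t d/dt - [y, ·]` -/
def theta {R : Type} [Ring R] (N : ℕ) (y : PowerSeries R) : PowerSeries R →+ PowerSeries R where
  toFun x := PowerSeries.X ^ N * eul x - (y * x - x * y)
  map_zero' := by simp
  map_add' a b := by rw [map_add]; noncomm_ring

theorem theta_mul {R : Type} [Ring R] (N : ℕ) (y : PowerSeries R) (a b : PowerSeries R) :
    theta N y (a * b) = theta N y a * b + a * theta N y b := by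
  change PowerSeries.X ^ N * eul (a * b) - (y * (a * b) - a * b * y) =
    (PowerSeries.X ^ N * eul a - (y * a - a * y)) * b +
      a * (PowerSeries.X ^ N * eul b - (y * b - b * y))
  have h1 : a * (PowerSeries.X ^ N * eul b) = PowerSeries.X ^ N * (a * eul b) := by
    rw [← mul_assoc, ← mul_assoc, ((PowerSeries.commute_X a).pow_right N).eq]
  rw [eul_mul, mul_sub a, h1]
  noncomm_ring

end eul

theorem eul_X {R : Type} [Ring R] : eul (PowerSeries.X : PowerSeries R) = PowerSeries.X := by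
  ext n
  rw [coeff_eul, PowerSeries.coeff_X]
  split_ifs with h
  · rw [h, one_smul]
  · rw [smul_zero]

theorem ofPS_X_pow {R : Type} [Ring R] (N : ℕ) :
    (LD.ofPS ((PowerSeries.X : PowerSeries R) ^ N) : LD R) = LD.tp N := by
  apply LD.ext; intro n
  rcases lt_or_ge n 0 with hn | hn
  · rw [LD.co_ofPS_neg _ n hn, LD.co_tp, if_neg (by omega)]
  · obtain ⟨m, rfl⟩ := Int.eq_ofNat_of_zero_le hn
    rw [LD.co_ofPS, LD.co_tp, PowerSeries.coeff_X_pow]
    by_cases h : m = N
    · rw [if_pos h, if_pos (by exact_mod_cast h)]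
    · rw [if_neg h, if_neg (by exact_mod_cast h)]

theorem ofPS_map_algebraMap {F R : Type} [Field F] [Ring R] [Algebra F R] (a : PowerSeries F) :
    (LD.ofPS (PowerSeries.map (algebraMap F R) a) : LD R) = algebraMap (LF F) (LD R) (LF.ofPS a) := by
  change _ = LF.toLD _
  apply LD.ext; intro n
  rcases lt_or_ge n 0 with hn | hn
  · rw [LD.co_ofPS_neg _ n hn, LF.co_toLD, LF.co_ofPS_neg _ n hn, map_zero]
  · obtain ⟨m, rfl⟩ := Int.eq_ofNat_of_zero_le hn
    rw [LD.co_ofPS, LF.co_toLD, LF.co_ofPS, PowerSeries.coeff_map]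

theorem exists_denominator {F R : Type} [Field F] [Ring R] {μ : ℕ} (l : Fin μ → LF F) (y : LD R) :
    ∃ (N : ℕ) (a : Fin μ → PowerSeries F) (y' : PowerSeries R),
      (∀ i, LF.ofPS (a i) = LF.tp N * l i) ∧ LD.ofPS y' = LD.tp N * y := by
  classical
  have h1 : ∀ i, ∃ B : ℤ, ∀ n < B, (l i).co n = 0 := fun i =>
    ⟨HahnSeries.order (l i : HahnSeries ℤ F), fun _ hn => HahnSeries.coeff_eq_zero_of_lt_order hn⟩
  choose B hB using h1
  obtain ⟨B', hB'⟩ := LD.exists_bound y
  obtain ⟨N, hN, hN'⟩ : ∃ N : ℕ, (∀ i, -(N : ℤ) ≤ B i) ∧ -(N : ℤ) ≤ B' := by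
    refine ⟨(∑ i, (B i).natAbs) + B'.natAbs, fun i => ?_, ?_⟩
    · have h := Finset.single_le_sum (f := fun i => (B i).natAbs) (fun _ _ => Nat.zero_le _)
        (Finset.mem_univ i)
      have h' : (B i).natAbs ≤ ∑ i, (B i).natAbs := h
      rw [Nat.cast_add]
      omega
    · rw [Nat.cast_add]
      omega
  have h2 : ∀ i, ∃ a : PowerSeries F, LF.tp N * l i = LF.ofPS a := by
    intro i
    rw [← LF.isInt_iff]
    intro n hn
    rw [LF.co_tp_mul]
    exact hB i _ (by have := hN i; omega)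
  have h3 : ∃ y' : PowerSeries R, LD.tp N * y = LD.ofPS y' := by
    rw [← LD.isInt_iff]
    intro n hn
    rw [LD.co_tp_mul]
    exact hB' _ (by omega)
  choose a ha using h2
  obtain ⟨y', hy'⟩ := h3
  exact ⟨N, a, y', fun i => (ha i).symm, hy'.symm⟩

section euler

variable {A : DA} (M : Adm A) {m μ : ℕ} (X : Fin m → NC (Fin μ) (PowerSeries M.E))
  (hX : ∀ j, PowerSeries.constantCoeff (X j []) = 0)

/-- **Euler**: at a homogeneous base point where `γ` has a nonzero value (after moving), some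
linear coefficient has nonzero trace against the inverse of the value. -/
theorem exists_trace_ne_zero (z : Fin m → M.E)
    (hz : ∀ j, X j [] = PowerSeries.X * PowerSeries.C (z j))
    (hdir : ∃ (l : Fin μ → LF M.F1) (y : LD M.E), ∀ j,
      M.pt X j = ∑ i, l i • M.dir X i j + (y * M.pt X j - M.pt X j * y))
    (γ : NC (Fin m) A.D) (k : ℕ) (hk : 1 ≤ k)
    (hlow : ∀ n < k, PowerSeries.coeff n (M.hX0 X hX γ []) = 0)
    (hkk : PowerSeries.coeff k (M.hX0 X hX γ []) ≠ 0)
    (c' : LD M.D0) (hc1 : LD.ofPS (M.hX0 X hX γ []) * c' = 1) :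
    ∃ i, rt (LF M.F1) (c' * LD.ofPS (M.hX0 X hX γ [i])) ≠ 0 := by
  obtain ⟨l, y, hly⟩ := hdir
  -- common denominators
  obtain ⟨N, a, y', ha, hy'⟩ := exists_denominator l y
  have hcomb : ∀ j, PowerSeries.X ^ N * X j [] =
      ∑ i, PowerSeries.map (algebraMap M.F1 M.E) (a i) * X j [i] +
        (y' * X j [] - X j [] * y') := by
    intro j
    apply LD.ofPS_injective
    rw [map_mul, ofPS_X_pow, map_add, map_sum, map_sub, map_mul, map_mul, hy']
    have h1 : (LD.ofPS (X j []) : LD M.E) = M.pt X j := rfl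
    have h2 : ∀ i, (LD.ofPS (PowerSeries.map (algebraMap M.F1 M.E) (a i) * X j [i]) : LD M.E) =
        LD.tp N * (l i • M.dir X i j) := by
      intro i
      rw [map_mul, ofPS_map_algebraMap, ha, map_mul, ← LD.toLD_tp (F := M.F1), Algebra.smul_def,
        mul_assoc]
      rfl
    rw [Finset.sum_congr rfl fun i _ => h2 i, h1, ← Finset.mul_sum]
    conv_lhs => rw [hly j]
    rw [mul_add, mul_sub, mul_assoc, ← mul_assoc (M.pt X j) (LD.tp (N : ℤ)) y,
      ← LD.tp_commute, mul_assoc]
  set a' : Fin μ → PowerSeries M.D0 := fun i =>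
    PowerSeries.map M.jE (PowerSeries.map (algebraMap M.F1 M.E) (a i)) with ha'
  have ha'' : ∀ i, (LD.ofPS (a' i) : LD M.D0) = algebraMap (LF M.F1) (LD M.D0)
      (LF.tp N * l i) := by
    intro i
    rw [← ha, ← ofPS_map_algebraMap]
    congr 1
  set y'' : PowerSeries M.D0 := PowerSeries.map M.jE y' with hy''
  have hchain := M.chain X hX (theta N y'') (theta_mul N y'') (by
      intro d
      change PowerSeries.X ^ N * eul (PowerSeries.C (M.jD d)) - (y'' * PowerSeries.C (M.jD d) -
        PowerSeries.C (M.jD d) * y'') = 0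
      rw [eul_C, mul_zero, zero_sub, neg_eq_zero, sub_eq_zero]
      ext n
      rw [PowerSeries.coeff_mul_C, PowerSeries.coeff_C_mul, hy'', PowerSeries.coeff_map,
        M.jE_jD_comm]) a' (by
      intro i x
      apply LD.ofPS_injective
      rw [map_mul, map_mul, ha'', Algebra.commutes]) (by
      intro j
      change PowerSeries.X ^ N * eul (M.let0 X j []) - (y'' * M.let0 X j [] -
        M.let0 X j [] * y'') = _
      have h1 : eul (M.let0 X j []) = M.let0 X j [] := by
        rw [M.let0_nil X z hz, eul_mul, eul_X, eul_C, mul_zero, add_zero]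
      rw [h1, sub_eq_iff_eq_add]
      have h2 := congrArg (PowerSeries.map M.jE) (hcomb j)
      rw [map_mul, map_pow, PowerSeries.map_X, map_add, map_sum, map_sub, map_mul, map_mul] at h2
      simp only [map_mul] at h2
      exact h2) γ
  by_contra hcon
  push Not at hcon
  set V : LD M.D0 := LD.ofPS (M.hX0 X hX γ []) with hV
  have hV0 : V ≠ 0 := by
    intro h0
    rw [h0, zero_mul] at hc1
    exact zero_ne_one hc1
  have hc2 : c' * V = 1 := by
    have : V * (c' * V - 1) = 0 := by
      rw [mul_sub, ← mul_assoc, hc1, one_mul, mul_one, sub_self]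
    exact sub_eq_zero.mp ((mul_eq_zero.mp this).resolve_left hV0)
  apply trace_logder_ne_zero (F := M.F1) V (c' * LD.ofPS (eul (M.hX0 X hX γ [])))
    (LD.ofPS (eul (M.hX0 X hX γ []))) (k : ℤ) (by omega)
  · intro n hn
    rcases lt_or_ge n 0 with h | h
    · exact LD.co_ofPS_neg _ _ h
    · obtain ⟨n', rfl⟩ := Int.eq_ofNat_of_zero_le h
      rw [hV, LD.co_ofPS]
      exact hlow n' (by omega)
  · rw [hV, LD.co_ofPS]
    exact hkk
  · intro n hn
    rcases lt_or_ge n 0 with h | h
    · exact LD.co_ofPS_neg _ _ h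
    · obtain ⟨n', rfl⟩ := Int.eq_ofNat_of_zero_le h
      rw [LD.co_ofPS, coeff_eul, hlow n' (by omega), smul_zero]
  · rw [hV, LD.co_ofPS, LD.co_ofPS, coeff_eul, nsmul_eq_mul]
    norm_cast
  · rw [← mul_assoc, hc1, one_mul]
  · -- the trace computation
    have h1 := congrArg (fun x => rt (LF M.F1) (c' * LD.ofPS x)) hchain
    have h2 : rt (LF M.F1) (c' * LD.ofPS (∑ i, a' i * M.hX0 X hX γ [i])) = 0 := by
      rw [map_sum, Finset.mul_sum, map_sum]
      refine Finset.sum_eq_zero fun i _ => ?_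
      have e : c' * LD.ofPS (a' i * M.hX0 X hX γ [i]) =
          (LF.tp N * l i) • (c' * LD.ofPS (M.hX0 X hX γ [i])) := by
        rw [map_mul, ha'', ← Algebra.smul_def, mul_smul_comm]
      rw [e, map_smul, hcon i, smul_zero]
    rw [h2] at h1
    have h3 : rt (LF M.F1) (c' * (LD.ofPS y'' * V - V * LD.ofPS y'')) = 0 := by
      rw [mul_sub, map_sub, rt_comm c', mul_assoc, hc1, ← mul_assoc, hc2, mul_one, one_mul,
        sub_self]
    have h4 : c' * LD.ofPS (theta N y'' (M.hX0 X hX γ [])) =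
        (LF.tp N : LF M.F1) • (c' * LD.ofPS (eul (M.hX0 X hX γ []))) -
          c' * (LD.ofPS y'' * V - V * LD.ofPS y'') := by
      change c' * LD.ofPS (PowerSeries.X ^ N * eul (M.hX0 X hX γ []) -
        (y'' * M.hX0 X hX γ [] - M.hX0 X hX γ [] * y'')) = _
      rw [map_sub, map_mul, ofPS_X_pow, map_sub, map_mul, map_mul, mul_sub, LD.smul_def,
        LD.toLD_tp, ← mul_assoc c', ← LD.tp_commute, mul_assoc]
    rw [h4, map_sub, h3, sub_zero, map_smul, smul_eq_mul] at h1
    exact (mul_eq_zero.mp h1).resolve_left (LF.tp_ne_zero _)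

end euler

section residue

variable {A : DA} (M : Adm A)

/-- `jD` of an `F`-independent family is `F₁`-independent -/
theorem linearIndependent_jD {ι : Type} (v : ι → A.D) (hv : LinearIndependent A.F v) :
    LinearIndependent M.F1 (fun i => M.jD (v i)) := by
  classical
  have h1 : LinearIndependent M.E (fun i => ((1 : M.E) ⊗ₜ[A.F] v i : M.E ⊗[A.F] A.D)) :=
    Module.Flat.linearIndependent_one_tmul hv
  rw [linearIndependent_iff'] at h1 ⊢
  intro s g hg i hi
  have h2 := h1 s (fun i => algebraMap M.F1 M.E (g i)) (by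
    rw [← hg]
    refine Finset.sum_congr rfl fun j _ => ?_
    rw [TensorProduct.smul_tmul', smul_eq_mul, mul_one]
    change _ = g j • ((1 : M.E) ⊗ₜ[A.F] v j)
    rw [TensorProduct.smul_tmul', Algebra.algebraMap_eq_smul_one]) i hi
  exact (map_eq_zero_iff _ (algebraMap M.F1 M.E).injective).mp h2

/-- dimension of a subalgebra containing the image of a subalgebra of `D` -/
theorem finrank_le_of_jD_mem (S : Subalgebra A.F A.D) (R : Subalgebra M.F1 M.D0)
    (h : ∀ x ∈ S, M.jD x ∈ R) : Module.finrank A.F S ≤ Module.finrank M.F1 R := by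
  let b := Module.finBasis A.F S
  have h1 : LinearIndependent A.F (fun i => (b i : A.D)) :=
    b.linearIndependent.map' S.val.toLinearMap (LinearMap.ker_eq_bot.mpr Subtype.val_injective)
  have h2 := linearIndependent_jD M _ h1
  have h3 : LinearIndependent M.F1 (fun i => (⟨M.jD (b i), h _ (b i).2⟩ : R)) :=
    LinearIndependent.of_comp R.val.toLinearMap h2
  have := h3.fintype_card_le_finrank
  rwa [Fintype.card_fin] at this

/-- the residues of `L'` contain the algebra generated by `Λ` and the leading coefficient -/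
theorem finrank_adjoin_le (Λ : Subalgebra A.F A.D) (y : A.D) (L' : Subalgebra (LF M.F1) (LD M.D0))
    (hΛ : ∀ a ∈ Λ, (LD.C (M.jD a) : LD M.D0) ∈ L') (v : PowerSeries M.D0)
    (hv : LD.ofPS v ∈ L') (hv0 : PowerSeries.coeff 0 v = 0)
    (hv1 : PowerSeries.coeff 1 v = M.jD y) :
    Module.finrank A.F (Algebra.adjoin A.F ((Λ : Set A.D) ∪ {y})) ≤
      Module.finrank (LF M.F1) L' := by
  rw [← LD.finrank_resAlg L']
  apply finrank_le_of_jD_mem
  intro x hx
  have hmem : ∀ a ∈ ((Λ : Set A.D) ∪ {y}), M.jD a ∈ LD.resAlg L' := by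
    rintro a (ha | ha)
    · exact ⟨_, hΛ a ha, LD.isInt_C _, LD.co_C_zero _⟩
    · rw [Set.mem_singleton_iff] at ha
      subst ha
      refine ⟨(LF.tp (-1) : LF M.F1) • LD.ofPS v, L'.smul_mem hv _, ?_, ?_⟩
      · intro n hn
        rw [LD.co_tp_smul]
        rcases lt_or_ge (n - -1) 0 with h | h
        · exact LD.co_ofPS_neg _ _ h
        · have : n - -1 = ((0 : ℕ) : ℤ) := by push_cast; omega
          rw [this, LD.co_ofPS, hv0]
      · rw [LD.co_tp_smul]
        have : (0 : ℤ) - -1 = ((1 : ℕ) : ℤ) := by norm_num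
        rw [this, LD.co_ofPS, hv1]
  induction hx using Algebra.adjoin_induction with
  | mem a ha => exact hmem a ha
  | algebraMap c =>
    have h1 : M.jD (algebraMap A.F A.D c) = algebraMap M.F1 M.D0 (algebraMap A.F M.F1 c) := by
      rw [← IsScalarTower.algebraMap_apply A.F M.F1 M.D0]
      exact (Algebra.TensorProduct.includeRight : A.D →ₐ[A.F] M.E ⊗[A.F] A.D).commutes c
    rw [h1]
    exact Subalgebra.algebraMap_mem _ _
  | add a b _ _ ha hb => rw [map_add]; exact add_mem ha hb
  | mul a b _ _ ha hb => rw [map_mul]; exact mul_mem ha hb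

end residue

end MinA

end Crest.Agent.R180
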