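import Crest.Agent.R180.MinI
import Crest.Agent.R180.NV
import Crest.Agent.R180.DCT

-- ▼ part R180/MinII
section

set_option autoImplicit false

/-!
# Row 180, ROUTE M: pure algebra for step (II) and trace projections

* `LD.trL τ` : coefficientwise extension of a functional `τ : B → F1` to `LD B → LF F1`;
* `MinI.proj_int` : if `σ ∈ Λ'` represents an integral `ρ` on `Λ'` then `σ` is integral and its
  residue represents the residue of `ρ` on the residues of `Λ'`;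
* `MinI.coreII` : step (II).
-/

noncomputable section
namespace Crest.Agent.R180

open TensorProduct Polynomial

namespace LD

section trL

variable {F1 B : Type} [Field F1] [Ring B] [Algebra F1 B] [Module.Finite F1 B]

/-- coefficientwise extension of a functional -/
def trL (τ : B →ₗ[F1] F1) : LD B →ₗ[LF F1] LF F1 :=
  (basis (Module.finBasis F1 B)).constr (LF F1) (fun i => LF.C (τ (Module.finBasis F1 B i)))

theorem co_trL (τ : B →ₗ[F1] F1) (x : LD B) (n : ℤ) : (trL τ x).co n = τ (x.co n) := by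
  have h : trL τ x = ∑ i, (basis (Module.finBasis F1 B)).repr x i *
      LF.C (τ (Module.finBasis F1 B i)) := by
    rw [trL, Module.Basis.constr_apply_fintype]
    rfl
  rw [h, LF_co_sum]
  conv_rhs => rw [← (Module.finBasis F1 B).sum_repr (x.co n), map_sum]
  refine Finset.sum_congr rfl fun i _ => ?_
  rw [map_smul, smul_eq_mul, ← basis_repr_co]
  have h1 := co_smul_C (F := F1) (K := F1) ((basis (Module.finBasis F1 B)).repr x i)
    (τ (Module.finBasis F1 B i)) n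
  rw [smul_eq_mul] at h1
  exact h1

theorem trL_mul_comm (τ : B →ₗ[F1] F1) (hτ : ∀ a b, τ (a * b) = τ (b * a)) (x y : LD B) :
    trL τ (x * y) = trL τ (y * x) := by
  apply LF.ext; intro n
  rw [co_trL, co_trL]
  have h1 := @HahnSeries.coeff_mul ℤ B _ _ _ _ (x : HahnSeries ℤ B) (y : HahnSeries ℤ B) n
  have h2 := @HahnSeries.coeff_mul ℤ B _ _ _ _ (y : HahnSeries ℤ B) (x : HahnSeries ℤ B) n
  have h1' : (x * y).co n = _ := h1
  have h2' : (y * x).co n = _ := h2
  rw [h1', h2', map_sum, map_sum]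
  refine Finset.sum_nbij' Prod.swap Prod.swap ?_ ?_ ?_ ?_ ?_
  · rintro ⟨a, b⟩ h
    simp only [Prod.swap, Finset.mem_antidiagonal] at h ⊢
    exact ⟨h.2.1, h.1, by rw [add_comm]; exact h.2.2⟩
  · rintro ⟨a, b⟩ h
    simp only [Prod.swap, Finset.mem_antidiagonal] at h ⊢
    exact ⟨h.2.1, h.1, by rw [add_comm]; exact h.2.2⟩
  · rintro ⟨a, b⟩ _; rfl
  · rintro ⟨a, b⟩ _; rfl
  · rintro ⟨a, b⟩ _
    exact hτ _ _

end trL

end LD

namespace MinI

section proj

variable {F1 B : Type} [Field F1] [Ring B] [IsDomain B] [Algebra F1 B] [FiniteDimensional F1 B]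

/-- nonzero elements of a multiplicatively closed subspace containing `1` are invertible in it -/
theorem exists_inv_mem (R : Submodule F1 B) (hmul : ∀ a ∈ R, ∀ b ∈ R, a * b ∈ R)
    (h1 : (1 : B) ∈ R) (y : B) (hy : y ∈ R) (hy0 : y ≠ 0) : ∃ z ∈ R, z * y = 1 := by
  have hinj : Function.Injective
      ((LinearMap.mulRight F1 y).restrict (fun a ha => hmul a ha y hy) : R →ₗ[F1] R) := by
    intro a b hab
    have h2 : (a : B) * y = (b : B) * y := congrArg Subtype.val hab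
    exact Subtype.ext (mul_right_cancel₀ hy0 h2)
  obtain ⟨z, hz⟩ := (LinearMap.injective_iff_surjective.1 hinj) ⟨1, h1⟩
  exact ⟨z, z.2, congrArg Subtype.val hz⟩

/-- trace projection of integral elements -/
theorem proj_int (τ : B →ₗ[F1] F1) (hτ1 : τ 1 ≠ 0) (Λ' : Subalgebra (LF F1) (LD B))
    (σ ρ : LD B) (hσ : σ ∈ Λ') (hρ : LD.IsInt ρ)
    (h : ∀ η ∈ Λ', LD.trL τ (η * σ) = LD.trL τ (η * ρ)) :
    LD.IsInt σ ∧ ∀ η₀ ∈ LD.resSp (Subalgebra.toSubmodule Λ'), τ (η₀ * σ.co 0) = τ (η₀ * ρ.co 0) := by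
  have hint : LD.IsInt σ := by
    by_cases hσ0 : σ = 0
    · rw [hσ0]; exact LD.isInt_zero
    obtain ⟨k, y, hky, hyi, hy0⟩ := LD.exists_normal hσ0
    have hyΛ : y ∈ Λ' := by
      have : y = (LF.tp (-k) : LF F1) • σ := by
        apply LD.ext; intro n
        rw [LD.co_tp_smul, hky, LD.co_tp_mul]
        congr 1; ring
      rw [this]; exact Λ'.smul_mem hσ _
    have hk : 0 ≤ k := by
      by_contra hk
      push Not at hk
      obtain ⟨z, hz, hzy⟩ := exists_inv_mem (LD.resSp (Subalgebra.toSubmodule Λ'))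
        (fun a ha b hb => res_mul_mem Λ' ha hb) (res_one_mem Λ') (y.co 0) ⟨y, hyΛ, hyi, rfl⟩ hy0
      obtain ⟨η, hη, hηi, rfl⟩ := hz
      have h1 := congrArg (fun a => LF.co a k) (h η hη)
      simp only [LD.co_trL] at h1
      rw [(hηi.mul hρ) k hk, map_zero, hky, ← mul_assoc, ← LD.tp_commute, mul_assoc,
        LD.co_tp_mul, sub_self, hηi.co_mul_zero hyi, hzy] at h1
      exact hτ1 h1
    intro n hn
    rw [hky, LD.co_tp_mul]
    exact hyi _ (by omega)
  refine ⟨hint, ?_⟩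
  rintro _ ⟨η, hη, hηi, rfl⟩
  have h1 := congrArg (fun a => LF.co a 0) (h η hη)
  simp only [LD.co_trL] at h1
  rwa [hηi.co_mul_zero hint, hηi.co_mul_zero hρ] at h1

end proj

section II

variable {F D F1 E : Type} [Field F] [Ring D] [Algebra F D] [Field F1] [Algebra F F1]
  [Ring E] [Algebra F1 E] [Algebra F E] [IsScalarTower F F1 E]

/-- the tracial functional `tr_E ⊗ tr_D` -/
def tau (trE : E →ₗ[F1] F1) (trD : D →ₗ[F] F) : E ⊗[F] D →ₗ[F1] F1 :=
  trE ∘ₗ ellE (F1 := F1) E trD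

theorem tau_tmul (trE : E →ₗ[F1] F1) (trD : D →ₗ[F] F) (e : E) (d : D) :
    tau trE trD (e ⊗ₜ[F] d) = trD d • trE e := by
  rw [tau, LinearMap.comp_apply, ellE_tmul, LinearMap.map_smul_of_tower]

theorem tau_comm (trE : E →ₗ[F1] F1) (trD : D →ₗ[F] F) (hE : ∀ a b, trE (a * b) = trE (b * a))
    (hD : ∀ a b, trD (a * b) = trD (b * a)) (x y : E ⊗[F] D) :
    tau trE trD (x * y) = tau trE trD (y * x) := by
  induction x using TensorProduct.induction_on with
  | zero => simp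
  | add x x' hx hx' => rw [add_mul, mul_add, map_add, map_add, hx, hx']
  | tmul e d =>
    induction y using TensorProduct.induction_on with
    | zero => simp
    | add y y' hy hy' => rw [add_mul, mul_add, map_add, map_add, hy, hy']
    | tmul e' d' =>
      rw [Algebra.TensorProduct.tmul_mul_tmul, Algebra.TensorProduct.tmul_mul_tmul, tau_tmul,
        tau_tmul, hE, hD]

theorem ellE_mul_right (ℓ : D →ₗ[F] F) (a : D) (y : E ⊗[F] D) :
    ellE (F1 := F1) E ℓ (y * ((1 : E) ⊗ₜ[F] a)) =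
      ellE (F1 := F1) E (ℓ ∘ₗ LinearMap.mulRight F a) y := by
  induction y using TensorProduct.induction_on with
  | zero => simp
  | add x y hx hy => rw [add_mul, map_add, hx, hy, map_add]
  | tmul e d =>
    rw [Algebra.TensorProduct.tmul_mul_tmul, mul_one, ellE_tmul, ellE_tmul]
    rfl

theorem ellE_mul_left (ℓ : D →ₗ[F] F) (a : D) (y : E ⊗[F] D) :
    ellE (F1 := F1) E ℓ (((1 : E) ⊗ₜ[F] a) * y) =
      ellE (F1 := F1) E (ℓ ∘ₗ LinearMap.mulLeft F a) y := by
  induction y using TensorProduct.induction_on with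
  | zero => simp
  | add x y hx hy => rw [mul_add, map_add, hx, hy, map_add]
  | tmul e d =>
    rw [Algebra.TensorProduct.tmul_mul_tmul, one_mul, ellE_tmul, ellE_tmul]
    rfl

theorem ellE_sub (ℓ ℓ' : D →ₗ[F] F) (y : E ⊗[F] D) :
    ellE (F1 := F1) E (ℓ - ℓ') y = ellE (F1 := F1) E ℓ y - ellE (F1 := F1) E ℓ' y := by
  induction y using TensorProduct.induction_on with
  | zero => simp
  | add x y hx hy => rw [map_add, hx, hy, map_add, map_add]; abel
  | tmul e d =>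
    rw [ellE_tmul, ellE_tmul, ellE_tmul, LinearMap.sub_apply, sub_smul]

theorem ellE_congr (Λ : Subalgebra F D) (ℓ ℓ' : D →ₗ[F] F) (h : ∀ a ∈ Λ, ℓ a = ℓ' a)
    (y : E ⊗[F] D) (hy : ∀ m : D →ₗ[F] F, (∀ a ∈ Λ, m a = 0) → ellE (F1 := F1) E m y = 0) :
    ellE (F1 := F1) E ℓ y = ellE (F1 := F1) E ℓ' y := by
  have := hy (ℓ - ℓ') (fun a ha => by rw [LinearMap.sub_apply, h a ha, sub_self])
  rwa [ellE_sub, sub_eq_zero] at this

variable [FiniteDimensional F D] [IsDomain D]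

/-- every functional on `Λ` is represented by an element of `Λ` through the trace -/
theorem exists_repr (Λ : Subalgebra F D) (trD : D →ₗ[F] F) (h1 : trD 1 ≠ 0)
    (ℓ : D →ₗ[F] F) : ∃ lam ∈ Λ, ∀ a ∈ Λ, ℓ a = trD (lam * a) := by
  let φ : Λ →ₗ[F] (Λ →ₗ[F] F) :=
    { toFun := fun b => (trD ∘ₗ LinearMap.mulLeft F (b : D)) ∘ₗ Λ.val.toLinearMap
      map_add' := fun a b => by
        apply LinearMap.ext; intro x
        simp [add_mul]
      map_smul' := fun c a => by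
        apply LinearMap.ext; intro x
        simp }
  have hφ : ∀ b a : Λ, φ b a = trD ((b : D) * (a : D)) := fun b a => rfl
  have hinj : Function.Injective φ := by
    rw [injective_iff_map_eq_zero]
    intro b hb
    by_contra hb0
    have hb0' : (b : D) ≠ 0 := fun h => hb0 (Subtype.ext h)
    obtain ⟨z, hz, hzb⟩ := exists_inv_mem (Subalgebra.toSubmodule Λ)
      (fun a ha b hb => Λ.mul_mem ha hb) Λ.one_mem (b : D) b.2 hb0'
    have hbz : (b : D) * z = 1 := by
      have : z * ((b : D) * z - 1) = 0 := by rw [mul_sub, ← mul_assoc, hzb]; simp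
      rcases mul_eq_zero.1 this with h | h
      · rw [h, zero_mul] at hzb; exact absurd hzb.symm one_ne_zero
      · exact sub_eq_zero.1 h
    have h2 := congrArg (fun f : Λ →ₗ[F] F => f ⟨z, hz⟩) hb
    have h3 : trD ((b : D) * z) = 0 := h2
    rw [hbz] at h3
    exact h1 h3
  have hsurj : Function.Surjective φ := by
    have hfr : Module.finrank F Λ = Module.finrank F (Λ →ₗ[F] F) := by
      rw [← Subspace.dual_finrank_eq (K := F) (V := Λ)]
    exact (LinearMap.injective_iff_surjective_of_finrank_eq_finrank hfr).1 hinj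
  obtain ⟨lam, hlam⟩ := hsurj (ℓ ∘ₗ Λ.val.toLinearMap)
  refine ⟨lam, lam.2, fun a ha => ?_⟩
  have := congrArg (fun f : Λ →ₗ[F] F => f ⟨a, ha⟩) hlam
  exact this.symm

variable [FiniteDimensional F1 E] [IsDomain E]

/-- **step (II), pure algebra** -/
theorem coreII [CharZero F1] [IsDomain (E ⊗[F] D)] [FiniteDimensional F1 (E ⊗[F] D)]
    (trE : E →ₗ[F1] F1) (hE : ∀ a b, trE (a * b) = trE (b * a)) (hE1 : trE 1 ≠ 0)
    (trD : D →ₗ[F] F) (hD1 : trD 1 ≠ 0)
    (s : E) (Λ Ψ : Subalgebra F D) (u uinv : D) (huΛ : u ∈ Λ) (huiΛ : uinv ∈ Λ)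
    (huu : u * uinv = 1)
    (Λ' Ψ' : Subalgebra (LF F1) (LD (E ⊗[F] D)))
    (hΛC : ∀ a ∈ Λ, (LD.C ((1 : E) ⊗ₜ[F] a) : LD (E ⊗[F] D)) ∈ Λ')
    (hrankΛ : Module.finrank (LF F1) Λ' ≤
      Module.finrank F1 (Algebra.adjoin F1 ({s} : Set E)) * Module.finrank F Λ)
    (hΨres : ∀ a ∈ Ψ, (1 : E) ⊗ₜ[F] a ∈ LD.resSp (Subalgebra.toSubmodule Ψ'))
    (hrankΨ : Module.finrank (LF F1) Ψ' ≤
      Module.finrank F1 (Algebra.adjoin F1 ({s} : Set E)) * Module.finrank F Ψ)
    (K : ℕ) (hK : 0 < K) (x : LD (E ⊗[F] D)) (hxΛ : x ∈ Λ') (hxi : LD.IsInt x)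
    (hx0 : x.co 0 = s ⊗ₜ[F] u)
    (hx1 : ∀ m : D →ₗ[F] F, (∀ a ∈ Λ, m a = 0) → ellE (F1 := F1) E m (x.co 1) = 0)
    (e Eul ρ : LD (E ⊗[F] D)) (he : e ∈ Λ')
    (hEul : Eul = (K : LD (E ⊗[F] D)) * x + (LF.tp 1 : LF F1) • ρ) (hρ : LD.IsInt ρ)
    (hρ0 : ρ.co 0 = x.co 1)
    (heE : ∀ η ∈ Λ', LD.trL (tau trE trD) (η * e) = LD.trL (tau trE trD) (η * Eul))
    (w y : LD (E ⊗[F] D)) (hw : w ∈ Λ') (hy : LD.IsInt y) (hy0 : y.co 0 = (1 : E) ⊗ₜ[F] u)
    (hy1 : y.co 1 = 0)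
    (hwy : ∀ η ∈ Λ', LD.trL (tau trE trD) (η * w) = LD.trL (tau trE trD) (η * y))
    (q : LD (E ⊗[F] D)) (hq : q ∈ Ψ') (hqw : q * w = e)
    (ℓ : D →ₗ[F] F) (hℓ : ∀ a ∈ Ψ, ℓ a = 0) :
    trE (s * ellE (F1 := F1) E ℓ (x.co 1 * ((1 : E) ⊗ₜ[F] uinv))) = 0 := by
  set τ := tau trE trD with hτ
  have hτ1 : τ 1 ≠ 0 := by
    rw [hτ, Algebra.TensorProduct.one_def, tau_tmul, Algebra.smul_def]
    exact mul_ne_zero (fun h => hD1 ((map_eq_zero _).1 h)) hE1
  have hui1 : uinv * u = 1 := by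
    have hu0 : uinv ≠ 0 := fun h => by rw [h, mul_zero] at huu; exact zero_ne_one huu
    have : (uinv * u - 1) * uinv = 0 := by rw [sub_mul, mul_assoc, huu]; simp
    rcases mul_eq_zero.1 this with h | h
    · exact sub_eq_zero.1 h
    · exact absurd h hu0
  have hΛres : ∀ a ∈ Λ, (1 : E) ⊗ₜ[F] a ∈ LD.resSp (Subalgebra.toSubmodule Λ') := fun a ha =>
    ⟨_, hΛC a ha, LD.isInt_C _, LD.co_C_zero _⟩
  have hsres : s ⊗ₜ[F] (1 : D) ∈ LD.resSp (Subalgebra.toSubmodule Λ') := by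
    have h1 : s ⊗ₜ[F] (1 : D) = (s ⊗ₜ[F] u) * ((1 : E) ⊗ₜ[F] uinv) := by
      rw [Algebra.TensorProduct.tmul_mul_tmul, mul_one, huu]
    rw [h1]
    exact res_mul_mem Λ' ⟨x, hxΛ, hxi, hx0⟩ (hΛres _ huiΛ)
  have hres := res_eq_W s Λ Λ' hΛres hsres hrankΛ
  have hKcast : (K : LD (E ⊗[F] D)) ∈ Λ' := by
    have := Λ'.algebraMap_mem (K : LF F1)
    rwa [map_natCast] at this
  have hKco : ∀ (z : LD (E ⊗[F] D)) (n : ℤ), ((K : LD (E ⊗[F] D)) * z).co n = (K : F1) • z.co n := by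
    intro z n
    have h1 : (K : LD (E ⊗[F] D)) = LD.C (K : E ⊗[F] D) := by rw [map_natCast]
    rw [h1, LD.C_mul_co, Algebra.smul_def, map_natCast]
  -- the element `σ`
  set σ : LD (E ⊗[F] D) := (LF.tp (-1) : LF F1) • (e - (K : LD (E ⊗[F] D)) * x) with hσ
  have hσΛ : σ ∈ Λ' := Λ'.smul_mem (Λ'.sub_mem he (Λ'.mul_mem hKcast hxΛ)) _
  have hσtr : ∀ η ∈ Λ', LD.trL τ (η * σ) = LD.trL τ (η * ρ) := by
    intro η hη
    rw [hσ, mul_smul_comm, map_smul, mul_sub, map_sub, heE η hη, hEul, mul_add, map_add,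
      add_sub_cancel_left, mul_smul_comm, map_smul, smul_smul, LF.tp_mul_tp, neg_add_cancel,
      LF.tp_zero, one_smul]
  obtain ⟨hσi, hσ0⟩ := proj_int τ hτ1 Λ' σ ρ hσΛ hρ hσtr
  have he' : e = (K : LD (E ⊗[F] D)) * x + (LF.tp 1 : LF F1) • σ := by
    rw [hσ, smul_smul, LF.tp_mul_tp, add_neg_cancel, LF.tp_zero, one_smul]; abel
  have hei : LD.IsInt e := by
    rw [he']
    refine LD.IsInt.add ?_ ?_
    · intro n hn; rw [hKco, hxi n hn, smul_zero]
    · intro n hn; rw [LD.co_tp_smul, hσi _ (by omega)]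
  have he0 : e.co 0 = (K : F1) • (s ⊗ₜ[F] u) := by
    rw [he', LD.co_add, hKco, hx0, LD.co_tp_smul, hσi _ (by omega), add_zero]
  have he1 : e.co 1 = (K : F1) • x.co 1 + σ.co 0 := by
    rw [he', LD.co_add, hKco, LD.co_tp_smul, sub_self]
  -- the element `w`
  set ω : LD (E ⊗[F] D) := (LF.tp (-2) : LF F1) • (w - LD.C ((1 : E) ⊗ₜ[F] u)) with hω
  have hωΛ : ω ∈ Λ' := Λ'.smul_mem (Λ'.sub_mem hw (hΛC u huΛ)) _
  have hωi : LD.IsInt ω := by
    refine (proj_int τ hτ1 Λ' ω ((LF.tp (-2) : LF F1) • (y - LD.C ((1 : E) ⊗ₜ[F] u))) hωΛ ?_ ?_).1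
    · intro n hn
      rw [LD.co_tp_smul, LD.co_sub, LD.co_C]
      by_cases h0 : n = -2
      · subst h0; simp [hy0]
      by_cases h1 : n = -1
      · subst h1
        have : (-1 : ℤ) - -2 = 1 := by norm_num
        rw [this, hy1, if_neg one_ne_zero, sub_zero]
      · rw [hy _ (by omega), if_neg (by omega), sub_zero]
    · intro η hη
      rw [hω, mul_smul_comm, mul_smul_comm, map_smul, map_smul, mul_sub, mul_sub, map_sub, map_sub,
        hwy η hη]
  have hw' : w = LD.C ((1 : E) ⊗ₜ[F] u) + (LF.tp 2 : LF F1) • ω := by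
    rw [hω, smul_smul, LF.tp_mul_tp, add_neg_cancel, LF.tp_zero, one_smul]; abel
  have hwi : LD.IsInt w := by
    rw [hw']
    refine LD.IsInt.add (LD.isInt_C _) ?_
    intro n hn; rw [LD.co_tp_smul, hωi _ (by omega)]
  have hw0 : w.co 0 = (1 : E) ⊗ₜ[F] u := by
    rw [hw', LD.co_add, LD.co_C_zero, LD.co_tp_smul, hωi _ (by omega), add_zero]
  have hw1 : w.co 1 = 0 := by
    rw [hw', LD.co_add, LD.co_C, if_neg one_ne_zero, LD.co_tp_smul, hωi _ (by omega), add_zero]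
  -- `u` is right cancellable
  have hcan : ∀ a b : E ⊗[F] D, a * ((1 : E) ⊗ₜ[F] u) = b → a = b * ((1 : E) ⊗ₜ[F] uinv) := by
    intro a b hab
    rw [← hab, mul_assoc, Algebra.TensorProduct.tmul_mul_tmul, one_mul, huu,
      ← Algebra.TensorProduct.one_def, mul_one]
  have hqi : LD.IsInt q := by
    by_cases hq0 : q = 0
    · rw [hq0]; exact LD.isInt_zero
    obtain ⟨k, q', hk, hq'i, hq'0⟩ := LD.exists_normal hq0
    have hk0 : 0 ≤ k := by
      by_contra hk0
      push Not at hk0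
      have h1 : e.co k = q'.co 0 * ((1 : E) ⊗ₜ[F] u) := by
        rw [← hqw, hk, mul_assoc, LD.co_tp_mul, sub_self, hq'i.co_mul_zero hwi, hw0]
      rw [hei k hk0] at h1
      have h2 := hcan _ _ h1.symm
      rw [zero_mul] at h2
      exact hq'0 h2
    intro n hn
    rw [hk, LD.co_tp_mul]
    exact hq'i _ (by omega)
  have hq0 : q.co 0 = (K : F1) • (s ⊗ₜ[F] (1 : D)) := by
    have h1 : q.co 0 * ((1 : E) ⊗ₜ[F] u) = (K : F1) • (s ⊗ₜ[F] u) := by
      rw [← hw0, ← hqi.co_mul_zero hwi, hqw, he0]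
    rw [hcan _ _ h1, smul_mul_assoc, Algebra.TensorProduct.tmul_mul_tmul, mul_one, huu]
  have hq1 : q.co 1 = ((K : F1) • x.co 1 + σ.co 0) * ((1 : E) ⊗ₜ[F] uinv) := by
    apply hcan
    have h1 := hqi.co_mul_one hwi
    rw [hqw, he1, hw1, hw0, mul_zero, zero_add] at h1
    exact h1.symm
  -- apply the core lemma to `K⁻¹ q ∈ Ψ'`
  have hK0 : (K : F1) ≠ 0 := by exact_mod_cast hK.ne'
  set qq : LD (E ⊗[F] D) := (LF.C ((K : F1)⁻¹) : LF F1) • q with hqq
  have hqqco : ∀ n, qq.co n = (K : F1)⁻¹ • q.co n := fun n => LD.co_C_smul _ _ _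
  have hcore := core s Ψ Ψ' hΨres hrankΨ qq (Ψ'.smul_mem hq _)
    (fun n hn => by rw [hqqco, hqi n hn, smul_zero])
    (by rw [hqqco, hq0, smul_smul, inv_mul_cancel₀ hK0, one_smul]) trE hE ℓ hℓ
  rw [hqqco, hq1, add_mul, smul_add, smul_mul_assoc, smul_smul, inv_mul_cancel₀ hK0, one_smul,
    map_add, map_smul, mul_add, map_add, mul_smul_comm, map_smul] at hcore
  -- compare the two terms
  have hAB : ∀ z : E ⊗[F] D, (∀ m : D →ₗ[F] F, (∀ a ∈ Λ, m a = 0) →
      ellE (F1 := F1) E m z = 0) → ∀ lam : D,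
      (∀ a ∈ Λ, (ℓ ∘ₗ LinearMap.mulRight F uinv) a = trD (lam * a)) →
      trE (s * ellE (F1 := F1) E ℓ (z * ((1 : E) ⊗ₜ[F] uinv))) = τ ((s ⊗ₜ[F] lam) * z) := by
    intro z hz lam hlam
    rw [ellE_mul_right, ellE_congr Λ _ (trD ∘ₗ LinearMap.mulLeft F lam) hlam z hz,
      ← ellE_mul_left]
    have h1 : (s ⊗ₜ[F] lam) * z = (s ⊗ₜ[F] (1 : D)) * (((1 : E) ⊗ₜ[F] lam) * z) *
        ((1 : E) ⊗ₜ[F] (1 : D)) := by
      rw [← Algebra.TensorProduct.one_def, mul_one, ← mul_assoc,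
        Algebra.TensorProduct.tmul_mul_tmul, mul_one, one_mul]
    rw [h1, hτ, tau, LinearMap.comp_apply, ellE_mul, mul_one]
  obtain ⟨lam, hlamΛ, hlam⟩ := exists_repr Λ trD hD1 (ℓ ∘ₗ LinearMap.mulRight F uinv)
  have hσW : ∀ m : D →ₗ[F] F, (∀ a ∈ Λ, m a = 0) → ellE (F1 := F1) E m (σ.co 0) = 0 := by
    intro m hm
    refine ellE_W m s Λ hm ?_
    rw [← hres]
    exact ⟨σ, hσΛ, hσi, rfl⟩
  have hslam : s ⊗ₜ[F] lam ∈ LD.resSp (Subalgebra.toSubmodule Λ') := by
    have h1 : s ⊗ₜ[F] lam = (s ⊗ₜ[F] (1 : D)) * ((1 : E) ⊗ₜ[F] lam) := by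
      rw [Algebra.TensorProduct.tmul_mul_tmul, mul_one, one_mul]
    rw [h1]
    exact res_mul_mem Λ' hsres (hΛres _ hlamΛ)
  have h2 := hσ0 _ hslam
  rw [hρ0] at h2
  rw [hAB _ hσW lam hlam, h2, ← hAB _ hx1 lam hlam] at hcore
  set B₀ := trE (s * ellE (F1 := F1) E ℓ (x.co 1 * ((1 : E) ⊗ₜ[F] uinv))) with hB
  have h3 : (1 + (K : F1)⁻¹) * B₀ = 0 := by
    rw [add_mul, one_mul]
    rw [smul_eq_mul] at hcore
    exact hcore
  rcases mul_eq_zero.1 h3 with h | h
  · exfalso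
    have h4 : (K : F1) + 1 = 0 := by
      have := congrArg (fun a => (K : F1) * a) h
      simp only [mul_add, mul_one, mul_inv_cancel₀ hK0, mul_zero] at this
      exact this
    have h5 : ((K + 1 : ℕ) : F1) = 0 := by push_cast; exact h4
    exact absurd h5 (by exact_mod_cast Nat.succ_ne_zero K)
  · exact h

end II

end MinI

end Crest.Agent.R180
end
end

-- ▼ part R180/MinGen

set_option autoImplicit false

/-!
# Row 180, ROUTE M: from trace identities to coefficients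
-/

noncomputable section
namespace Crest.Agent.R180

open TensorProduct Polynomial RegPt

namespace MinI

section deg

variable {F1 E : Type} [Field F1] [Ring E] [IsDomain E] [Algebra F1 E] [FiniteDimensional F1 E]
  [Algebra.IsCentral F1 E]

/-- in a central division algebra of prime degree, every noncentral element generates a
maximal subfield -/
theorem finrank_adjoin_of_prime {N : ℕ} (hN : N.Prime) (hE : Module.finrank F1 E = N * N)
    (s : E) (hs : s ∉ Set.range (algebraMap F1 E)) :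
    Module.finrank F1 (Algebra.adjoin F1 ({s} : Set E)) = N := by
  set L := Algebra.adjoin F1 ({s} : Set E) with hL
  have hcen : Subalgebra.center F1 E = ⊥ := Algebra.IsCentral.center_eq_bot F1 E
  have h1 := DCT.finrank_mul_centralizer (F := F1) (B := E) L (by rw [hcen]; exact bot_le)
  rw [hcen, Subalgebra.finrank_bot, mul_one, hE] at h1
  have hle : L ≤ Subalgebra.centralizer F1 (L : Set E) := by
    intro a ha
    rw [Subalgebra.mem_centralizer_iff]
    intro b hb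
    have hc : ∀ x ∈ ({s} : Set E), ∀ y ∈ ({s} : Set E), x * y = y * x := by
      intro x hx y hy
      rw [Set.mem_singleton_iff.1 hx, Set.mem_singleton_iff.1 hy]
    have h := (Algebra.isMulCommutative_adjoin F1 hc).is_comm.comm ⟨b, hb⟩ ⟨a, ha⟩
    exact congrArg Subtype.val h
  have h2 : Module.finrank F1 L ≤ Module.finrank F1 (Subalgebra.centralizer F1 (L : Set E)) := by
    have h := Submodule.finrank_mono
      (show Subalgebra.toSubmodule L ≤ Subalgebra.toSubmodule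
        (Subalgebra.centralizer F1 (L : Set E)) from hle)
    exact h
  have h3 : Module.finrank F1 L ≠ 1 := by
    intro h
    have hbot : L = ⊥ := Subalgebra.eq_bot_of_finrank_one h
    apply hs
    have : s ∈ L := Algebra.subset_adjoin rfl
    rw [hbot] at this
    exact Algebra.mem_bot.1 this
  have h4 : Module.finrank F1 L ∣ N ^ 2 := by rw [pow_two, ← h1]; exact Dvd.intro _ rfl
  obtain ⟨i, hi, hi'⟩ := (Nat.dvd_prime_pow hN).1 h4
  have hi0 : i ≠ 0 := by rintro rfl; exact h3 (by rw [hi', pow_zero])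
  have hi2 : i ≠ 2 := by
    rintro rfl
    rw [hi'] at h1 h2
    have hN2 := hN.two_le
    have : N ^ 2 * N ^ 2 ≤ N * N := by rw [← h1]; exact Nat.mul_le_mul_left _ h2
    have h4 : 4 ≤ N * N := Nat.mul_le_mul hN2 hN2
    rw [pow_two] at this
    nlinarith
  have hi1 : i = 1 := by omega
  rw [hi', hi1, pow_one]

/-- a functional vanishing outside a proper subspace vanishes -/
theorem eq_zero_of_compl {V : Type} [AddCommGroup V] [Module F1 V] (W : Submodule F1 V)
    (hW : W ≠ ⊤) (φ : V →ₗ[F1] F1) (h : ∀ v, v ∉ W → φ v = 0) : φ = 0 := by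
  obtain ⟨a, ha⟩ : ∃ a, a ∉ W := by
    by_contra hc
    push Not at hc
    exact hW (eq_top_iff.2 fun v _ => hc v)
  apply LinearMap.ext
  intro v
  by_cases hv : v ∈ W
  · have h1 : a + v ∉ W := fun hh => ha (by simpa using W.sub_mem hh hv)
    have h2 := h _ h1
    rw [map_add, h a ha, zero_add] at h2
    rw [h2, LinearMap.zero_apply]
  · rw [h v hv, LinearMap.zero_apply]

omit [Algebra.IsCentral F1 E] in
/-- the trace form against noncentral elements determines an element -/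
theorem eq_zero_of_tr (tr : E →ₗ[F1] F1) (h1 : tr 1 ≠ 0) (hE : 1 < Module.finrank F1 E)
    (x : E) (h : ∀ s : E, s ∉ Set.range (algebraMap F1 E) → tr (s * x) = 0) : x = 0 := by
  have hb' : Subalgebra.toSubmodule (⊥ : Subalgebra F1 E) ≠ ⊤ := by
    intro hb
    have h2 : Module.finrank F1 (Subalgebra.toSubmodule (⊥ : Subalgebra F1 E)) = 1 :=
      Subalgebra.finrank_bot (F := F1) (E := E)
    rw [hb, finrank_top] at h2
    omega
  have hz := eq_zero_of_compl (Subalgebra.toSubmodule (⊥ : Subalgebra F1 E)) hb'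
    (tr ∘ₗ LinearMap.mulRight F1 x) (fun v hv => h v (fun hh => hv (Algebra.mem_bot.2 hh)))
  by_contra hx
  obtain ⟨y, hy⟩ : ∃ y, y * x = 1 := by
    let _ := divisionRingOfFiniteDimensional F1 E
    exact ⟨x⁻¹, inv_mul_cancel₀ hx⟩
  have := congrArg (fun f : E →ₗ[F1] F1 => f y) hz
  simp only [LinearMap.comp_apply, LinearMap.mulRight_apply, hy, LinearMap.zero_apply] at this
  exact h1 this

end deg

section concl

variable {F D F1 E ι : Type} [Field F] [Ring D] [Algebra F D] [Field F1] [CharZero F1]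
  [Algebra F F1] [Ring E] [IsDomain E] [Algebra F1 E] [Algebra F E] [IsScalarTower F F1 E]
  [FiniteDimensional F1 E] [Algebra.IsCentral F1 E] [Fintype ι]

theorem mem_of_functionals {V : Type} [AddCommGroup V] [Module F V] (W : Submodule F V) (d : V)
    (h : ∀ ℓ : V →ₗ[F] F, (∀ a ∈ W, ℓ a = 0) → ℓ d = 0) : d ∈ W := by
  by_contra hd
  obtain ⟨f, hf, hfW⟩ := Submodule.exists_le_ker_of_notMem hd
  exact hf (h f fun a ha => hfW ha)

omit [CharZero F1] [IsDomain E] [FiniteDimensional F1 E] [Algebra.IsCentral F1 E] in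
theorem ellE_pv (ℓ : D →ₗ[F] F) (k : ℕ) (r : (Fin k → ι) → D) (a : D) (z : ι → E) :
    ellE (F1 := F1) E ℓ (pv (K := F) k r z * ((1 : E) ⊗ₜ[F] a)) =
      ∑ w, ℓ (r w * a) • (List.ofFn (fun j => z (w j))).prod := by
  unfold pv
  rw [Finset.sum_mul, map_sum]
  refine Finset.sum_congr rfl fun w _ => ?_
  rw [Algebra.TensorProduct.tmul_mul_tmul, mul_one, ellE_tmul]

/-- **from trace identities to coefficients** -/
theorem coeff_mem (W : Submodule F D) (k : ℕ) (r : (Fin k → ι) → D) (uinv : D)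
    (tr : E →ₗ[F1] F1) (h1 : tr 1 ≠ 0) (hN : (k + 1) ^ 2 ≤ Module.finrank F1 E)
    (hE : 1 < Module.finrank F1 E)
    (h : ∀ ℓ : D →ₗ[F] F, (∀ a ∈ W, ℓ a = 0) → ∀ (p : ι → E) (s : E),
      s ∉ Set.range (algebraMap F1 E) →
      tr (s * ellE (F1 := F1) E ℓ (pv (K := F) k r p * ((1 : E) ⊗ₜ[F] uinv))) = 0) (w : Fin k → ι) :
    r w * uinv ∈ W := by
  apply mem_of_functionals
  intro ℓ hℓ
  by_contra hne
  have hr : (fun w => ℓ (r w * uinv)) ≠ 0 := fun hh => hne (congrFun hh w)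
  obtain ⟨z, hz⟩ := NV.exists_sum_ne_zero (K := F) (K₁ := F1) (E := E) k
    (fun w => ℓ (r w * uinv)) hr hN
  apply hz
  have := eq_zero_of_tr tr h1 hE _ (h ℓ hℓ z)
  rwa [ellE_pv] at this

end concl

end MinI

end Crest.Agent.R180
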