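import Crest.Agent.R180.MinTaylor

set_option autoImplicit false
noncomputable section
namespace Crest.Agent.R180

open TensorProduct

/-! # Row 180, ROUTE M, block (T), second half: inner and Euler directions, composition -/

section EulL
variable {K : Type} [Ring K]

theorem coeff_eul (y : PowerSeries K) (n : ℕ) :
    PowerSeries.coeff n (eul y) = n • PowerSeries.coeff n y := by
  rw [eul, PowerSeries.coeff_mk]

theorem eul_zero : eul (0 : PowerSeries K) = 0 := by
  ext n; simp [coeff_eul]

theorem eul_add (x y : PowerSeries K) : eul (x + y) = eul x + eul y := by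
  ext n; simp [coeff_eul]

theorem eul_sum {ι : Type*} (s : Finset ι) (f : ι → PowerSeries K) :
    eul (∑ i ∈ s, f i) = ∑ i ∈ s, eul (f i) := by
  classical
  induction s using Finset.induction_on with
  | empty => simp [eul_zero]
  | insert a s ha ih => rw [Finset.sum_insert ha, Finset.sum_insert ha, eul_add, ih]

theorem eul_C (c : K) : eul (PowerSeries.C c : PowerSeries K) = 0 := by
  ext n
  rw [coeff_eul, PowerSeries.coeff_C]
  by_cases h : n = 0
  · subst h; simp
  · simp [h]

theorem eul_mul (x y : PowerSeries K) : eul (x * y) = eul x * y + x * eul y := by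
  ext n
  rw [coeff_eul, map_add, PowerSeries.coeff_mul, PowerSeries.coeff_mul, PowerSeries.coeff_mul,
    Finset.smul_sum, ← Finset.sum_add_distrib]
  refine Finset.sum_congr rfl fun p hp => ?_
  rw [Finset.HasAntidiagonal.mem_antidiagonal] at hp
  rw [coeff_eul, coeff_eul, ← hp, add_smul, smul_mul_assoc, mul_smul_comm]

theorem eul_map {K' : Type} [Ring K'] (φ : K →+* K') (y : PowerSeries K) :
    PowerSeries.map φ (eul y) = eul (PowerSeries.map φ y) := by
  ext n
  rw [PowerSeries.coeff_map, coeff_eul, coeff_eul, PowerSeries.coeff_map, map_nsmul]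

end EulL

section Taylor2
variable {A : DA} (M : Adm A) {m : ℕ}



/-- Euler direction -/
theorem dv_eul (z : Fin m → PowerSeries M.E) (hz : ∀ j, PowerSeries.constantCoeff (z j) = 0)
    (f : NC (Fin m) A.D) : M.dv z (fun j => eul (z j)) f = eul (M.ev z f) := by
  rw [← sub_eq_zero]
  refine Ord.eq_zero fun n => ?_
  induction n generalizing f with
  | zero => exact Ord.zero _
  | succ n ih =>
    have e : M.dv z (fun j => eul (z j)) f - eul (M.ev z f) =
        ∑ j, PowerSeries.map M.jE (z j) * (M.dv z (fun j => eul (z j)) (NC.ld j f) -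
          eul (M.ev z (NC.ld j f))) := by
      rw [dv_rec M z _ hz f, ev_rec M z hz f, eul_add, eul_C, zero_add, eul_sum,
        ← Finset.sum_sub_distrib]
      refine Finset.sum_congr rfl fun j _ => ?_
      rw [eul_mul, eul_map, mul_sub]
      abel
    rw [e]
    refine Ord.sum fun j _ => ?_
    rw [add_comm n 1]
    exact ((Ord.of_const (hz j)).map _).mul (ih _)

/-- `ev` as a ring homomorphism -/
def Adm.evHom (z : Fin m → PowerSeries M.E) : NC (Fin m) A.D →+* PowerSeries M.D0 :=
  (NC.res).comp (M.hT (μ := 0) (fun j => NC.C (z j)))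

theorem evHom_apply (z : Fin m → PowerSeries M.E) (f : NC (Fin m) A.D) :
    M.evHom z f = M.ev z f := rfl


theorem ev_addf (z : Fin m → PowerSeries M.E) (f g : NC (Fin m) A.D) :
    M.ev z (f + g) = M.ev z f + M.ev z g := by
  rw [← evHom_apply, map_add]; rfl

theorem ev_C (z : Fin m → PowerSeries M.E) (hz : ∀ j, PowerSeries.constantCoeff (z j) = 0)
    (d : A.D) : M.ev z (NC.C d) = PowerSeries.C (M.jD d) := by
  rw [ev_rec M z hz]
  have : ∀ j, M.ev z (NC.ld j (NC.C d)) = 0 := fun j => by
    rw [NC.ld_C, ← evHom_apply, map_zero]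
  simp only [this, mul_zero, Finset.sum_const_zero, add_zero, NC.C_nil]

theorem evE_rec {n : ℕ} (z : Fin n → PowerSeries M.E)
    (hz : ∀ j, PowerSeries.constantCoeff (z j) = 0) (g : NC (Fin n) A.F) :
    M.evE z g = PowerSeries.C (algebraMap A.F M.E (g [])) + ∑ i, z i * M.evE z (NC.ld i g) := by
  have h := NC.subst_eq (CFilt.powerSeries M.E) ((PowerSeries.C (R := M.E)).comp
    (algebraMap A.F M.E)) (fun i => z i - PowerSeries.C (PowerSeries.constantCoeff (z i)))
    (fun i => by
      rw [CFilt.mem_powerSeries]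
      intro k hk
      have : k = 0 := by omega
      subst this
      simp)
    (fun k i => by
      ext n
      simp only [RingHom.comp_apply, PowerSeries.coeff_C_mul, PowerSeries.coeff_mul_C]
      exact Algebra.commutes k _) g
  refine Eq.trans h ?_
  refine congrArg₂ (· + ·) rfl (Finset.sum_congr rfl fun i _ => ?_)
  rw [hz i, map_zero, sub_zero]
  rfl

theorem evE_sub_ord {n : ℕ} {z : Fin n → PowerSeries M.E} {a : ℕ} (ha : 1 ≤ a)
    (hz : ∀ j, Ord a (z j)) (g : NC (Fin n) A.F) :
    Ord a (M.evE z g - PowerSeries.C (algebraMap A.F M.E (g []))) := by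
  rw [evE_rec M z (fun j => const_of_ord ha (hz j)) g, add_sub_cancel_left]
  exact Ord.sum fun j _ => (hz j).mul_right

theorem evE_const {n : ℕ} (z : Fin n → PowerSeries M.E)
    (hz : ∀ j, PowerSeries.constantCoeff (z j) = 0) (g : NC (Fin n) A.F) (hg : g [] = 0) :
    PowerSeries.constantCoeff (M.evE z g) = 0 := by
  have h := evE_sub_ord M le_rfl (fun j => Ord.of_const (hz j)) g
  rw [hg, map_zero, map_zero, sub_zero] at h
  exact const_of_ord le_rfl h

theorem jD_algebraMap (c : A.F) : M.jD (algebraMap A.F A.D c) = M.jE (algebraMap A.F M.E c) := by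
  change (1 : M.E) ⊗ₜ[A.F] (algebraMap A.F A.D c) = (algebraMap A.F M.E c) ⊗ₜ[A.F] (1 : A.D)
  rw [Algebra.algebraMap_eq_smul_one, Algebra.algebraMap_eq_smul_one, TensorProduct.tmul_smul,
    TensorProduct.smul_tmul']

theorem ev_mapAlg {n : ℕ} (z : Fin n → PowerSeries M.E)
    (hz : ∀ j, PowerSeries.constantCoeff (z j) = 0) (g : NC (Fin n) A.F) :
    M.ev z (NC.map (algebraMap A.F A.D) g) = PowerSeries.map M.jE (M.evE z g) := by
  rw [← sub_eq_zero]
  refine Ord.eq_zero fun n => ?_
  induction n generalizing g with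
  | zero => exact Ord.zero _
  | succ n ih =>
    have e : M.ev z (NC.map (algebraMap A.F A.D) g) - PowerSeries.map M.jE (M.evE z g) =
        ∑ i, PowerSeries.map M.jE (z i) * (M.ev z (NC.map (algebraMap A.F A.D) (NC.ld i g)) -
          PowerSeries.map M.jE (M.evE z (NC.ld i g))) := by
      rw [ev_rec M z hz, evE_rec M z hz g, map_add, map_sum, PowerSeries.map_C, NC.map_apply,
        jD_algebraMap, add_sub_add_left_eq_sub, ← Finset.sum_sub_distrib]
      refine Finset.sum_congr rfl fun i _ => ?_
      rw [map_mul, mul_sub]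
      rfl
    rw [e]
    refine Ord.sum fun j _ => ?_
    rw [add_comm n 1]
    exact ((Ord.of_const (hz j)).map _).mul (ih _)

theorem compD_rec {n : ℕ} (X : Fin m → NC (Fin n) A.F) (hX : ∀ j, X j [] = 0)
    (f : NC (Fin m) A.D) : compD X f = NC.C (f []) +
      ∑ j, NC.map (algebraMap A.F A.D) (X j) * compD X (NC.ld j f) := by
  have h := NC.subst_eq (CFilt.nc (CFilt.discrete A.D)) (NC.C : A.D →+* NC (Fin n) A.D)
    (fun j => NC.map (algebraMap A.F A.D) (X j - NC.C (X j [])))
    (fun j => by
      rw [CFilt.mem_nc_one, CFilt.mem_discrete]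
      right
      simp [NC.map_apply])
    (fun k j => by
      apply NC.ext'; intro w
      rw [NC.C_mul_apply, NC.mul_C_apply, NC.map_apply]
      exact (Algebra.commutes _ _).symm) f
  refine Eq.trans h ?_
  refine congrArg₂ (· + ·) rfl (Finset.sum_congr rfl fun j _ => ?_)
  rw [hX j, map_zero, sub_zero]
  rfl

/-- composition -/
theorem ev_comp {n : ℕ} (X : Fin m → NC (Fin n) A.F) (hX : ∀ j, X j [] = 0)
    (z : Fin n → PowerSeries M.E) (hz : ∀ j, PowerSeries.constantCoeff (z j) = 0)
    (f : NC (Fin m) A.D) : M.ev (fun j => M.evE z (X j)) f = M.ev z (compD X f) := by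
  have hz' : ∀ j, PowerSeries.constantCoeff (M.evE z (X j)) = 0 := fun j =>
    evE_const M z hz (X j) (hX j)
  rw [← sub_eq_zero]
  refine Ord.eq_zero fun n => ?_
  induction n generalizing f with
  | zero => exact Ord.zero _
  | succ n ih =>
    have e : M.ev (fun j => M.evE z (X j)) f - M.ev z (compD X f) =
        ∑ j, PowerSeries.map M.jE (M.evE z (X j)) *
          (M.ev (fun j => M.evE z (X j)) (NC.ld j f) - M.ev z (compD X (NC.ld j f))) := by
      rw [ev_rec M _ hz' f, compD_rec X hX f, ev_addf, ev_C M z hz]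
      have hs : M.ev z (∑ j, NC.map (algebraMap A.F A.D) (X j) * compD X (NC.ld j f)) =
          ∑ j, PowerSeries.map M.jE (M.evE z (X j)) * M.ev z (compD X (NC.ld j f)) := by
        rw [← evHom_apply, map_sum]
        refine Finset.sum_congr rfl fun j _ => ?_
        rw [map_mul, evHom_apply, evHom_apply, ev_mapAlg M z hz]
      rw [hs, add_sub_add_left_eq_sub, ← Finset.sum_sub_distrib]
      refine Finset.sum_congr rfl fun j _ => ?_
      rw [mul_sub]
    rw [e]
    refine Ord.sum fun j _ => ?_
    rw [add_comm n 1]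
    exact ((Ord.of_const (hz' j)).map _).mul (ih _)

/-- `X_j(t^c p) = O(t^c)` -/
theorem evE_ord {n : ℕ} (X : NC (Fin n) A.F) (hX : X [] = 0) (c : ℕ) (hc : 1 ≤ c)
    (p : Fin n → M.E) :
    ∃ y, M.evE (fun i => PowerSeries.X ^ c * PowerSeries.C (p i)) X = PowerSeries.X ^ c * y := by
  have h := evE_sub_ord M hc (fun j => ord_of_eq (n := c)
    (x := PowerSeries.X ^ c * PowerSeries.C (p j)) rfl) X
  rw [hX, map_zero, map_zero, sub_zero] at h
  exact ord_iff.1 h

theorem homv_zero {n : ℕ} (p : Fin n → M.E) (f : NC (Fin n) A.D) :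
    M.homv 0 p f = M.jD (f []) := by
  rw [Adm.homv, Fintype.sum_unique]
  rfl

theorem homv_succ {n : ℕ} (k : ℕ) (p : Fin n → M.E) (f : NC (Fin n) A.D) :
    M.homv (k + 1) p f = ∑ i, M.jE (p i) * M.homv k p (NC.ld i f) := by
  rw [Adm.homv, ← (Fin.consEquiv (fun _ : Fin (k + 1) => Fin n)).sum_comp,
    Fintype.sum_prod_type]
  refine Finset.sum_congr rfl fun i _ => ?_
  rw [Adm.homv, Finset.mul_sum]
  refine Finset.sum_congr rfl fun w _ => ?_
  change _ = (p i ⊗ₜ[A.F] (1 : A.D)) * _
  rw [Algebra.TensorProduct.tmul_mul_tmul, one_mul]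
  simp [Fin.consEquiv, List.ofFn_succ, NC.ld_apply]

/-- leading term of an evaluation at `t^c p` -/
theorem ev_hom {n : ℕ} (g : NC (Fin n) A.D) (k c : ℕ) (hc : 1 ≤ c)
    (hg : ∀ w : List (Fin n), w.length < k → g w = 0) (p : Fin n → M.E) :
    ∃ y, M.ev (fun i => PowerSeries.X ^ c * PowerSeries.C (p i)) g =
      PowerSeries.X ^ (c * k) * (PowerSeries.C (M.homv k p g) + PowerSeries.X ^ c * y) := by
  set z : Fin n → PowerSeries M.E := fun i => PowerSeries.X ^ c * PowerSeries.C (p i) with hzdef
  have hz1 : ∀ j, Ord c (z j) := fun j => ord_of_eq (n := c)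
    (x := PowerSeries.X ^ c * PowerSeries.C (p j)) rfl
  have hz : ∀ j, PowerSeries.constantCoeff (z j) = 0 := fun j => const_of_ord hc (hz1 j)
  suffices h : Ord (c * k + c) (M.ev z g - PowerSeries.X ^ (c * k) *
      PowerSeries.C (M.homv k p g)) by
    obtain ⟨y, hy⟩ := ord_iff.1 h
    refine ⟨y, ?_⟩
    rw [mul_add, ← mul_assoc, ← pow_add, ← hy]
    abel
  induction k generalizing g with
  | zero =>
    rw [mul_zero, zero_add, pow_zero, one_mul, homv_zero]
    exact ev_sub_ord M hc hz1 g
  | succ k ih =>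
    have e : M.ev z g - PowerSeries.X ^ (c * (k + 1)) * PowerSeries.C (M.homv (k + 1) p g) =
        ∑ i, PowerSeries.map M.jE (z i) * (M.ev z (NC.ld i g) -
          PowerSeries.X ^ (c * k) * PowerSeries.C (M.homv k p (NC.ld i g))) := by
      rw [ev_rec M z hz g, hg [] (by simp), map_zero, map_zero, zero_add, homv_succ, map_sum,
        Finset.mul_sum, ← Finset.sum_sub_distrib]
      refine Finset.sum_congr rfl fun i _ => ?_
      rw [mul_sub]
      congr 1
      rw [hzdef]
      simp only [map_mul, map_pow, PowerSeries.map_X, PowerSeries.map_C]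
      rw [Nat.mul_succ, add_comm (c * k) c, pow_add, mul_assoc, mul_assoc]
      congr 1
      rw [← mul_assoc, ← mul_assoc, (PowerSeries.commute_X_pow _ _).eq]
    rw [e, Nat.mul_succ]
    refine Ord.sum fun i _ => ?_
    rw [add_comm (c * k + c) c]
    exact ((hz1 i).map _).mul (ih _ fun w hw => hg (i :: w) (by simpa using hw))

end Taylor2

end Crest.Agent.R180
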