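import Crest.Agent.R180.Basic
import Crest.Agent.R180.Move

-- ▼ part R180/ConjNF
section

/-!
# Row 180: conjugation normal form of a noncommutative power series (helper216)

* `mul_apply` : explicit Cauchy product formula;
* `exists_inv` : `f [] = 1` (or a unit) implies that `f` is a unit;
* `conj_centralizer` : a series with constant term `α` is conjugate to a series with all coefficients
  in the centralizer of `α`, provided `A = C(α) + [α, A]`;
* `exists_split` : `A = C(α) ⊕ [α, A]` for a finite-dimensional domain over a field of char. 0.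
-/

set_option autoImplicit false

namespace Crest.Agent.R180.ConjNF

open NC

section Mul

variable {σ A : Type} [Ring A]

/-- Cauchy product -/
theorem mul_apply (f g : NC σ A) (w : List σ) :
    (f * g) w = ∑ i ∈ Finset.range (w.length + 1), f (w.take i) * g (w.drop i) := by
  induction w generalizing f with
  | nil => simp
  | cons s w ih =>
    rw [mul_cons, ih, List.length_cons, Finset.sum_range_succ' _ (w.length + 1)]
    simp

theorem mul_apply_cons (f g : NC σ A) (s : σ) (w : List σ) :
    (f * g) (s :: w) = f [] * g (s :: w) +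
      (∑ i ∈ Finset.range w.length, f ((s :: w).take (i + 1)) * g ((s :: w).drop (i + 1))) +
      f (s :: w) * g [] := by
  rw [mul_apply, List.length_cons, Finset.sum_range_succ, Finset.sum_range_succ']
  simp only [List.take_zero, List.drop_zero]
  have h1 : (s :: w).take (w.length + 1) = s :: w := by
    rw [List.take_of_length_le]; simp
  have h2 : (s :: w).drop (w.length + 1) = [] := by
    rw [List.drop_eq_nil_iff]; simp
  rw [h1, h2]
  abel

/-- coefficients of the right inverse of a series with constant term `1` -/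
noncomputable def invFun (U : List σ → A) : List σ → A
  | [] => 1
  | (s :: w) => - ∑ i : Fin (w.length + 1), U (s :: w.take i) * invFun U (w.drop i)
termination_by w => w.length
decreasing_by
  simp only [List.length_drop, List.length_cons]
  omega

theorem invFun_nil (U : List σ → A) : invFun U [] = 1 := by rw [invFun]

theorem invFun_cons (U : List σ → A) (s : σ) (w : List σ) :
    invFun U (s :: w) = - ∑ i ∈ Finset.range (w.length + 1),
      U (s :: w.take i) * invFun U (w.drop i) := by
  rw [invFun, Finset.sum_range (fun i => U (s :: w.take i) * invFun U (w.drop i))]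

theorem mul_invFun (U : NC σ A) (h : U [] = 1) : U * (⟨invFun U⟩ : NC σ A) = 1 := by
  apply ext'
  intro w
  cases w with
  | nil => rw [mul_nil, h, one_nil]; show (1:A) * invFun U [] = 1; rw [invFun_nil, one_mul]
  | cons s w =>
    rw [mul_cons, mul_apply, h, one_mul, one_cons]
    show _ + invFun U (s :: w) = 0
    rw [invFun_cons]
    simp

/-- a series with constant term `1` is a unit -/
theorem exists_inv (U : NC σ A) (h : U [] = 1) : ∃ V : NC σ A, U * V = 1 ∧ V * U = 1 ∧ V [] = 1 := by
  have h1 := mul_invFun U h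
  have hV : (⟨invFun U⟩ : NC σ A) [] = 1 := invFun_nil _
  have h2 := mul_invFun (⟨invFun U⟩ : NC σ A) hV
  set V : NC σ A := ⟨invFun U⟩
  set W : NC σ A := ⟨invFun V⟩
  have hW : U = W := by
    calc U = U * (V * W) := by rw [h2, mul_one]
      _ = (U * V) * W := by rw [mul_assoc]
      _ = W := by rw [h1, one_mul]
  exact ⟨V, h1, by rw [hW]; exact h2, hV⟩


end Mul

section Conj

variable {σ A : Type} [Ring A]

/-- simultaneous recursion for the conjugating series (first component) and the conjugated series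
(second component) -/
noncomputable def ug (α : A) (π κ : A → A) (f : List σ → A) : List σ → A × A
  | [] => (1, α)
  | (s :: w) =>
    let r := f (s :: w) + ∑ i : Fin w.length,
      ((ug α π κ f ((s :: w).take (i + 1))).1 * f ((s :: w).drop (i + 1))
        - (ug α π κ f ((s :: w).take (i + 1))).2 * (ug α π κ f ((s :: w).drop (i + 1))).1)
    (κ r, π r)
termination_by w => w.length
decreasing_by
  all_goals simp only [List.length_take, List.length_drop, List.length_cons]
  all_goals omega

/-- the rest term of the recursion -/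
noncomputable def rest (α : A) (π κ : A → A) (f : List σ → A) (s : σ) (w : List σ) : A :=
  f (s :: w) + ∑ i ∈ Finset.range w.length,
      ((ug α π κ f ((s :: w).take (i + 1))).1 * f ((s :: w).drop (i + 1))
        - (ug α π κ f ((s :: w).take (i + 1))).2 * (ug α π κ f ((s :: w).drop (i + 1))).1)

theorem ug_nil (α : A) (π κ : A → A) (f : List σ → A) : ug α π κ f [] = (1, α) := by rw [ug]

theorem ug_cons (α : A) (π κ : A → A) (f : List σ → A) (s : σ) (w : List σ) :
    ug α π κ f (s :: w) = (κ (rest α π κ f s w), π (rest α π κ f s w)) := by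
  rw [ug, rest, Finset.sum_range (fun i => ((ug α π κ f ((s :: w).take (i + 1))).1 *
    f ((s :: w).drop (i + 1)) - (ug α π κ f ((s :: w).take (i + 1))).2 *
      (ug α π κ f ((s :: w).drop (i + 1))).1))]

/-- the conjugating series -/
noncomputable def cU (α : A) (π κ : A → A) (f : NC σ A) : NC σ A := ⟨fun w => (ug α π κ f w).1⟩
/-- the conjugated series -/
noncomputable def cG (α : A) (π κ : A → A) (f : NC σ A) : NC σ A := ⟨fun w => (ug α π κ f w).2⟩

theorem cU_nil (α : A) (π κ : A → A) (f : NC σ A) : cU α π κ f [] = 1 := by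
  show (ug α π κ f []).1 = 1
  rw [ug_nil]

theorem cG_nil (α : A) (π κ : A → A) (f : NC σ A) : cG α π κ f [] = α := by
  show (ug α π κ f []).2 = α
  rw [ug_nil]

theorem rest_eq (α : A) (π κ : A → A) (f : NC σ A) (s : σ) (w : List σ) :
    rest α π κ f s w = f (s :: w) + ∑ i ∈ Finset.range w.length,
      (cU α π κ f ((s :: w).take (i + 1)) * f ((s :: w).drop (i + 1))
        - cG α π κ f ((s :: w).take (i + 1)) * cU α π κ f ((s :: w).drop (i + 1))) := rfl

theorem cU_cons (α : A) (π κ : A → A) (f : NC σ A) (s : σ) (w : List σ) :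
    cU α π κ f (s :: w) = κ (rest α π κ f s w) := by
  show (ug α π κ f (s :: w)).1 = _
  rw [ug_cons]

theorem cG_cons (α : A) (π κ : A → A) (f : NC σ A) (s : σ) (w : List σ) :
    cG α π κ f (s :: w) = π (rest α π κ f s w) := by
  show (ug α π κ f (s :: w)).2 = _
  rw [ug_cons]

/-- the fundamental identity `U f = G U` -/
theorem cU_mul (α : A) (π κ : A → A) (hs : ∀ r, r = π r + (α * κ r - κ r * α)) (f : NC σ A)
    (hf : f [] = α) : cU α π κ f * f = cG α π κ f * cU α π κ f := by
  apply ext'
  intro w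
  cases w with
  | nil => simp [cU_nil, cG_nil, hf]
  | cons s w =>
    rw [mul_apply_cons, mul_apply_cons, cU_nil, cG_nil, one_mul, mul_one, cU_cons, cG_cons, hf]
    have h' : rest α π κ f s w = f (s :: w) +
      (∑ i ∈ Finset.range w.length, cU α π κ f ((s :: w).take (i + 1)) * f ((s :: w).drop (i + 1))
       - ∑ i ∈ Finset.range w.length, cG α π κ f ((s :: w).take (i + 1)) *
          cU α π κ f ((s :: w).drop (i + 1))) := by
      rw [rest_eq, Finset.sum_sub_distrib]
    have h2 := hs (rest α π κ f s w)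
    set R := rest α π κ f s w with hR
    set S1 := ∑ i ∈ Finset.range w.length,
      cU α π κ f ((s :: w).take (i + 1)) * f ((s :: w).drop (i + 1))
    set S2 := ∑ i ∈ Finset.range w.length, cG α π κ f ((s :: w).take (i + 1)) *
          cU α π κ f ((s :: w).drop (i + 1))
    have h3 : f (s :: w) + S1 - S2 = π R + (α * κ R - κ R * α) := by
      rw [← h2, h']
      abel
    have h4 : f (s :: w) + S1 = π R + (α * κ R - κ R * α) + S2 := by rw [← h3]; abel
    rw [h4]; abel

/-- **conjugation into the centralizer** -/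
theorem conj_centralizer (α : A) (hsplit : ∀ r : A, ∃ g u : A, α * g = g * α ∧
    r = g + (α * u - u * α)) (f : NC σ A) (hf : f [] = α) :
    ∃ U V : NC σ A, U * V = 1 ∧ V * U = 1 ∧ U [] = 1 ∧ V [] = 1 ∧ (U * f * V) [] = α ∧
      ∀ w, α * (U * f * V) w = (U * f * V) w * α := by
  choose π κ h1 h2 using hsplit
  obtain ⟨V, hV1, hV2, hV3⟩ := exists_inv (cU α π κ f) (cU_nil α π κ f)
  have e : cU α π κ f * f * V = cG α π κ f := by
    rw [cU_mul α π κ h2 f hf, mul_assoc, hV1, mul_one]
  refine ⟨cU α π κ f, V, hV1, hV2, cU_nil α π κ f, hV3, ?_, ?_⟩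
  · rw [e, cG_nil]
  · intro w
    rw [e]
    cases w with
    | nil => rw [cG_nil]
    | cons s w => rw [cG_cons]; exact h1 _

/-- first order coefficients of the conjugated series -/
theorem cG_single (α : A) (π κ : A → A) (f : NC σ A) (s : σ) : cG α π κ f [s] = π (f [s]) := by
  rw [cG_cons, rest_eq]; simp

theorem cU_single (α : A) (π κ : A → A) (f : NC σ A) (s : σ) : cU α π κ f [s] = κ (f [s]) := by
  rw [cU_cons, rest_eq]; simp

/-- second order coefficients of the conjugated series -/
theorem cG_pair (α : A) (π κ : A → A) (f : NC σ A) (s t : σ) :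
    cG α π κ f [s, t] = π (f [s, t] + (κ (f [s]) * f [t] - π (f [s]) * κ (f [t]))) := by
  rw [cG_cons, rest_eq]; simp [cG_single, cU_single]

end Conj

/-! ### The splitting `A = C(α) ⊕ [α, A]` -/

section Split

open Polynomial

variable {F A : Type} [Field F] [Ring A] [Algebra F A]

/-- if `y = [α, x]` commutes with `α`, then `[f(α), x] = f'(α) y` -/
theorem aeval_commutator (α x : A) (hy : α * (α * x - x * α) = (α * x - x * α) * α) (f : F[X]) :
    aeval α f * x - x * aeval α f = aeval α (derivative f) * (α * x - x * α) := by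
  induction f using Polynomial.induction_on' with
  | add p q hp hq =>
    rw [map_add, derivative_add, map_add, add_mul, mul_add, add_mul, ← hp, ← hq]; abel
  | monomial n a =>
    have key : ∀ n : ℕ, α ^ n * x - x * α ^ n = (n : A) * (α ^ (n - 1) * (α * x - x * α)) := by
      intro n
      induction n with
      | zero => simp
      | succ n ih =>
        rcases Nat.eq_zero_or_pos n with h0 | h0
        · subst h0; simp
        · have e : α ^ (n + 1) * x - x * α ^ (n + 1)
              = α * (α ^ n * x - x * α ^ n) + (α * x - x * α) * α ^ n := by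
            rw [pow_succ']; noncomm_ring
          have hc : (α * x - x * α) * α ^ n = α ^ n * (α * x - x * α) :=
            (Commute.pow_left (show Commute α (α * x - x * α) from hy) n).symm
          rw [e, ih, hc]
          have e2 : α * ((n : A) * (α ^ (n - 1) * (α * x - x * α)))
              = (n : A) * (α ^ n * (α * x - x * α)) := by
            have hn : α ^ n = α * α ^ (n - 1) := by
              rw [← pow_succ', Nat.sub_add_cancel h0]
            rw [hn, ← mul_assoc, (Nat.cast_commute n α).eq.symm, mul_assoc, mul_assoc]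
          rw [e2, Nat.add_sub_cancel, Nat.cast_succ, add_mul, one_mul]
    rw [aeval_monomial, derivative_monomial, aeval_monomial]
    have e1 : algebraMap F A a * α ^ n * x - x * (algebraMap F A a * α ^ n)
        = algebraMap F A a * (α ^ n * x - x * α ^ n) := by
      rw [mul_sub, ← mul_assoc x, ← Algebra.commutes a x]; simp only [mul_assoc]
    rw [e1, key n, map_mul, map_natCast]
    simp only [mul_assoc]

/-- the linear map `x ↦ α x - x α` -/
def ad (F : Type) {A : Type} [Field F] [Ring A] [Algebra F A] (α : A) : A →ₗ[F] A where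
  toFun x := α * x - x * α
  map_add' x y := by noncomm_ring
  map_smul' c x := by simp [smul_sub]

@[simp] theorem ad_apply (α x : A) : ad F α x = α * x - x * α := rfl

theorem disjoint_ker_range [CharZero F] [FiniteDimensional F A] [IsDomain A] (α : A) :
    Disjoint (LinearMap.ker (ad F α)) (LinearMap.range (ad F α)) := by
  rw [Submodule.disjoint_def]
  rintro y hy ⟨x, rfl⟩
  have hint : IsIntegral F α := Algebra.IsIntegral.isIntegral α
  have hirr : Irreducible (minpoly F α) := minpoly.irreducible hint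
  have hsep : (minpoly F α).Separable := hirr.separable
  have hy' : α * (α * x - x * α) = (α * x - x * α) * α := by
    have := LinearMap.mem_ker.1 hy
    simp only [ad_apply] at this
    exact sub_eq_zero.1 this
  have h := aeval_commutator (F := F) α x hy' (minpoly F α)
  rw [minpoly.aeval] at h
  simp only [zero_mul, mul_zero, sub_zero] at h
  rcases mul_eq_zero.1 h.symm with h1 | h1
  · exfalso
    obtain ⟨a, b, hab⟩ := hsep
    have h2 := congrArg (aeval α) hab
    rw [map_add, map_mul, map_mul, minpoly.aeval, h1, mul_zero, mul_zero, add_zero, map_one] at h2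
    exact zero_ne_one h2
  · simpa using h1

theorem isCompl_ker_range [CharZero F] [FiniteDimensional F A] [IsDomain A] (α : A) :
    IsCompl (LinearMap.ker (ad F α)) (LinearMap.range (ad F α)) := by
  refine ⟨disjoint_ker_range α, codisjoint_iff.2 ?_⟩
  apply Submodule.eq_top_of_disjoint _ _ _ (disjoint_ker_range α)
  rw [add_comm]
  exact le_of_eq (LinearMap.finrank_range_add_finrank_ker (ad F α)).symm

/-- the splitting data: `π` = projection to the centralizer along `[α, A]`,
`κ` = inverse of `ad α` on `[α, A]` (and `0` on the centralizer) -/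
structure SplitData (F : Type) {A : Type} [Field F] [Ring A] [Algebra F A] (α : A) where
  π : A →ₗ[F] A
  κ : A →ₗ[F] A
  split : ∀ r, r = π r + (α * κ r - κ r * α)
  comm : ∀ r, α * π r = π r * α
  π_of_comm : ∀ c, α * c = c * α → π c = c
  π_ad : ∀ x, π (α * x - x * α) = 0
  κ_of_comm : ∀ c, α * c = c * α → κ c = 0
  κ_ad : ∀ x, κ (α * x - x * α) = x - π x
  π_κ : ∀ r, π (κ r) = 0

namespace SplitData

variable {α : A} (S : SplitData F α)
include S



/-- uniqueness of the decomposition -/
theorem eq_of_split {r g u : A} (hg : α * g = g * α) (h : r = g + (α * u - u * α)) :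
    S.π r = g ∧ S.κ r = u - S.π u := by
  subst h
  rw [map_add, map_add, S.π_ad, S.κ_ad, S.π_of_comm g hg, S.κ_of_comm g hg]
  simp

theorem π_mul_left {c : A} (hc : α * c = c * α) (x : A) : S.π (c * x) = c * S.π x ∧
    S.κ (c * x) = c * S.κ x := by
  have h1 : c * x = c * S.π x + (α * (c * S.κ x) - (c * S.κ x) * α) := by
    conv_lhs => rw [S.split x]
    rw [mul_add, mul_sub, ← mul_assoc α c, hc]
    simp only [mul_assoc]
  have h2 : α * (c * S.π x) = (c * S.π x) * α := by
    rw [← mul_assoc, hc, mul_assoc, S.comm x, mul_assoc]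
  obtain ⟨h3, h4⟩ := S.eq_of_split h2 h1
  refine ⟨h3, ?_⟩
  rw [h4]
  have h5 : S.π (c * S.κ x) = 0 := by
    have h6 : c * S.κ x = 0 + (α * (c * S.κ (S.κ x)) - (c * S.κ (S.κ x)) * α) := by
      have := S.split (S.κ x)
      rw [S.π_κ, zero_add] at this
      conv_lhs => rw [this]
      rw [zero_add, mul_sub, ← mul_assoc α c, hc]
      simp only [mul_assoc]
    exact (S.eq_of_split (by simp) h6).1
  rw [h5, sub_zero]

theorem π_mul_right {c : A} (hc : α * c = c * α) (x : A) : S.π (x * c) = S.π x * c ∧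
    S.κ (x * c) = S.κ x * c := by
  have h1 : x * c = S.π x * c + (α * (S.κ x * c) - (S.κ x * c) * α) := by
    conv_lhs => rw [S.split x]
    rw [add_mul, sub_mul, mul_assoc (S.κ x) c, ← hc]
    simp only [mul_assoc]
  have h2 : α * (S.π x * c) = (S.π x * c) * α := by
    rw [← mul_assoc, S.comm x, mul_assoc, hc, mul_assoc]
  obtain ⟨h3, h4⟩ := S.eq_of_split h2 h1
  refine ⟨h3, ?_⟩
  rw [h4]
  have h5 : S.π (S.κ x * c) = 0 := by
    have h6 : S.κ x * c = 0 + (α * (S.κ (S.κ x) * c) - (S.κ (S.κ x) * c) * α) := by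
      have := S.split (S.κ x)
      rw [S.π_κ, zero_add] at this
      conv_lhs => rw [this]
      rw [zero_add, sub_mul, mul_assoc (S.κ (S.κ x)) c, ← hc]
      simp only [mul_assoc]
    exact (S.eq_of_split (by simp) h6).1
  rw [h5, sub_zero]


end SplitData

/-- existence of the splitting, from `A = ker ⊕ range` for `ad α` -/
theorem exists_splitData_of_isCompl [FiniteDimensional F A] (α : A)
    (hc : IsCompl (LinearMap.ker (ad F α)) (LinearMap.range (ad F α))) :
    Nonempty (SplitData F α) := by
  classical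
  set T := ad F α with hT
  have hres : ∀ x ∈ LinearMap.range T, T x ∈ LinearMap.range T := fun x _ => ⟨x, rfl⟩
  have hinj : Function.Injective (T.restrict hres) := by
    rw [← LinearMap.ker_eq_bot, LinearMap.ker_eq_bot']
    rintro ⟨y, hy⟩ h0
    have h1 : T y = 0 := by
      have := congrArg Subtype.val h0
      simpa using this
    have h2 := Submodule.disjoint_def.1 hc.disjoint y (LinearMap.mem_ker.2 h1) hy
    exact Subtype.ext h2
  set e := LinearEquiv.ofInjectiveEndo (T.restrict hres) hinj with he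
  set π := (LinearMap.ker T).projection (LinearMap.range T) hc with hπ
  set p2 := (LinearMap.range T).projectionOnto (LinearMap.ker T) hc.symm with hp2
  set κ : A →ₗ[F] A := (LinearMap.range T).subtype ∘ₗ e.symm.toLinearMap ∘ₗ p2 with hκ
  have hTκ : ∀ r, T (κ r) = (p2 r : A) := by
    intro r
    have h1 : e (e.symm (p2 r)) = p2 r := e.apply_symm_apply _
    have h2 : ((e (e.symm (p2 r)) : LinearMap.range T) : A) = T ((e.symm (p2 r) : LinearMap.range T) : A) := by
      rw [he, LinearEquiv.coe_ofInjectiveEndo]; rfl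
    rw [h1] at h2
    exact h2.symm
  have hmem : ∀ c, α * c = c * α ↔ c ∈ LinearMap.ker T := by
    intro c
    rw [LinearMap.mem_ker, hT, ad_apply, sub_eq_zero]
  refine ⟨⟨π, κ, ?_, ?_, ?_, ?_, ?_, ?_, ?_⟩⟩
  · intro r
    have h1 := Submodule.projection_add_projection_eq_self hc r
    have h2 : α * κ r - κ r * α = (p2 r : A) := hTκ r
    rw [h2]
    exact h1.symm
  · intro r
    exact (hmem _).2 (Submodule.projection_apply_mem hc r)
  · intro c hcc
    exact Submodule.projection_apply_of_mem_left hc ((hmem c).1 hcc)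
  · intro x
    rw [hπ, Submodule.projection_apply_eq_zero_iff]
    exact ⟨x, rfl⟩
  · intro c hcc
    have : p2 c = 0 := by
      rw [hp2, Submodule.projectionOnto_apply_eq_zero_iff]
      exact (hmem c).1 hcc
    simp [hκ, this]
  · intro x
    -- κ (T x) = x - π x
    have h1 : x - π x ∈ LinearMap.range T := by
      rw [hπ, ← Submodule.projection_eq_self_sub_projection hc]
      exact Submodule.projection_apply_mem hc.symm x
    have h2 : T x = T (x - π x) := by
      rw [map_sub, LinearMap.mem_ker.1 (Submodule.projection_apply_mem hc x), sub_zero]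
    have h3 : p2 (T x) = e ⟨x - π x, h1⟩ := by
      have h4 : (e ⟨x - π x, h1⟩ : LinearMap.range T) = ⟨T x, ⟨x, rfl⟩⟩ := by
        apply Subtype.ext
        rw [he, LinearEquiv.coe_ofInjectiveEndo]
        show T (x - π x) = T x
        exact h2.symm
      rw [h4]
      exact Submodule.projectionOnto_apply_of_mem_left hc.symm _
    show κ (T x) = x - π x
    simp only [hκ, LinearMap.comp_apply, h3]
    show ((e.symm (e ⟨x - π x, h1⟩) : LinearMap.range T) : A) = x - π x
    rw [e.symm_apply_apply]
  · intro r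
    rw [hπ, Submodule.projection_apply_eq_zero_iff]
    exact Subtype.mem _

/-- existence of the splitting in a finite-dimensional domain over a field of characteristic `0` -/
theorem exists_splitData [CharZero F] [FiniteDimensional F A] [IsDomain A] (α : A) :
    Nonempty (SplitData F α) :=
  exists_splitData_of_isCompl α (isCompl_ker_range α)

end Split

/-! ### Normal form with coefficients in the centralizer -/

section NF

variable {σ F A : Type} [Field F] [Ring A] [Algebra F A]



end NF

/-! ### Conjugation by `1 + b`, `b` of order `≥ k` -/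

section Elem

variable {σ A : Type} [Ring A]


end Elem

end Crest.Agent.R180.ConjNF
private theorem rz_88b3da3249 : type_of% @_root_.Crest.Agent.R180.ConjNF.invFun.eq_1 := @_root_.Crest.Agent.R180.ConjNF.invFun.eq_1 -- L46
private theorem rz_262348e3c4 : type_of% @_root_.Crest.Agent.R180.ConjNF.invFun.eq_def := @_root_.Crest.Agent.R180.ConjNF.invFun.eq_def -- L46
private theorem rz_b7654f335d : type_of% @_root_.Crest.Agent.R180.ConjNF.ug.eq_1 := @_root_.Crest.Agent.R180.ConjNF.ug.eq_1 -- L106
private theorem rz_3608c948ac : type_of% @_root_.Crest.Agent.R180.ConjNF.ug.eq_def := @_root_.Crest.Agent.R180.ConjNF.ug.eq_def -- L106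
end

-- ▼ part R180/ModR

set_option autoImplicit false

/-!
# Row 180, MODULE R: behaviour of representations under moves
-/

noncomputable section
namespace Crest.Agent.R180

open TensorProduct

/-! ### Laurent series: orders of products -/

theorem LD.co_mul_eq_zero {K : Type} [Ring K] (x y : LD K) (a b : ℤ)
    (hx : ∀ j < a, x.co j = 0) (hy : ∀ j < b, y.co j = 0) :
    ∀ j < a + b, (x * y).co j = 0 := by
  intro j hj
  have h1 := @HahnSeries.coeff_mul ℤ K _ _ _ _ (x : HahnSeries ℤ K) (y : HahnSeries ℤ K) j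
  refine h1.trans (Finset.sum_eq_zero ?_)
  rintro ⟨p, q⟩ hpq
  rw [Finset.mem_antidiagonal] at hpq
  have h2 : p + q = j := hpq.2.2
  by_cases hp : p < a
  · have : HahnSeries.coeff (x : HahnSeries ℤ K) p = 0 := hx p hp
    simp only [this, zero_mul]
  · have : HahnSeries.coeff (y : HahnSeries ℤ K) q = 0 := hy q (by omega)
    simp only [this, mul_zero]

/-! ### Closedness -/

/-- An `LF F`-submodule of `NC μ (LD K)` is closed: truncations of `t`-adic limits. -/
theorem trunc_closed {F K : Type} [Field F] [Ring K] [Algebra F K] [Module.Finite F K] {μ : ℕ}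
    (S : Submodule (LF F) (NC (Fin μ) (LD K))) (f : NC (Fin μ) (LD K)) (k : ℕ)
    (h : ∀ n : ℕ, ∃ s ∈ S, ∀ w : List (Fin μ), w.length < k → ∀ j : ℤ, j < n →
      (f w - s w).co j = 0) :
    ∃ g ∈ S, ∀ w : List (Fin μ), w.length < k → f w = g w := by
  classical
  have hfin : Finite {w : List (Fin μ) // w.length < k} :=
    (List.finite_length_lt (Fin μ) k).to_subtype
  let ρ : NC (Fin μ) (LD K) →ₗ[LF F] ({w : List (Fin μ) // w.length < k} → LD K) :=
    { toFun := fun f w => f w.1
      map_add' := fun f g => rfl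
      map_smul' := fun c f => funext fun w => NC.smul_apply c f w.1 }
  have hmem : ρ f ∈ S.map ρ := by
    apply LD.closed_pi
    intro n
    obtain ⟨s, hs, hsw⟩ := h n.toNat
    refine ⟨ρ s, Submodule.mem_map_of_mem hs, fun w j hj => ?_⟩
    exact hsw w.1 w.2 j (lt_of_lt_of_le hj (Int.self_le_toNat n))
  obtain ⟨g, hg, hgf⟩ := hmem
  refine ⟨g, hg, fun w hw => ?_⟩
  exact (congrFun hgf ⟨w, hw⟩).symm

/-! ### The move homomorphism -/

section hX

variable {A : DA} (M : Adm A) {m μ : ℕ} (X : Fin m → NC (Fin μ) (PowerSeries M.E))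
  (hX : ∀ j, PowerSeries.constantCoeff (X j []) = 0)

theorem Adm.hX_C (d : A.D) : M.hX X hX (NC.C d) = NC.C (M.inc d) := by
  change NC.map (LD.ofPS (K := M.D0)) (NC.subst (M.filt μ) (M.phi0 μ) (M.let0 X) (M.let0_mem X hX)
    (M.let0_comm X) (NC.C d)) = _
  rw [NC.subst_C]
  change NC.map (LD.ofPS (K := M.D0)) (NC.C (PowerSeries.C (M.jD d))) = _
  rw [NC.map_C]
  rfl

/-- continuity of the move homomorphism -/
theorem Adm.hX_co (n : ℕ) (f : NC (Fin m) A.D) (hf : ∀ w : List (Fin m), w.length < n → f w = 0)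
    (v : List (Fin μ)) (j : ℤ) (hj : j < (n : ℤ) - v.length) :
    LD.co (M.hX X hX f v) j = 0 := by
  have h1 : M.hX0 X hX f ∈ (M.filt μ).I n :=
    NC.subst_mem (M.filt μ) (M.phi0 μ) (M.let0 X) (M.let0_mem X hX) (M.let0_comm X) n f hf
  have h2 : M.hX0 X hX f v ∈ (CFilt.powerSeries M.D0).I (n - v.length) := h1 v
  rw [CFilt.mem_powerSeries] at h2
  change LD.co (LD.ofPS (M.hX0 X hX f v)) j = 0
  by_cases hj0 : j < 0
  · exact LD.co_ofPS_neg _ _ hj0
  · obtain ⟨i, rfl⟩ := Int.eq_ofNat_of_zero_le (not_lt.1 hj0)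
    exact (LD.co_ofPS _ i).trans (h2 i (by omega))

end hX

/-- commuting generators generate a commutative subalgebra -/
theorem adjoin_comm_of {R B : Type*} [CommRing R] [Ring B] [Algebra R B] {s : Set B}
    (hs : ∀ a ∈ s, ∀ b ∈ s, a * b = b * a) {a b : B} (ha : a ∈ Algebra.adjoin R s)
    (hb : b ∈ Algebra.adjoin R s) : a * b = b * a := by
  have h := (Algebra.isMulCommutative_adjoin R hs).is_comm.comm ⟨a, ha⟩ ⟨b, hb⟩
  exact congrArg Subtype.val h

theorem adjoin_comm_elt {R B : Type*} [CommRing R] [Ring B] [Algebra R B] {s : Set B} {y : B}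
    (hs : ∀ a ∈ s, a * y = y * a) {a : B} (ha : a ∈ Algebra.adjoin R s) : a * y = y * a := by
  induction ha using Algebra.adjoin_induction with
  | mem a ha => exact hs a ha
  | algebraMap c => exact Algebra.commutes _ _
  | add a b _ _ ha hb => rw [add_mul, mul_add, ha, hb]
  | mul a b _ _ ha hb => rw [mul_assoc, hb, ← mul_assoc, ha, mul_assoc]

/-- finitely many Laurent series have a common lower bound on the order -/
theorem exists_common_bound {K : Type} [Ring K] {μ : ℕ} (f : NC (Fin μ) (LD K)) (k : ℕ) :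
    ∃ N : ℕ, ∀ w : List (Fin μ), w.length < k → ∀ j : ℤ, j < -(N : ℤ) → (f w).co j = 0 := by
  classical
  have hfin : Finite {w : List (Fin μ) // w.length < k} :=
    (List.finite_length_lt (Fin μ) k).to_subtype
  have := Fintype.ofFinite {w : List (Fin μ) // w.length < k}
  choose b hb using fun w : {w : List (Fin μ) // w.length < k} => LD.exists_bound (f w.1)
  refine ⟨∑ w, (b w).natAbs, fun w hw j hj => hb ⟨w, hw⟩ j ?_⟩
  have h1 : (b ⟨w, hw⟩).natAbs ≤ ∑ w, (b w).natAbs :=
    Finset.single_le_sum (f := fun w => (b w).natAbs) (fun _ _ => Nat.zero_le _)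
      (Finset.mem_univ (⟨w, hw⟩ : {w : List (Fin μ) // w.length < k}))
  omega

/-- `t`-order estimate for the conjugate of a small series -/
theorem conj_small {K : Type} [Ring K] {μ : ℕ} (w w' : NC (Fin μ) (LD K)) (k : ℕ) :
    ∃ N : ℕ, ∀ (h : NC (Fin μ) (LD K)) (n : ℤ),
      (∀ v : List (Fin μ), v.length < k → ∀ j : ℤ, j < n → (h v).co j = 0) →
      ∀ v : List (Fin μ), v.length < k → ∀ j : ℤ, j < n - N → ((w * h * w') v).co j = 0 := by
  obtain ⟨N₁, h₁⟩ := exists_common_bound w k
  obtain ⟨N₂, h₂⟩ := exists_common_bound w' k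
  have hsum : ∀ (s : Finset ℕ) (F : ℕ → LD K) (j : ℤ), (∀ i ∈ s, (F i).co j = 0) →
      (∑ i ∈ s, F i).co j = 0 := by
    intro s F j hs
    induction s using Finset.induction_on with
    | empty => simp
    | insert a s ha ih =>
      rw [Finset.sum_insert ha, LD.co_add, hs a (Finset.mem_insert_self a s),
        ih fun i hi => hs i (Finset.mem_insert_of_mem hi), add_zero]
  refine ⟨N₁ + N₂, fun h n hh v hv j hj => ?_⟩
  push_cast at hj
  rw [ConjNF.mul_apply]
  refine hsum _ _ _ fun i hi => ?_
  have hlen : (v.take i).length < k := lt_of_le_of_lt (List.length_take_le' i v) hv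
  have hlen' : (v.drop i).length < k := by
    rw [List.length_drop]; omega
  refine LD.co_mul_eq_zero _ _ (n - N₁) (-(N₂ : ℤ)) ?_ (h₂ _ hlen') j (by omega)
  intro j hj
  rw [ConjNF.mul_apply]
  refine hsum _ _ _ fun i' hi' => ?_
  have hlen1 : ((v.take i).take i').length < k := lt_of_le_of_lt (List.length_take_le' i' _) hlen
  have hlen2 : ((v.take i).drop i').length < k := by
    rw [List.length_drop]; omega
  exact LD.co_mul_eq_zero _ _ (-(N₁ : ℤ)) n (h₁ _ hlen1) (hh _ hlen2) j (by omega)

/-- General closure principle: if `f` is in the `𝔪`-adic closure of a set `G` and `G` is moved into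
a submodule `S`, then the conjugated image of `f` is in the `𝔪`-adic closure of `S`. -/
theorem closure_move {A : DA} {m : ℕ} (M : Adm A) {μ : ℕ}
    (X : Fin m → NC (Fin μ) (PowerSeries M.E))
    (hX : ∀ j, PowerSeries.constantCoeff (X j []) = 0)
    (w w' : NC (Fin μ) (A.mv M).D) (G : Set (NC (Fin m) A.D))
    (S : Submodule (A.mv M).F (NC (Fin μ) (A.mv M).D))
    (hG : ∀ g ∈ G, w * M.hX X hX g * w' ∈ S) (f : NC (Fin m) A.D)
    (hf : ∀ k : ℕ, ∃ g ∈ G, ∀ v : List (Fin m), v.length < k → f v = g v) (k : ℕ) :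
    ∃ g ∈ S, ∀ v : List (Fin μ), v.length < k → (w * M.hX X hX f * w') v = g v := by
  obtain ⟨N, hN⟩ := conj_small (K := M.D0) (w : NC (Fin μ) (LD M.D0)) (w' : NC (Fin μ) (LD M.D0)) k
  refine trunc_closed (F := M.F1) (K := M.D0) S _ k fun n => ?_
  obtain ⟨g, hgG, hg⟩ := hf (n + N + k)
  refine ⟨w * M.hX X hX g * w', hG g hgG, fun v hv j hj => ?_⟩
  have h1 : ∀ v : List (Fin μ), v.length < k → ∀ j : ℤ, j < (n : ℤ) + N →
      LD.co (M.hX X hX (f - g) v) j = 0 := by
    intro v hv j hj
    refine M.hX_co X hX (n + N + k) (f - g) (fun u hu => ?_) v j ?_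
    · rw [NC.sub_apply, hg u hu, sub_self]
    · push_cast; omega
  have h2 := hN (M.hX X hX (f - g)) ((n : ℤ) + N) h1 v hv j (by omega)
  have h3 : (w * M.hX X hX f * w') v - (w * M.hX X hX g * w') v =
      (w * M.hX X hX (f - g) * w') v := by
    rw [map_sub, mul_sub, sub_mul, NC.sub_apply]
  have h4 := congrArg (fun z => LD.co (K := M.D0) z j) h3
  exact h4.trans h2

/-- MODULE R: behaviour of representations under good moves. `c0` is the constant term of
the image of `γ`; `w` conjugates the image to `c0 + γ'` with `γ'` commuting with `Λ` and `c0`. -/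
theorem RS.move {P : (A : DA) → (m : ℕ) → NC (Fin m) A.D → Prop} (hP : MoveClosed P)
    {A : DA} {m : ℕ} {Λ : Subalgebra A.F A.D} {γ : NC (Fin m) A.D} (h : RS P A m Λ γ)
    (M : Adm A) {μ : ℕ} (X : Fin m → NC (Fin μ) (PowerSeries M.E)) (hX : Good' M X)
    (w w' γ' : NC (Fin μ) (A.mv M).D) (hw : w * w' = 1) (hw' : w' * w = 1)
    (hwΛ : ∀ v, ∀ a ∈ Λ, M.inc a * w v = w v * M.inc a)
    (c0 : (A.mv M).D)
    (hconj : w * M.hX X hX.x0 γ * w' = NC.C c0 + γ')
    (hγ0 : γ' [] = 0)
    (hγΛ : ∀ v, ∀ a ∈ Λ, M.inc a * γ' v = γ' v * M.inc a)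
    (hγc : ∀ v, c0 * γ' v = γ' v * c0)
    (hcΛ : ∀ a ∈ Λ, M.inc a * c0 = c0 * M.inc a) :
    RS P (A.mv M) μ (Algebra.adjoin (A.mv M).F
      (M.inc '' (Λ : Set A.D) ∪ {c0})) γ' := by
  set Λ' := Algebra.adjoin (A.mv M).F (M.inc '' (Λ : Set A.D) ∪ {c0}) with hΛ'
  have hincΛ' : ∀ a ∈ Λ, M.inc a ∈ Λ' := fun a ha =>
    Algebra.subset_adjoin (Or.inl ⟨a, ha, rfl⟩)
  have hc0Λ' : c0 ∈ Λ' := Algebra.subset_adjoin (Or.inr rfl)
  refine ⟨?_, hγ0, ?_, ?_⟩
  · intro a ha b hb
    refine adjoin_comm_of ?_ ha hb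
    rintro _ (⟨a₁, ha₁, rfl⟩ | ha₁) _ (⟨b₁, hb₁, rfl⟩ | hb₁)
    · rw [← map_mul, h.comm a₁ ha₁ b₁ hb₁, map_mul]
    · rw [Set.mem_singleton_iff.1 hb₁]; exact hcΛ a₁ ha₁
    · rw [Set.mem_singleton_iff.1 ha₁]; exact (hcΛ b₁ hb₁).symm
    · rw [Set.mem_singleton_iff.1 ha₁, Set.mem_singleton_iff.1 hb₁]
  · intro v a ha
    refine adjoin_comm_elt ?_ ha
    rintro _ (⟨a, ha, rfl⟩ | ha)
    · exact hγΛ v a ha
    · rw [Set.mem_singleton_iff] at ha; subst ha; exact hγc v
  · obtain ⟨a, v, v', hv, hv', hPa, hcl⟩ := h.rep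
    have e1 : (w * M.hX X hX.x0 v) * (M.hX X hX.x0 v' * w') = 1 := by
      rw [mul_assoc, ← mul_assoc (M.hX X hX.x0 v), ← map_mul, hv, map_one, one_mul, hw]
    have e2 : (M.hX X hX.x0 v' * w') * (w * M.hX X hX.x0 v) = 1 := by
      rw [mul_assoc, ← mul_assoc w', hw', one_mul, ← map_mul, hv', map_one]
    refine ⟨M.hX X hX.x0 a, w * M.hX X hX.x0 v, M.hX X hX.x0 v' * w', e1, e2,
      hP A m a hPa M μ X hX, ?_⟩
    have e3 : (w * M.hX X hX.x0 v) * M.hX X hX.x0 a * (M.hX X hX.x0 v' * w') =
        w * M.hX X hX.x0 (v * a * v') * w' := by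
      rw [map_mul, map_mul]; noncomm_ring
    rw [e3]
    intro k
    set B' := Algebra.adjoin (A.mv M).F
      ((fun d => (NC.C d : NC (Fin μ) (A.mv M).D)) '' (Λ' : Set (A.mv M).D) ∪ {γ'}) with hB'
    have hCB : ∀ d ∈ Λ', (NC.C d : NC (Fin μ) (A.mv M).D) ∈ B' := fun d hd =>
      Algebra.subset_adjoin (Or.inl ⟨d, hd, rfl⟩)
    have hγB : γ' ∈ B' := Algebra.subset_adjoin (Or.inr rfl)
    have hΛw : ∀ d ∈ Λ, w * NC.C (M.inc d) * w' = NC.C (M.inc d) := by
      intro d hd
      have : w * NC.C (M.inc d) = NC.C (M.inc d) * w := by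
        apply NC.ext'; intro u
        rw [NC.mul_C_apply, NC.C_mul_apply, hwΛ u d hd]
      rw [this, mul_assoc, hw, mul_one]
    have hG : ∀ g ∈ Algebra.adjoin A.F ((fun d => (NC.C d : NC (Fin m) A.D)) '' (Λ : Set A.D)
        ∪ {γ}), w * M.hX X hX.x0 g * w' ∈ B' := by
      intro g hg
      induction hg using Algebra.adjoin_induction with
      | mem g hg =>
        rcases hg with ⟨d, hd, rfl⟩ | hg
        · change w * M.hX X hX.x0 (NC.C d) * w' ∈ B'
          rw [M.hX_C, hΛw d hd]
          exact hCB _ (hincΛ' d hd)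
        · rw [Set.mem_singleton_iff] at hg
          subst hg
          rw [hconj]
          exact B'.add_mem (hCB _ hc0Λ') hγB
      | algebraMap c =>
        rw [NC.algebraMap_eq, M.hX_C, hΛw _ (Λ.algebraMap_mem c)]
        exact hCB _ (hincΛ' _ (Λ.algebraMap_mem c))
      | add g₁ g₂ _ _ h₁ h₂ =>
        rw [map_add, mul_add, add_mul]
        exact B'.add_mem h₁ h₂
      | mul g₁ g₂ _ _ h₁ h₂ =>
        have : w * M.hX X hX.x0 (g₁ * g₂) * w' =
            (w * M.hX X hX.x0 g₁ * w') * (w * M.hX X hX.x0 g₂ * w') := by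
          rw [map_mul]
          calc w * (M.hX X hX.x0 g₁ * M.hX X hX.x0 g₂) * w'
              = w * M.hX X hX.x0 g₁ * 1 * M.hX X hX.x0 g₂ * w' := by noncomm_ring
            _ = w * M.hX X hX.x0 g₁ * (w' * w) * M.hX X hX.x0 g₂ * w' := by rw [hw']
            _ = _ := by noncomm_ring
        rw [this]
        exact B'.mul_mem h₁ h₂
    exact closure_move M X hX.x0 w w'
      (Algebra.adjoin A.F ((fun d => (NC.C d : NC (Fin m) A.D)) '' (Λ : Set A.D) ∪ {γ}) : Set _)
      (Subalgebra.toSubmodule B') hG (v * a * v') hcl k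


/-- end of the game: `γ = 0` means that `a` is algebraic -/
theorem RS.final {P : (A : DA) → (m : ℕ) → NC (Fin m) A.D → Prop}
    {A : DA} {m : ℕ} {Λ : Subalgebra A.F A.D} (h : RS P A m Λ 0) :
    ∃ a : NC (Fin m) A.D, P A m a ∧ IsAlgebraic A.F a := by
  obtain ⟨a, v, v', hv, hv', hPa, hcl⟩ := h.rep
  refine ⟨a, hPa, ?_⟩
  have hconst : ∀ g ∈ Algebra.adjoin A.F
      ((fun d => (NC.C d : NC (Fin m) A.D)) '' (Λ : Set A.D) ∪ {0}),
      ∃ d : A.D, g = NC.C d := by
    intro g hg
    induction hg using Algebra.adjoin_induction with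
    | mem g hg =>
      rcases hg with ⟨d, _, rfl⟩ | hg
      · exact ⟨d, rfl⟩
      · exact ⟨0, by rw [Set.mem_singleton_iff.1 hg, map_zero]⟩
    | algebraMap c => exact ⟨algebraMap A.F A.D c, NC.algebraMap_eq c⟩
    | add g₁ g₂ _ _ h₁ h₂ =>
      obtain ⟨d₁, rfl⟩ := h₁
      obtain ⟨d₂, rfl⟩ := h₂
      exact ⟨d₁ + d₂, (map_add _ _ _).symm⟩
    | mul g₁ g₂ _ _ h₁ h₂ =>
      obtain ⟨d₁, rfl⟩ := h₁
      obtain ⟨d₂, rfl⟩ := h₂
      exact ⟨d₁ * d₂, (map_mul _ _ _).symm⟩
  have hb : v * a * v' = NC.C ((v * a * v') []) := by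
    apply NC.ext'; intro w
    obtain ⟨g, hg, hgw⟩ := hcl (w.length + 1)
    obtain ⟨d, rfl⟩ := hconst g hg
    rw [hgw w (Nat.lt_succ_self _), hgw [] (by simp)]
    rw [NC.C_nil]
  have halg : IsAlgebraic A.F ((v * a * v') []) := Algebra.IsAlgebraic.isAlgebraic _
  have halg' : IsAlgebraic A.F (v * a * v') := by
    obtain ⟨p, hp0, hp⟩ := halg
    refine ⟨p, hp0, ?_⟩
    rw [hb]
    have : ∀ d : A.D, Polynomial.aeval (NC.C d : NC (Fin m) A.D) p =
        NC.C (Polynomial.aeval d p) := by
      intro d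
      rw [Polynomial.aeval_eq_sum_range, Polynomial.aeval_eq_sum_range, map_sum]
      refine Finset.sum_congr rfl fun i _ => ?_
      rw [Algebra.smul_def, Algebra.smul_def, map_mul, map_pow, NC.algebraMap_eq]
    rw [this, hp, map_zero]
  obtain ⟨p, hp0, hp⟩ := halg'
  refine ⟨p, hp0, ?_⟩
  have hpow : ∀ n : ℕ, (v * a * v') ^ n = v * a ^ n * v' := by
    intro n
    induction n with
    | zero => rw [pow_zero, pow_zero, mul_one, hv]
    | succ n ih =>
      rw [pow_succ, ih, pow_succ]
      calc v * a ^ n * v' * (v * a * v') = v * a ^ n * (v' * v) * a * v' := by noncomm_ring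
        _ = v * (a ^ n * a) * v' := by rw [hv']; noncomm_ring
  have hconj : Polynomial.aeval (v * a * v') p = v * Polynomial.aeval a p * v' := by
    rw [Polynomial.aeval_eq_sum_range, Polynomial.aeval_eq_sum_range, Finset.mul_sum,
      Finset.sum_mul]
    refine Finset.sum_congr rfl fun i _ => ?_
    rw [hpow, mul_smul_comm, smul_mul_assoc]
  calc Polynomial.aeval a p = (v' * v) * Polynomial.aeval a p * (v' * v) := by
        rw [hv', one_mul, mul_one]
    _ = v' * (v * Polynomial.aeval a p * v') * v := by noncomm_ring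
    _ = 0 := by rw [← hconj, hp, mul_zero, zero_mul]

/-- start: conjugate `a` to `a[] + γ` with `γ` commuting with `a[]` -/
theorem RS.start {P : (A : DA) → (m : ℕ) → NC (Fin m) A.D → Prop}
    {A : DA} {m : ℕ} (a : NC (Fin m) A.D) (ha : P A m a) :
    ∃ γ : NC (Fin m) A.D, RS P A m (Algebra.adjoin A.F {a []}) γ := by
  obtain ⟨S⟩ := ConjNF.exists_splitData (F := A.F) (a [])
  obtain ⟨U, V, hUV, hVU, hU, hV, h0, hc⟩ := ConjNF.conj_centralizer (a [])
    (fun r => ⟨S.π r, S.κ r, S.comm r, S.split r⟩) a rfl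
  refine ⟨U * a * V - NC.C (a []), ?_, ?_, ?_, ?_⟩
  · intro b hb c hc'
    exact adjoin_comm_of (fun x hx y hy => by
      rw [Set.mem_singleton_iff.1 hx, Set.mem_singleton_iff.1 hy]) hb hc'
  · rw [NC.sub_apply, h0, NC.C_nil, sub_self]
  · intro w b hb
    refine adjoin_comm_elt ?_ hb
    intro x hx
    rw [Set.mem_singleton_iff.1 hx, NC.sub_apply, mul_sub, sub_mul, hc w]
    congr 1
    cases w with
    | nil => rfl
    | cons s w => rw [NC.C_cons, mul_zero, zero_mul]
  · refine ⟨a, U, V, hUV, hVU, ha, fun k => ⟨U * a * V, ?_, fun w _ => rfl⟩⟩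
    have e : U * a * V = NC.C (a []) + (U * a * V - NC.C (a [])) := by abel
    rw [e]
    refine Subalgebra.add_mem _ (Algebra.subset_adjoin (Or.inl ⟨a [], ?_, rfl⟩))
      (Algebra.subset_adjoin (Or.inr ?_))
    · exact Algebra.subset_adjoin rfl
    · simp

end Crest.Agent.R180
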