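import Crest.Agent.R180.MinDefs
import Crest.Agent.R180.ModR
import Crest.Agent.R180.MinTaylor
import Crest.Agent.R180.MinTaylor2
import Crest.Agent.R180.PRS

-- ▼ part R180/FullMove
section

set_option autoImplicit false

/-!
# Row 180, ROUTE M, STEP part 1: full moves

For an admissible base point `z` the space of directions modulo inner directions has dimension
`(m - 1) * dim E + 1`; directions in `E⟦t⟧` representing a basis exist.
-/

noncomputable section
namespace Crest.Agent.R180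

open TensorProduct

section Full
variable {F1 E : Type} [Field F1] [Ring E] [Algebra F1 E] {m : ℕ}

/-- inner directions `g ↦ [g, z]` -/
def innerMap (z : Fin m → LD E) : LD E →ₗ[LF F1] (Fin m → LD E) where
  toFun g := fun j => g * z j - z j * g
  map_add' x y := by
    funext j
    simp only [Pi.add_apply]
    noncomm_ring
  map_smul' c x := by
    funext j
    simp only [Pi.smul_apply, RingHom.id_apply, smul_mul_assoc, mul_smul_comm, smul_sub]

@[simp] theorem innerMap_apply (z : Fin m → LD E) (g : LD E) (j : Fin m) :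
    innerMap (F1 := F1) z g j = g * z j - z j * g := rfl

theorem ker_innerMap [Module.Finite F1 E] [Algebra.IsCentral F1 E] (z : Fin m → LD E)
    (hz : Algebra.adjoin (LF F1) (Set.range z) = ⊤) :
    LinearMap.ker (innerMap (F1 := F1) z) = Subalgebra.toSubmodule (⊥ : Subalgebra (LF F1) (LD E)) := by
  apply le_antisymm
  · intro g hg
    have hg' : ∀ j, g * z j = z j * g := fun j => by
      have := congrFun (LinearMap.mem_ker.1 hg) j
      simpa [sub_eq_zero] using this
    have hc : g ∈ Subalgebra.center (LF F1) (LD E) := by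
      rw [Subalgebra.mem_center_iff]
      intro b
      have hb : b ∈ Algebra.adjoin (LF F1) (Set.range z) := by rw [hz]; trivial
      induction hb using Algebra.adjoin_induction with
      | mem x hx => obtain ⟨j, rfl⟩ := hx; exact (hg' j).symm
      | algebraMap c => exact Algebra.commutes _ _
      | add x y _ _ hx hy => rw [add_mul, mul_add, hx, hy]
      | mul x y _ _ hx hy => rw [mul_assoc, hy, ← mul_assoc, hx, mul_assoc]
    have h2 := Algebra.IsCentral.out (K := LF F1) (D := LD E) hc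
    exact h2
  · intro g hg
    have hg2 : g ∈ (⊥ : Subalgebra (LF F1) (LD E)) := hg
    obtain ⟨c, rfl⟩ := Algebra.mem_bot.1 hg2
    rw [LinearMap.mem_ker]
    funext j
    rw [innerMap_apply, Algebra.commutes, sub_self]
    rfl

theorem finrank_ker_innerMap [Module.Finite F1 E] [Algebra.IsCentral F1 E] [Nontrivial E]
    (z : Fin m → LD E)
    (hz : Algebra.adjoin (LF F1) (Set.range z) = ⊤) :
    Module.finrank (LF F1) (LinearMap.ker (innerMap (F1 := F1) z)) = 1 := by
  rw [ker_innerMap z hz]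
  have : Nontrivial (LD E) := by
    refine ⟨⟨0, 1, ?_⟩⟩
    intro h
    have h2 := congrArg (fun x : LD E => x.co 0) h
    simp only [LD.co_zero, LD.co_one] at h2
    exact zero_ne_one h2
  exact Subalgebra.finrank_bot

/-- clearing denominators -/
theorem exists_tp_int {ι : Type} [Finite ι] (v : ι → LD E) :
    ∃ (N : ℕ) (y : ι → PowerSeries E), ∀ j, (LF.tp (N : ℤ) : LF F1) • v j = LD.ofPS (y j) := by
  classical
  have := Fintype.ofFinite ι
  choose b hb using fun j => LD.exists_bound (v j)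
  have h1 : ∀ j, LD.IsInt ((LF.tp ((∑ i, (b i).natAbs : ℕ) : ℤ) : LF F1) • v j) := by
    intro j n hn
    rw [LD.co_tp_smul]
    apply hb
    have h1 : (b j).natAbs ≤ ∑ i, (b i).natAbs :=
      Finset.single_le_sum (f := fun w => (b w).natAbs) (fun _ _ => Nat.zero_le _)
        (Finset.mem_univ j)
    omega
  choose y hy using fun j => (LD.isInt_iff _).1 (h1 j)
  exact ⟨_, y, hy⟩

theorem exists_dirs [Module.Finite F1 E] [Algebra.IsCentral F1 E] [Nontrivial E] (hm : 1 ≤ m)
    (z : Fin m → LD E)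
    (hz : Algebra.adjoin (LF F1) (Set.range z) = ⊤) :
    ∃ dir : Fin ((m - 1) * Module.finrank F1 E + 1) → Fin m → PowerSeries E,
      (∀ v : Fin m → LD E, ∃ (l : Fin ((m - 1) * Module.finrank F1 E + 1) → LF F1) (g : LD E),
        ∀ j, v j = ∑ i, l i • (LD.ofPS (dir i j) : LD E) + (g * z j - z j * g)) ∧
      (∀ (l : Fin ((m - 1) * Module.finrank F1 E + 1) → LF F1) (g : LD E),
        (∀ j, ∑ i, l i • (LD.ofPS (dir i j) : LD E) = g * z j - z j * g) → l = 0) := by
  classical
  set e := Module.finrank F1 E with he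
  have he1 : 0 < e := Module.finrank_pos
  have hE : Module.finrank (LF F1) (LD E) = e := LD.finrank_eq
  set I := innerMap (F1 := F1) z with hI
  obtain ⟨W, hW⟩ := Submodule.exists_isCompl (LinearMap.range I)
  have hrk : Module.finrank (LF F1) (LinearMap.range I) + 1 = e := by
    have h1 := I.finrank_range_add_finrank_ker
    rw [finrank_ker_innerMap z hz, hE] at h1
    exact h1
  have htot : Module.finrank (LF F1) (Fin m → LD E) = m * e := by
    rw [Module.finrank_pi_fintype]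
    simp [hE]
  have hWr : Module.finrank (LF F1) W = (m - 1) * e + 1 := by
    have h1 := Submodule.finrank_add_eq_of_isCompl hW
    rw [htot] at h1
    obtain ⟨k, rfl⟩ : ∃ k, m = k + 1 := ⟨m - 1, by omega⟩
    have h2 : (k + 1) * e = k * e + e := by ring
    have h3 : k + 1 - 1 = k := by omega
    rw [h3]
    omega
  let b : Module.Basis (Fin ((m - 1) * e + 1)) (LF F1) W := Module.finBasisOfFinrankEq _ _ hWr
  choose N y hy using fun i => exists_tp_int (F1 := F1) (fun j => (b i).1 j)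
  refine ⟨y, ?_, ?_⟩
  · intro v
    obtain ⟨x, hx, w, hw, hxw⟩ := Submodule.mem_sup.1
      (show v ∈ LinearMap.range I ⊔ W by rw [hW.sup_eq_top]; trivial)
    obtain ⟨g, rfl⟩ := hx
    refine ⟨fun i => b.repr ⟨w, hw⟩ i * LF.tp (-(N i : ℤ)), g, fun j => ?_⟩
    have h1 : ∀ i, (b.repr ⟨w, hw⟩ i * LF.tp (-(N i : ℤ))) • (LD.ofPS (y i j) : LD E) =
        b.repr ⟨w, hw⟩ i • (b i).1 j := by
      intro i
      rw [← hy, smul_smul, mul_assoc, LF.tp_mul_tp, neg_add_cancel, LF.tp_zero, mul_one]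
    rw [Finset.sum_congr rfl fun i _ => h1 i]
    have h2 : w = ∑ i, b.repr ⟨w, hw⟩ i • (b i).1 := by
      have h3 := congrArg Subtype.val (b.sum_repr ⟨w, hw⟩)
      refine h3.symm.trans ?_
      simp only [Submodule.coe_sum, Submodule.coe_smul]
    have h4 : w j = ∑ i, b.repr ⟨w, hw⟩ i • (b i).1 j := by
      conv_lhs => rw [h2]
      simp
    rw [← h4, ← hxw, Pi.add_apply, innerMap_apply, add_comm]
  · intro l g h
    have h1 : ∀ i j, l i • (LD.ofPS (y i j) : LD E) = (l i * LF.tp (N i : ℤ)) • (b i).1 j := by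
      intro i j
      rw [← hy, smul_smul]
    have h2 : ((∑ i, (l i * LF.tp (N i : ℤ)) • b i : W) : Fin m → LD E) = I g := by
      funext j
      rw [innerMap_apply, ← h j]
      simp only [Submodule.coe_sum, Submodule.coe_smul, Finset.sum_apply, Pi.smul_apply]
      exact (Finset.sum_congr rfl fun i _ => h1 i j).symm
    have h3 : ((∑ i, (l i * LF.tp (N i : ℤ)) • b i : W) : Fin m → LD E) = 0 := by
      have := Submodule.disjoint_def.1 hW.disjoint _ (⟨g, h2.symm⟩ :
        ((∑ i, (l i * LF.tp (N i : ℤ)) • b i : W) : Fin m → LD E) ∈ LinearMap.range I)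
        (Subtype.mem _)
      exact this
    have h4 : (∑ i, (l i * LF.tp (N i : ℤ)) • b i : W) = 0 := Subtype.ext h3
    have h5 := Fintype.linearIndependent_iff.1 b.linearIndependent _ h4
    funext i
    exact (mul_eq_zero.1 (h5 i)).resolve_right (LF.tp_ne_zero _)

end Full

end Crest.Agent.R180
end
end

-- ▼ part R180/MinStep
section

set_option autoImplicit false

/-!
# Row 180, ROUTE M: STEP (full move followed by the conjugation to the centralizer of `γ(z)`)
-/

noncomputable section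
namespace Crest.Agent.R180

open TensorProduct

namespace ConjNF

variable {σ F A : Type} [Field F] [Ring A] [Algebra F A]

/-- the splitting data commute with elements commuting with `α` -/
theorem SplitData.comm_π_κ {α : A} (S : SplitData F α) {a r : A} (ha : α * a = a * α)
    (h : a * r = r * a) : a * S.π r = S.π r * a ∧ a * S.κ r = S.κ r * a := by
  have h1 := S.π_mul_left ha r
  have h2 := S.π_mul_right ha r
  exact ⟨by rw [← h1.1, h, h2.1], by rw [← h1.2, h, h2.2]⟩

/-- the conjugating series and the conjugated series commute with everything which commutes with the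
series and its constant term -/
theorem cUG_comm_step {α : A} (S : SplitData F α) (f : NC σ A) {a : A} (ha : α * a = a * α)
    (h : ∀ w, a * f w = f w * a) (w : List σ) :
    a * cU α S.π S.κ f w = cU α S.π S.κ f w * a ∧ a * cG α S.π S.κ f w = cG α S.π S.κ f w * a := by
  induction hn : w.length using Nat.strong_induction_on generalizing w with
  | _ n ih =>
    cases w with
    | nil => rw [cU_nil, cG_nil, mul_one, one_mul]; exact ⟨rfl, ha.symm⟩
    | cons s w =>
      rw [List.length_cons] at hn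
      have hr : a * rest α S.π S.κ f s w = rest α S.π S.κ f s w * a := by
        rw [rest_eq, mul_add, add_mul, h, Finset.mul_sum, Finset.sum_mul]
        congr 1
        refine Finset.sum_congr rfl fun i hi => ?_
        rw [Finset.mem_range] at hi
        have h1 := ih ((s :: w).take (i + 1)).length
          (by rw [List.length_take, List.length_cons]; omega) ((s :: w).take (i + 1)) rfl
        have h2 := ih ((s :: w).drop (i + 1)).length
          (by rw [List.length_drop, List.length_cons]; omega) ((s :: w).drop (i + 1)) rfl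
        rw [mul_sub, sub_mul, ← mul_assoc, h1.1, mul_assoc, h, ← mul_assoc, ← mul_assoc a, h1.2,
          mul_assoc _ a, h2.1, ← mul_assoc]
      rw [cU_cons, cG_cons]
      exact ⟨(S.comm_π_κ ha hr).2, (S.comm_π_κ ha hr).1⟩

/-- conjugation of a series into the centralizer of its constant term -/
theorem exists_conj_step [CharZero F] [IsDomain A] [FiniteDimensional F A] (f : NC σ A)
    (s : Set A) (hs : ∀ a ∈ s, ∀ w, a * f w = f w * a) :
    ∃ (U V G : NC σ A) (κ : A →ₗ[F] A), U * V = 1 ∧ V * U = 1 ∧ U * f * V = NC.C (f []) + G ∧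
      G [] = 0 ∧ (∀ w, f [] * G w = G w * f []) ∧
      (∀ a ∈ s, ∀ w, a * U w = U w * a) ∧ (∀ a ∈ s, ∀ w, a * G w = G w * a) ∧
      (∀ a ∈ s, ∀ w, a * κ (f w) = κ (f w) * a) ∧
      (∀ i, G [i] = f [i] - (f [] * κ (f [i]) - κ (f [i]) * f [])) ∧
      (∀ i k, ∃ y, G [i, k] = f [i, k] + κ (f [i]) * f [k] - G [i] * κ (f [k]) -
        (f [] * y - y * f [])) := by
  obtain ⟨S⟩ := exists_splitData (F := F) (A := A) (f [])
  obtain ⟨V, hV1, hV2, hV3⟩ := exists_inv (cU (f []) S.π S.κ f) (cU_nil (f []) S.π S.κ f)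
  set U := cU (f []) S.π S.κ f with hU
  set G := cG (f []) S.π S.κ f with hG
  have hUG : U * f * V = G := by
    rw [hU, cU_mul (f []) S.π S.κ S.split f rfl, mul_assoc, ← hU, hV1, mul_one]
  have hc0 : ∀ a ∈ s, f [] * a = a * f [] := fun a ha => (hs a ha []).symm
  have hGc : ∀ w, f [] * G w = G w * f [] := by
    intro w
    cases w with
    | nil => rw [hG, cG_nil]
    | cons s w => rw [hG, cG_cons]; exact S.comm _
  have hγ'0 : (G - NC.C (f []) : NC σ A) [] = 0 := by
    rw [NC.sub_apply, NC.C_nil, hG, cG_nil, sub_self]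
  have hγ'c : ∀ (i : σ) (w : List σ), (G - NC.C (f []) : NC σ A) (i :: w) = G (i :: w) := by
    intro i w
    rw [NC.sub_apply, NC.C_cons, sub_zero]
  have h1 : ∀ i, (G - NC.C (f []) : NC σ A) [i] = S.π (f [i]) := by
    intro i
    rw [hγ'c, hG, cG_single]
  refine ⟨U, V, G - NC.C (f []), S.κ, hV1, hV2, ?_, hγ'0, ?_, ?_, ?_, ?_, ?_, ?_⟩
  · rw [add_sub_cancel]; exact hUG
  · intro v
    cases v with
    | nil => rw [hγ'0, mul_zero, zero_mul]
    | cons i v => rw [hγ'c]; exact hGc _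
  · exact fun a ha w => (cUG_comm_step S f (hc0 a ha) (hs a ha) w).1
  · intro a ha v
    cases v with
    | nil => rw [hγ'0, mul_zero, zero_mul]
    | cons i v => rw [hγ'c]; exact (cUG_comm_step S f (hc0 a ha) (hs a ha) _).2
  · exact fun a ha w => (S.comm_π_κ (hc0 a ha) (hs a ha w)).2
  · intro i
    rw [h1, eq_sub_iff_add_eq]
    exact (S.split (f [i])).symm
  · intro i k
    have h2 : (G - NC.C (f []) : NC σ A) [i, k] =
        S.π (f [i, k] + (S.κ (f [i]) * f [k] - S.π (f [i]) * S.κ (f [k]))) := by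
      rw [hγ'c, hG, cG_pair]
    refine ⟨S.κ (f [i, k] + (S.κ (f [i]) * f [k] - S.π (f [i]) * S.κ (f [k]))), ?_⟩
    rw [h2, h1, eq_sub_iff_add_eq]
    refine (S.split _).symm.trans ?_
    rw [add_sub_assoc]

end ConjNF

variable {P : (A : DA) → (m : ℕ) → NC (Fin m) A.D → Prop}

theorem lin_congr {R : Type} [Ring R] {a a' c c' g y : R} (h : g = a - (c * y - y * c))
    (ha : a = a') (hc : c = c') : g = a' - (c' * y - y * c') := by
  subst ha hc; exact h

theorem quad_congr {R : Type} [Ring R] {a a' b b' c c' g x k y : R}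
    (h : g = a + x * b - k - (c * y - y * c))
    (ha : a = a') (hb : b = b') (hc : c = c') : g = a' + x * b' - k - (c' * y - y * c') := by
  subst ha hb hc; exact h

/-- the letters of a full move -/
def fullX {A : DA} (M : Adm A) {m μ : ℕ} (z : Fin m → PowerSeries M.E)
    (dir : Fin μ → Fin m → PowerSeries M.E) (j : Fin m) : NC (Fin μ) (PowerSeries M.E) :=
  ⟨fun w => match w with
    | [] => z j
    | [i] => dir i j
    | _ => 0⟩

theorem exists_step (hP : MoveClosed P) {A : DA} {m : ℕ} (hm : 2 ≤ m) {Λ : Subalgebra A.F A.D}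
    {γ : NC (Fin m) A.D} (h : RS P A m Λ γ) (M : Adm A) (z : Fin m → PowerSeries M.E)
    (hz : GenPt M z) : Nonempty (Step P Λ γ M z) := by
  have : Nontrivial M.E := M.domE.toNontrivial
  have key := exists_dirs (F1 := M.F1) (E := M.E) (m := m) (by omega)
    (fun j => (LD.ofPS (z j) : LD M.E)) hz.gen
  obtain ⟨μ, hμ⟩ : ∃ μ, μ = (m - 1) * Module.finrank M.F1 M.E + 1 := ⟨_, rfl⟩
  rw [← hμ] at key
  obtain ⟨dir, hfull, hind⟩ := key
  set X := fullX M z dir with hXdef
  have hX0 : ∀ j, PowerSeries.constantCoeff (X j []) = 0 := hz.z0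
  have hX : Good' M X := ⟨hX0, hz.gen, hind⟩
  -- the image of `γ`
  set f : NC (Fin μ) (A.mv M).D := M.hX X hX0 γ with hf
  have hTf : ∀ w, f w = (LD.ofPS (M.hT X γ w) : LD M.D0) := by
    intro w
    rw [M.hT_eq X hX0]
    rfl
  have f0 : f [] = (LD.ofPS (M.ev z γ) : LD M.D0) := by
    rw [hTf, hT_nil M X hX0]
    rfl
  have f1 : ∀ i, f [i] = (LD.ofPS (M.dv z (dir i) γ) : LD M.D0) := by
    intro i
    rw [hTf, hT_single M X hX0]
    rfl
  have f2 : ∀ i k, f [i, k] = (LD.ofPS (M.d2 z (dir i) (dir k) γ) : LD M.D0) := by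
    intro i k
    rw [hTf, hT_pair M X hX0 γ i k (fun j => rfl)]
    rfl
  have hcΛ : ∀ a ∈ M.inc '' (Λ : Set A.D), ∀ w, a * f w = f w * a := by
    rintro _ ⟨a, ha, rfl⟩ w
    have h1 : (NC.C a : NC (Fin m) A.D) * γ = γ * NC.C a := by
      apply NC.ext'; intro v
      rw [NC.C_mul_apply, NC.mul_C_apply, h.cent v a ha]
    have h2 := congrArg (M.hX X hX0) h1
    rw [map_mul, map_mul, M.hX_C] at h2
    have h3 := congrArg (fun g : NC (Fin μ) (A.mv M).D => g w) h2
    simp only [NC.C_mul_apply, NC.mul_C_apply] at h3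
    exact h3
  obtain ⟨U, V, γ', κ, hV1, hV2, hUG, hγ'0, hγ'c, hUΛ, hγΛ, hκΛ, hlin, hquad⟩ :=
    ConjNF.exists_conj_step (F := (A.mv M).F) f (M.inc '' (Λ : Set A.D)) hcΛ
  have hRS := RS.move hP h M X hX U V γ' hV1 hV2
    (fun v a ha => hUΛ _ ⟨a, ha, rfl⟩ v) (f []) hUG hγ'0
    (fun v a ha => hγΛ _ ⟨a, ha, rfl⟩ v) hγ'c
    (fun a ha => hcΛ _ ⟨a, ha, rfl⟩ [])
  rw [f0] at hRS
  exact ⟨{
    μ := μ
    hμ := hμ
    γ' := γ'
    dir := dir
    κ := fun i => κ (f [i])
    rs := hRS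
    full := hfull
    indep := hind
    lin := fun i => lin_congr (hlin i) (f1 i) f0
    κΛ := fun a ha i => hκΛ _ ⟨a, ha, rfl⟩ [i]
    quad := fun i k => by
      obtain ⟨y, hy⟩ := hquad i k
      exact ⟨y, quad_congr hy (f2 i k) (f1 k) f0⟩ }⟩

end Crest.Agent.R180
end
end

-- ▼ part R180/MinTr
section

set_option autoImplicit false
noncomputable section
namespace Crest.Agent.R180

open TensorProduct

/-! # Row 180, ROUTE M: trace functionals -/

namespace MinTr

/-- the trace of left multiplication -/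
def trL (F D : Type) [Field F] [Ring D] [Algebra F D] : D →ₗ[F] F :=
  (LinearMap.trace F D) ∘ₗ (LinearMap.mul F D)

theorem trL_apply (F D : Type) [Field F] [Ring D] [Algebra F D] (x : D) :
    trL F D x = LinearMap.trace F D (LinearMap.mul F D x) := rfl

theorem trL_comm (F D : Type) [Field F] [Ring D] [Algebra F D] (x y : D) :
    trL F D (x * y) = trL F D (y * x) := by
  rw [trL_apply, trL_apply]
  have h : ∀ a b : D, LinearMap.mul F D (a * b) = LinearMap.mul F D a * LinearMap.mul F D b := by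
    intro a b
    ext z
    simp [mul_assoc]
  rw [h, h, LinearMap.trace_mul_comm]

theorem trL_one (F D : Type) [Field F] [CharZero F] [Ring D] [Nontrivial D] [Algebra F D]
    [FiniteDimensional F D] : trL F D 1 ≠ 0 := by
  rw [trL_apply]
  have h : LinearMap.mul F D 1 = 1 := by
    ext z
    simp
  rw [h, LinearMap.trace_one]
  exact Nat.cast_ne_zero.mpr (Module.finrank_pos.ne')

end MinTr

theorem exists_isTr (A : DA) : ∃ t : A.D →ₗ[A.F] A.F, IsTr t :=
  ⟨MinTr.trL A.F A.D, MinTr.trL_comm A.F A.D, MinTr.trL_one A.F A.D⟩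

theorem exists_isTrE {A : DA} (M : Adm A) : ∃ tE : M.E →ₗ[M.F1] M.F1,
    (∀ x y, tE (x * y) = tE (y * x)) ∧ tE 1 ≠ 0 :=
  ⟨MinTr.trL M.F1 M.E, MinTr.trL_comm M.F1 M.E, MinTr.trL_one M.F1 M.E⟩

namespace MinTr

theorem tt_tmul {A : DA} (M : Adm A) (t : A.D →ₗ[A.F] A.F) (tE : M.E →ₗ[M.F1] M.F1) (e : M.E)
    (d : A.D) : M.tt tE t (e ⊗ₜ[A.F] d) = algebraMap A.F M.F1 (t d) * tE e := by
  change tE (M.con t (e ⊗ₜ[A.F] d)) = _
  have h : M.con t (e ⊗ₜ[A.F] d) = t d • e := MinI.ellE_tmul t e d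
  rw [h, ← algebraMap_smul M.F1 (t d) e, map_smul, smul_eq_mul]

theorem tt_comm {A : DA} (M : Adm A) {t : A.D →ₗ[A.F] A.F} (ht : ∀ x y, t (x * y) = t (y * x))
    {tE : M.E →ₗ[M.F1] M.F1} (htE : ∀ x y, tE (x * y) = tE (y * x)) (x y : M.D0) :
    M.tt tE t (x * y) = M.tt tE t (y * x) := by
  induction x using TensorProduct.induction_on with
  | zero => simp
  | tmul a b =>
    induction y using TensorProduct.induction_on with
    | zero => simp
    | tmul a' b' =>
      rw [Algebra.TensorProduct.tmul_mul_tmul, Algebra.TensorProduct.tmul_mul_tmul, tt_tmul,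
        tt_tmul, ht, htE]
    | add a' b' ha hb => rw [mul_add, add_mul, map_add, map_add, ha, hb]
  | add a b ha hb => rw [mul_add, add_mul, map_add, map_add, ha, hb]

theorem mapL_comm {F K : Type} [Field F] [Ring K] [Algebra F K] (t : K →ₗ[F] F)
    (ht : ∀ x y, t (x * y) = t (y * x)) (x y : LD K) :
    LD.mapL t (x * y) = LD.mapL t (y * x) := by
  apply LF.ext; intro n
  rw [LD.co_mapL, LD.co_mapL]
  have h1 : (x * y).co n = ∑ ij ∈ Finset.antidiagonal
      (HahnSeries.isPWO_support (x : HahnSeries ℤ K))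
      (HahnSeries.isPWO_support (y : HahnSeries ℤ K)) n, x.co ij.1 * y.co ij.2 :=
    HahnSeries.coeff_mul (x := (x : HahnSeries ℤ K)) (y := (y : HahnSeries ℤ K)) (a := n)
  have h2 : (y * x).co n = ∑ ij ∈ Finset.antidiagonal
      (HahnSeries.isPWO_support (y : HahnSeries ℤ K))
      (HahnSeries.isPWO_support (x : HahnSeries ℤ K)) n, y.co ij.1 * x.co ij.2 :=
    HahnSeries.coeff_mul (x := (y : HahnSeries ℤ K)) (y := (x : HahnSeries ℤ K)) (a := n)
  rw [h1, h2, map_sum, map_sum]
  refine Finset.sum_nbij' (fun p => (p.2, p.1)) (fun p => (p.2, p.1)) ?_ ?_ ?_ ?_ ?_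
  · intro p hp
    rw [Finset.mem_antidiagonal] at hp ⊢
    exact ⟨hp.2.1, hp.1, by rw [← hp.2.2, add_comm]⟩
  · intro p hp
    rw [Finset.mem_antidiagonal] at hp ⊢
    exact ⟨hp.2.1, hp.1, by rw [← hp.2.2, add_comm]⟩
  · intro p _; rfl
  · intro p _; rfl
  · intro p _
    exact ht _ _

end MinTr

/-- the trace functional after a move -/
theorem isTr_mv {A : DA} (M : Adm A) {t : A.D →ₗ[A.F] A.F} (ht : IsTr t)
    {tE : M.E →ₗ[M.F1] M.F1} (htE : (∀ x y, tE (x * y) = tE (y * x)) ∧ tE 1 ≠ 0) :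
    IsTr (F := (A.mv M).F) (D := (A.mv M).D) (LD.mapL (M.tt tE t)) := by
  refine ⟨fun x y => MinTr.mapL_comm _ (fun x y => MinTr.tt_comm M ht.1 htE.1 x y) x y, ?_⟩
  intro h
  have h0 : (LD.mapL (M.tt tE t) (1 : LD M.D0)).co 0 = 0 := by
    have : LD.mapL (M.tt tE t) (1 : LD M.D0) = 0 := h
    rw [this]; rfl
  rw [LD.co_mapL, LD.co_one, if_pos rfl, Algebra.TensorProduct.one_def, MinTr.tt_tmul] at h0
  rcases mul_eq_zero.mp h0 with h1 | h1
  · exact ht.2 ((map_eq_zero _).mp h1)
  · exact htE.2 h1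

end Crest.Agent.R180
end
end

-- ▼ part R180/MinLive

set_option autoImplicit false
set_option linter.unusedSectionVars false

/-! # Row 180, ROUTE M: derivatives are values of `γ'₁`, liveness is inherited -/

noncomputable section
namespace Crest.Agent.R180

open TensorProduct

variable {P : (A : DA) → (m : ℕ) → NC (Fin m) A.D → Prop}

/-- factoring out the order -/
theorem LD.exists_factor' {K : Type} [Ring K] (x : LD K) (q : ℤ) (h : ∀ n < q, x.co n = 0) :
    ∃ y : LD K, x = LD.tp q * y ∧ LD.IsInt y := by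
  refine ⟨LD.tp (-q) * x, ?_, ?_⟩
  · rw [← mul_assoc, LD.tp_mul_tp, add_neg_cancel, LD.tp_zero, one_mul]
  · intro n hn
    rw [LD.co_tp_mul]; exact h _ (by omega)

/-- orders add up -/
theorem LD.co_mul_of_bound {K : Type} [Ring K] (x y : LD K) (a b : ℤ)
    (hx : ∀ n < a, x.co n = 0) (hy : ∀ n < b, y.co n = 0) : ∀ n < a + b, (x * y).co n = 0 := by
  obtain ⟨x', rfl, hx'⟩ := LD.exists_factor' x a hx
  obtain ⟨y', rfl, hy'⟩ := LD.exists_factor' y b hy
  intro n hn
  have h1 : (LD.tp a * x') * (LD.tp b * y') = LD.tp (a + b) * (x' * y') := by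
    rw [mul_assoc, ← mul_assoc x', ← LD.tp_commute b x', mul_assoc, ← mul_assoc, LD.tp_mul_tp]
  rw [h1, LD.co_tp_mul]
  exact (hx'.mul hy') _ (by omega)

section Rel
variable {A : DA} (M : Adm A) {m : ℕ}

theorem LD.map_smul_LF (l : LF M.F1) (x : LD M.E) :
    LD.map M.jE (l • x) = (l • (LD.map M.jE x) : LD M.D0) := by
  rw [LD.smul_def, LD.smul_def, map_mul]
  congr 1

theorem LD.map_ofPS' (x : PowerSeries M.E) :
    LD.map M.jE (LD.ofPS x) = (LD.ofPS (PowerSeries.map M.jE x) : LD M.D0) :=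
  (LD.ofPS_map M.jE x).symm

theorem LD.comm_C_jD (G : LD M.E) (a : A.D) :
    LD.map M.jE G * LD.C (M.jD a) = LD.C (M.jD a) * (LD.map M.jE G : LD M.D0) := by
  apply LD.ext; intro n
  rw [LD.mul_C_co, LD.C_mul_co, LD.co_map, M.jE_jD_comm]

/-- relations between directions give relations between derivatives -/
theorem dv_rel (z v : Fin m → PowerSeries M.E) (hz : ∀ j, PowerSeries.constantCoeff (z j) = 0)
    {μ : ℕ} (d : Fin μ → Fin m → PowerSeries M.E) (l : Fin μ → LF M.F1) (g : LD M.E)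
    (h : ∀ j, (LD.ofPS (v j) : LD M.E) = ∑ i, l i • (LD.ofPS (d i j) : LD M.E) +
      (g * LD.ofPS (z j) - LD.ofPS (z j) * g)) (f : NC (Fin m) A.D) :
    (LD.ofPS (M.dv z v f) : LD M.D0) = ∑ i, l i • (LD.ofPS (M.dv z (d i) f) : LD M.D0) +
      (LD.map M.jE g * LD.ofPS (M.ev z f) - LD.ofPS (M.ev z f) * LD.map M.jE g) := by
  classical
  set G : LD M.D0 := LD.map M.jE g with hG
  set Z : Fin m → LD M.D0 := fun j => LD.ofPS (PowerSeries.map M.jE (z j)) with hZ
  have h' : ∀ j, (LD.ofPS (PowerSeries.map M.jE (v j)) : LD M.D0) =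
      ∑ i, l i • (LD.ofPS (PowerSeries.map M.jE (d i j)) : LD M.D0) + (G * Z j - Z j * G) := by
    intro j
    have h1 := congrArg (LD.map M.jE) (h j)
    rw [map_add, map_sub, map_mul, map_mul, map_sum] at h1
    simp only [LD.map_smul_LF, LD.map_ofPS'] at h1
    exact h1
  let Δ : NC (Fin m) A.D → LD M.D0 := fun f =>
    LD.ofPS (M.dv z v f) - ∑ i, l i • (LD.ofPS (M.dv z (d i) f) : LD M.D0) -
      (G * LD.ofPS (M.ev z f) - LD.ofPS (M.ev z f) * G)
  have hrec : ∀ f, Δ f = ∑ j, Z j * Δ (NC.ld j f) := by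
    intro f
    have e1 : ∀ (w : Fin m → PowerSeries M.E) (f : NC (Fin m) A.D),
        (LD.ofPS (M.dv z w f) : LD M.D0) =
        ∑ j, (LD.ofPS (PowerSeries.map M.jE (w j)) * LD.ofPS (M.ev z (NC.ld j f)) +
          Z j * LD.ofPS (M.dv z w (NC.ld j f))) := by
      intro w f
      conv_lhs => rw [dv_rec M z w hz f]
      rw [map_sum]
      exact Finset.sum_congr rfl fun j _ => by rw [map_add, map_mul, map_mul]
    have e2 : (LD.ofPS (M.ev z f) : LD M.D0) = LD.C (M.jD (f [])) +
        ∑ j, Z j * LD.ofPS (M.ev z (NC.ld j f)) := by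
      conv_lhs => rw [ev_rec M z hz f]
      rw [map_add, map_sum]
      congr 1
      exact Finset.sum_congr rfl fun j _ => by rw [map_mul]
    have e3 : G * LD.ofPS (M.ev z f) - LD.ofPS (M.ev z f) * G =
        ∑ j, ((G * Z j - Z j * G) * LD.ofPS (M.ev z (NC.ld j f)) +
          Z j * (G * LD.ofPS (M.ev z (NC.ld j f)) - LD.ofPS (M.ev z (NC.ld j f)) * G)) := by
      rw [e2, mul_add, add_mul, LD.comm_C_jD, add_sub_add_left_eq_sub, Finset.mul_sum,
        Finset.sum_mul, ← Finset.sum_sub_distrib]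
      refine Finset.sum_congr rfl fun j _ => ?_
      simp only [sub_mul, mul_sub, mul_assoc]
      abel
    have e4 : ∑ i, l i • (LD.ofPS (M.dv z (d i) f) : LD M.D0) =
        ∑ j, ((∑ i, l i • (LD.ofPS (PowerSeries.map M.jE (d i j)) : LD M.D0)) *
          LD.ofPS (M.ev z (NC.ld j f)) +
          Z j * ∑ i, l i • (LD.ofPS (M.dv z (d i) (NC.ld j f)) : LD M.D0)) := by
      have e5 : ∀ i, l i • (LD.ofPS (M.dv z (d i) f) : LD M.D0) =
          ∑ j, (l i • (LD.ofPS (PowerSeries.map M.jE (d i j)) : LD M.D0) *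
            LD.ofPS (M.ev z (NC.ld j f)) +
            Z j * l i • (LD.ofPS (M.dv z (d i) (NC.ld j f)) : LD M.D0)) := by
        intro i
        rw [e1 (d i) f, Finset.smul_sum]
        refine Finset.sum_congr rfl fun j _ => ?_
        rw [smul_add, smul_mul_assoc, mul_smul_comm]
      rw [Finset.sum_congr rfl fun i _ => e5 i, Finset.sum_comm]
      refine Finset.sum_congr rfl fun j _ => ?_
      rw [Finset.sum_add_distrib, Finset.sum_mul, Finset.mul_sum]
    change LD.ofPS (M.dv z v f) - ∑ i, l i • (LD.ofPS (M.dv z (d i) f) : LD M.D0) -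
      (G * LD.ofPS (M.ev z f) - LD.ofPS (M.ev z f) * G) = _
    rw [e1 v f, e3, e4, ← Finset.sum_sub_distrib, ← Finset.sum_sub_distrib]
    refine Finset.sum_congr rfl fun j _ => ?_
    change _ = Z j * (LD.ofPS (M.dv z v (NC.ld j f)) -
      ∑ i, l i • (LD.ofPS (M.dv z (d i) (NC.ld j f)) : LD M.D0) -
      (G * LD.ofPS (M.ev z (NC.ld j f)) - LD.ofPS (M.ev z (NC.ld j f)) * G))
    rw [h' j]
    simp only [mul_sub, add_mul, sub_mul, mul_assoc]
    abel
  -- uniform lower bound for the orders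
  obtain ⟨N, hN1, hN2, hN3⟩ : ∃ N : ℤ, (∀ i, ∀ n < N, (l i).co n = 0) ∧
      (∀ n < N, G.co n = 0) ∧ N ≤ 0 := by
    obtain ⟨N2, hN2⟩ := LD.exists_bound G
    choose N1 hN1 using fun i : Fin μ =>
      (⟨HahnSeries.order (l i : HahnSeries ℤ M.F1),
        fun _ hn => HahnSeries.coeff_eq_zero_of_lt_order hn⟩ :
        ∃ N : ℤ, ∀ n < N, (l i).co n = 0)
    obtain ⟨N3, hN3⟩ : ∃ N3 : ℤ, ∀ i, N3 ≤ N1 i := by
      obtain ⟨B, hB⟩ := (Set.finite_range N1).bddBelow
      exact ⟨B, fun i => hB ⟨i, rfl⟩⟩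
    refine ⟨min 0 (min N2 N3), fun i n hn => hN1 i n ?_, fun n hn => hN2 n ?_, min_le_left _ _⟩
    · have := hN3 i; omega
    · omega
  have hG0 : ∀ x : PowerSeries M.D0, (∀ k < N, (G * LD.ofPS x).co k = 0) ∧
      ∀ k < N, (LD.ofPS x * G : LD M.D0).co k = 0 := by
    intro x
    constructor
    · intro k hk
      exact LD.co_mul_of_bound G (LD.ofPS x) N 0 hN2 (LD.isInt_ofPS x) k (by omega)
    · intro k hk
      exact LD.co_mul_of_bound (LD.ofPS x) G 0 N (LD.isInt_ofPS x) hN2 k (by omega)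
  have hlow : ∀ f, ∀ k < N, (Δ f).co k = 0 := by
    intro f k hk
    change (LD.ofPS (M.dv z v f) - ∑ i, l i • (LD.ofPS (M.dv z (d i) f) : LD M.D0) -
      (G * LD.ofPS (M.ev z f) - LD.ofPS (M.ev z f) * G) : LD M.D0).co k = 0
    rw [LD.co_sub, LD.co_sub, LD.co_sub, LD.co_sum, (hG0 _).1 k hk, (hG0 _).2 k hk,
      LD.isInt_ofPS _ k (by omega), Finset.sum_eq_zero]
    · simp
    · intro i _
      exact (LD.co_smul_of_bound (l i) _ N (hN1 i) (LD.isInt_ofPS _)).1 k hk
  have key : ∀ n : ℕ, ∀ f, ∀ k : ℤ, k < N + n → (Δ f).co k = 0 := by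
    intro n
    induction n with
    | zero => intro f k hk; exact hlow f k (by simpa using hk)
    | succ n ih =>
      intro f k hk
      rw [hrec, LD.co_sum]
      refine Finset.sum_eq_zero fun j _ => ?_
      refine LD.co_mul_of_bound (Z j) (Δ (NC.ld j f)) 1 (N + n) ?_ (ih _) k
        (by push_cast at hk; omega)
      intro n hn
      rcases lt_or_ge n 0 with h | h
      · exact LD.co_ofPS_neg _ _ h
      · have : n = 0 := by omega
        subst this
        have h2 := LD.co_ofPS (PowerSeries.map M.jE (z j)) 0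
        rw [Nat.cast_zero] at h2
        rw [hZ, h2, PowerSeries.coeff_map, PowerSeries.coeff_zero_eq_constantCoeff_apply, hz,
          map_zero]
  have h0 : Δ f = 0 := by
    apply LD.ext; intro k
    obtain ⟨n, hn⟩ : ∃ n : ℕ, k < N + n := ⟨(k - N + 1).toNat, by omega⟩
    rw [key n f k hn]
    rfl
  have h1 : LD.ofPS (M.dv z v f) - ∑ i, l i • (LD.ofPS (M.dv z (d i) f) : LD M.D0) -
      (G * LD.ofPS (M.ev z f) - LD.ofPS (M.ev z f) * G) = 0 := h0
  rw [sub_sub, sub_eq_zero] at h1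
  exact h1

end Rel

/-- consequence: modulo `[c₀, ·]` every derivative is a value of `γ'₁` -/
theorem Step.exists_T {A : DA} {m : ℕ} {Λ : Subalgebra A.F A.D} {γ : NC (Fin m) A.D} {M : Adm A}
    {z : Fin m → PowerSeries M.E} (hz : GenPt M z) (st : Step P Λ γ M z)
    (v : Fin m → PowerSeries M.E) : ∃ T ∈ st.U, ∃ x : LD M.D0,
      T = LD.ofPS (M.dv z v γ) -
        (LD.ofPS (M.ev z γ) * x - x * LD.ofPS (M.ev z γ)) := by
  obtain ⟨l, g, hlg⟩ := st.full (fun j => LD.ofPS (v j))
  have h1 := dv_rel M z v hz.z0 st.dir l g hlg γ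
  set c : LD M.D0 := LD.ofPS (M.ev z γ) with hc
  set G : LD M.D0 := LD.map M.jE g with hG
  have hT : Crest.Agent.R180.lin (A := A.mv M) st.γ' l = ∑ i, l i • (st.γ' [i] : LD M.D0) :=
    lin_apply (A := A.mv M) st.γ' l
  refine ⟨Crest.Agent.R180.lin (A := A.mv M) st.γ' l, ⟨l, rfl⟩, (∑ i, l i • st.κ i) - G, ?_⟩
  rw [hT, h1]
  have h2 : ∑ i, l i • (st.γ' [i] : LD M.D0) =
      ∑ i, (l i • (LD.ofPS (M.dv z (st.dir i) γ) : LD M.D0) -
        (c * (l i • st.κ i) - (l i • st.κ i) * c)) := by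
    refine Finset.sum_congr rfl fun i _ => ?_
    rw [st.lin i, smul_sub, smul_sub, ← hc, mul_smul_comm, smul_mul_assoc]
  rw [h2, Finset.sum_sub_distrib, Finset.sum_sub_distrib, ← Finset.mul_sum, ← Finset.sum_mul]
  simp only [mul_sub, sub_mul]
  abel

theorem PS.coeff_l1_zero {A : DA} {m : ℕ} (M : Adm A) (w : Fin m → A.F) (γ : NC (Fin m) A.D) :
    M.l1 (fun j => PowerSeries.C (algebraMap A.F M.E (w j))) γ =
      PowerSeries.C (M.jD (lin γ w)) := by
  unfold Adm.l1
  rw [lin_apply, map_sum, map_sum]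
  refine Finset.sum_congr rfl fun j _ => ?_
  rw [PowerSeries.map_C, ← map_mul, ← jD_algebraMap, ← map_mul, ← Algebra.smul_def]

/-- liveness is inherited -/
theorem Step.live {A : DA} {m : ℕ} {Λ : Subalgebra A.F A.D} {γ : NC (Fin m) A.D} {M : Adm A}
    {z : Fin m → PowerSeries M.E} (hz : GenPt M z) (st : Step P Λ γ M z) (h : Live Λ γ) :
    Live (A := A.mv M) (M.adj Λ (M.ev z γ)) st.γ' := by
  obtain ⟨t, ht, a, haΛ, b, ⟨w, rfl⟩, hab⟩ := h
  obtain ⟨tE, htE⟩ := exists_isTrE M
  set v : Fin m → PowerSeries M.E := fun j => PowerSeries.C (algebraMap A.F M.E (w j)) with hv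
  obtain ⟨T, hT, x, hTx⟩ := Step.exists_T hz st v
  set c : LD M.D0 := LD.ofPS (M.ev z γ) with hc
  set t' : LD M.D0 →ₗ[LF M.F1] LF M.F1 := LD.mapL (M.tt tE t) with ht'
  have htr := isTr_mv M ht htE
  have hcomm : ∀ x y, t' (x * y) = t' (y * x) := htr.1
  have haΛ' : (LD.C (M.jD a) : LD M.D0) ∈ M.adj Λ (M.ev z γ) :=
    Algebra.subset_adjoin (Or.inl ⟨a, haΛ, rfl⟩)
  have hcΛ' : c ∈ M.adj Λ (M.ev z γ) := Algebra.subset_adjoin (Or.inr rfl)
  have hac : (LD.C (M.jD a) : LD M.D0) * c = c * LD.C (M.jD a) :=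
    st.rs.comm _ haΛ' _ hcΛ'
  refine ⟨t', htr, LD.C (M.jD a), haΛ', T, hT, ?_⟩
  have h1 : t' (LD.C (M.jD a) * T) = t' (LD.C (M.jD a) * LD.ofPS (M.dv z v γ)) := by
    rw [hTx, mul_sub, map_sub, mul_sub, map_sub, ← mul_assoc, hac, mul_assoc, hcomm c,
      ← mul_assoc, sub_self, sub_zero]
  -- the residue
  obtain ⟨y, hy⟩ := dv_lead M z v 1 0 le_rfl (fun j => by
      rw [← ord_iff]
      exact Ord.of_const (hz.z0 j)) (fun j => ⟨v j, by rw [pow_zero, one_mul]⟩) γ
  rw [hv, PS.coeff_l1_zero] at hy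
  have h2 : (LD.C (M.jD a) * LD.ofPS (M.dv z v γ) : LD M.D0).co 0 =
      (1 : M.E) ⊗ₜ[A.F] (a * Crest.Agent.R180.lin γ w) := by
    rw [LD.C_mul_co]
    have h3 : (LD.ofPS (M.dv z v γ) : LD M.D0).co 0 = PowerSeries.coeff 0 (M.dv z v γ) :=
      LD.co_ofPS _ 0
    rw [h3, hv, hy, map_add]
    have h4 : PowerSeries.coeff 0 (PowerSeries.X ^ (1 + 0) * y) = 0 := by
      rw [PowerSeries.coeff_X_pow_mul', if_neg (by omega)]
    rw [h4, add_zero, PowerSeries.coeff_zero_C]
    change ((1 : M.E) ⊗ₜ[A.F] a) * ((1 : M.E) ⊗ₜ[A.F] (Crest.Agent.R180.lin γ w)) = _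
    rw [Algebra.TensorProduct.tmul_mul_tmul, mul_one]
  intro h0
  change t' (LD.C (M.jD a) * T) = 0 at h0
  rw [h1] at h0
  have h5 := congrArg (fun x : LF M.F1 => x.co 0) h0
  simp only [ht', LD.co_mapL, h2, MinTr.tt_tmul] at h5
  have h6 : algebraMap A.F M.F1 (t (a * Crest.Agent.R180.lin γ w)) * tE 1 = 0 := h5
  rcases mul_eq_zero.mp h6 with h7 | h7
  · exact hab ((FaithfulSMul.algebraMap_eq_zero_iff _ _).mp h7)
  · exact htE.2 h7

/-- the new state -/
def Step.toSt {S : St P} {M : Adm S.A} {z : Fin S.m → PowerSeries M.E} (hz : GenPt M z)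
    (st : Step P S.Λ S.γ M z) : St P where
  A := S.A.mv M
  m := st.μ
  hm := by
    have h1 := st.hμ
    have h2 : 0 < Module.finrank M.F1 M.E := Module.finrank_pos
    have h3 := S.hm
    have h4 : 1 * 1 ≤ (S.m - 1) * Module.finrank M.F1 M.E :=
      Nat.mul_le_mul (by omega) h2
    omega
  Λ := M.adj S.Λ (M.ev z S.γ)
  γ := st.γ'
  rs := st.rs
  live := st.live hz S.live

end Crest.Agent.R180
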