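import Crest.Agent.R180.MinStartCore
import Crest.Agent.R180.MinLive

-- ▼ part R180/MinMuCore
section

set_option autoImplicit false
noncomputable section

/-!
# Row 180, ROUTE M: arithmetic of the measures `mu1`, `mu2`
-/

namespace Crest.Agent.R180

variable {P : (A : DA) → (m : ℕ) → NC (Fin m) A.D → Prop}

namespace MinMu

theorem le_of_sq {a b N x y : ℕ} (ha : 0 < a) (hab : a ≤ b) (h : b * y ^ 2 = N * N * (a * x ^ 2)) :
    y ≤ N * x := by
  by_contra hlt
  rw [not_le] at hlt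
  have h1 : (N * x) ^ 2 < y ^ 2 := Nat.pow_lt_pow_left hlt two_ne_zero
  have h2 : a * (N * x) ^ 2 < b * y ^ 2 :=
    lt_of_lt_of_le (Nat.mul_lt_mul_of_pos_left h1 ha) (Nat.mul_le_mul_right _ hab)
  have h3 : a * (N * x) ^ 2 = N * N * (a * x ^ 2) := by ring
  omega

theorem ge_of_sq {a b N x y : ℕ} (hb : 0 < b) (hab : b ≤ a) (h : b * y ^ 2 = N * N * (a * x ^ 2)) :
    N * x ≤ y := by
  by_contra hlt
  rw [not_le] at hlt
  have h1 : y ^ 2 < (N * x) ^ 2 := Nat.pow_lt_pow_left hlt two_ne_zero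
  have h2 : b * y ^ 2 < a * (N * x) ^ 2 :=
    lt_of_lt_of_le (Nat.mul_lt_mul_of_pos_left h1 hb) (Nat.mul_le_mul_right _ hab)
  have h3 : a * (N * x) ^ 2 = N * N * (a * x ^ 2) := by ring
  omega

theorem mu1_pos (S : St P) : 0 < S.mu1 := by
  have e1 := MinA.mu1_mul S
  have hpos : 0 < Module.finrank S.A.F S.A.D := Module.finrank_pos
  rcases Nat.eq_zero_or_pos S.mu1 with h2 | h2
  · rw [h2, zero_mul] at e1; omega
  · exact h2

section
variable {S S' : St P} {N : ℕ}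
  (hD : Module.finrank S'.A.F S'.A.D = N * N * Module.finrank S.A.F S.A.D)
include hD

theorem mu1_eq : S'.mu1 * (Module.finrank S'.A.F S'.Λ) ^ 2 =
    N * N * (S.mu1 * (Module.finrank S.A.F S.Λ) ^ 2) := by
  rw [MinA.mu1_mul, MinA.mu1_mul, hD]

theorem le_of_mu1 (h : S.mu1 ≤ S'.mu1) :
    Module.finrank S'.A.F S'.Λ ≤ N * Module.finrank S.A.F S.Λ :=
  le_of_sq (mu1_pos S) h (mu1_eq hD)

theorem ge_of_mu1 (h : S'.mu1 ≤ S.mu1) :
    N * Module.finrank S.A.F S.Λ ≤ Module.finrank S'.A.F S'.Λ :=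
  ge_of_sq (mu1_pos S') h (mu1_eq hD)

theorem mu1_le (hN : 0 < N) (h : N * Module.finrank S.A.F S.Λ ≤ Module.finrank S'.A.F S'.Λ) :
    S'.mu1 ≤ S.mu1 := by
  have e := mu1_eq hD
  have hx : 0 < Module.finrank S.A.F S.Λ := Module.finrank_pos
  by_contra hlt
  rw [not_le] at hlt
  have h1 : (N * Module.finrank S.A.F S.Λ) ^ 2 ≤ (Module.finrank S'.A.F S'.Λ) ^ 2 :=
    Nat.pow_le_pow_left h 2
  have h2 : S.mu1 * (N * Module.finrank S.A.F S.Λ) ^ 2 <
      S'.mu1 * (N * Module.finrank S.A.F S.Λ) ^ 2 :=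
    Nat.mul_lt_mul_of_pos_right hlt (by positivity)
  have h3 : S.mu1 * (N * Module.finrank S.A.F S.Λ) ^ 2 =
      N * N * (S.mu1 * (Module.finrank S.A.F S.Λ) ^ 2) := by ring
  have h4 := Nat.mul_le_mul_left S'.mu1 h1
  omega

end

/-- `Ψ ≤ Λ` -/
theorem psiOf_le {F B : Type} [Field F] [Ring B] [IsDomain B] [Algebra F B]
    [FiniteDimensional F B] (U : Submodule F B) (Λ : Subalgebra F B)
    (hU : U ≤ Subalgebra.toSubmodule Λ) : PsiOf U ≤ Λ := by
  apply Algebra.adjoin_le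
  rintro x ⟨b, hb, hb0, hxb⟩
  obtain ⟨b', hb', h1, -⟩ := MinF.exists_inv_mem Λ (hU hb) hb0
  have h2 : x = (x * b) * b' := by rw [mul_assoc, h1, mul_one]
  rw [SetLike.mem_coe, h2]
  exact mul_mem (hU hxb) hb'

theorem mu2_mul (S : St P) (hU : S.U ≤ Subalgebra.toSubmodule S.Λ) :
    S.mu2 * Module.finrank S.A.F S.Psi = Module.finrank S.A.F S.Λ :=
  Nat.div_mul_cancel (MinF.finrank_dvd _ _ (psiOf_le S.U S.Λ hU))

theorem mu2_pos (S : St P) (hU : S.U ≤ Subalgebra.toSubmodule S.Λ) : 0 < S.mu2 := by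
  have e1 := mu2_mul S hU
  have hpos : 0 < Module.finrank S.A.F S.Λ := Module.finrank_pos
  rcases Nat.eq_zero_or_pos S.mu2 with h2 | h2
  · rw [h2, zero_mul] at e1; omega
  · exact h2

section
variable {S S' : St P} {N : ℕ} (hU : S.U ≤ Subalgebra.toSubmodule S.Λ)
  (hU' : S'.U ≤ Subalgebra.toSubmodule S'.Λ)
  (hΛ : Module.finrank S'.A.F S'.Λ = N * Module.finrank S.A.F S.Λ)
include hU hU' hΛ

theorem mu2_eq : S'.mu2 * Module.finrank S'.A.F S'.Psi =
    N * (S.mu2 * Module.finrank S.A.F S.Psi) := by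
  rw [mu2_mul S hU, mu2_mul S' hU', hΛ]

theorem psi_le_of_mu2 (h : S.mu2 ≤ S'.mu2) :
    Module.finrank S'.A.F S'.Psi ≤ N * Module.finrank S.A.F S.Psi := by
  have e := mu2_eq hU hU' hΛ
  by_contra hlt
  rw [not_le] at hlt
  have h1 : S'.mu2 * (N * Module.finrank S.A.F S.Psi) <
      S'.mu2 * Module.finrank S'.A.F S'.Psi := Nat.mul_lt_mul_of_pos_left hlt (mu2_pos S' hU')
  have h2 : S.mu2 * (N * Module.finrank S.A.F S.Psi) ≤
      S'.mu2 * (N * Module.finrank S.A.F S.Psi) := Nat.mul_le_mul_right _ h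
  have h3 : S.mu2 * (N * Module.finrank S.A.F S.Psi) =
      N * (S.mu2 * Module.finrank S.A.F S.Psi) := by ring
  omega

theorem mu2_le (hN : 0 < N)
    (h : N * Module.finrank S.A.F S.Psi ≤ Module.finrank S'.A.F S'.Psi) : S'.mu2 ≤ S.mu2 := by
  have e := mu2_eq hU hU' hΛ
  have hx : 0 < Module.finrank S.A.F S.Psi := Module.finrank_pos
  by_contra hlt
  rw [not_le] at hlt
  have h2 : S.mu2 * (N * Module.finrank S.A.F S.Psi) <
      S'.mu2 * (N * Module.finrank S.A.F S.Psi) :=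
    Nat.mul_lt_mul_of_pos_right hlt (by positivity)
  have h3 : S.mu2 * (N * Module.finrank S.A.F S.Psi) =
      N * (S.mu2 * Module.finrank S.A.F S.Psi) := by ring
  have h4 := Nat.mul_le_mul_left S'.mu2 h
  omega

end

end MinMu

end Crest.Agent.R180
end
end

-- ▼ part R180/MinMu

set_option autoImplicit false
noncomputable section

/-!
# Row 180, ROUTE M: dimension bounds at minimal states
-/

namespace Crest.Agent.R180

variable {P : (A : DA) → (m : ℕ) → NC (Fin m) A.D → Prop}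

theorem MinMu.finrank_toSt {S : St P} {M : Adm S.A} {N : ℕ}
    (hN : Module.finrank M.F1 M.E = N * N) {z : Fin S.m → PowerSeries M.E} (hz : GenPt M z)
    (st : Step P S.Λ S.γ M z) :
    Module.finrank (st.toSt hz).A.F (st.toSt hz).A.D =
      N * N * Module.finrank S.A.F S.A.D := by
  rw [← hN]; exact MinA.finrank_mv M

theorem MinMu.N_pos {A : DA} {M : Adm A} {N : ℕ} (hN : Module.finrank M.F1 M.E = N * N) :
    0 < N := by
  rcases Nat.eq_zero_or_pos N with h0 | h0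
  · rw [h0, zero_mul] at hN
    have : 0 < Module.finrank M.F1 M.E := Module.finrank_pos
    omega
  · exact h0

/-- dimension bounds at minimal states -/
theorem St.Good1.finrank_le {S : St P} (h : S.Good1) {M : Adm S.A} {N : ℕ}
    (hN : Module.finrank M.F1 M.E = N * N) {z : Fin S.m → PowerSeries M.E} (hz : GenPt M z)
    (st : Step P S.Λ S.γ M z) :
    Module.finrank (LF M.F1) st.Lam ≤ N * Module.finrank S.A.F S.Λ :=
  MinMu.le_of_mu1 (MinMu.finrank_toSt hN hz st) (h (st.toSt hz))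

theorem St.Good1.of_finrank {S : St P} (h : S.Good1) {M : Adm S.A} {N : ℕ}
    (hN : Module.finrank M.F1 M.E = N * N) {z : Fin S.m → PowerSeries M.E} (hz : GenPt M z)
    (st : Step P S.Λ S.γ M z)
    (h' : N * Module.finrank S.A.F S.Λ ≤
      Module.finrank (LF M.F1) st.Lam) : (st.toSt hz).Good1 :=
  fun S' => (MinMu.mu1_le (MinMu.finrank_toSt hN hz st) (MinMu.N_pos hN) h').trans (h S')

theorem St.Good2.finrank_le {S : St P} (h : S.Good2) (hU : S.U ≤ Subalgebra.toSubmodule S.Λ)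
    {M : Adm S.A} {N : ℕ}
    (hN : Module.finrank M.F1 M.E = N * N) {z : Fin S.m → PowerSeries M.E} (hz : GenPt M z)
    (st : Step P S.Λ S.γ M z) (h1 : (st.toSt hz).Good1)
    (hU' : (st.toSt hz).U ≤ Subalgebra.toSubmodule (st.toSt hz).Λ) :
    Module.finrank (LF M.F1) st.Psi ≤
      N * Module.finrank S.A.F S.Psi := by
  have hD := MinMu.finrank_toSt hN hz st
  have hΛ : Module.finrank (st.toSt hz).A.F (st.toSt hz).Λ = N * Module.finrank S.A.F S.Λ :=
    le_antisymm (MinMu.le_of_mu1 hD (h.1 (st.toSt hz))) (MinMu.ge_of_mu1 hD (h1 S))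
  exact MinMu.psi_le_of_mu2 hU hU' hΛ (h.2 _ h1)

theorem St.Good2.of_finrank {S : St P} (h : S.Good2) (hU : S.U ≤ Subalgebra.toSubmodule S.Λ)
    {M : Adm S.A} {N : ℕ}
    (hN : Module.finrank M.F1 M.E = N * N) {z : Fin S.m → PowerSeries M.E} (hz : GenPt M z)
    (st : Step P S.Λ S.γ M z) (h1 : (st.toSt hz).Good1)
    (hU' : (st.toSt hz).U ≤ Subalgebra.toSubmodule (st.toSt hz).Λ)
    (h' : N * Module.finrank S.A.F S.Psi ≤
      Module.finrank (LF M.F1) st.Psi) : (st.toSt hz).Good2 := by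
  have hD := MinMu.finrank_toSt hN hz st
  have hΛ : Module.finrank (st.toSt hz).A.F (st.toSt hz).Λ = N * Module.finrank S.A.F S.Λ :=
    le_antisymm (MinMu.le_of_mu1 hD (h.1 (st.toSt hz))) (MinMu.ge_of_mu1 hD (h1 S))
  exact ⟨h1, fun S' hS' => (MinMu.mu2_le hU hU' hΛ (MinMu.N_pos hN) h').trans (h.2 S' hS')⟩

end Crest.Agent.R180
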