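import Crest.Agent.R180.MinDefs

set_option autoImplicit false

/-!
# Row 180, ROUTE M: residues of subfields of `K((t))`, the trace projection
-/

noncomputable section
namespace Crest.Agent.R180

open TensorProduct

/-! ### inverses -/

/-- inverses inside subalgebras of finite-dimensional domains -/
theorem exists_inv_sub {F B : Type} [Field F] [Ring B] [IsDomain B] [Algebra F B]
    [FiniteDimensional F B] (S : Subalgebra F B) {x : B} (hx : x ∈ S) (h0 : x ≠ 0) :
    ∃ y ∈ S, x * y = 1 ∧ y * x = 1 := by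
  have hS : FiniteDimensional F S := FiniteDimensional.finiteDimensional_submodule
    (Subalgebra.toSubmodule S)
  let f : S →ₗ[F] S := LinearMap.mulLeft F (⟨x, hx⟩ : S)
  have hf : Function.Injective f := by
    rw [← LinearMap.ker_eq_bot, LinearMap.ker_eq_bot']
    intro y hy
    have h1 : x * (y : B) = 0 := congrArg Subtype.val hy
    rcases mul_eq_zero.mp h1 with h | h
    · exact absurd h h0
    · exact Subtype.ext h
  have hs : Function.Surjective f := LinearMap.surjective_of_injective hf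
  obtain ⟨y, hy⟩ := hs 1
  have h1 : x * (y : B) = 1 := congrArg Subtype.val hy
  refine ⟨y, y.2, h1, ?_⟩
  have h2 : x * ((y : B) * x - 1) = 0 := by rw [mul_sub, ← mul_assoc, h1, one_mul, mul_one, sub_self]
  rcases mul_eq_zero.mp h2 with h | h
  · exact absurd h h0
  · exact sub_eq_zero.mp h

namespace LD

section basics
variable {K : Type} [Ring K]

/-- `x ∈ t^a K⟦t⟧` -/
def OrdGe (a : ℤ) (x : LD K) : Prop := ∀ n < a, x.co n = 0

theorem ordGe_zero_iff (x : LD K) : OrdGe 0 x ↔ IsInt x := Iff.rfl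

theorem OrdGe.mono {a b : ℤ} {x : LD K} (h : OrdGe a x) (hb : b ≤ a) : OrdGe b x :=
  fun n hn => h n (lt_of_lt_of_le hn hb)

theorem OrdGe.add {a : ℤ} {x y : LD K} (hx : OrdGe a x) (hy : OrdGe a y) : OrdGe a (x + y) := by
  intro n hn
  rw [co_add, hx n hn, hy n hn, add_zero]

theorem OrdGe.neg {a : ℤ} {x : LD K} (hx : OrdGe a x) : OrdGe a (-x) := by
  intro n hn
  rw [co_neg, hx n hn, neg_zero]

theorem OrdGe.sub {a : ℤ} {x y : LD K} (hx : OrdGe a x) (hy : OrdGe a y) : OrdGe a (x - y) := by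
  intro n hn
  rw [co_sub, hx n hn, hy n hn, sub_zero]

theorem ordGe_tp_mul {a b : ℤ} {x : LD K} (hx : OrdGe a x) : OrdGe (b + a) (tp b * x) := by
  intro n hn
  rw [co_tp_mul]
  exact hx _ (by omega)

/-- normal form of elements of `t^a K⟦t⟧` -/
theorem OrdGe.exists_tp {a : ℤ} {x : LD K} (hx : OrdGe a x) :
    ∃ y : LD K, IsInt y ∧ x = tp a * y := by
  refine ⟨tp (-a) * x, ?_, ?_⟩
  · intro n hn
    rw [co_tp_mul]
    exact hx _ (by omega)
  · rw [← mul_assoc, tp_mul_tp, add_neg_cancel, tp_zero, one_mul]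

theorem OrdGe.mul {a b : ℤ} {x y : LD K} (hx : OrdGe a x) (hy : OrdGe b y) :
    OrdGe (a + b) (x * y) := by
  obtain ⟨x', hx', rfl⟩ := hx.exists_tp
  obtain ⟨y', hy', rfl⟩ := hy.exists_tp
  have h1 : tp a * x' * (tp b * y') = tp (a + b) * (x' * y') := by
    rw [← tp_mul_tp, mul_assoc, mul_assoc, ← mul_assoc x' (tp b) y', ← tp_commute b x', mul_assoc]
  rw [h1]
  intro n hn
  rw [co_tp_mul]
  exact (hx'.mul hy') _ (by omega)


end basics

section dom
variable {F K : Type} [Field F] [Ring K] [IsDomain K] [Algebra F K] [Module.Finite F K]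

/-- inverses of integral elements with nonzero residue -/
theorem IsInt.exists_inv {x : LD K} (hx : IsInt x) (h0 : x.co 0 ≠ 0)
    (S : Subalgebra (LF F) (LD K)) (hxS : x ∈ S) :
    ∃ y ∈ S, IsInt y ∧ x * y = 1 ∧ y * x = 1 := by
  have hne : x ≠ 0 := by
    rintro rfl
    exact h0 rfl
  obtain ⟨y, hy, h1, h2⟩ := exists_inv_sub (F := LF F) (B := LD K) S hxS hne
  refine ⟨y, hy, ?_, h1, h2⟩
  have hy0 : y ≠ 0 := by
    rintro rfl
    rw [mul_zero] at h1
    exact zero_ne_one h1
  obtain ⟨k, y', rfl, hy', hy0'⟩ := exists_normal hy0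
  have h3 : x * (tp k * y') = tp k * (x * y') := by
    rw [← mul_assoc, ← tp_commute, mul_assoc]
  have h4 : (tp k * (x * y') : LD K).co k = x.co 0 * y'.co 0 := by
    rw [co_tp_mul, sub_self, hx.co_mul_zero hy']
  rw [← h3, h1, co_one] at h4
  have hk : k = 0 := by
    by_contra hk
    rw [if_neg hk] at h4
    exact mul_ne_zero h0 hy0' h4.symm
  subst hk
  rw [tp_zero, one_mul]
  exact hy'

/-- quotients -/
theorem exists_div {x y : LD K} (hx : IsInt x) (hy : IsInt y) (h0 : y.co 0 ≠ 0)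
    (S : Subalgebra (LF F) (LD K)) (hxS : x ∈ S) (hyS : y ∈ S) :
    ∃ w ∈ S, IsInt w ∧ w * y = x ∧ w.co 0 * y.co 0 = x.co 0 := by
  obtain ⟨y', hy'S, hy', h1, h2⟩ := hy.exists_inv h0 S hyS
  refine ⟨x * y', S.mul_mem hxS hy'S, hx.mul hy', ?_, ?_⟩
  · rw [mul_assoc, h2, mul_one]
  · rw [← (hx.mul hy').co_mul_zero hy, mul_assoc, h2, mul_one]

end dom

/-! ### the trace projection -/

section proj
variable {F K : Type} [Field F] [Ring K] [IsDomain K] [Algebra F K] [Module.Finite F K]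



/-- If `T ∈ S` and `y` have the same trace pairing with `S`, and `y ∈ t^a K⟦t⟧`, then
`T ∈ t^a K⟦t⟧`. -/
theorem ordGe_of_pairing (t : K →ₗ[F] F) (ht : t 1 ≠ 0) (S : Subalgebra (LF F) (LD K))
    {T y : LD K} (hT : T ∈ S) (h : ∀ l ∈ S, mapL t (l * T) = mapL t (l * y)) {a : ℤ}
    (hy : OrdGe a y) : OrdGe a T := by
  by_cases hT0 : T = 0
  · subst hT0; intro n _; rfl
  obtain ⟨k, T', hTT', hT', hT0'⟩ := exists_normal hT0
  by_cases hk : a ≤ k
  · rw [hTT']
    intro n hn
    rw [co_tp_mul]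
    exact hT' _ (by omega)
  exfalso
  push Not at hk
  have hT'S : T' ∈ S := by
    have : T' = (LF.tp (-k) : LF F) • T := by
      rw [smul_def, toLD_tp, hTT', ← mul_assoc, tp_mul_tp, neg_add_cancel, tp_zero, one_mul]
    rw [this]
    exact S.smul_mem hT _
  obtain ⟨l, hlS, hl, h1, h2⟩ := hT'.exists_inv hT0' S hT'S
  have h3 := congrArg (fun z : LF F => z.co k) (h l hlS)
  simp only [co_mapL] at h3
  have h4 : (l * T).co k = 1 := by
    have : l * T = tp k * 1 := by
      rw [hTT', ← mul_assoc, ← tp_commute, mul_assoc, h2]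
    rw [this, co_tp_mul, sub_self, co_one, if_pos rfl]
  have h5 : (l * y).co k = 0 := by
    have := (OrdGe.mul (a := 0) (b := a) hl hy) k (by omega)
    exact this
  rw [h4, h5, map_zero] at h3
  exact ht h3

/-- ... and if `y` is integral and `y.co 0` is a residue of `S`, then `T.co 0 = y.co 0`. -/
theorem co_zero_of_pairing (t : K →ₗ[F] F) (ht : t 1 ≠ 0) (S : Subalgebra (LF F) (LD K))
    {T y : LD K} (hT : T ∈ S) (h : ∀ l ∈ S, mapL t (l * T) = mapL t (l * y)) (hy : IsInt y)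
    (hy0 : y.co 0 ∈ resSp (Subalgebra.toSubmodule S)) : IsInt T ∧ T.co 0 = y.co 0 := by
  have hTi : IsInt T := ordGe_of_pairing t ht S hT h (a := 0) hy
  refine ⟨hTi, ?_⟩
  obtain ⟨Y, hYS, hYi, hY0⟩ := hy0
  have hle : OrdGe 1 (y - Y) := by
    intro n hn
    rcases lt_or_eq_of_le (Int.lt_add_one_iff.mp (by simpa using hn) : n ≤ 0) with h' | h'
    · exact (hy.sub hYi) n h'
    · subst h'; rw [co_sub, hY0, sub_self]
  have h1 : OrdGe 1 (T - Y) := by
    refine ordGe_of_pairing t ht S (y := y - Y) (S.sub_mem hT hYS) (fun l hl => ?_) hle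
    rw [mul_sub, mul_sub, map_sub, map_sub, h l hl]
  have h2 := h1 0 (by norm_num)
  rw [co_sub, hY0, sub_eq_zero] at h2
  exact h2

end proj

end LD

end Crest.Agent.R180
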