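import Crest.Agent.R180.MinDefs

set_option autoImplicit false
set_option linter.unusedSectionVars false

/-!
# Row 180, route M: facts on extensions `M : PE A N` (prime degree cyclic, `E = ⊕_{i<N} L u^i`)

* `coefE`, `finrank_E`, `j_injective`, `pow_conj`, `comm_pow`, `u_pow_ne`
* `conj_ne` : `θ ∉ F1 ⇒ τ^k θ ≠ θ` (`0 < k < N`)
* `adjoin_simple` : `θ ∉ F1 ⇒ F1(θ) = L`; `ne_of_adjoin` : converse direction
* `adjoin_pair` : `E` is generated by `j θ`, `u`
* `mem_range_j_of_commute` : `C_E(j θ) = j L`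
* `indep_pow_L`, `span_pow_L`, `indep_pow`, `mem_span_of_commute`
-/

namespace Crest.Agent.R180

noncomputable section

open TensorProduct Finset

namespace PE

variable {A : DA} {N : ℕ} (M : PE A N)


include M in
theorem one_lt : 1 < N := M.pr.one_lt

/-- the coordinates of `E = ⊕ L u^i` -/
def coefE : (Fin N → M.L) ≃ₗ[M.F1] M.E :=
  LinearEquiv.ofBijective
    { toFun := fun c => ∑ i : Fin N, M.j (c i) * M.u ^ (i : ℕ)
      map_add' := fun a b => by
        simp only [Pi.add_apply, map_add, add_mul, Finset.sum_add_distrib]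
      map_smul' := fun r a => by
        simp only [Pi.smul_apply, map_smul, smul_mul_assoc, Finset.smul_sum, RingHom.id_apply] }
    ⟨fun a b hab => by
        obtain ⟨c, _, hu⟩ := M.decomp (∑ i : Fin N, M.j (a i) * M.u ^ (i : ℕ))
        exact (hu a rfl).trans (hu b hab).symm,
      fun e => by
        obtain ⟨c, hc, _⟩ := M.decomp e
        exact ⟨c, hc.symm⟩⟩

theorem coefE_apply (c : Fin N → M.L) :
    M.coefE c = ∑ i : Fin N, M.j (c i) * M.u ^ (i : ℕ) := rfl


theorem finrank_E : Module.finrank M.F1 M.E = N * N := by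
  rw [← M.coefE.finrank_eq, Module.finrank_pi_fintype, Finset.sum_const, M.finrankL]
  simp

theorem j_injective : Function.Injective M.j := RingHom.injective M.j.toRingHom

theorem pow_conj (n : ℕ) (y : M.L) : M.u ^ n * M.j y = M.j ((M.τ ^ n) y) * M.u ^ n := by
  induction n with
  | zero => simp
  | succ n ih =>
    rw [pow_succ', mul_assoc, ih, ← mul_assoc, M.conj, pow_succ', mul_assoc]
    rfl



/-- every element of `L` outside `F1` has `N` distinct conjugates -/
theorem conj_ne (θ : M.L) (hθ : ∀ c : M.F1, algebraMap M.F1 M.L c ≠ θ)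
    (k : ℕ) (hk0 : 0 < k) (hk : k < N) : (M.τ ^ k) θ ≠ θ := by
  intro h
  obtain ⟨c, hc⟩ := M.fix k hk0 hk θ h
  exact hθ c hc


/-- `L` is bigger than `F1` -/
theorem exists_not_mem : ∃ θ : M.L, ∀ c : M.F1, algebraMap M.F1 M.L c ≠ θ := by
  by_contra hcon
  push Not at hcon
  have h1 : (⊥ : Subalgebra M.F1 M.L) = ⊤ := by
    rw [eq_top_iff]
    intro θ _
    obtain ⟨c, hc⟩ := hcon θ
    exact ⟨c, hc⟩
  have h2 : Module.finrank M.F1 (⊤ : Subalgebra M.F1 M.L) = N :=
    (Subalgebra.topEquiv.toLinearEquiv.finrank_eq).trans M.finrankL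
  rw [← h1, Subalgebra.finrank_bot] at h2
  have := M.one_lt
  omega

theorem natDegree_minpoly (θ : M.L) (hθ : ∀ c : M.F1, algebraMap M.F1 M.L c ≠ θ) :
    N ≤ (minpoly M.F1 θ).natDegree := by
  classical
  have hint : IsIntegral M.F1 θ := Algebra.IsIntegral.isIntegral θ
  have hinj : Set.InjOn (fun k : ℕ => (M.τ ^ k) θ) (range N : Set ℕ) := by
    have key : ∀ a b : ℕ, a < b → b < N → (M.τ ^ a) θ ≠ (M.τ ^ b) θ := by
      intro a b hab hb h
      apply M.conj_ne θ hθ (b - a) (by omega) (by omega)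
      apply (M.τ ^ a).injective
      have h2 : (M.τ ^ a) ((M.τ ^ (b - a)) θ) = (M.τ ^ b) θ := by
        have : b = a + (b - a) := by omega
        conv_rhs => rw [this, pow_add]
        rfl
      rw [h2, ← h]
    intro a ha b hb hab
    simp only [coe_range, Set.mem_Iio] at ha hb
    rcases lt_trichotomy a b with h | h | h
    · exact absurd hab (key a b h hb)
    · exact h
    · exact absurd hab.symm (key b a h ha)
  have hmap := Polynomial.natDegree_map_eq_of_injective (algebraMap M.F1 M.L).injective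
    (minpoly M.F1 θ)
  rw [← hmap]
  have hne : (minpoly M.F1 θ).map (algebraMap M.F1 M.L) ≠ 0 :=
    Polynomial.map_ne_zero (minpoly.ne_zero hint)
  have hsub : ((range N).image (fun k : ℕ => (M.τ ^ k) θ)).val ⊆
      ((minpoly M.F1 θ).map (algebraMap M.F1 M.L)).roots := by
    intro y hy
    rw [Finset.mem_val, Finset.mem_image] at hy
    obtain ⟨k, _, rfl⟩ := hy
    rw [Polynomial.mem_roots hne, Polynomial.IsRoot, Polynomial.eval_map,
      ← Polynomial.aeval_def]
    have h1 : Polynomial.aeval ((M.τ ^ k) θ) (minpoly M.F1 θ) =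
        (M.τ ^ k) (Polynomial.aeval θ (minpoly M.F1 θ)) := by
      rw [← Polynomial.aeval_algHom_apply (M.τ ^ k : M.L ≃ₐ[M.F1] M.L) θ]
    rw [h1, minpoly.aeval, map_zero]
  have h2 := Polynomial.card_le_degree_of_subset_roots hsub
  rwa [Finset.card_image_of_injOn hinj, Finset.card_range] at h2

/-- an element of `L` outside `F1` generates `L` -/
theorem adjoin_simple (θ : M.L) (hθ : ∀ c : M.F1, algebraMap M.F1 M.L c ≠ θ) :
    Algebra.adjoin M.F1 ({θ} : Set M.L) = ⊤ := by
  have hint : IsIntegral M.F1 θ := Algebra.IsIntegral.isIntegral θ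
  have hfr := IntermediateField.adjoin.finrank hint
  have htop : IntermediateField.adjoin M.F1 {θ} = ⊤ := by
    apply IntermediateField.eq_of_le_of_finrank_le le_top
    rw [IntermediateField.finrank_top', hfr, M.finrankL]
    exact M.natDegree_minpoly θ hθ
  have h3 := IntermediateField.adjoin_simple_toSubalgebra_of_isAlgebraic hint.isAlgebraic
  rw [← h3, htop]
  rfl

/-- there is a generator of `L` -/
theorem exists_gen : ∃ l0 : M.L, Algebra.adjoin M.F1 ({l0} : Set M.L) = ⊤ := by
  obtain ⟨θ, hθ⟩ := M.exists_not_mem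
  exact ⟨θ, M.adjoin_simple θ hθ⟩







/-- `E` is generated by `j θ` and `u` -/
theorem adjoin_pair (θ : M.L) (hθ : Algebra.adjoin M.F1 ({θ} : Set M.L) = ⊤) :
    Algebra.adjoin M.F1 ({M.j θ, M.u} : Set M.E) = ⊤ := by
  set S := Algebra.adjoin M.F1 ({M.j θ, M.u} : Set M.E) with hS
  have h1 : M.j θ ∈ S := Algebra.subset_adjoin (by simp)
  have h4 : M.u ∈ S := Algebra.subset_adjoin (by simp)
  have h3 : ∀ z : M.L, M.j z ∈ S := by
    intro z
    have hz : z ∈ Algebra.adjoin M.F1 ({θ} : Set M.L) := by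
      rw [hθ]; trivial
    have hle : (Algebra.adjoin M.F1 ({θ} : Set M.L)).map M.j ≤ S := by
      rw [AlgHom.map_adjoin, Set.image_singleton, Algebra.adjoin_le_iff]
      rintro _ rfl
      exact h1
    exact hle ⟨z, hz, rfl⟩
  rw [eq_top_iff]
  intro e _
  obtain ⟨c, hc, _⟩ := M.decomp e
  rw [hc]
  exact S.sum_mem fun k _ => S.mul_mem (h3 _) (S.pow_mem h4 _)



end PE

end

end Crest.Agent.R180
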