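import Mathlib
import Crest.Agent.R180.CycDef
import Crest.Agent.R180.MinDefs
import Crest.Agent.R180.MinAPrep
import Crest.Agent.R180.MinFacts0
import Crest.Agent.R180.NV

-- ▼ part R180/Twist
section

set_option autoImplicit false
set_option linter.unusedSectionVars false

/-!
# Row 180: twisted Laurent series `B((y; σ))`

`TL σ` for an automorphism `σ` of an `F`-algebra `B` : the algebra of twisted Laurent series,
realised inside `HahnSeries ℤ (ER F B)` (`b y^k` is the operator `x ↦ b σ^k(x)` in degree `k`).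
`sc x k : B` is the `k`-th (left) coefficient of `x`.
-/

namespace Crest.Agent.R180

noncomputable section

open HahnSeries

namespace Twist

/-- type synonym of the endomorphism ring (to have a unique path to `Semiring`) -/
def ER (F B : Type) [Field F] [Ring B] [Algebra F B] : Type := Module.End F B

section
variable (F B : Type) [Field F] [Ring B] [Algebra F B]

instance ER.instRing : Ring (ER F B) := inferInstanceAs (Ring (Module.End F B))
instance ER.instAlgebra : Algebra F (ER F B) := inferInstanceAs (Algebra F (Module.End F B))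
instance ER.instFunLike : FunLike (ER F B) B B := inferInstanceAs (FunLike (Module.End F B) B B)

variable {F B}
@[ext] theorem ER.ext {f g : ER F B} (h : ∀ x, f x = g x) : f = g := DFunLike.ext _ _ h
@[simp] theorem ER.mul_apply (f g : ER F B) (x : B) : (f * g) x = f (g x) := rfl
@[simp] theorem ER.add_apply (f g : ER F B) (x : B) : (f + g) x = f x + g x := rfl
@[simp] theorem ER.zero_apply (x : B) : (0 : ER F B) x = 0 := rfl
@[simp] theorem ER.one_apply (x : B) : (1 : ER F B) x = x := rfl
@[simp] theorem ER.neg_apply (f : ER F B) (x : B) : (-f) x = - f x := rfl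
@[simp] theorem ER.smul_apply (c : F) (f : ER F B) (x : B) : (c • f) x = c • f x := rfl
@[simp] theorem ER.algebraMap_apply (c : F) (x : B) : (algebraMap F (ER F B) c) x = c • x := rfl
end

variable {F B : Type} [Field F] [Ring B] [Algebra F B] (σ : B ≃ₐ[F] B)

/-- the operator `x ↦ b * σ^k x` -/
def op (b : B) (k : ℤ) : ER F B :=
  (LinearMap.mulLeft F b) ∘ₗ ((σ ^ k : B ≃ₐ[F] B).toLinearMap)

@[simp] theorem op_apply (b x : B) (k : ℤ) : op σ b k x = b * (σ ^ k) x := rfl

theorem op_mul (b c : B) (k l : ℤ) : op σ b k * op σ c l = op σ (b * (σ ^ k) c) (k + l) := by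
  ext x
  rw [ER.mul_apply, op_apply, op_apply, op_apply, map_mul, zpow_add, mul_assoc]
  rfl

@[simp] theorem op_zero (k : ℤ) : op σ (0 : B) k = 0 := by ext x; simp

theorem op_add (b c : B) (k : ℤ) : op σ (b + c) k = op σ b k + op σ c k := by
  ext x; simp [add_mul]


theorem op_sum {ι : Type*} (s : Finset ι) (b : ι → B) (k : ℤ) :
    op σ (∑ i ∈ s, b i) k = ∑ i ∈ s, op σ (b i) k := by
  classical
  induction s using Finset.induction_on with
  | empty => simp
  | insert a s ha ih => rw [Finset.sum_insert ha, Finset.sum_insert ha, op_add, ih]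

/-- twisted Laurent series -/
def TL : Subalgebra F (HahnSeries ℤ (ER F B)) where
  carrier := {x | ∀ k, ∃ b, x.coeff k = op σ b k}
  mul_mem' := by
    intro x y hx hy n
    choose f hf using hx
    choose g hg using hy
    rw [HahnSeries.coeff_mul]
    refine ⟨∑ ij ∈ Finset.antidiagonal x.isPWO_support y.isPWO_support n,
      f ij.1 * (σ ^ ij.1) (g ij.2), ?_⟩
    rw [op_sum]
    refine Finset.sum_congr rfl fun ij hij => ?_
    have hij' : ij.1 + ij.2 = n := by
      simp only [Finset.mem_antidiagonal] at hij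
      exact hij.2.2
    rw [hf, hg, op_mul, hij']
  add_mem' := by
    intro x y hx hy n
    obtain ⟨f, hf⟩ := hx n
    obtain ⟨g, hg⟩ := hy n
    exact ⟨f + g, by rw [HahnSeries.coeff_add, hf, hg, op_add]⟩
  algebraMap_mem' := by
    intro c n
    by_cases hn : n = 0
    · subst hn
      refine ⟨algebraMap F B c, ?_⟩
      rw [HahnSeries.algebraMap_apply, HahnSeries.C_apply, HahnSeries.coeff_single_same]
      ext x
      simp [Algebra.smul_def]
    · refine ⟨0, ?_⟩
      rw [HahnSeries.algebraMap_apply, HahnSeries.C_apply, HahnSeries.coeff_single_of_ne hn,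
        op_zero]

/-- the coefficients -/
def sc (x : TL σ) (k : ℤ) : B := (x.1.coeff k) 1

theorem sc_eq_of {x : TL σ} {k : ℤ} {b : B} (h : x.1.coeff k = op σ b k) : sc σ x k = b := by
  rw [sc, h]; simp

theorem coeff_eq (x : TL σ) (k : ℤ) : x.1.coeff k = op σ (sc σ x k) k := by
  obtain ⟨b, hb⟩ := x.2 k
  rw [sc_eq_of σ hb, hb]

theorem sc_ext {x y : TL σ} (h : ∀ k, sc σ x k = sc σ y k) : x = y := by
  apply Subtype.ext; apply HahnSeries.ext; funext k
  rw [coeff_eq, coeff_eq, h]

theorem sc_eq_zero_iff (x : TL σ) (k : ℤ) : sc σ x k = 0 ↔ x.1.coeff k = 0 := by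
  constructor
  · intro h; rw [coeff_eq, h, op_zero]
  · intro h; rw [sc, h]; rfl

@[simp] theorem sc_zero (k : ℤ) : sc σ 0 k = 0 := rfl

@[simp] theorem sc_add (x y : TL σ) (k : ℤ) : sc σ (x + y) k = sc σ x k + sc σ y k := rfl

@[simp] theorem sc_neg (x : TL σ) (k : ℤ) : sc σ (-x) k = - sc σ x k := rfl

@[simp] theorem sc_sub (x y : TL σ) (k : ℤ) : sc σ (x - y) k = sc σ x k - sc σ y k := by
  rw [sub_eq_add_neg, sc_add, sc_neg, sub_eq_add_neg]

@[simp] theorem sc_smul (c : F) (x : TL σ) (k : ℤ) : sc σ (c • x) k = c • sc σ x k := rfl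

/-- additive version of `sc` -/
def scHom (k : ℤ) : TL σ →+ B where
  toFun x := sc σ x k
  map_zero' := rfl
  map_add' _ _ := rfl

theorem sc_sum {ι : Type*} (s : Finset ι) (f : ι → TL σ) (k : ℤ) :
    sc σ (∑ i ∈ s, f i) k = ∑ i ∈ s, sc σ (f i) k :=
  map_sum (scHom σ k) f s

/-- product formula, with arbitrary partially well-ordered supersets of the supports -/
theorem sc_mul' (x y : TL σ) {s t : Set ℤ} (hs : s.IsPWO) (ht : t.IsPWO)
    (hxs : x.1.support ⊆ s) (hyt : y.1.support ⊆ t) (n : ℤ) :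
    sc σ (x * y) n = ∑ ij ∈ Finset.antidiagonal hs ht n, sc σ x ij.1 * (σ ^ ij.1) (sc σ y ij.2) := by
  apply sc_eq_of
  change (x.1 * y.1).coeff n = _
  rw [HahnSeries.coeff_mul, op_sum]
  have h1 : ∑ ij ∈ Finset.antidiagonal x.1.isPWO_support y.1.isPWO_support n,
      x.1.coeff ij.1 * y.1.coeff ij.2 = ∑ ij ∈ Finset.antidiagonal hs ht n,
      x.1.coeff ij.1 * y.1.coeff ij.2 := by
    apply Finset.sum_subset
    · intro ij hij
      simp only [Finset.mem_antidiagonal] at hij ⊢
      exact ⟨hxs hij.1, hyt hij.2.1, hij.2.2⟩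
    · intro ij hij hij'
      simp only [Finset.mem_antidiagonal] at hij hij'
      by_cases h1 : ij.1 ∈ x.1.support
      · by_cases h2 : ij.2 ∈ y.1.support
        · exact absurd ⟨h1, h2, hij.2.2⟩ hij'
        · rw [HahnSeries.mem_support, not_not] at h2
          rw [h2, mul_zero]
      · rw [HahnSeries.mem_support, not_not] at h1
        rw [h1, zero_mul]
  rw [h1]
  refine Finset.sum_congr rfl fun ij hij => ?_
  have hij' : ij.1 + ij.2 = n := by
    simp only [Finset.mem_antidiagonal] at hij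
    exact hij.2.2
  rw [coeff_eq, coeff_eq, op_mul, hij']

theorem sc_mul (x y : TL σ) (n : ℤ) :
    sc σ (x * y) n = ∑ ij ∈ Finset.antidiagonal x.1.isPWO_support y.1.isPWO_support n,
      sc σ x ij.1 * (σ ^ ij.1) (sc σ y ij.2) :=
  sc_mul' σ x y _ _ subset_rfl subset_rfl n

/-- the twisted series with coefficients `f` -/
def mk (f : HahnSeries ℤ B) : TL σ :=
  ⟨⟨fun k => op σ (f.coeff k) k, f.isPWO_support.mono (by
    intro k hk
    rw [HahnSeries.mem_support]
    intro h
    apply hk
    simp only [h, op_zero])⟩, fun k => ⟨f.coeff k, rfl⟩⟩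

@[simp] theorem sc_mk (f : HahnSeries ℤ B) (k : ℤ) : sc σ (mk σ f) k = f.coeff k := by
  apply sc_eq_of; rfl

/-- the underlying Hahn series of coefficients -/
def ser (x : TL σ) : HahnSeries ℤ B :=
  ⟨sc σ x, x.1.isPWO_support.mono (by
    intro k hk
    rw [HahnSeries.mem_support]
    intro h
    exact hk ((sc_eq_zero_iff σ x k).mpr h))⟩

@[simp] theorem ser_coeff (x : TL σ) (k : ℤ) : (ser σ x).coeff k = sc σ x k := rfl

@[simp] theorem mk_ser (x : TL σ) : mk σ (ser σ x) = x := sc_ext σ fun k => by simp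
@[simp] theorem ser_mk (f : HahnSeries ℤ B) : ser σ (mk σ f) = f := by
  ext k; simp


/-- constants -/
def ι : B →ₐ[F] TL σ where
  toFun b := mk σ (HahnSeries.single 0 b)
  map_one' := sc_ext σ fun k => by
    rw [sc_mk]
    change _ = ((1 : HahnSeries ℤ (ER F B)).coeff k) 1
    rw [HahnSeries.coeff_one, HahnSeries.coeff_single]
    split_ifs <;> simp_all
  map_zero' := sc_ext σ fun k => by simp
  map_add' b c := sc_ext σ fun k => by
    rw [sc_add, sc_mk, sc_mk, sc_mk, HahnSeries.coeff_single, HahnSeries.coeff_single,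
      HahnSeries.coeff_single]
    split_ifs <;> simp
  map_mul' b c := by
    apply Subtype.ext
    change (mk σ (HahnSeries.single 0 (b * c))).1 = (mk σ (HahnSeries.single 0 b)).1 *
      (mk σ (HahnSeries.single 0 c)).1
    have h : ∀ b : B, (mk σ (HahnSeries.single 0 b)).1 = HahnSeries.single 0 (op σ b 0) := by
      intro b
      ext1; funext k
      change op σ ((HahnSeries.single 0 b : HahnSeries ℤ B).coeff k) k = _
      by_cases hk : k = 0
      · subst hk; rw [HahnSeries.coeff_single_same, HahnSeries.coeff_single_same]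
      · rw [HahnSeries.coeff_single_of_ne hk, HahnSeries.coeff_single_of_ne hk, op_zero]
    rw [h, h, h, HahnSeries.single_mul_single, op_mul]
    simp
  commutes' c := by
    apply Subtype.ext
    ext1; funext k
    change op σ ((HahnSeries.single 0 (algebraMap F B c) : HahnSeries ℤ B).coeff k) k
      = (algebraMap F (HahnSeries ℤ (ER F B)) c).coeff k
    rw [HahnSeries.algebraMap_apply, HahnSeries.C_apply]
    by_cases hk : k = 0
    · subst hk; rw [HahnSeries.coeff_single_same, HahnSeries.coeff_single_same]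
      ext x; simp [Algebra.smul_def]
    · rw [HahnSeries.coeff_single_of_ne hk, HahnSeries.coeff_single_of_ne hk, op_zero]

theorem sc_ι (b : B) (k : ℤ) : sc σ (ι σ b) k = if k = 0 then b else 0 := by
  change sc σ (mk σ (HahnSeries.single 0 b)) k = _
  rw [sc_mk]
  by_cases h : k = 0
  · subst h; simp
  · rw [HahnSeries.coeff_single_of_ne h, if_neg h]

theorem ι_val (b : B) : (ι σ b).1 = HahnSeries.single 0 (op σ b 0) := by
  ext1; funext k
  change op σ ((HahnSeries.single 0 b : HahnSeries ℤ B).coeff k) k = _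
  by_cases hk : k = 0
  · subst hk; rw [HahnSeries.coeff_single_same, HahnSeries.coeff_single_same]
  · rw [HahnSeries.coeff_single_of_ne hk, HahnSeries.coeff_single_of_ne hk, op_zero]

/-- the powers of `y` -/
def yp (n : ℤ) : TL σ := mk σ (HahnSeries.single n 1)

theorem yp_val (n : ℤ) : (yp σ n).1 = HahnSeries.single n (op σ 1 n) := by
  ext1; funext k
  change op σ ((HahnSeries.single n (1 : B)).coeff k) k = _
  by_cases hk : k = n
  · subst hk; rw [HahnSeries.coeff_single_same, HahnSeries.coeff_single_same]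
  · rw [HahnSeries.coeff_single_of_ne hk, HahnSeries.coeff_single_of_ne hk, op_zero]

theorem sc_yp (n k : ℤ) : sc σ (yp σ n) k = if k = n then 1 else 0 := by
  rw [yp, sc_mk]
  by_cases h : k = n
  · subst h; simp
  · rw [HahnSeries.coeff_single_of_ne h, if_neg h]

@[simp] theorem yp_zero : yp σ 0 = 1 := by
  have : yp σ 0 = ι σ 1 := rfl
  rw [this, map_one]

theorem yp_mul (m n : ℤ) : yp σ m * yp σ n = yp σ (m + n) := by
  apply Subtype.ext
  change (yp σ m).1 * (yp σ n).1 = _
  rw [yp_val, yp_val, yp_val, HahnSeries.single_mul_single, op_mul]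
  simp

theorem yp_pow (m : ℤ) (n : ℕ) : yp σ m ^ n = yp σ (n * m) := by
  induction n with
  | zero => simp
  | succ n ih => rw [pow_succ, ih, yp_mul]; congr 1; push_cast; ring

theorem sc_ι_mul (b : B) (x : TL σ) (n : ℤ) : sc σ (ι σ b * x) n = b * sc σ x n := by
  apply sc_eq_of
  change ((ι σ b).1 * x.1).coeff n = _
  rw [ι_val, show n = n + 0 from (add_zero n).symm]
  have h := @HahnSeries.coeff_single_mul_add ℤ (ER F B) _ _ _ _ (op σ b 0) x.1 n 0
  rw [h, coeff_eq, op_mul]
  simp

theorem sc_mul_ι (b : B) (x : TL σ) (n : ℤ) : sc σ (x * ι σ b) n = sc σ x n * (σ ^ n) b := by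
  apply sc_eq_of
  change (x.1 * (ι σ b).1).coeff n = _
  rw [ι_val, show n = n + 0 from (add_zero n).symm]
  have h := @HahnSeries.coeff_mul_single_add ℤ (ER F B) _ _ _ _ (op σ b 0) x.1 n 0
  rw [h, coeff_eq, op_mul]
  simp

theorem sc_yp_mul (k : ℤ) (x : TL σ) (n : ℤ) : sc σ (yp σ k * x) n = (σ ^ k) (sc σ x (n - k)) := by
  apply sc_eq_of
  change ((yp σ k).1 * x.1).coeff n = _
  rw [yp_val]
  have h := @HahnSeries.coeff_single_mul_add ℤ (ER F B) _ _ _ _ (op σ 1 k) x.1 (n - k) k
  rw [sub_add_cancel] at h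
  rw [h, coeff_eq, op_mul]
  simp

theorem sc_mul_yp (k : ℤ) (x : TL σ) (n : ℤ) : sc σ (x * yp σ k) n = sc σ x (n - k) := by
  apply sc_eq_of
  change (x.1 * (yp σ k).1).coeff n = _
  rw [yp_val]
  have h := @HahnSeries.coeff_mul_single_add ℤ (ER F B) _ _ _ _ (op σ 1 k) x.1 (n - k) k
  rw [sub_add_cancel] at h
  rw [h, coeff_eq, op_mul]
  simp


section domain

variable [IsDomain B]

instance instNontrivial : Nontrivial (TL σ) :=
  ⟨⟨0, 1, fun h => by
    have := congrArg (fun x => sc σ x 0) h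
    have h1 : sc σ (1 : TL σ) 0 = 1 := by rw [← yp_zero, sc_yp]; simp
    simp [h1] at this⟩⟩

theorem exists_order {x : TL σ} (hx : x ≠ 0) :
    ∃ m : ℤ, sc σ x m ≠ 0 ∧ ∀ k < m, sc σ x k = 0 := by
  have hx' : x.1 ≠ 0 := fun h => hx (Subtype.ext h)
  refine ⟨x.1.order, ?_, ?_⟩
  · rw [ne_eq, sc_eq_zero_iff]
    exact fun h => hx' (HahnSeries.coeff_order_eq_zero.mp h)
  · intro k hk
    rw [sc_eq_zero_iff]
    exact HahnSeries.coeff_eq_zero_of_lt_order hk

theorem support_subset_Ici {x : TL σ} {m : ℤ} (h : ∀ k < m, sc σ x k = 0) :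
    x.1.support ⊆ Set.Ici m := by
  intro k hk
  by_contra hk'
  rw [HahnSeries.mem_support] at hk
  exact hk ((sc_eq_zero_iff σ x k).mp (h k (not_le.mp hk')))

theorem isPWO_Ici (m : ℤ) : (Set.Ici m).IsPWO := by
  apply Set.IsWF.isPWO
  rw [Set.isWF_iff_no_descending_seq]
  intro f hf hmem
  have h1 : ∀ n : ℕ, f n ≤ f 0 - n := by
    intro n
    induction n with
    | zero => simp
    | succ n ih =>
      have := hf (Nat.lt_succ_self n)
      push_cast
      have h2 : f (n + 1) < f n := this
      omega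
  have h2 := h1 ((f 0 - m).toNat + 1)
  have h3 : m ≤ f ((f 0 - m).toNat + 1) := hmem _
  have h4 : m ≤ f 0 := hmem _
  push_cast at h2
  rw [Int.toNat_of_nonneg (by omega)] at h2
  omega

/-- lowest coefficient of a product -/
theorem sc_mul_low {x y : TL σ} {m n : ℤ} (hx : ∀ k < m, sc σ x k = 0)
    (hy : ∀ k < n, sc σ y k = 0) : sc σ (x * y) (m + n) = sc σ x m * (σ ^ m) (sc σ y n) := by
  rw [sc_mul' σ x y (isPWO_Ici m) (isPWO_Ici n) (support_subset_Ici σ hx)
    (support_subset_Ici σ hy)]
  rw [Finset.sum_eq_single (m, n)]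
  · rintro ⟨i, j⟩ hij hne
    simp only [Finset.mem_antidiagonal, Set.mem_Ici] at hij
    exfalso
    apply hne
    have h1 : i = m := by omega
    have h2 : j = n := by omega
    rw [h1, h2]
  · intro h
    exfalso
    apply h
    simp [Finset.mem_antidiagonal]


instance instDomain : IsDomain (TL σ) := by
  have : NoZeroDivisors (TL σ) := by
    constructor
    intro x y hxy
    by_contra hne
    push Not at hne
    obtain ⟨m, hm, hm'⟩ := exists_order σ hne.1
    obtain ⟨n, hn, hn'⟩ := exists_order σ hne.2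
    have h := sc_mul_low σ hm' hn'
    rw [hxy, sc_zero] at h
    have h2 : (σ ^ m) (sc σ y n) ≠ 0 := by
      intro h0
      apply hn
      apply (σ ^ m).injective
      rw [h0, map_zero]
    exact (mul_ne_zero hm h2) h.symm
  exact NoZeroDivisors.to_isDomain (TL σ)

end domain

section map

variable {B' : Type} [Ring B'] [Algebra F B'] (σ' : B' ≃ₐ[F] B') (φ : B →ₐ[F] B')
  (hφ : ∀ b, φ (σ b) = σ' (φ b))

include hφ in
theorem map_zpow (k : ℤ) (b : B) : φ ((σ ^ k) b) = (σ' ^ k) (φ b) := by
  have hpow : ∀ (n : ℕ) (b : B), φ ((σ ^ n) b) = (σ' ^ n) (φ b) := by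
    intro n
    induction n with
    | zero => intro b; simp
    | succ n ih =>
      intro b
      rw [pow_succ, pow_succ, AlgEquiv.mul_apply, AlgEquiv.mul_apply, ih, hφ]
  obtain ⟨n, rfl | rfl⟩ := k.eq_nat_or_neg
  · rw [zpow_natCast, zpow_natCast, hpow]
  · rw [zpow_neg, zpow_neg, zpow_natCast, zpow_natCast]
    apply (σ' ^ n).injective
    rw [← hpow, ← AlgEquiv.mul_apply, ← AlgEquiv.mul_apply, mul_inv_cancel, mul_inv_cancel]
    rfl

/-- functoriality of twisted Laurent series -/
def map : TL σ →ₐ[F] TL σ' where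
  toFun x := mk σ' ((ser σ x).map (φ : B →+ B'))
  map_one' := by
    apply sc_ext; intro k
    rw [sc_mk]
    change φ (sc σ 1 k) = _
    rw [← yp_zero, ← yp_zero, sc_yp, sc_yp]
    split_ifs <;> simp
  map_zero' := by
    apply sc_ext; intro k
    rw [sc_mk]
    change φ (sc σ 0 k) = _
    simp
  map_add' x y := by
    apply sc_ext; intro k
    rw [sc_mk, sc_add, sc_mk, sc_mk]
    change φ (sc σ (x + y) k) = φ (sc σ x k) + φ (sc σ y k)
    simp
  map_mul' x y := by
    apply sc_ext; intro n
    have h1 : ∀ z : TL σ, (mk σ' ((ser σ z).map (φ : B →+ B'))).1.support ⊆ z.1.support := by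
      intro z k hk
      rw [HahnSeries.mem_support] at hk ⊢
      intro h
      apply hk
      rw [← sc_eq_zero_iff, sc_mk]
      change φ (sc σ z k) = 0
      rw [(sc_eq_zero_iff σ z k).mpr h, map_zero]
    rw [sc_mul' σ' _ _ x.1.isPWO_support y.1.isPWO_support (h1 x) (h1 y), sc_mk]
    change φ (sc σ (x * y) n) = _
    rw [sc_mul, map_sum]
    refine Finset.sum_congr rfl fun ij _ => ?_
    rw [sc_mk, sc_mk, map_mul, map_zpow σ σ' φ hφ]
    rfl
  commutes' c := by
    apply sc_ext; intro k
    rw [sc_mk]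
    change φ (sc σ (algebraMap F (TL σ) c) k) = _
    rw [← (ι σ).commutes, ← (ι σ').commutes, sc_ι, sc_ι]
    split_ifs <;> simp

@[simp] theorem sc_map (x : TL σ) (k : ℤ) : sc σ' (map σ σ' φ hφ x) k = φ (sc σ x k) := by
  change sc σ' (mk σ' _) k = _
  rw [sc_mk]; rfl

end map

end Twist

end

end Crest.Agent.R180
end

-- ▼ part R180/TwistTensor
section

set_option autoImplicit false
set_option linter.unusedSectionVars false

/-!
# Row 180: `TL σ ⊗ D` is a domain when `B ⊗ D` is
-/

namespace Crest.Agent.R180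

noncomputable section

open TensorProduct

namespace Twist

variable {F B D : Type} [Field F] [Ring B] [Algebra F B] (σ : B ≃ₐ[F] B) [Ring D] [Algebra F D]

/-- extension of an automorphism to `B ⊗ D` -/
def sigD (D : Type) [Ring D] [Algebra F D] : B ⊗[F] D ≃ₐ[F] B ⊗[F] D :=
  Algebra.TensorProduct.congr σ AlgEquiv.refl

@[simp] theorem sigD_tmul (b : B) (d : D) : sigD σ D (b ⊗ₜ d) = σ b ⊗ₜ d := by
  simp [sigD]


theorem sigD_right (k : ℤ) (d : D) : (sigD σ D ^ k) (1 ⊗ₜ[F] d) = 1 ⊗ₜ d := by
  have := map_zpow (1 : D ≃ₐ[F] D) (sigD σ D) (Algebra.TensorProduct.includeRight : D →ₐ[F] B ⊗[F] D)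
    (fun b => by simp) k d
  simpa using this.symm


/-- `TL σ ⊗ D → TL (σ ⊗ 1)` -/
def tmap (D : Type) [Ring D] [Algebra F D] : TL σ ⊗[F] D →ₐ[F] TL (sigD σ D) :=
  Algebra.TensorProduct.lift
    (map σ (sigD σ D) (Algebra.TensorProduct.includeLeft) (fun b => by simp))
    ((ι (sigD σ D)).comp Algebra.TensorProduct.includeRight) (fun x d => by
      change _ = _
      apply sc_ext; intro k
      rw [AlgHom.comp_apply, sc_ι_mul, sc_mul_ι, sc_map]
      simp only [Algebra.TensorProduct.includeRight_apply, Algebra.TensorProduct.includeLeft_apply]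
      rw [sigD_right]
      simp)

@[simp] theorem sc_tmap_tmul (x : TL σ) (d : D) (k : ℤ) :
    sc (sigD σ D) (tmap σ D (x ⊗ₜ d)) k = sc σ x k ⊗ₜ[F] d := by
  have h : tmap σ D (x ⊗ₜ d) = map σ (sigD σ D) (Algebra.TensorProduct.includeLeft)
      (fun b => by simp) x * ι (sigD σ D) (1 ⊗ₜ d) := rfl
  rw [h, sc_mul_ι, sc_map, sigD_right]
  simp

theorem sc_tmap_repr {κ : Type} [DecidableEq κ] (b : Module.Basis κ F D) (x : TL σ ⊗[F] D) (k : ℤ)
    (j : κ) : TensorProduct.equivFinsuppOfBasisRight b (sc (sigD σ D) (tmap σ D x) k) j =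
      sc σ (TensorProduct.equivFinsuppOfBasisRight b x j) k := by
  induction x using TensorProduct.induction_on with
  | zero => simp
  | tmul f d =>
    rw [sc_tmap_tmul]
    simp only [TensorProduct.equivFinsuppOfBasisRight_apply_tmul_apply, sc_smul]
  | add x y hx hy =>
    rw [map_add, sc_add, map_add, map_add, Finsupp.add_apply, Finsupp.add_apply, sc_add, hx, hy]

theorem tmap_injective : Function.Injective (tmap σ D) := by
  classical
  intro x y h
  let b := Module.Basis.ofVectorSpace F D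
  apply (TensorProduct.equivFinsuppOfBasisRight (M := TL σ) b).injective
  ext j : 1
  apply sc_ext; intro k
  rw [← sc_tmap_repr, ← sc_tmap_repr, h]

theorem isDomain_tensor (D : Type) [Ring D] [Algebra F D] [IsDomain (B ⊗[F] D)] :
    IsDomain (TL σ ⊗[F] D) :=
  Function.Injective.isDomain (tmap σ D).toRingHom (tmap_injective σ)

end Twist

end

end Crest.Agent.R180
end

-- ▼ part R180/CycBase
section

set_option autoImplicit false
set_option linter.unusedSectionVars false

/-!
# Row 180: the generic cyclic algebra inside twisted Laurent series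

`L₀` a field over `F`, `σ` an automorphism of exact order `N`; `E = TL σ = L₀((y; σ))`,
`L = L₀((T))`, `T = y ^ N`, `F₁` = fixed field of `σ` on `L`.
-/

namespace Crest.Agent.R180

noncomputable section

open TensorProduct HahnSeries

namespace CycC

/-- Laurent series (type synonym, to control the instances) -/
def LS (R : Type) [Zero R] : Type := HahnSeries ℤ R

namespace LS
variable {R : Type} [Field R]

instance instField : Field (LS R) := inferInstanceAs (Field (HahnSeries ℤ R))

/-- coefficients -/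
def co (x : LS R) (n : ℤ) : R := HahnSeries.coeff (x : HahnSeries ℤ R) n

/-- constants -/
def C : R →+* LS R := (HahnSeries.C : R →+* HahnSeries ℤ R)

/-- as a Hahn series -/
def toH : LS R ≃+* HahnSeries ℤ R := RingEquiv.refl _

@[simp] theorem coeff_toH (x : LS R) (n : ℤ) : (toH x).coeff n = x.co n := rfl

theorem ext {x y : LS R} (h : ∀ n, x.co n = y.co n) : x = y := HahnSeries.ext (funext h)

@[simp] theorem co_zero (n : ℤ) : (0 : LS R).co n = 0 := rfl
@[simp] theorem co_add (x y : LS R) (n : ℤ) : (x + y).co n = x.co n + y.co n := rfl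

theorem co_C (b : R) (n : ℤ) : (C b).co n = if n = 0 then b else 0 := by
  change (HahnSeries.C b : HahnSeries ℤ R).coeff n = _
  rw [HahnSeries.C_apply]
  by_cases h : n = 0
  · subst h; simp
  · rw [HahnSeries.coeff_single_of_ne h, if_neg h]

/-- monomials -/
def mon (k : ℤ) (b : R) : LS R := (HahnSeries.single k b : HahnSeries ℤ R)

theorem co_mon (k : ℤ) (b : R) (n : ℤ) : (mon k b).co n = if n = k then b else 0 := by
  change (HahnSeries.single k b : HahnSeries ℤ R).coeff n = _
  by_cases h : n = k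
  · subst h; simp
  · rw [HahnSeries.coeff_single_of_ne h, if_neg h]

theorem mon_mul (k l : ℤ) (b c : R) : mon k b * mon l c = mon (k + l) (b * c) :=
  HahnSeries.single_mul_single

theorem mon_pow (k : ℤ) (b : R) (n : ℕ) : mon k b ^ n = mon (n * k) (b ^ n) := by
  induction n with
  | zero => rw [pow_zero, pow_zero, Nat.cast_zero, zero_mul]; rfl
  | succ n ih =>
    rw [pow_succ, ih, mon_mul, pow_succ]
    congr 1
    push_cast; ring

theorem C_eq_mon (b : R) : C b = mon 0 b := rfl

instance instAlgebra {F : Type} [Field F] [Algebra F R] : Algebra F (LS R) :=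
  RingHom.toAlgebra ((C : R →+* LS R).comp (algebraMap F R))

theorem algebraMap_eq {F : Type} [Field F] [Algebra F R] (c : F) :
    algebraMap F (LS R) c = C (algebraMap F R c) := rfl

end LS

variable {F L0 : Type} [Field F] [Field L0] [Algebra F L0]

/-- coefficientwise action on Laurent series -/
def tau0 (σ : L0 ≃ₐ[F] L0) : LS L0 →ₐ[F] LS L0 where
  toFun x := HahnSeries.map (x : HahnSeries ℤ L0) (σ : L0 →+ L0)
  map_one' := by
    apply LS.ext; intro n
    change σ ((1 : HahnSeries ℤ L0).coeff n) = (1 : HahnSeries ℤ L0).coeff n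
    rw [HahnSeries.coeff_one]
    split_ifs <;> simp
  map_zero' := by
    apply LS.ext; intro n
    change σ 0 = _
    simp
  map_add' x y := by
    apply LS.ext; intro n
    change σ (x.co n + y.co n) = σ (x.co n) + σ (y.co n)
    simp
  map_mul' x y := HahnSeries.map_mul (R := L0) (S := L0) ((σ : L0 →+* L0) : L0 →ₙ+* L0)
  commutes' c := by
    apply LS.ext; intro n
    change σ ((LS.C (algebraMap F L0 c) : LS L0).co n) = (LS.C (algebraMap F L0 c) : LS L0).co n
    rw [LS.co_C]
    split_ifs <;> simp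

@[simp] theorem coeff_tau0 (σ : L0 ≃ₐ[F] L0) (x : LS L0) (n : ℤ) :
    (tau0 σ x).co n = σ (x.co n) := rfl

/-- coefficientwise action on Laurent series, as a group hom -/
def tau : (L0 ≃ₐ[F] L0) →* (LS L0 ≃ₐ[F] LS L0) where
  toFun σ := AlgEquiv.ofAlgHom (tau0 σ) (tau0 σ⁻¹)
    (by
      apply AlgHom.ext; intro x; apply LS.ext; intro n
      simp only [AlgHom.comp_apply, coeff_tau0, AlgHom.id_apply]
      rw [← AlgEquiv.mul_apply, mul_inv_cancel]; rfl)
    (by
      apply AlgHom.ext; intro x; apply LS.ext; intro n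
      simp only [AlgHom.comp_apply, coeff_tau0, AlgHom.id_apply]
      rw [← AlgEquiv.mul_apply, inv_mul_cancel]; rfl)
  map_one' := by
    ext x
    apply LS.ext; intro n
    rfl
  map_mul' σ σ' := by
    ext x
    apply LS.ext; intro n
    rfl

@[simp] theorem coeff_tau (σ : L0 ≃ₐ[F] L0) (x : LS L0) (n : ℤ) :
    (tau σ x).co n = σ (x.co n) := rfl

variable (σ : L0 ≃ₐ[F] L0)

open Twist

/-- multiplication is untwisted if the left factor lives in degrees acting trivially -/
theorem mk_mul_left (f g : HahnSeries ℤ L0) (hf : ∀ i, f.coeff i ≠ 0 → σ ^ i = 1) :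
    mk σ f * mk σ g = mk σ (f * g) := by
  apply sc_ext; intro n
  have h1 : ∀ f : HahnSeries ℤ L0, (mk σ f).1.support ⊆ f.support := by
    intro f k hk
    rw [HahnSeries.mem_support] at hk ⊢
    intro h
    apply hk
    rw [← sc_eq_zero_iff, sc_mk, h]
  rw [sc_mul' σ _ _ f.isPWO_support g.isPWO_support (h1 f) (h1 g), sc_mk, HahnSeries.coeff_mul]
  refine Finset.sum_congr rfl fun ij hij => ?_
  rw [sc_mk, sc_mk]
  simp only [Finset.mem_antidiagonal] at hij
  rw [hf ij.1 hij.1]; rfl

/-- multiplication is untwisted if the right factor has fixed coefficients -/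
theorem mk_mul_right (f g : HahnSeries ℤ L0) (hg : ∀ i, σ (g.coeff i) = g.coeff i) :
    mk σ f * mk σ g = mk σ (f * g) := by
  have hz : ∀ (k : ℤ) (b : L0), σ b = b → (σ ^ k) b = b := by
    intro k b hb
    have hpow : ∀ n : ℕ, (σ ^ n) b = b := by
      intro n
      induction n with
      | zero => rfl
      | succ n ih => rw [pow_succ, AlgEquiv.mul_apply, hb, ih]
    obtain ⟨n, rfl | rfl⟩ := k.eq_nat_or_neg
    · rw [zpow_natCast, hpow]
    · rw [zpow_neg, zpow_natCast]
      apply (σ ^ n).injective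
      rw [← AlgEquiv.mul_apply, mul_inv_cancel, hpow]; rfl
  apply sc_ext; intro n
  have h1 : ∀ f : HahnSeries ℤ L0, (mk σ f).1.support ⊆ f.support := by
    intro f k hk
    rw [HahnSeries.mem_support] at hk ⊢
    intro h
    apply hk
    rw [← sc_eq_zero_iff, sc_mk, h]
  rw [sc_mul' σ _ _ f.isPWO_support g.isPWO_support (h1 f) (h1 g), sc_mk, HahnSeries.coeff_mul]
  refine Finset.sum_congr rfl fun ij hij => ?_
  rw [sc_mk, sc_mk, hz _ _ (hg _)]

theorem mk_add (f g : HahnSeries ℤ L0) : mk σ f + mk σ g = mk σ (f + g) := by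
  apply sc_ext; intro n
  rw [sc_add, sc_mk, sc_mk, sc_mk, HahnSeries.coeff_add]

variable (N : ℕ) [NeZero N]

/-- `x(T) ↦ x(y^N)` on untwisted series -/
def spread : HahnSeries ℤ L0 →+* HahnSeries ℤ L0 :=
  HahnSeries.embDomainRingHom (AddMonoidHom.mulLeft (N : ℤ))
    (by
      intro a b h
      have h' : (N : ℤ) * a = N * b := h
      exact mul_left_cancel₀ (by exact_mod_cast NeZero.ne N) h')
    (by
      intro a b
      change (N : ℤ) * a ≤ N * b ↔ a ≤ b
      exact mul_le_mul_iff_right₀ (by exact_mod_cast NeZero.pos N))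

theorem coeff_spread (x : HahnSeries ℤ L0) (n : ℤ) :
    (spread (L0 := L0) N x).coeff n = if (N : ℤ) ∣ n then x.coeff (n / N) else 0 := by
  by_cases h : (N : ℤ) ∣ n
  · obtain ⟨k, rfl⟩ := h
    rw [if_pos (dvd_mul_right _ _), Int.mul_ediv_cancel_left _ (by exact_mod_cast NeZero.ne N)]
    exact HahnSeries.embDomain_coeff
  · rw [if_neg h]
    apply HahnSeries.embDomain_of_notMem_range
    rintro ⟨k, hk⟩
    apply h
    exact ⟨k, hk.symm⟩

variable (hσ : ∀ k : ℤ, (N : ℤ) ∣ k → σ ^ k = 1)

include hσ in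
theorem spread_supp (x : HahnSeries ℤ L0) (i : ℤ) (hi : (spread (L0 := L0) N x).coeff i ≠ 0) :
    σ ^ i = 1 := by
  apply hσ
  by_contra h
  rw [coeff_spread, if_neg h] at hi
  exact hi rfl

/-- the inclusion `L → E` -/
def jR : LS L0 →+* TL σ where
  toFun x := mk σ (spread N (LS.toH x))
  map_one' := by
    rw [map_one, map_one]
    apply sc_ext; intro k
    rw [sc_mk, ← yp_zero, sc_yp, HahnSeries.coeff_one]
    by_cases h : k = 0 <;> simp [h]
  map_zero' := by
    rw [map_zero, map_zero]
    apply sc_ext; intro k; simp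
  map_add' x y := by rw [map_add, map_add, mk_add]
  map_mul' x y := by
    rw [map_mul, map_mul, mk_mul_left]
    exact fun i hi => spread_supp σ N hσ _ i hi

theorem jR_apply (x : LS L0) : jR σ N hσ x = mk σ (spread N (LS.toH x)) := rfl

theorem sc_jR (x : LS L0) (n : ℤ) :
    sc σ (jR σ N hσ x) n = if (N : ℤ) ∣ n then x.co (n / N) else 0 := by
  rw [jR_apply, sc_mk, coeff_spread]; rfl



theorem jR_mon (k : ℤ) (b : L0) : jR σ N hσ (LS.mon k b) = ι σ b * yp σ (N * k) := by
  apply sc_ext; intro n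
  rw [sc_jR, sc_ι_mul, sc_yp]
  by_cases h : (N : ℤ) ∣ n
  · obtain ⟨l, rfl⟩ := h
    rw [if_pos (dvd_mul_right _ _), Int.mul_ediv_cancel_left _ (by exact_mod_cast NeZero.ne N),
      LS.co_mon]
    by_cases hl : l = k
    · subst hl; simp
    · rw [if_neg hl, if_neg, mul_zero]
      intro h'
      exact hl (mul_left_cancel₀ (by exact_mod_cast NeZero.ne N) h')
  · rw [if_neg h, if_neg, mul_zero]
    rintro rfl
    exact h (dvd_mul_right _ _)

theorem jR_C (b : L0) : jR σ N hσ (LS.C b) = ι σ b := by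
  rw [LS.C_eq_mon, jR_mon]; simp

/-- fixed series are central -/
theorem jR_commutes (c : LS L0) (hc : tau σ c = c) (x : TL σ) :
    jR σ N hσ c * x = x * jR σ N hσ c := by
  have h1 : ∀ i, σ ((spread (L0 := L0) N (LS.toH c)).coeff i) =
      (spread (L0 := L0) N (LS.toH c)).coeff i := by
    intro i
    rw [coeff_spread]
    split_ifs
    · rw [LS.coeff_toH, ← coeff_tau, hc]
    · simp
  rw [jR_apply]
  conv_lhs => rw [← mk_ser σ x]
  conv_rhs => rw [← mk_ser σ x]
  rw [mk_mul_left σ _ _ (fun i hi => spread_supp σ N hσ _ i hi), mk_mul_right σ _ _ h1, mul_comm]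

/-- `y f(T) = (σ f)(T) y` -/
theorem yp_mul_jR (x : LS L0) :
    yp σ 1 * jR σ N hσ x = jR σ N hσ (tau σ x) * yp σ 1 := by
  apply sc_ext; intro n
  rw [sc_yp_mul, sc_mul_yp, sc_jR, sc_jR]
  split_ifs
  · rw [coeff_tau, zpow_one]
  · simp

/-- the fixed field -/
def F1 : Subfield (LS L0) :=
  FixedPoints.subfield (Subgroup.zpowers (tau σ)) (LS L0)

theorem mem_F1 (x : LS L0) : x ∈ F1 σ ↔ tau σ x = x := by
  constructor
  · intro h
    exact h ⟨tau σ, Subgroup.mem_zpowers _⟩
  · intro h g
    obtain ⟨g, hg⟩ := g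
    obtain ⟨k, rfl⟩ := Subgroup.mem_zpowers_iff.mp hg
    change ((tau σ) ^ k) x = x
    have hpow : ∀ n : ℕ, ((tau σ) ^ n) x = x := by
      intro n
      induction n with
      | zero => rfl
      | succ n ih => rw [pow_succ, AlgEquiv.mul_apply, h, ih]
    obtain ⟨n, rfl | rfl⟩ := k.eq_nat_or_neg
    · rw [zpow_natCast, hpow]
    · rw [zpow_neg, zpow_natCast]
      apply ((tau σ) ^ n).injective
      rw [← AlgEquiv.mul_apply, mul_inv_cancel, hpow]; rfl

variable (hf : ∀ k : ℤ, σ ^ k = 1 → (N : ℤ) ∣ k)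

theorem tau_injective : Function.Injective (tau (F := F) (L0 := L0)) := by
  intro σ σ' h
  ext b
  have := congrArg (fun τ => (τ (LS.C b)).co 0) h
  simpa [LS.co_C] using this

include hσ hf in
theorem orderOf_tau : orderOf (tau σ) = N := by
  rw [orderOf_injective _ tau_injective]
  rw [orderOf_eq_iff (NeZero.pos N)]
  constructor
  · have := hσ N (dvd_refl _)
    rwa [zpow_natCast] at this
  · intro m hm hm0 h
    have := hf m (by rw [zpow_natCast]; exact h)
    have h2 : N ∣ m := by exact_mod_cast this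
    exact absurd (Nat.le_of_dvd hm0 h2) (not_le.mpr hm)

include hσ hf in
theorem finite_G : Finite (Subgroup.zpowers (tau σ)) := by
  apply Nat.finite_of_card_ne_zero
  rw [Nat.card_zpowers, orderOf_tau σ N hσ hf]
  exact NeZero.ne N

include hσ hf in
theorem finrank_L : Module.finrank (F1 σ) (LS L0) = N := by
  have := finite_G σ N hσ hf
  have : Fintype (Subgroup.zpowers (tau σ)) := Fintype.ofFinite _
  have h := FixedPoints.finrank_eq_card (Subgroup.zpowers (tau σ)) (LS L0)
  rw [Fintype.card_eq_nat_card, Nat.card_zpowers, orderOf_tau σ N hσ hf] at h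
  exact h

include hσ hf in
theorem finite_L : Module.Finite (F1 σ) (LS L0) := by
  have := finite_G σ N hσ hf
  exact inferInstanceAs (Module.Finite
    (FixedPoints.subfield (Subgroup.zpowers (tau σ)) (LS L0)) (LS L0))

/-- `F → F₁` -/
instance algF1 : Algebra F (F1 σ) :=
  RingHom.toAlgebra ((algebraMap F (LS L0)).codRestrict (F1 σ) (fun c => by
    rw [mem_F1]; exact (tau σ).commutes c))

instance towerF1 : IsScalarTower F (F1 σ) (LS L0) :=
  IsScalarTower.of_algebraMap_eq fun _ => rfl

/-- `E` as an `F₁`-algebra -/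
@[implicit_reducible]
def algE : Algebra (F1 σ) (TL σ) :=
  RingHom.toAlgebra' ((jR σ N hσ).comp (F1 σ).subtype)
    (fun c x => jR_commutes σ N hσ c.1 ((mem_F1 σ _).mp c.2) x)

end CycC

end

end Crest.Agent.R180
end

-- ▼ part R180/CycMid
section

set_option autoImplicit false
set_option linter.unusedSectionVars false

/-!
# Row 180: the generic cyclic algebra: decomposition, finiteness, centre
-/

namespace Crest.Agent.R180

noncomputable section

open TensorProduct HahnSeries

namespace CycC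

/-- a field with an automorphism of exact order `N` -/
structure Dat (F L0 : Type) [Field F] [Field L0] [Algebra F L0] where
  σ : L0 ≃ₐ[F] L0
  N : ℕ
  [hN : NeZero N]
  hσ : ∀ k : ℤ, (N : ℤ) ∣ k → σ ^ k = 1
  hf : ∀ k : ℤ, σ ^ k = 1 → (N : ℤ) ∣ k

attribute [instance] Dat.hN

open Twist

variable {F L0 : Type} [Field F] [Field L0] [Algebra F L0] (d : Dat F L0)

/-- the division algebra -/
def Dat.E : Type := TL d.σ

/-- its centre -/
def Dat.K : Type := F1 d.σ

instance : Ring d.E := inferInstanceAs (Ring (TL d.σ))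
instance instAlgFE : Algebra F d.E := inferInstanceAs (Algebra F (TL d.σ))
instance : IsDomain d.E := inferInstanceAs (IsDomain (TL d.σ))
instance : Field d.K := inferInstanceAs (Field (F1 d.σ))
instance instAlgFK : Algebra F d.K := inferInstanceAs (Algebra F (F1 d.σ))
instance instAlgKL : Algebra d.K (LS L0) := inferInstanceAs (Algebra (F1 d.σ) (LS L0))
instance : IsScalarTower F d.K (LS L0) := inferInstanceAs (IsScalarTower F (F1 d.σ) (LS L0))
instance instAlgKE : Algebra d.K d.E := algE d.σ d.N d.hσ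
instance : Module.Finite d.K (LS L0) := finite_L d.σ d.N d.hσ d.hf

theorem finrank_L' : Module.finrank d.K (LS L0) = d.N := finrank_L d.σ d.N d.hσ d.hf

/-- coefficients of elements of `E` -/
def Dat.co (x : d.E) (n : ℤ) : L0 := sc d.σ x n

theorem Dat.ext {x y : d.E} (h : ∀ n, d.co x n = d.co y n) : x = y := sc_ext d.σ h

@[simp] theorem co_zero (n : ℤ) : d.co 0 n = 0 := rfl
@[simp] theorem co_add (x y : d.E) (n : ℤ) : d.co (x + y) n = d.co x n + d.co y n := rfl
theorem co_sum {ι : Type*} (s : Finset ι) (f : ι → d.E) (k : ℤ) :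
    d.co (∑ i ∈ s, f i) k = ∑ i ∈ s, d.co (f i) k := sc_sum d.σ s f k

/-- the inclusion `L → E` as a `K`-algebra hom -/
def Dat.j : LS L0 →ₐ[d.K] d.E :=
  { (jR d.σ d.N d.hσ : LS L0 →+* TL d.σ) with
    commutes' := fun _ => rfl }

theorem j_apply (x : LS L0) : d.j x = jR d.σ d.N d.hσ x := rfl

theorem co_j (x : LS L0) (n : ℤ) :
    d.co (d.j x) n = if (d.N : ℤ) ∣ n then x.co (n / d.N) else 0 := sc_jR d.σ d.N d.hσ x n

theorem algebraMap_E (c : d.K) : algebraMap d.K d.E c = d.j (algebraMap d.K (LS L0) c) := rfl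

instance : IsScalarTower F d.K d.E :=
  IsScalarTower.of_algebraMap_eq fun c => by
    rw [algebraMap_E, ← IsScalarTower.algebraMap_apply F d.K (LS L0), LS.algebraMap_eq, j_apply,
      jR_C]
    exact ((ι d.σ).commutes c).symm

/-- `u = y` -/
def Dat.u : d.E := yp d.σ 1
/-- `u⁻¹` -/
def Dat.u' : d.E := yp d.σ (-1)

theorem uu' : d.u * d.u' = 1 := by
  change (yp d.σ 1 * yp d.σ (-1) : TL d.σ) = (1 : TL d.σ)
  rw [yp_mul]; simp

theorem u'u : d.u' * d.u = 1 := by
  change (yp d.σ (-1) * yp d.σ 1 : TL d.σ) = (1 : TL d.σ)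
  rw [yp_mul]; simp

theorem co_mul_u_pow (x : d.E) (i : ℕ) (n : ℤ) : d.co (x * d.u ^ i) n = d.co x (n - i) := by
  have h : (d.u ^ i : d.E) = (yp d.σ ((i : ℤ) * 1) : TL d.σ) := yp_pow d.σ 1 i
  rw [h, mul_one]
  exact sc_mul_yp d.σ i x n

/-- `τ` -/
def Dat.τ : LS L0 ≃ₐ[d.K] LS L0 :=
  { tau d.σ with
    commutes' := fun c => (mem_F1 d.σ _).mp c.2 }

theorem τ_apply (x : LS L0) : d.τ x = tau d.σ x := rfl

theorem τ_pow_apply (n : ℕ) (x : LS L0) : (d.τ ^ n) x = tau (d.σ ^ n) x := by
  induction n generalizing x with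
  | zero => rw [pow_zero, pow_zero, map_one]; rfl
  | succ n ih =>
    rw [pow_succ, pow_succ, map_mul, AlgEquiv.mul_apply, AlgEquiv.mul_apply, ih, τ_apply]

theorem τN (x : LS L0) : (d.τ ^ d.N) x = x := by
  rw [τ_pow_apply]
  have := d.hσ d.N (dvd_refl _)
  rw [zpow_natCast] at this
  rw [this, map_one]; rfl

theorem conj (x : LS L0) : d.u * d.j x = d.j (d.τ x) * d.u := yp_mul_jR d.σ d.N d.hσ x

theorem fix (y : LS L0) (hy : d.τ y = y) : ∃ c : d.K, algebraMap d.K (LS L0) c = y :=
  ⟨⟨y, (mem_F1 d.σ _).mpr hy⟩, rfl⟩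

/-- `T = u ^ N` -/
def Dat.T : d.K := ⟨LS.mon 1 1, (mem_F1 d.σ _).mpr (by
  apply LS.ext; intro n
  rw [coeff_tau, LS.co_mon]
  split_ifs <;> simp)⟩

theorem algebraMap_T : algebraMap d.K (LS L0) d.T = LS.mon 1 1 := rfl

theorem T_ne : d.T ≠ 0 := by
  intro h
  have h1 : algebraMap d.K (LS L0) d.T = 0 := by rw [h, map_zero]
  rw [algebraMap_T] at h1
  have := congrArg (fun x => LS.co x 1) h1
  simp [LS.co_mon] at this

theorem uN : d.u ^ d.N = algebraMap d.K d.E d.T := by
  rw [algebraMap_E, algebraMap_T, j_apply, jR_mon]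
  change (yp d.σ 1) ^ d.N = _
  rw [yp_pow, map_one, one_mul]

theorem co_sum_j (c : Fin d.N → LS L0) (q : ℤ) (r : Fin d.N) :
    d.co (∑ i, d.j (c i) * d.u ^ (i : ℕ)) (d.N * q + (r : ℕ)) = (c r).co q := by
  have hN : (0 : ℤ) < d.N := by exact_mod_cast NeZero.pos d.N
  rw [co_sum, Finset.sum_eq_single r]
  · rw [co_mul_u_pow, co_j, add_sub_cancel_right, if_pos (dvd_mul_right _ _),
      Int.mul_ediv_cancel_left _ hN.ne']
  · intro i _ hir
    rw [co_mul_u_pow, co_j, if_neg]
    intro h
    have h2 : (d.N : ℤ) ∣ ((r : ℕ) : ℤ) - ((i : ℕ) : ℤ) := by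
      have h3 : (d.N : ℤ) * q + ((r : ℕ) : ℤ) - ((i : ℕ) : ℤ) =
        d.N * q + (((r : ℕ) : ℤ) - ((i : ℕ) : ℤ)) := by ring
      rw [h3] at h
      exact (Int.dvd_add_right (dvd_mul_right _ _)).mp h
    have h4 := Int.eq_zero_of_abs_lt_dvd h2 (by
      have hr := r.2
      have hi := i.2
      rw [abs_lt]
      constructor <;> omega)
    apply hir
    apply Fin.ext
    omega
  · simp

theorem exists_qr (n : ℤ) : ∃ (q : ℤ) (r : Fin d.N), n = d.N * q + (r : ℕ) := by
  have hN : (0 : ℤ) < d.N := by exact_mod_cast NeZero.pos d.N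
  refine ⟨n / d.N, ⟨(n % d.N).toNat, ?_⟩, ?_⟩
  · have h1 := Int.emod_lt_of_pos n hN
    have h2 := Int.emod_nonneg n hN.ne'
    omega
  · have h2 := Int.emod_nonneg n hN.ne'
    change n = d.N * (n / d.N) + ((n % d.N).toNat : ℤ)
    rw [Int.toNat_of_nonneg h2]
    exact (Int.mul_ediv_add_emod n d.N).symm

theorem decomp (e : d.E) : ∃! c : Fin d.N → LS L0, e = ∑ i, d.j (c i) * d.u ^ (i : ℕ) := by
  have hN : (0 : ℤ) < d.N := by exact_mod_cast NeZero.pos d.N
  -- lower bound of the support
  obtain ⟨m, hm⟩ : ∃ m : ℤ, ∀ k < m, d.co e k = 0 := by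
    by_cases he : e = 0
    · exact ⟨0, fun k _ => by rw [he]; rfl⟩
    · obtain ⟨m, _, hm⟩ := exists_order d.σ (x := e) he
      exact ⟨m, hm⟩
  have hb : ∀ r : Fin d.N, BddBelow (Function.support fun q : ℤ => d.co e (d.N * q + (r : ℕ))) := by
    intro r
    refine ⟨-|m| - 1, ?_⟩
    intro q hq
    by_contra hlt
    rw [not_le] at hlt
    apply hq
    apply hm
    have hr := r.2
    have h1 : (r : ℤ) < d.N := by exact_mod_cast hr
    have h2 : d.N * q ≤ d.N * (-|m| - 2) := mul_le_mul_of_nonneg_left (by omega) hN.le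
    have h3 : (d.N : ℤ) * (-|m| - 2) ≤ -|m| - 2 * d.N := by
      have : |m| ≤ d.N * |m| := by
        have := mul_le_mul_of_nonneg_right (show (1 : ℤ) ≤ d.N by omega) (abs_nonneg m)
        simpa using this
      linarith
    have h4 := neg_abs_le m
    omega
  let c : Fin d.N → LS L0 := fun r =>
    (HahnSeries.ofSuppBddBelow (fun q : ℤ => d.co e (d.N * q + (r : ℕ))) (hb r) : HahnSeries ℤ L0)
  have hc : ∀ r q, (c r).co q = d.co e (d.N * q + (r : ℕ)) := fun r q => by
    change (HahnSeries.ofSuppBddBelow _ (hb r) : HahnSeries ℤ L0).coeff q = _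
    rw [HahnSeries.coeff_ofSuppBddBelow]
  refine ⟨c, ?_, ?_⟩
  · change e = _
    apply d.ext; intro n
    obtain ⟨q, r, rfl⟩ := exists_qr d n
    rw [co_sum_j, hc]
  · intro c' hc'
    funext r
    apply LS.ext; intro q
    rw [hc]
    change e = _ at hc'
    conv_rhs => rw [hc']
    rw [co_sum_j]

/-- the decomposition map -/
def decMap : (Fin d.N → LS L0) →ₗ[d.K] d.E where
  toFun c := ∑ i, d.j (c i) * d.u ^ (i : ℕ)
  map_add' c c' := by
    rw [← Finset.sum_add_distrib]
    refine Finset.sum_congr rfl fun i _ => ?_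
    rw [Pi.add_apply, map_add, add_mul]
  map_smul' k c := by
    rw [RingHom.id_apply, Finset.smul_sum]
    refine Finset.sum_congr rfl fun i _ => ?_
    rw [Pi.smul_apply, map_smul, smul_mul_assoc]

theorem decMap_bijective : Function.Bijective (decMap d) := by
  constructor
  · intro c c' h
    obtain ⟨c0, _, hu⟩ := decomp d (decMap d c)
    rw [hu c rfl, hu c' h]
  · intro e
    obtain ⟨c, hc, _⟩ := decomp d e
    exact ⟨c, hc.symm⟩

instance : Module.Finite d.K d.E := Module.Finite.of_surjective (decMap d) (decMap_bijective d).2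

theorem finrank_E : Module.finrank d.K d.E = d.N * d.N := by
  rw [← (LinearEquiv.ofBijective (decMap d) (decMap_bijective d)).finrank_eq,
    Module.finrank_pi_fintype, Finset.sum_const, finrank_L']
  simp

instance : Algebra.IsCentral d.K d.E := by
  constructor
  intro x hx
  rw [Subalgebra.mem_center_iff] at hx
  have h1 : ∀ (b : L0) (n : ℤ), b * d.co x n = d.co x n * (d.σ ^ n) b := by
    intro b n
    have h := hx (ι d.σ b)
    have h' := congrArg (fun z => d.co z n) h
    have e1 := sc_ι_mul d.σ b x n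
    have e2 := sc_mul_ι d.σ b x n
    exact e1.symm.trans (h'.trans e2)
  have h2 : ∀ n : ℤ, ¬ (d.N : ℤ) ∣ n → d.co x n = 0 := by
    intro n hn
    by_contra h0
    apply hn
    apply d.hf
    ext b
    have h := h1 b n
    rw [mul_comm] at h
    exact (mul_left_cancel₀ h0 h).symm
  have h3 : ∀ n : ℤ, d.σ (d.co x n) = d.co x n := by
    intro n
    have h := hx (yp d.σ 1)
    have h' := congrArg (fun z => d.co z (n + 1)) h
    have e1 := sc_yp_mul d.σ 1 x (n + 1)
    have e2 := sc_mul_yp d.σ 1 x (n + 1)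
    rw [add_sub_cancel_right] at e1 e2
    rw [zpow_one] at e1
    exact e1.symm.trans (h'.trans e2)
  rw [Algebra.mem_bot]
  obtain ⟨c, hc, _⟩ := decomp d x
  let r0 : Fin d.N := ⟨0, NeZero.pos d.N⟩
  have hco : ∀ q : ℤ, (c r0).co q = d.co x (d.N * q) := by
    intro q
    conv_rhs => rw [hc]
    have := co_sum_j d c q r0
    simpa [r0] using this.symm
  have hfix : d.τ (c r0) = c r0 := by
    apply LS.ext; intro q
    rw [τ_apply, coeff_tau, hco]
    exact h3 _
  obtain ⟨k, hk⟩ := fix d _ hfix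
  refine ⟨k, ?_⟩
  rw [algebraMap_E, hk]
  apply d.ext; intro n
  rw [co_j]
  split_ifs with hn
  · obtain ⟨q, rfl⟩ := hn
    rw [Int.mul_ediv_cancel_left _ (by exact_mod_cast NeZero.ne d.N), hco]
  · exact (h2 n hn).symm

/-- `E ⊗ D` is a domain if `L₀ ⊗ D` is -/
theorem isDomain_tensor (D : Type) [Ring D] [Algebra F D] [IsDomain (L0 ⊗[F] D)] :
    IsDomain (d.E ⊗[F] D) :=
  Twist.isDomain_tensor d.σ D

end CycC

end

end Crest.Agent.R180
end

-- ▼ part R180/GenField
section

set_option autoImplicit false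
set_option linter.unusedSectionVars false

/-!
# Row 180: purely transcendental extensions

`RF F V` : rational functions in the variables `V` over `F`; permutations of the variables act;
`RF F V ⊗[F] D` is a domain when `D` is; embedding into a Hahn series field over `F`.
-/

namespace Crest.Agent.R180

noncomputable section

open TensorProduct

namespace GenField

variable (F : Type) [Field F] (V : Type)

/-- rational functions in the variables `V` -/
abbrev RF : Type := FractionRing (MvPolynomial V F)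

variable {V}

/-- the variables -/
def X (v : V) : RF F V := algebraMap (MvPolynomial V F) (RF F V) (MvPolynomial.X v)

variable {F}

theorem hom_ext {K : Type} [Field K] [Algebra F K] {f g : RF F V →ₐ[F] K}
    (h : ∀ v, f (X F v) = g (X F v)) : f = g := by
  have h1 : f.comp (IsScalarTower.toAlgHom F (MvPolynomial V F) (RF F V)) =
      g.comp (IsScalarTower.toAlgHom F (MvPolynomial V F) (RF F V)) :=
    MvPolynomial.algHom_ext h
  apply AlgHom.ext; intro x
  obtain ⟨a, b, _, rfl⟩ := IsFractionRing.div_surjective (MvPolynomial V F) x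
  rw [map_div₀, map_div₀]
  have h2 := fun p => DFunLike.congr_fun h1 p
  simp only [AlgHom.comp_apply, IsScalarTower.coe_toAlgHom'] at h2
  rw [h2, h2]

/-- permutation of the variables -/
def perm0 (e : Equiv.Perm V) : RF F V ≃ₐ[F] RF F V :=
  IsFractionRing.algEquivOfAlgEquiv (MvPolynomial.renameEquiv F e)

theorem perm0_X (e : Equiv.Perm V) (v : V) : perm0 (F := F) e (X F v) = X F (e v) := by
  rw [perm0, X, IsFractionRing.algEquivOfAlgEquiv_algebraMap]
  simp [X]

/-- action of permutations of the variables -/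
def perm : Equiv.Perm V →* (RF F V ≃ₐ[F] RF F V) where
  toFun := perm0
  map_one' := by
    have : ((perm0 (F := F) (1 : Equiv.Perm V) : RF F V ≃ₐ[F] RF F V) : RF F V →ₐ[F] RF F V) =
        ((1 : RF F V ≃ₐ[F] RF F V) : RF F V →ₐ[F] RF F V) := by
      apply hom_ext; intro v
      change perm0 (F := F) 1 (X F v) = X F v
      rw [perm0_X]; rfl
    ext x
    exact DFunLike.congr_fun this x
  map_mul' e f := by
    have : ((perm0 (F := F) (e * f) : RF F V ≃ₐ[F] RF F V) : RF F V →ₐ[F] RF F V) =
        ((perm0 (F := F) e * perm0 f : RF F V ≃ₐ[F] RF F V) : RF F V →ₐ[F] RF F V) := by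
      apply hom_ext; intro v
      change perm0 (F := F) (e * f) (X F v) = perm0 e (perm0 f (X F v))
      rw [perm0_X, perm0_X, perm0_X]; rfl
    ext x
    exact DFunLike.congr_fun this x

theorem perm_X (e : Equiv.Perm V) (v : V) : perm (F := F) e (X F v) = X F (e v) := perm0_X e v

theorem X_injective : Function.Injective (X F (V := V)) := by
  intro v w h
  have := (IsFractionRing.injective (MvPolynomial V F) (RF F V)) h
  exact MvPolynomial.X_injective this

section emb

variable [LinearOrder V]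

/-- exponent group -/
abbrev Ga (V : Type) : Type := Lex (V →₀ ℤ)

/-- exponents as elements of the group -/
def ex : (V →₀ ℕ) →+ Ga V where
  toFun n := toLex (n.mapRange (Nat.cast) (by simp))
  map_zero' := by
    apply congrArg toLex
    ext v; simp
  map_add' m n := by
    rw [← toLex_add]
    apply congrArg toLex
    ext v; simp

theorem ex_injective : Function.Injective (ex (V := V)) := by
  intro m n h
  have h' : (m.mapRange (Nat.cast : ℕ → ℤ) (by simp)) = n.mapRange (Nat.cast : ℕ → ℤ) (by simp) :=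
    toLex.injective h
  ext v
  have := DFunLike.congr_fun h' v
  simpa using this

instance : IsOrderedCancelAddMonoid (Ga V) := inferInstance

/-- polynomials as Hahn series -/
def emb0 : MvPolynomial V F →ₐ[F] HahnSeries (Ga V) F :=
  MvPolynomial.aeval (fun v => HahnSeries.single (ex (Finsupp.single v 1)) 1)

theorem prod_single (n : V →₀ ℕ) :
    (n.prod fun i k => (HahnSeries.single (ex (Finsupp.single i 1)) (1 : F)) ^ k) =
      HahnSeries.single (ex n) (1 : F) := by
  induction n using Finsupp.induction_linear with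
  | zero =>
    rw [Finsupp.prod_zero_index, map_zero]; rfl
  | add m n hm hn =>
    rw [Finsupp.prod_add_index' (fun _ => pow_zero _) (fun _ _ _ => pow_add _ _ _), hm, hn,
      HahnSeries.single_mul_single, map_add, one_mul]
  | single i k =>
    rw [Finsupp.prod_single_index
      (h := fun i k => (HahnSeries.single (ex (Finsupp.single i 1)) (1 : F)) ^ k) (pow_zero _),
      HahnSeries.single_pow, one_pow, ← map_nsmul]
    congr 2
    simp

theorem emb0_monomial (n : V →₀ ℕ) (a : F) :
    emb0 (MvPolynomial.monomial n a) = HahnSeries.single (ex n) a := by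
  rw [emb0, MvPolynomial.aeval_monomial, prod_single, HahnSeries.algebraMap_apply,
    HahnSeries.C_apply, HahnSeries.single_mul_single]
  simp

theorem emb0_coeff (p : MvPolynomial V F) (n : V →₀ ℕ) : (emb0 p).coeff (ex n) = p.coeff n := by
  induction p using MvPolynomial.induction_on' with
  | monomial m a =>
    rw [emb0_monomial, MvPolynomial.coeff_monomial]
    by_cases h : m = n
    · subst h; simp
    · rw [if_neg h, HahnSeries.coeff_single_of_ne]
      intro h'; exact h (ex_injective h'.symm)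
  | add p q hp hq =>
    rw [map_add, HahnSeries.coeff_add, hp, hq, MvPolynomial.coeff_add]

theorem emb0_injective : Function.Injective (emb0 (F := F) (V := V)) := by
  rw [injective_iff_map_eq_zero]
  intro p hp
  ext n
  rw [← emb0_coeff, hp]; simp

/-- rational functions as Hahn series -/
def emb : RF F V →ₐ[F] HahnSeries (Ga V) F :=
  IsFractionRing.liftAlgHom (g := emb0 (F := F) (V := V)) emb0_injective

end emb

section tensor

variable {Γ : Type} [AddCommGroup Γ] [LinearOrder Γ] [IsOrderedAddMonoid Γ]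
variable {R D : Type} [CommRing R] [Algebra F R] [Ring D] [Algebra F D]

/-- coefficientwise algebra map -/
def hmA (Γ : Type) [AddCommGroup Γ] [LinearOrder Γ] [IsOrderedAddMonoid Γ] (D : Type) [Ring D]
    [Algebra F D] : HahnSeries Γ F →ₐ[F] HahnSeries Γ D where
  toFun x := x.map (algebraMap F D)
  map_one' := by
    ext n; simp [HahnSeries.coeff_one, apply_ite (algebraMap F D)]
  map_zero' := by ext n; simp
  map_add' x y := by ext n; simp
  map_mul' x y := HahnSeries.map_mul ((algebraMap F D : F →+* D) : F →ₙ+* D)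
  commutes' c := by
    ext n
    change algebraMap F D ((HahnSeries.C c : HahnSeries Γ F).coeff n) =
      ((algebraMap F (HahnSeries Γ D) c)).coeff n
    rw [HahnSeries.algebraMap_apply, HahnSeries.C_apply, HahnSeries.C_apply]
    by_cases h : n = 0
    · subst h; simp
    · rw [HahnSeries.coeff_single_of_ne h, HahnSeries.coeff_single_of_ne h, map_zero]

theorem coeff_hmA (x : HahnSeries Γ F) (n : Γ) :
    (hmA Γ D x).coeff n = algebraMap F D (x.coeff n) := rfl

/-- constants as an algebra hom -/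
def hC (F : Type) [Field F] (Γ : Type) [AddCommGroup Γ] [LinearOrder Γ] [IsOrderedAddMonoid Γ]
    (D : Type) [Ring D] [Algebra F D] : D →ₐ[F] HahnSeries Γ D :=
  { (HahnSeries.C : D →+* HahnSeries Γ D) with
    commutes' := fun c => by
      rw [HahnSeries.algebraMap_apply]; rfl }

theorem hC_apply (d : D) : hC F Γ D d = HahnSeries.single 0 d := rfl

/-- `R ⊗ D → HahnSeries Γ D` for `R → HahnSeries Γ F` -/
def tH (φ : R →ₐ[F] HahnSeries Γ F) (D : Type) [Ring D] [Algebra F D] :
    R ⊗[F] D →ₐ[F] HahnSeries Γ D :=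
  Algebra.TensorProduct.lift ((hmA Γ D).comp φ) (hC F Γ D) (fun x d => by
    change _ = _
    apply HahnSeries.ext; funext n
    rw [hC_apply, AlgHom.comp_apply]
    have h1 := @HahnSeries.coeff_mul_single_add Γ D _ _ _ _ d (hmA Γ D (φ x)) n 0
    have h2 := @HahnSeries.coeff_single_mul_add Γ D _ _ _ _ d (hmA Γ D (φ x)) n 0
    rw [add_zero] at h1 h2
    rw [h1, h2, coeff_hmA]
    exact Algebra.commutes _ _)

theorem coeff_tH_tmul (φ : R →ₐ[F] HahnSeries Γ F) (x : R) (d : D) (n : Γ) :
    (tH φ D (x ⊗ₜ d)).coeff n = (φ x).coeff n • d := by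
  have h : tH φ D (x ⊗ₜ d) = hmA Γ D (φ x) * HahnSeries.single 0 d := rfl
  rw [h]
  have h1 := @HahnSeries.coeff_mul_single_add Γ D _ _ _ _ d (hmA Γ D (φ x)) n 0
  rw [add_zero] at h1
  rw [h1, coeff_hmA, Algebra.smul_def]

theorem tH_repr (φ : R →ₐ[F] HahnSeries Γ F) {κ : Type} [DecidableEq κ] (b : Module.Basis κ F D)
    (x : R ⊗[F] D) (n : Γ) (j : κ) : b.repr ((tH φ D x).coeff n) j =
      (φ (TensorProduct.equivFinsuppOfBasisRight b x j)).coeff n := by
  induction x using TensorProduct.induction_on with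
  | zero => simp
  | tmul f d =>
    rw [coeff_tH_tmul]
    simp [mul_comm]
  | add x y hx hy =>
    rw [map_add, HahnSeries.coeff_add, map_add, map_add, Finsupp.add_apply, Finsupp.add_apply,
      map_add, HahnSeries.coeff_add, hx, hy]

theorem tH_injective (φ : R →ₐ[F] HahnSeries Γ F) (hφ : Function.Injective φ) :
    Function.Injective (tH φ D) := by
  classical
  intro x y h
  let b := Module.Basis.ofVectorSpace F D
  apply (TensorProduct.equivFinsuppOfBasisRight (M := R) b).injective
  ext j : 1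
  apply hφ
  apply HahnSeries.ext; funext n
  rw [← tH_repr, ← tH_repr, h]

theorem isDomain_tensor_of_hahn [IsDomain D] (φ : R →ₐ[F] HahnSeries Γ F)
    (hφ : Function.Injective φ) : IsDomain (R ⊗[F] D) :=
  Function.Injective.isDomain (tH φ D).toRingHom (tH_injective φ hφ)

end tensor

/-- there is an embedding of `RF F V` into a Hahn series field -/
theorem exists_emb (F V : Type) [Field F] : ∃ (Γ : Type) (_ : AddCommGroup Γ) (_ : LinearOrder Γ)
    (_ : IsOrderedAddMonoid Γ), Nonempty (RF F V →ₐ[F] HahnSeries Γ F) := by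
  classical
  let _ : LinearOrder V := IsWellOrder.linearOrder (WellOrderingRel (α := V))
  exact ⟨Ga V, inferInstance, inferInstance,
    { add_le_add_left := fun a b h c => by gcongr }, ⟨emb⟩⟩

theorem isDomain_tensor (F V D : Type) [Field F] [Ring D] [Algebra F D] [IsDomain D] :
    IsDomain (RF F V ⊗[F] D) := by
  obtain ⟨Γ, h1, h2, h3, ⟨φ⟩⟩ := exists_emb F V
  exact isDomain_tensor_of_hahn φ (RingHom.injective φ.toRingHom)

end GenField

end

end Crest.Agent.R180
end

-- ▼ part R180/CycGen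
section

set_option autoImplicit false
set_option linter.unusedSectionVars false

/-!
# Row 180: the generic cyclic algebra: generic elements
-/

namespace Crest.Agent.R180

noncomputable section

open TensorProduct HahnSeries

namespace CycC

namespace LS
variable {R : Type} [Field R]

theorem co_C_mul (b : R) (x : LS R) (n : ℤ) : (C b * x).co n = b * x.co n := by
  have h2 := @HahnSeries.coeff_single_mul_add ℤ R _ _ _ _ b (x : HahnSeries ℤ R) n 0
  rw [add_zero] at h2
  exact h2

theorem co_smul {F : Type} [Field F] [Algebra F R] (c : F) (x : LS R) (n : ℤ) :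
    (c • x).co n = c • x.co n := by
  rw [Algebra.smul_def, algebraMap_eq, co_C_mul, Algebra.smul_def]

/-- additive version of `co` -/
def coHom (n : ℤ) : LS R →+ R where
  toFun x := x.co n
  map_zero' := rfl
  map_add' _ _ := rfl

theorem co_sum {ι : Type*} (s : Finset ι) (f : ι → LS R) (k : ℤ) :
    (∑ i ∈ s, f i).co k = ∑ i ∈ s, (f i).co k := map_sum (coHom k) f s

end LS

variable (F : Type) [Field F] (I : Type) (N : ℕ) [NeZero N]

/-- the shift of the variables -/
def shift : Equiv.Perm (Option I × ZMod N) :=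
  (Equiv.refl (Option I)).prodCongr (Equiv.addRight (1 : ZMod N))

theorem shift_apply (i : Option I) (a : ZMod N) : shift I N (i, a) = (i, a + 1) := rfl

theorem shift_pow_apply (n : ℕ) (i : Option I) (a : ZMod N) :
    (shift I N ^ n) (i, a) = (i, a + n) := by
  induction n generalizing a with
  | zero => simp
  | succ n ih => rw [pow_succ, Equiv.Perm.mul_apply, shift_apply, ih]; push_cast; ring_nf

theorem shift_zpow_apply (k : ℤ) (i : Option I) (a : ZMod N) :
    (shift I N ^ k) (i, a) = (i, a + k) := by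
  obtain ⟨n, rfl | rfl⟩ := k.eq_nat_or_neg
  · rw [zpow_natCast, shift_pow_apply]; simp
  · rw [zpow_neg, zpow_natCast, Equiv.Perm.inv_eq_iff_eq, shift_pow_apply]
    simp

/-- the data of the generic cyclic algebra -/
def genDat : Dat F (GenField.RF F (Option I × ZMod N)) where
  σ := GenField.perm (shift I N)
  N := N
  hσ k hk := by
    rw [← map_zpow]
    have : shift I N ^ k = 1 := by
      ext1 ⟨i, a⟩
      rw [shift_zpow_apply, (ZMod.intCast_zmod_eq_zero_iff_dvd k N).mpr hk, add_zero]
      rfl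
    rw [this, map_one]
  hf k hk := by
    rw [← map_zpow] at hk
    have h := DFunLike.congr_fun hk (GenField.X F (none, 0))
    rw [GenField.perm_X, shift_zpow_apply] at h
    have h2 := GenField.X_injective (F := F) (h : GenField.X F _ = GenField.X F _)
    rw [Prod.mk.injEq] at h2
    rw [← ZMod.intCast_zmod_eq_zero_iff_dvd]
    simpa using h2.2

/-- the generic elements -/
def gen (i : I) : LS (GenField.RF F (Option I × ZMod N)) :=
  LS.C (GenField.X F (some i, 0))

theorem τ_pow_gen (s : ℕ) (i : I) : ((genDat F I N).τ ^ s) (gen F I N i) =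
    LS.C (GenField.X F (some i, (s : ZMod N))) := by
  rw [τ_pow_apply]
  apply LS.ext; intro n
  rw [coeff_tau, gen, LS.co_C, LS.co_C]
  split_ifs
  · change ((GenField.perm (shift I N)) ^ s) _ = _
    rw [← map_pow, GenField.perm_X, shift_pow_apply, zero_add]
  · simp

/-- exponents -/
def exq (n : (I × Fin N) →₀ ℕ) : (Option I × ZMod N) →₀ ℕ :=
  n.mapDomain (fun p => (some p.1, ((p.2 : ℕ) : ZMod N)))

theorem exq_injective : Function.Injective (exq I N) := by
  apply Finsupp.mapDomain_injective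
  rintro ⟨i, a⟩ ⟨j, b⟩ h
  simp only [Prod.mk.injEq, Option.some.injEq] at h
  rw [Prod.mk.injEq]
  refine ⟨h.1, ?_⟩
  have h2 := h.2
  rw [ZMod.natCast_eq_natCast_iff'] at h2
  rw [Nat.mod_eq_of_lt a.2, Nat.mod_eq_of_lt b.2] at h2
  exact Fin.ext h2

theorem vec_eq (p : ℕ × ((I × Fin N) →₀ ℕ)) :
    (algebraMap (genDat F I N).K (LS (GenField.RF F (Option I × ZMod N))) (genDat F I N).T) ^ p.1 *
      (p.2.prod fun is n => (((genDat F I N).τ ^ (is.2 : ℕ)) (gen F I N is.1)) ^ n) =
      LS.mon p.1 (algebraMap (MvPolynomial (Option I × ZMod N) F) _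
        (MvPolynomial.monomial (exq I N p.2) 1)) := by
  have h1 : (p.2.prod fun is n => (((genDat F I N).τ ^ (is.2 : ℕ)) (gen F I N is.1)) ^ n) =
      LS.C (algebraMap (MvPolynomial (Option I × ZMod N) F) _
        (MvPolynomial.monomial (exq I N p.2) 1)) := by
    rw [MvPolynomial.monomial_eq, map_one, one_mul, exq,
      Finsupp.prod_mapDomain_index_inj (h := fun v k => MvPolynomial.X v ^ k)]
    · rw [Finsupp.prod, Finsupp.prod, map_prod, map_prod]
      refine Finset.prod_congr rfl fun is _ => ?_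
      rw [τ_pow_gen, map_pow, map_pow]
      rfl
    · rintro ⟨i, a⟩ ⟨j, b⟩ h
      simp only [Prod.mk.injEq, Option.some.injEq] at h
      rw [Prod.mk.injEq]
      refine ⟨h.1, ?_⟩
      have h2 := h.2
      rw [ZMod.natCast_eq_natCast_iff'] at h2
      rw [Nat.mod_eq_of_lt a.2, Nat.mod_eq_of_lt b.2] at h2
      exact Fin.ext h2
  rw [h1, algebraMap_T, LS.mon_pow, LS.C_eq_mon, LS.mon_mul]
  simp

theorem indep : LinearIndependent F (fun p : ℕ × ((I × Fin N) →₀ ℕ) =>
    (algebraMap (genDat F I N).K (LS (GenField.RF F (Option I × ZMod N))) (genDat F I N).T) ^ p.1 *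
      (p.2.prod fun is n => (((genDat F I N).τ ^ (is.2 : ℕ)) (gen F I N is.1)) ^ n)) := by
  classical
  simp only [vec_eq]
  rw [linearIndependent_iff']
  intro s g hg p0 hp0
  have h1 := congrArg (fun x => LS.co x (p0.1 : ℤ)) hg
  simp only [LS.co_sum, LS.co_smul, LS.co_mon, LS.co_zero] at h1
  have h2 : algebraMap (MvPolynomial (Option I × ZMod N) F) (GenField.RF F (Option I × ZMod N))
      (∑ p ∈ s, if p0.1 = p.1 then MvPolynomial.monomial (exq I N p.2) (g p) else 0) = 0 := by
    rw [map_sum, ← h1]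
    refine Finset.sum_congr rfl fun p _ => ?_
    by_cases h : p0.1 = p.1
    · rw [if_pos h, if_pos (by exact_mod_cast h), Algebra.smul_def,
        IsScalarTower.algebraMap_apply F (MvPolynomial (Option I × ZMod N) F), ← map_mul]
      congr 1
      rw [MvPolynomial.algebraMap_eq, MvPolynomial.C_mul_monomial, mul_one]
    · rw [if_neg h, if_neg (by exact_mod_cast h)]; simp
  have h3 := (map_eq_zero_iff _ (IsFractionRing.injective (MvPolynomial (Option I × ZMod N) F)
    (GenField.RF F (Option I × ZMod N)))).mp h2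
  have h4 := congrArg (MvPolynomial.coeff (exq I N p0.2)) h3
  rw [MvPolynomial.coeff_sum, MvPolynomial.coeff_zero, Finset.sum_eq_single p0] at h4
  · simpa using h4
  · intro p _ hp
    by_cases h : p0.1 = p.1
    · rw [if_pos h, MvPolynomial.coeff_monomial, if_neg]
      intro h'
      apply hp
      exact Prod.ext h.symm (exq_injective I N h')
    · rw [if_neg h]; simp
  · intro h; exact absurd hp0 h

instance (D : Type) [Ring D] [Algebra F D] [IsDomain D] : IsDomain ((genDat F I N).E ⊗[F] D) := by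
  have := GenField.isDomain_tensor F (Option I × ZMod N) D
  exact isDomain_tensor (genDat F I N) D

end CycC

end

end Crest.Agent.R180
end

-- ▼ part R180/CycConstr
section

set_option autoImplicit false

/-!
# Row 180, module G: `exists_cyc`, `exists_trivial`
-/

namespace Crest.Agent.R180

noncomputable section

open TensorProduct

open CycC in
/-- the model of the generic cyclic algebra -/
def cycModel (A : DA) (N : ℕ) [NeZero N] (I : Type) : Cyc A N I :=
  let d := genDat A.F I N
  { F1 := d.K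
    E := d.E
    L := LS (GenField.RF A.F (Option I × ZMod N))
    finrankL := finrank_L' d
    j := d.j
    τ := d.τ
    u := d.u
    u' := d.u'
    uu' := uu' d
    u'u := u'u d
    T := d.T
    T_ne := T_ne d
    uN := uN d
    conj := conj d
    τN := τN d
    decomp := decomp d
    fix := fix d
    gen := gen A.F I N
    indep := indep A.F I N }

theorem exists_cyc (A : DA) (N : ℕ) (hN : 1 ≤ N) (I : Type) [Finite I] : Nonempty (Cyc A N I) := by
  have : NeZero N := ⟨by omega⟩
  exact ⟨cycModel A N I⟩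

theorem isDomain_trivial (A : DA) : IsDomain (A.F ⊗[A.F] A.D) :=
  (Algebra.TensorProduct.lid A.F A.D).toMulEquiv.isDomain A.D

/-- the trivial extension `E = F1 = F` -/
def trivialAdm (A : DA) : Adm A :=
  have : IsDomain (A.F ⊗[A.F] A.D) := isDomain_trivial A
  { F1 := A.F, E := A.F }

/-- the trivial extension `E = F1 = F` -/
theorem exists_trivial (A : DA) : ∃ M : Adm A,
    Function.Bijective (algebraMap A.F M.F1) ∧ Function.Bijective (algebraMap M.F1 M.E) :=
  ⟨trivialAdm A, Function.bijective_id, Function.bijective_id⟩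

end

end Crest.Agent.R180
end

-- ▼ part R180/MinG
section

set_option autoImplicit false

/-!
# Row 180, route M, block (G): existence of the extensions `PE A N` and of the trivial one
-/

noncomputable section
namespace Crest.Agent.R180

open TensorProduct

/-- prime degree: the fixed field of every nontrivial power of `τ` is `F1` -/
theorem Cyc.fix_pow {A : DA} {N : ℕ} {I : Type} (M : Cyc A N I) (hN : N.Prime) (k : ℕ)
    (hk0 : 0 < k) (hk : k < N) (y : M.L) (hy : (M.τ ^ k) y = y) :
    ∃ c : M.F1, algebraMap M.F1 M.L c = y := by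
  apply M.fix
  have h1 : ∀ a : ℕ, (M.τ ^ (k * a)) y = y := by
    intro a
    induction a with
    | zero => simp
    | succ a ih =>
      rw [Nat.mul_succ, pow_add]
      change (M.τ ^ (k * a)) ((M.τ ^ k) y) = y
      rw [hy, ih]
  have h2 : ∀ a : ℕ, (M.τ ^ (N * a)) y = y := by
    intro a
    induction a with
    | zero => simp
    | succ a ih =>
      rw [Nat.mul_succ, pow_add]
      change (M.τ ^ (N * a)) ((M.τ ^ N) y) = y
      rw [M.τN, ih]
  have hcop : Nat.Coprime k N := by
    rw [Nat.coprime_comm]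
    exact (Nat.Prime.coprime_iff_not_dvd hN).mpr (fun h => absurd (Nat.le_of_dvd hk0 h) (by omega))
  obtain ⟨a, ha⟩ := Nat.exists_mul_mod_eq_one_of_coprime hcop hN.one_lt
  have h3 := h1 a
  have h4 : k * a = 1 + N * (k * a / N) := by
    have := Nat.mod_add_div (k * a) N
    omega
  rw [h4, pow_add, pow_one] at h3
  change M.τ ((M.τ ^ (N * (k * a / N))) y) = y at h3
  rw [h2] at h3
  exact h3

theorem Cyc.u_ne_zero {A : DA} {N : ℕ} {I : Type} (M : Cyc A N I) : M.u ≠ 0 := by
  intro h
  have := M.uu'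
  rw [h, zero_mul] at this
  exact zero_ne_one this

/-- a cyclic extension of prime degree gives a `PE` -/
def Cyc.toPE {A : DA} {N : ℕ} {I : Type} (M : Cyc A N I) (hN : N.Prime) : PE A N where
  toAdm := M.toAdm
  pr := hN
  L := M.L
  finrankL := M.finrankL
  j := M.j
  τ := M.τ
  u := M.u
  u_ne := M.u_ne_zero
  conj := M.conj
  decomp := M.decomp
  fix := fun i hi0 hi y hy => M.fix_pow hN i hi0 hi y hy

theorem exists_PE (A : DA) (n : ℕ) : ∃ N, n < N ∧ Nonempty (PE A N) := by
  obtain ⟨N, hn, hN⟩ := Nat.exists_infinite_primes (n + 1)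
  obtain ⟨M⟩ := exists_cyc A N hN.one_lt.le Unit
  exact ⟨N, hn, ⟨M.toPE hN⟩⟩

theorem exists_trivialAdm (A : DA) : ∃ M : Adm A,
    Function.Bijective (algebraMap A.F M.F1) ∧ Function.Bijective (algebraMap M.F1 M.E) :=
  exists_trivial A

end Crest.Agent.R180
end
end

-- ▼ part R180/MinStartCore

set_option autoImplicit false
noncomputable section

/-!
# Row 180, ROUTE M: (A) existence of live states, (0); versions with the STEP lemma and the Taylor
lemma `dv_eul` as hypotheses
-/

namespace Crest.Agent.R180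

open TensorProduct RegPt

variable {P : (A : DA) → (m : ℕ) → NC (Fin m) A.D → Prop}

namespace MinA

theorem rt_one_ne_zero {F K : Type} [Field F] [CharZero F] [Ring K] [Nontrivial K] [Algebra F K]
    [Module.Finite F K] : rt F (1 : K) ≠ 0 := by
  rw [rt_apply]
  have h1 : LinearMap.mulLeft F (1 : K) = LinearMap.id := by ext; simp
  rw [h1, LinearMap.trace_id]
  exact Nat.cast_ne_zero.mpr (Module.finrank_pos).ne'

/-- a step is live as soon as the value `γ(z)` has a nonzero leading coefficient -/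
theorem live_of_lead {A : DA} {m : ℕ} {Λ : Subalgebra A.F A.D} {γ : NC (Fin m) A.D}
    {M : Adm A} {z : Fin m → PowerSeries M.E} (st : Step P Λ γ M z)
    (hE : ∃ T ∈ st.U, ∃ x : LD M.D0, T = LD.ofPS (Crest.Agent.R180.eul (M.ev z γ)) -
      (LD.ofPS (M.ev z γ) * x - x * LD.ofPS (M.ev z γ))) (k : ℕ)
    (hk : 1 ≤ k) (hlow : ∀ n < k, PowerSeries.coeff n (M.ev z γ) = 0)
    (hkk : PowerSeries.coeff k (M.ev z γ) ≠ 0) :
    Live (A := A.mv M) (M.adj Λ (M.ev z γ)) st.γ' := by
  set c : PowerSeries M.D0 := M.ev z γ with hc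
  set V : LD M.D0 := LD.ofPS c with hV
  have hVmem : V ∈ M.adj Λ c := Algebra.subset_adjoin (Or.inr rfl)
  have hV0 : V ≠ 0 := by
    intro h0
    apply hkk
    have := congrArg (fun x : LD M.D0 => x.co (k : ℤ)) h0
    rw [← LD.co_ofPS]
    exact this
  obtain ⟨c', hc', h1, h2⟩ := MinF.exists_inv_mem (M.adj Λ c) hVmem hV0
  obtain ⟨T, hT, x, hTx⟩ := hE
  change ∃ t : LD M.D0 →ₗ[LF M.F1] LF M.F1, IsTr t ∧ ∃ l ∈ M.adj Λ c, ∃ a ∈ st.U, t (l * a) ≠ 0
  refine ⟨rt (LF M.F1), ⟨fun x y => rt_comm x y, rt_one_ne_zero⟩, c', hc', T, hT, ?_⟩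
  have h3 : rt (LF M.F1) (c' * (V * x - x * V)) = 0 := by
    rw [mul_sub, map_sub, ← mul_assoc, h2, one_mul, rt_comm c', mul_assoc, h1, mul_one, sub_self]
  have h4 : rt (LF M.F1) (c' * T) =
      rt (LF M.F1) (c' * LD.ofPS (Crest.Agent.R180.eul (M.ev z γ))) := by
    rw [hTx, mul_sub, map_sub, h3, sub_zero]
  have hce : ∀ n, PowerSeries.coeff n (Crest.Agent.R180.eul (M.ev z γ)) =
      n • PowerSeries.coeff n (M.ev z γ) := fun n => PowerSeries.coeff_mk _ _
  intro h5
  have h5' : rt (LF M.F1) (c' * T) = 0 := h5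
  rw [h4] at h5'
  refine trace_logder_ne_zero (F := M.F1) V (c' * LD.ofPS (Crest.Agent.R180.eul (M.ev z γ)))
    (LD.ofPS (Crest.Agent.R180.eul (M.ev z γ))) (k : ℤ) (by omega) ?_ ?_ ?_ ?_ ?_ h5'
  · intro n hn
    rcases lt_or_ge n 0 with h | h
    · exact LD.co_ofPS_neg _ _ h
    · obtain ⟨n', rfl⟩ := Int.eq_ofNat_of_zero_le h
      rw [hV, LD.co_ofPS]
      exact hlow n' (by omega)
  · rw [hV, LD.co_ofPS]
    exact hkk
  · intro n hn
    rcases lt_or_ge n 0 with h | h
    · exact LD.co_ofPS_neg _ _ h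
    · obtain ⟨n', rfl⟩ := Int.eq_ofNat_of_zero_le h
      rw [LD.co_ofPS, hce, hlow n' (by omega), smul_zero]
  · rw [hV, LD.co_ofPS, LD.co_ofPS, hce, nsmul_eq_mul]
    norm_cast
  · rw [← mul_assoc, h1, one_mul]

theorem two_le_mu {A : DA} {m : ℕ} (hm : 2 ≤ m) {Λ : Subalgebra A.F A.D} {γ : NC (Fin m) A.D}
    {M : Adm A} {z : Fin m → PowerSeries M.E} (st : Step P Λ γ M z) : 2 ≤ st.μ := by
  have h1 := st.hμ
  have h2 : 0 < Module.finrank M.F1 M.E := Module.finrank_pos
  have h4 : 1 * 1 ≤ (m - 1) * Module.finrank M.F1 M.E :=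
    Nat.mul_le_mul (by omega) h2
  omega

/-- the value at a homogeneous point -/
theorem coeff_ev {A : DA} (M : Adm A) {m : ℕ} (z : Fin m → M.E) (n : ℕ) (f : NC (Fin m) A.D) :
    PowerSeries.coeff n (M.ev (fun j => PowerSeries.X * PowerSeries.C (z j)) f) =
      pv (K := A.F) n (fun w => f (List.ofFn w)) z := by
  have hX : ∀ j : Fin m, PowerSeries.constantCoeff
      ((fun j => NC.C (PowerSeries.X * PowerSeries.C (z j)) :
        Fin m → NC (Fin 0) (PowerSeries M.E)) j []) = 0 := by
    intro j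
    simp
  rw [Adm.ev, Adm.hT_eq M _ hX]
  exact M.coeff_hX0_nil _ hX z (fun j => rfl) n f

theorem genPt_hom {A : DA} (M : Adm A) {m : ℕ} (z : Fin m → M.E)
    (hz : Algebra.adjoin M.F1 (Set.range z) = ⊤) :
    GenPt M (fun j => PowerSeries.X * PowerSeries.C (z j)) where
  z0 j := by simp
  gen := by
    have h := LD.adjoin_tp_C_eq_top (F := M.F1) z 1 hz
    rw [← h]
    congr 2
    funext j
    rw [map_mul]
    congr 1
    have := ofPS_X_pow (R := M.E) 1
    rw [pow_one] at this
    exact_mod_cast this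

/-- an algebra of type `PE` is generated by two elements -/
theorem exists_gen_pair {A : DA} {N : ℕ} (M : PE A N) :
    ∃ a b : M.E, Algebra.adjoin M.F1 ({a, b} : Set M.E) = ⊤ := by
  have hcz : CharZero M.F1 := inferInstance
  obtain ⟨θ, hθ⟩ := Field.exists_primitive_element M.F1 M.L
  have hθ' : Algebra.adjoin M.F1 ({θ} : Set M.L) = ⊤ := by
    rw [← IntermediateField.adjoin_simple_toSubalgebra_of_isAlgebraic
      (Algebra.IsAlgebraic.isAlgebraic θ), hθ, IntermediateField.top_toSubalgebra]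
  refine ⟨M.j θ, M.u, ?_⟩
  rw [eq_top_iff]
  intro e _
  obtain ⟨c, hc, -⟩ := M.decomp e
  rw [hc]
  refine sum_mem fun i _ => mul_mem ?_ (pow_mem (Algebra.subset_adjoin (by simp)) _)
  have h1 : c i ∈ Algebra.adjoin M.F1 ({θ} : Set M.L) := by rw [hθ']; exact Algebra.mem_top
  have h2 : M.j (c i) ∈ (Algebra.adjoin M.F1 ({θ} : Set M.L)).map M.j := ⟨_, h1, rfl⟩
  rw [AlgHom.map_adjoin, Set.image_singleton] at h2
  exact Algebra.adjoin_mono (by simp) h2

end MinA

/-- (A) -/
theorem MinA.exists_live_core {A : DA} {m : ℕ} (hm : 2 ≤ m) {Λ : Subalgebra A.F A.D}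
    {γ : NC (Fin m) A.D} (h : RS P A m Λ γ) (hγ : γ ≠ 0)
    (hfin : ∀ (N : ℕ) (M : PE A N), Module.finrank M.F1 M.E = N * N)
    (hstep : ∀ (M : Adm A) (z : Fin m → PowerSeries M.E), GenPt M z →
      ∃ st : Step P Λ γ M z, ∃ T ∈ st.U, ∃ x : LD M.D0,
        T = LD.ofPS (Crest.Agent.R180.eul (M.ev z γ)) -
          (LD.ofPS (M.ev z γ) * x - x * LD.ofPS (M.ev z γ))) : Nonempty (St P) := by
  classical
  have hex : ∃ k : ℕ, ∃ w : List (Fin m), w.length = k ∧ γ w ≠ 0 := by
    by_contra hcon
    push Not at hcon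
    exact hγ (NC.ext' fun w => hcon _ w rfl)
  obtain ⟨w0, hw0, hw0'⟩ := Nat.find_spec hex
  have hmin : ∀ w : List (Fin m), w.length < Nat.find hex → γ w = 0 := by
    intro w hw
    by_contra hne
    exact Nat.find_min hex hw ⟨w, rfl, hne⟩
  set k := Nat.find hex with hk
  have hk1 : 1 ≤ k := by
    by_contra hlt
    have h0 : k = 0 := by omega
    rw [h0] at hw0
    rw [List.length_eq_zero_iff] at hw0
    rw [hw0] at hw0'
    exact hw0' h.zero
  obtain ⟨N, hN, ⟨M⟩⟩ := exists_PE A k
  obtain ⟨a, b, hab⟩ := MinA.exists_gen_pair M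
  obtain ⟨z₀, hz₀⟩ := NV.exists_gen_tuple (K₁ := M.F1) (ι := Fin m)
    (by rw [Fintype.card_fin]; exact hm) a b hab
  let p : (Fin k → Fin m) → A.D := fun w => γ (List.ofFn w)
  have hp : p ≠ 0 := by
    intro h0
    apply hw0'
    have h1 := congrFun h0 (fun i => w0.get (Fin.cast hw0.symm i))
    have h2 : List.ofFn (fun i => w0.get (Fin.cast hw0.symm i)) = w0 := by
      apply List.ext_get
      · simp [hw0]
      · intro n h1 h2
        simp
    change γ (List.ofFn _) = 0 at h1
    rw [h2] at h1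
    exact h1
  obtain ⟨z, hz1, hz2⟩ := NV.exists_pv_ne_zero_gen (K := A.F) (K₁ := M.F1) (E := M.E) k p hp
    (by rw [hfin N M]; nlinarith) z₀ hz₀
  have hgp := MinA.genPt_hom M.toAdm z hz2
  obtain ⟨st, hE⟩ := hstep M.toAdm _ hgp
  refine ⟨⟨A.mv M.toAdm, st.μ, MinA.two_le_mu hm st, _, st.γ', st.rs,
    MinA.live_of_lead st hE k hk1 ?_ ?_⟩⟩
  · intro n hn
    rw [MinA.coeff_ev]
    unfold pv
    refine Finset.sum_eq_zero fun w _ => ?_
    change _ ⊗ₜ[A.F] γ (List.ofFn w) = 0
    rw [hmin (List.ofFn w) (by rw [List.length_ofFn]; exact hn), TensorProduct.tmul_zero]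
  · rw [MinA.coeff_ev]
    exact hz1

namespace MinA

theorem finrank_D0 {A : DA} (M : Adm A) :
    Module.finrank M.F1 M.D0 = Module.finrank M.F1 M.E * Module.finrank A.F A.D := by
  have h := Module.finrank_eq_card_basis
    ((Module.finBasis M.F1 M.E).tensorProduct (Module.finBasis A.F A.D) :
      Module.Basis _ M.F1 (M.E ⊗[A.F] A.D))
  rw [Fintype.card_prod, Fintype.card_fin, Fintype.card_fin] at h
  exact h

theorem finrank_mv {A : DA} (M : Adm A) :
    Module.finrank (LF M.F1) (LD M.D0) = Module.finrank M.F1 M.E * Module.finrank A.F A.D := by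
  rw [LD.finrank_eq, finrank_D0]

/-- `mu1` is an exact division -/
theorem mu1_mul (S : St P) : S.mu1 * (Module.finrank S.A.F S.Λ) ^ 2 = Module.finrank S.A.F S.A.D :=
  Nat.div_mul_cancel (MinF.finrank_sq_dvd S.Λ S.rs.comm)

theorem pv_one_alg {A : DA} (M : Adm A) {m : ℕ} (v : Fin m → A.F) (f : NC (Fin m) A.D) :
    pv (K := A.F) 1 (fun w => f (List.ofFn w)) (fun j => algebraMap A.F M.E (v j)) =
      M.jD (lin f v) := by
  rw [pv_succ_eq, lin_apply, map_sum]
  refine Finset.sum_congr rfl fun i _ => ?_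
  rw [pv_zero_eq, NC.ld_apply]
  change (algebraMap A.F M.E (v i) ⊗ₜ[A.F] (1 : A.D)) * ((1 : M.E) ⊗ₜ[A.F] f [i]) =
    (1 : M.E) ⊗ₜ[A.F] (v i • f [i])
  rw [Algebra.TensorProduct.tmul_mul_tmul, mul_one, one_mul, TensorProduct.tmul_smul,
    TensorProduct.smul_tmul', Algebra.algebraMap_eq_smul_one]

end MinA

/-- (0) -/
theorem MinA.lin_mem_core {S : St P} (h : S.Good1)
    (hstep : ∀ (M : Adm S.A) (z : Fin S.m → PowerSeries M.E), GenPt M z →
      ∃ st : Step P S.Λ S.γ M z, ∃ T ∈ st.U, ∃ x : LD M.D0,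
        T = LD.ofPS (Crest.Agent.R180.eul (M.ev z S.γ)) -
          (LD.ofPS (M.ev z S.γ) * x - x * LD.ofPS (M.ev z S.γ))) :
    S.U ≤ Subalgebra.toSubmodule S.Λ := by
  intro a ha
  by_contra hna
  rw [Subalgebra.mem_toSubmodule] at hna
  obtain ⟨v, rfl⟩ := ha
  obtain ⟨M, hM1, hM2⟩ := exists_trivialAdm S.A
  let z : Fin S.m → M.E := fun j => algebraMap S.A.F M.E (v j)
  have hgen : Algebra.adjoin M.F1 (Set.range z) = ⊤ := by
    rw [eq_top_iff]
    intro e _
    obtain ⟨c, rfl⟩ := hM2.2 e
    exact Subalgebra.algebraMap_mem _ _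
  have hgp := MinA.genPt_hom M z hgen
  obtain ⟨st, hE⟩ := hstep M _ hgp
  have h0 : PowerSeries.coeff 0 (M.ev (fun j => PowerSeries.X * PowerSeries.C (z j)) S.γ) = 0 := by
    rw [MinA.coeff_ev, pv_zero_eq, S.rs.zero, map_zero]
  have h1 : PowerSeries.coeff 1 (M.ev (fun j => PowerSeries.X * PowerSeries.C (z j)) S.γ) =
      M.jD (lin S.γ v) := by
    rw [MinA.coeff_ev]
    exact MinA.pv_one_alg M v S.γ
  have hv0 : lin S.γ v ≠ 0 := by
    intro h0
    rw [h0] at hna
    exact hna S.Λ.zero_mem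
  have hjD : Function.Injective M.jD :=
    Algebra.TensorProduct.includeRight_injective (algebraMap S.A.F M.E).injective
  let S' : St P := ⟨S.A.mv M, st.μ, MinA.two_le_mu S.hm st, _, st.γ', st.rs,
    MinA.live_of_lead st hE 1 le_rfl
      (by intro n hn; have : n = 0 := by omega
          subst this; exact h0)
      (by rw [h1]; exact fun h2 => hv0 (hjD (by rw [h2, map_zero])))⟩
  have hmu := h S'
  -- dimensions
  have hd1 : Module.finrank M.F1 M.E = 1 := by
    rw [finrank_eq_one_iff']
    refine ⟨1, one_ne_zero, fun e => ?_⟩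
    obtain ⟨c, rfl⟩ := hM2.2 e
    exact ⟨c, by rw [Algebra.algebraMap_eq_smul_one]⟩
  have e1 : S.mu1 * (Module.finrank S.A.F S.Λ) ^ 2 = Module.finrank S.A.F S.A.D := MinA.mu1_mul S
  have e2 : S'.mu1 * (Module.finrank (LF M.F1)
      (M.adj S.Λ (M.ev (fun j => PowerSeries.X * PowerSeries.C (z j)) S.γ))) ^ 2 =
        Module.finrank S.A.F S.A.D := by
    have := MinA.mu1_mul S'
    refine this.trans ?_
    have h2 := MinA.finrank_mv M
    rw [hd1, one_mul] at h2
    exact h2
  have e3 : Module.finrank S.A.F (Algebra.adjoin S.A.F ((S.Λ : Set S.A.D) ∪ {lin S.γ v})) ≤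
      Module.finrank (LF M.F1)
        (M.adj S.Λ (M.ev (fun j => PowerSeries.X * PowerSeries.C (z j)) S.γ)) := by
    refine MinA.finrank_adjoin_le M S.Λ (lin S.γ v) _ ?_ _ ?_ h0 h1
    · intro a ha
      exact Algebra.subset_adjoin (Or.inl ⟨a, ha, rfl⟩)
    · exact Algebra.subset_adjoin (Or.inr rfl)
  have e4 : Module.finrank S.A.F S.Λ <
      Module.finrank S.A.F (Algebra.adjoin S.A.F ((S.Λ : Set S.A.D) ∪ {lin S.γ v})) := by
    apply Submodule.finrank_lt_finrank_of_lt (s := Subalgebra.toSubmodule S.Λ)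
      (t := Subalgebra.toSubmodule (Algebra.adjoin S.A.F ((S.Λ : Set S.A.D) ∪ {lin S.γ v})))
    rw [SetLike.lt_iff_le_and_exists]
    refine ⟨fun x hx => Algebra.subset_adjoin (Or.inl hx), lin S.γ v,
      Algebra.subset_adjoin (Or.inr rfl), hna⟩
  have hpos : 0 < Module.finrank S.A.F S.A.D := Module.finrank_pos
  have hmpos : 0 < S.mu1 := by
    rcases Nat.eq_zero_or_pos S.mu1 with h2 | h2
    · rw [h2, zero_mul] at e1; omega
    · exact h2
  have h5 := lt_of_lt_of_le e4 e3
  have h6 : (Module.finrank S.A.F S.Λ) ^ 2 < (Module.finrank (LF M.F1)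
      (M.adj S.Λ (M.ev (fun j => PowerSeries.X * PowerSeries.C (z j)) S.γ))) ^ 2 :=
    Nat.pow_lt_pow_left h5 two_ne_zero
  have h7 : S.mu1 * (Module.finrank S.A.F S.Λ) ^ 2 < S'.mu1 * (Module.finrank (LF M.F1)
      (M.adj S.Λ (M.ev (fun j => PowerSeries.X * PowerSeries.C (z j)) S.γ))) ^ 2 :=
    lt_of_lt_of_le (Nat.mul_lt_mul_of_pos_left h6 hmpos) (Nat.mul_le_mul_right _ hmu)
  rw [e1, e2] at h7
  exact lt_irrefl _ h7

end Crest.Agent.R180
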