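import Crest.Agent.R180.MinLive
import Crest.Agent.R180.MinPE
import Crest.Agent.R180.MinStartCore
import Crest.Agent.R180.MinDefs

-- ▼ part R180/MinStart
section

set_option autoImplicit false
noncomputable section

/-!
# Row 180, ROUTE M: (A) existence of live states and (0)
-/

namespace Crest.Agent.R180

variable {P : (A : DA) → (m : ℕ) → NC (Fin m) A.D → Prop}

/-- (A) -/
theorem exists_live (hP : MoveClosed P) {A : DA} {m : ℕ} (hm : 2 ≤ m) {Λ : Subalgebra A.F A.D}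
    {γ : NC (Fin m) A.D} (h : RS P A m Λ γ) (hγ : γ ≠ 0) : Nonempty (St P) := by
  refine MinA.exists_live_core hm h hγ (fun N M => PE.finrank_E M) fun M z hz => ?_
  obtain ⟨st⟩ := exists_step hP hm h M z hz
  obtain ⟨T, hT, x, hx⟩ := st.exists_T hz (fun j => eul (z j))
  rw [dv_eul M z hz.z0 γ] at hx
  exact ⟨st, T, hT, x, hx⟩

/-- (0) -/
theorem St.Good1.lin_mem (hP : MoveClosed P) {S : St P} (h : S.Good1) :
    S.U ≤ Subalgebra.toSubmodule S.Λ := by
  refine MinA.lin_mem_core h fun M z hz => ?_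
  obtain ⟨st⟩ := exists_step hP S.hm S.rs M z hz
  obtain ⟨T, hT, x, hx⟩ := st.exists_T hz (fun j => eul (z j))
  rw [dv_eul M z hz.z0 S.γ] at hx
  exact ⟨st, T, hT, x, hx⟩

end Crest.Agent.R180
end
end

-- ▼ part R180/MinSt

set_option autoImplicit false

/-!
# Row 180, ROUTE M: general facts about `Λ`, `Ψ`, `𝓗` at a state
-/

noncomputable section
namespace Crest.Agent.R180

open TensorProduct

variable {P : (A : DA) → (m : ℕ) → NC (Fin m) A.D → Prop}

theorem St.U_ne (S : St P) : ∃ u ∈ S.U, u ≠ 0 := by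
  obtain ⟨t, -, l, -, a, ha, h⟩ := S.live
  refine ⟨a, ha, ?_⟩
  rintro rfl
  exact h (by rw [mul_zero, map_zero])

/-- inverses in `Λ` -/
theorem St.exists_inv (S : St P) {u : S.A.D} (hu : u ∈ S.Λ) (h0 : u ≠ 0) :
    ∃ u' ∈ S.Λ, u * u' = 1 ∧ u' * u = 1 := by
  let f : S.Λ →ₗ[S.A.F] S.Λ := LinearMap.mulLeft S.A.F (⟨u, hu⟩ : S.Λ)
  have hinj : Function.Injective f := by
    intro x y hxy
    have h1 : u * (x : S.A.D) = u * (y : S.A.D) := congrArg Subtype.val hxy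
    exact Subtype.ext (mul_left_cancel₀ h0 h1)
  obtain ⟨y, hy⟩ := (LinearMap.injective_iff_surjective.1 hinj) 1
  have h1 : u * (y : S.A.D) = 1 := congrArg Subtype.val hy
  exact ⟨y, y.2, h1, by rw [S.rs.comm _ y.2 _ hu]; exact h1⟩

theorem St.psi_le (S : St P) (hU : S.U ≤ Subalgebra.toSubmodule S.Λ) : S.Psi ≤ S.Λ := by
  refine Algebra.adjoin_le ?_
  rintro x ⟨b, hb, h0, hx⟩
  obtain ⟨b', hb', h1, -⟩ := S.exists_inv (hU hb) h0
  have : x = x * b * b' := by rw [mul_assoc, h1, mul_one]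
  rw [this]
  exact S.Λ.mul_mem (hU hx) hb'

/-- `b = a ψ` for `a, b ∈ U`, `a ≠ 0` -/
theorem St.mem_U_mul (S : St P) (hU : S.U ≤ Subalgebra.toSubmodule S.Λ) {a b : S.A.D}
    (ha : a ∈ S.U) (h0 : a ≠ 0) (hb : b ∈ S.U) : ∃ ψ ∈ S.Psi, b = a * ψ := by
  obtain ⟨a', ha', h1, h2⟩ := S.exists_inv (hU ha) h0
  refine ⟨a' * b, Algebra.subset_adjoin ⟨a, ha, h0, ?_⟩, ?_⟩
  · have : a' * b * a = b := by
      rw [S.rs.comm a' ha' b (hU hb), mul_assoc, h2, mul_one]
    rw [this]; exact hb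
  · rw [← mul_assoc, h1, one_mul]

namespace MinSt

variable {F D : Type} [Field F] [Ring D] [IsDomain D] [Algebra F D] [FiniteDimensional F D]

/-- the form `t (x y)` on a subalgebra -/
def form (t : D →ₗ[F] F) (Q : Subalgebra F D) : LinearMap.BilinForm F Q :=
  LinearMap.mk₂ F (fun x y => t ((x : D) * (y : D)))
    (fun x y z => by simp [add_mul]) (fun c x y => by simp)
    (fun x y z => by simp [mul_add]) (fun c x y => by simp)

omit [IsDomain D] [FiniteDimensional F D] in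
@[simp] theorem form_apply (t : D →ₗ[F] F) (Q : Subalgebra F D) (x y : Q) :
    form t Q x y = t ((x : D) * (y : D)) := rfl

omit [IsDomain D] [FiniteDimensional F D] in
theorem form_refl {t : D →ₗ[F] F} (ht : IsTr t) (Q : Subalgebra F D) : (form t Q).IsRefl := by
  intro x y h
  rw [form_apply] at h ⊢
  rw [ht.1]; exact h

theorem form_nondeg {t : D →ₗ[F] F} (ht : IsTr t) (Q : Subalgebra F D) :
    (form t Q).Nondegenerate := by
  have key : ∀ x : Q, x ≠ 0 → ∃ y : Q, (x : D) * (y : D) = 1 := by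
    intro x hx
    have hx0 : (x : D) ≠ 0 := fun h => hx (Subtype.ext h)
    let f : Q →ₗ[F] Q := LinearMap.mulLeft F x
    have hinj : Function.Injective f := by
      intro y z hyz
      have h1 : (x : D) * (y : D) = x * (z : D) := congrArg Subtype.val hyz
      exact Subtype.ext (mul_left_cancel₀ hx0 h1)
    obtain ⟨y, hy⟩ := (LinearMap.injective_iff_surjective.1 hinj) 1
    exact ⟨y, congrArg Subtype.val hy⟩
  have h1 : ∀ x : Q, (∀ y : Q, form t Q x y = 0) → x = 0 := by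
    intro x hx
    by_contra h0
    obtain ⟨y, hy⟩ := key x h0
    have := hx y
    rw [form_apply, hy] at this
    exact ht.2 this
  refine ⟨h1, fun y hy => h1 y fun x => ?_⟩
  exact form_refl ht Q _ _ (hy x)

variable (t : D →ₗ[F] F) (U : Submodule F D)

/-- `U₁ = u⁻¹ U` inside `Ψ` -/
def U1 (u : D) : Submodule F (PsiOf U) :=
  U.comap ((LinearMap.mulLeft F u) ∘ₗ (PsiOf U).val.toLinearMap)


omit [FiniteDimensional F D] in
theorem finrank_U1 {u : D} (h0 : u ≠ 0) (hU : ∀ a ∈ U, ∃ ψ ∈ PsiOf U, a = u * ψ) :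
    Module.finrank F (U1 U u) = Module.finrank F U := by
  let f : U1 U u →ₗ[F] U :=
    LinearMap.codRestrict U (((LinearMap.mulLeft F u) ∘ₗ (PsiOf U).val.toLinearMap) ∘ₗ
      (U1 U u).subtype) (fun c => c.2)
  have hf : ∀ c, (f c : D) = u * ((c : PsiOf U) : D) := fun c => rfl
  refine (LinearEquiv.ofBijective f ⟨?_, ?_⟩).finrank_eq
  · intro c c' h
    have h1 : (f c : D) = f c' := congrArg Subtype.val h
    rw [hf, hf] at h1
    exact Subtype.ext (Subtype.ext (mul_left_cancel₀ h0 h1))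
  · rintro ⟨a, ha⟩
    obtain ⟨ψ, hψ, rfl⟩ := hU a ha
    exact ⟨⟨⟨ψ, hψ⟩, ha⟩, rfl⟩

omit [IsDomain D] [FiniteDimensional F D] in
theorem mem_HH_of {t : D →ₗ[F] F} (ht : IsTr t) {u u' : D} (h2 : u' * u = 1)
    (hU : ∀ a ∈ U, ∃ ψ ∈ PsiOf U, a = u * ψ) {y : PsiOf U}
    (hy : y ∈ (form t (PsiOf U)).orthogonal (U1 U u)) : (y : D) * u' ∈ HH t U := by
  intro a ha
  obtain ⟨ψ, hψ, rfl⟩ := hU a ha
  have h3 : (y : D) * u' * (u * ψ) = y * ψ := by
    rw [mul_assoc, ← mul_assoc u', h2, one_mul]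
  rw [h3]
  refine ⟨(PsiOf U).mul_mem y.2 hψ, ?_⟩
  have h4 := hy ⟨ψ, hψ⟩ ha
  have h5 : t (ψ * (y : D)) = 0 := h4
  rw [ht.1]; exact h5

theorem finrank_HH {t : D →ₗ[F] F} (ht : IsTr t) {u u' : D} (hu : u ∈ U) (h0 : u ≠ 0)
    (h2 : u' * u = 1) (hU : ∀ a ∈ U, ∃ ψ ∈ PsiOf U, a = u * ψ) :
    Module.finrank F (HH t U) = Module.finrank F (PsiOf U) - Module.finrank F U ∧
      Module.finrank F U ≤ Module.finrank F (PsiOf U) := by
  have hdim := finrank_U1 U h0 hU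
  constructor
  · rw [← hdim, ← LinearMap.BilinForm.finrank_orthogonal (form_nondeg ht _)]
    let g : HH t U →ₗ[F] (PsiOf U) :=
      LinearMap.codRestrict (Subalgebra.toSubmodule (PsiOf U))
        ((LinearMap.mulRight F u) ∘ₗ (HH t U).subtype) (fun x => (x.2 u hu).1)
    have hg : ∀ x, ((g x : PsiOf U) : D) = (x : D) * u := fun x => rfl
    let f : HH t U →ₗ[F] ((form t (PsiOf U)).orthogonal (U1 U u)) :=
      LinearMap.codRestrict _ g (by
        intro x c hc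
        have h3 : t (((x : D)) * (u * (c : D))) = 0 := (x.2 _ hc).2
        change t ((c : D) * ((x : D) * u)) = 0
        rw [ht.1, mul_assoc]; exact h3)
    have hf : ∀ x, (((f x : (form t (PsiOf U)).orthogonal (U1 U u)) : PsiOf U) : D) =
      (x : D) * u := fun x => rfl
    refine (LinearEquiv.ofBijective f ⟨?_, ?_⟩).finrank_eq
    · intro x y h
      have h3 : (((f x : (form t (PsiOf U)).orthogonal (U1 U u)) : PsiOf U) : D) = f y :=
        congrArg (fun z : (form t (PsiOf U)).orthogonal (U1 U u) => ((z : PsiOf U) : D)) h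
      rw [hf, hf] at h3
      exact Subtype.ext (mul_right_cancel₀ h0 h3)
    · rintro ⟨y, hy⟩
      refine ⟨⟨(y : D) * u', mem_HH_of U ht h2 hU hy⟩, ?_⟩
      apply Subtype.ext; apply Subtype.ext
      rw [hf]
      change (y : D) * u' * u = y
      rw [mul_assoc, h2, mul_one]
  · rw [← hdim]
    exact Submodule.finrank_le _

theorem mem_of_HH {t : D →ₗ[F] F} (ht : IsTr t) {u u' : D}
    (h2 : u' * u = 1) (hU : ∀ a ∈ U, ∃ ψ ∈ PsiOf U, a = u * ψ) {ψ : D} (hψ : ψ ∈ PsiOf U)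
    (hh : ∀ h ∈ HH t U, t (h * (u * ψ)) = 0) : u * ψ ∈ U := by
  have key : (⟨ψ, hψ⟩ : PsiOf U) ∈ (form t (PsiOf U)).orthogonal
      ((form t (PsiOf U)).orthogonal (U1 U u)) := by
    intro y hy
    have h3 := hh _ (mem_HH_of U ht h2 hU hy)
    have h4 : (y : D) * u' * (u * ψ) = y * ψ := by
      rw [mul_assoc, ← mul_assoc u', h2, one_mul]
    rw [h4] at h3
    exact h3
  rw [LinearMap.BilinForm.orthogonal_orthogonal (form_nondeg ht _) (form_refl ht _)] at key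
  exact key

end MinSt

/-- `dim 𝓗 = dim Ψ - dim U` -/
theorem St.finrank_HH (S : St P) (hU : S.U ≤ Subalgebra.toSubmodule S.Λ)
    {t : S.A.D →ₗ[S.A.F] S.A.F} (ht : IsTr t) :
    Module.finrank S.A.F (HH t S.U) = S.sd ∧
      Module.finrank S.A.F S.U ≤ Module.finrank S.A.F S.Psi := by
  obtain ⟨u, hu, h0⟩ := S.U_ne
  obtain ⟨u', -, -, h2⟩ := S.exists_inv (hU hu) h0
  exact MinSt.finrank_HH S.U ht hu h0 h2 fun a ha => S.mem_U_mul hU hu h0 ha

/-- biduality: what is killed by `𝓗` is in `U` -/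
theorem St.mem_U_of_HH (S : St P) (hU : S.U ≤ Subalgebra.toSubmodule S.Λ)
    {t : S.A.D →ₗ[S.A.F] S.A.F} (ht : IsTr t) {u : S.A.D} (hu : u ∈ S.U) (h0 : u ≠ 0)
    (x : S.A.D) (hx : ∃ ψ ∈ S.Psi, x = u * ψ) (hh : ∀ h ∈ HH t S.U, t (h * x) = 0) :
    x ∈ S.U := by
  obtain ⟨ψ, hψ, rfl⟩ := hx
  obtain ⟨u', -, -, h2⟩ := S.exists_inv (hU hu) h0
  exact MinSt.mem_of_HH S.U ht h2 (fun a ha => S.mem_U_mul hU hu h0 ha) hψ hh

end Crest.Agent.R180
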