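import Mathlib
import Crest.Agent.R180.LaurentLemmas
import Crest.Agent.R180.MinDefs
import Crest.Agent.R180.MinGen
import Crest.Agent.R180.MinGenPt
import Crest.Agent.R180.MinSt_Mg
import Crest.Agent.R180.MinMu
import Crest.Agent.R180.MinState
import Crest.Agent.R180.MinLive
import Crest.Agent.R180.MinRes

-- ▼ part R180/MinIV0
section

set_option autoImplicit false

/-!
# Row 180, route M, step (IV): powers of a generating subspace (helper164)
-/

namespace Crest.Agent.R180.MinIV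

variable {F D : Type} [Field F] [Ring D] [Algebra F D]

theorem pow_mono (U : Submodule F D) (h1 : (1 : D) ∈ U) : Monotone fun n : ℕ => U ^ n := by
  refine monotone_nat_of_le_succ fun n => ?_
  intro x hx
  rw [pow_succ]
  have := Submodule.mul_mem_mul hx h1
  rwa [mul_one] at this

theorem pow_le_adjoin (U : Submodule F D) (n : ℕ) :
    U ^ n ≤ Subalgebra.toSubmodule (Algebra.adjoin F (U : Set D)) := by
  induction n with
  | zero =>
    rw [pow_zero]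
    intro x hx
    obtain ⟨c, rfl⟩ := Submodule.mem_one.mp hx
    exact Subalgebra.algebraMap_mem _ c
  | succ n ih =>
    rw [pow_succ]
    rw [Submodule.mul_le]
    intro a ha b hb
    exact Subalgebra.mul_mem _ (ih ha) (Algebra.subset_adjoin hb)

/-- some power of a subspace containing `1` is the algebra it generates -/
theorem exists_pow_eq_adjoin [FiniteDimensional F D] (U : Submodule F D) (h1 : (1 : D) ∈ U) :
    ∃ q : ℕ, 2 ≤ q ∧ U ^ q = Subalgebra.toSubmodule (Algebra.adjoin F (U : Set D)) := by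
  obtain ⟨n, hn⟩ := monotone_stabilizes_iff_noetherian.mpr (inferInstance : IsNoetherian F D)
    ⟨fun n : ℕ => U ^ n, pow_mono U h1⟩
  have hn' : ∀ m, n ≤ m → U ^ n = U ^ m := fun m hm => hn m hm
  have hpos : 1 ≤ max n 2 := by omega
  refine ⟨max n 2, le_max_right _ _, le_antisymm (pow_le_adjoin U _) ?_⟩
  have hq : U ^ (max n 2) * U ^ (max n 2) = U ^ (max n 2) := by
    rw [← pow_add, ← hn' _ (le_max_left n 2), ← hn' (max n 2 + max n 2) (by omega)]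
  have h1' : (1 : D) ∈ U ^ (max n 2) := by
    have := pow_mono U h1 (Nat.zero_le (max n 2))
    apply this
    change (1 : D) ∈ U ^ 0
    rw [pow_zero]
    exact Submodule.mem_one.mpr ⟨1, map_one _⟩
  let S : Subalgebra F D :=
    { (U ^ (max n 2)) with
      mul_mem' := fun {a b} ha hb => by
        have := Submodule.mul_mem_mul ha hb
        rw [hq] at this
        exact this
      algebraMap_mem' := fun r => by
        rw [Algebra.algebraMap_eq_smul_one]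
        exact (U ^ (max n 2)).smul_mem r h1' }
  have hS : Algebra.adjoin F (U : Set D) ≤ S := by
    apply Algebra.adjoin_le
    intro x hx
    have := pow_mono U h1 hpos
    change x ∈ U ^ (max n 2)
    apply this
    change x ∈ U ^ 1
    rwa [pow_one]
  intro x hx
  exact hS hx

end Crest.Agent.R180.MinIV
end

-- ▼ part R180/P2Val
section

set_option autoImplicit false

/-!
# Row 180, Phase 2: valued subfields of `Ψ((ε))`

`O ≤ Ψ⟦X⟧` is the valuation ring of a subfield of `Ψ((ε))` containing `k₀((ε))`;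
`resid O` its residue field.  All coefficients of all elements of `O` lie in `resid O`
(finite Newton iteration).
-/

namespace Crest.Agent.R180

namespace P2Val

open PowerSeries (constantCoeff)
open scoped PowerSeries
open scoped Polynomial

local notation "X" => (PowerSeries.X)

variable {k₀ Ψ : Type} [Field k₀] [Field Ψ] [Algebra k₀ Ψ]

/-- valuation rings of subfields of `Ψ((ε))` containing `ε` and `k₀` -/
structure VRing (k₀ : Type) {Ψ : Type} [Field k₀] [Field Ψ] [Algebra k₀ Ψ]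
    (O : Subring Ψ⟦X⟧) : Prop where
  hX : (X : Ψ⟦X⟧) ∈ O
  hdiv : ∀ q : Ψ⟦X⟧, X * q ∈ O → q ∈ O
  hC : ∀ c : k₀, PowerSeries.C (algebraMap k₀ Ψ c) ∈ O
  hinv : ∀ p ∈ O, constantCoeff p ≠ 0 → ∃ q ∈ O, p * q = 1

variable {O : Subring Ψ⟦X⟧}


/-- residue field -/
def VRing.resid (h : VRing k₀ O) : Subfield Ψ where
  carrier := {c | ∃ p ∈ O, constantCoeff p = c}
  mul_mem' := by
    rintro _ _ ⟨p, hp, rfl⟩ ⟨q, hq, rfl⟩
    exact ⟨p * q, O.mul_mem hp hq, map_mul _ _ _⟩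
  one_mem' := ⟨1, O.one_mem, map_one _⟩
  add_mem' := by
    rintro _ _ ⟨p, hp, rfl⟩ ⟨q, hq, rfl⟩
    exact ⟨p + q, O.add_mem hp hq, map_add _ _ _⟩
  zero_mem' := ⟨0, O.zero_mem, map_zero _⟩
  neg_mem' := by
    rintro _ ⟨p, hp, rfl⟩
    exact ⟨-p, O.neg_mem hp, map_neg _ _⟩
  inv_mem' := by
    rintro _ ⟨p, hp, rfl⟩
    by_cases h0 : constantCoeff p = 0
    · rw [h0, inv_zero]; exact ⟨0, O.zero_mem, map_zero _⟩
    · obtain ⟨q, hq, hpq⟩ := h.hinv p hp h0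
      refine ⟨q, hq, ?_⟩
      have := congrArg constantCoeff hpq
      rw [map_mul, map_one] at this
      exact eq_inv_of_mul_eq_one_right this


theorem VRing.algebraMap_mem (h : VRing k₀ O) (c : k₀) : algebraMap k₀ Ψ c ∈ h.resid :=
  ⟨_, h.hC c, by simp⟩





end P2Val

end Crest.Agent.R180
end

-- ▼ part R180/P2Dim
section

set_option autoImplicit false
set_option linter.unusedSectionVars false

/-!
# Row 180, Phase 2: dimension count (helper164)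
-/

noncomputable section
namespace Crest.Agent.R180

namespace P2Dim

section free

variable {F A : Type} [Field F] [Ring A] [IsDomain A] [Algebra F A] [FiniteDimensional F A]




/-- inverses in subalgebras of finite-dimensional domains -/
theorem exists_inv_mem (S : Subalgebra F A) (a : A) (ha : a ∈ S) (h0 : a ≠ 0) :
    ∃ b ∈ S, a * b = 1 ∧ b * a = 1 := by
  let _ : DivisionRing S := divisionRingOfFiniteDimensional F S
  have h1 : (⟨a, ha⟩ : S) ≠ 0 := fun h => h0 (congrArg Subtype.val h)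
  refine ⟨((⟨a, ha⟩ : S)⁻¹ : S), ((⟨a, ha⟩ : S)⁻¹ : S).2, ?_, ?_⟩
  · exact congrArg Subtype.val (mul_inv_cancel₀ h1)
  · exact congrArg Subtype.val (inv_mul_cancel₀ h1)

end free

section coeff

variable {k Φ A : Type} [Field k] [CharZero k] [Field Φ] [Algebra k Φ] [Algebra.IsAlgebraic k Φ]
  [Ring A] [IsDomain A] [Algebra k A] [FiniteDimensional k A]



end coeff

section main

variable {k A : Type} [Field k] [CharZero k] [Ring A] [IsDomain A] [Algebra k A]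
  [FiniteDimensional k A]





end main

end P2Dim

end Crest.Agent.R180
end
end

-- ▼ part R180/MinIVa
section

set_option autoImplicit false
set_option linter.unusedSectionVars false

/-!
# Row 180, route M, step (IV): preparations (helper164)
-/

noncomputable section
namespace Crest.Agent.R180

open TensorProduct

namespace MinIV

/-! ### residues of products -/

section res

variable {F K : Type} [Field F] [Ring K] [Algebra F K]

theorem resSp_mul (V W : Submodule (LF F) (LD K)) :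
    LD.resSp V * LD.resSp W ≤ LD.resSp (V * W) := by
  rw [Submodule.mul_le]
  rintro a ⟨x, hx, hxi, rfl⟩ b ⟨y, hy, hyi, rfl⟩
  exact ⟨x * y, Submodule.mul_mem_mul hx hy, hxi.mul hyi, hxi.co_mul_zero hyi⟩

theorem resSp_pow (V : Submodule (LF F) (LD K)) (n : ℕ) :
    (LD.resSp V) ^ n ≤ LD.resSp (V ^ n) := by
  induction n with
  | zero =>
    rw [pow_zero, pow_zero]
    intro x hx
    obtain ⟨c, rfl⟩ := Submodule.mem_one.mp hx
    refine ⟨LF.toLD (LF.C c), Submodule.mem_one.mpr ⟨LF.C c, rfl⟩, ?_, ?_⟩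
    · rw [LD.toLD_C]; exact LD.isInt_C _
    · rw [LD.toLD_C, LD.co_C_zero]
  | succ n ih =>
    rw [pow_succ, pow_succ]
    exact le_trans (mul_le_mul' ih le_rfl) (resSp_mul _ _)

end res

/-! ### kernels of pairings -/

section pair

variable {F D : Type} [Field F] [Ring D] [Algebra F D] [FiniteDimensional F D]

theorem exists_ne_zero_of_finrank_lt (t : D →ₗ[F] F) (Ψ V : Submodule F D)
    (h : Module.finrank F V < Module.finrank F Ψ) :
    ∃ ψ ∈ Ψ, ψ ≠ 0 ∧ ∀ y ∈ V, t (ψ * y) = 0 := by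
  let f : Ψ →ₗ[F] Module.Dual F V :=
    (((LinearMap.mul F D).compr₂ t).domRestrict₁₂ Ψ V)
  have hf : LinearMap.ker f ≠ ⊥ := by
    apply LinearMap.ker_ne_bot_of_finrank_lt
    rw [Subspace.dual_finrank_eq]
    exact h
  obtain ⟨ψ, hψ, hψ0⟩ := Submodule.exists_mem_ne_zero_of_ne_bot hf
  refine ⟨ψ, ψ.2, fun h0 => hψ0 (Subtype.ext h0), fun y hy => ?_⟩
  have h1 := congrArg (fun g => g (⟨y, hy⟩ : V)) (LinearMap.mem_ker.mp hψ)
  exact h1

/-- for a nondegenerate pairing on `Ψ` every functional on `Ψ` is `t (· * ψ)` -/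
theorem exists_repr (t : D →ₗ[F] F) (Ψ : Subalgebra F D)
    (hnd : ∀ ψ ∈ Ψ, ψ ≠ 0 → ∃ ψ' ∈ Ψ, t (ψ' * ψ) ≠ 0) (φ : Ψ →ₗ[F] F) :
    ∃ ψ ∈ Ψ, ∀ d : Ψ, t ((d : D) * ψ) = φ d := by
  let f : Ψ →ₗ[F] Module.Dual F Ψ :=
    ((((LinearMap.mul F D).compr₂ t).flip).domRestrict₁₂
      (Subalgebra.toSubmodule Ψ) (Subalgebra.toSubmodule Ψ))
  have hf : ∀ ψ d : Ψ, f ψ d = t ((d : D) * (ψ : D)) := fun _ _ => rfl
  have hinj : Function.Injective f := by
    rw [← LinearMap.ker_eq_bot, LinearMap.ker_eq_bot']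
    intro ψ hψ
    by_contra h0
    obtain ⟨ψ', hψ', h1⟩ := hnd ψ ψ.2 (fun h => h0 (Subtype.ext h))
    apply h1
    have := congrArg (fun g => g (⟨ψ', hψ'⟩ : Ψ)) hψ
    exact this
  have hsurj : Function.Surjective f := by
    rw [← LinearMap.injective_iff_surjective_of_finrank_eq_finrank (f := f)]
    · exact hinj
    · exact (Subspace.dual_finrank_eq (K := F) (V := Ψ)).symm
  obtain ⟨ψ, hψ⟩ := hsurj φ
  exact ⟨ψ, ψ.2, fun d => by rw [← hf ψ d, hψ]⟩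

end pair

section tensor

variable {F F1 E D : Type} [Field F] [Field F1] [Algebra F F1] [Ring E] [Algebra F1 E]
  [Algebra F E] [IsScalarTower F F1 E] [Ring D] [Algebra F D] [FiniteDimensional F D]

/-- contraction and right multiplication by a pure tensor -/
theorem ellE_mul_tmul (ℓ : D →ₗ[F] F) (e : E) (d : D) (x : E ⊗[F] D) :
    MinI.ellE (F1 := F1) E ℓ (x * (e ⊗ₜ[F] d)) =
      MinI.ellE (F1 := F1) E (ℓ ∘ₗ LinearMap.mulRight F d) x * e := by
  induction x using TensorProduct.induction_on with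
  | zero => simp
  | tmul a b =>
    rw [Algebra.TensorProduct.tmul_mul_tmul, MinI.ellE_tmul, MinI.ellE_tmul, smul_mul_assoc]
    rfl
  | add a b ha hb => rw [add_mul, map_add, ha, hb, map_add, add_mul]

theorem key_zero (t : D →ₗ[F] F) (Ψ : Subalgebra F D)
    (hnd : ∀ ψ ∈ Ψ, ψ ≠ 0 → ∃ ψ' ∈ Ψ, t (ψ' * ψ) ≠ 0) (z : E ⊗[F] D)
    (hz : z ∈ (Algebra.TensorProduct.map (AlgHom.id F1 E) Ψ.val :
      E ⊗[F] Ψ →ₐ[F1] E ⊗[F] D).range)
    (h : ∀ ψ ∈ Ψ, MinI.ellE (F1 := F1) E (t ∘ₗ LinearMap.mulRight F ψ) z = 0) : z = 0 := by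
  classical
  obtain ⟨y, rfl⟩ := hz
  set b := Module.finBasis F Ψ with hb
  suffices hy : y = 0 by rw [hy]; exact map_zero _
  apply (TensorProduct.equivFinsuppOfBasisRight (M := E) b).injective
  ext k
  rw [map_zero, Finsupp.zero_apply]
  obtain ⟨ψ, hψ, hψ'⟩ := exists_repr t Ψ hnd (b.coord k)
  have h1 := h ψ hψ
  have h2 : ∀ y : E ⊗[F] Ψ, MinI.ellE (F1 := F1) E (t ∘ₗ LinearMap.mulRight F ψ)
      ((Algebra.TensorProduct.map (AlgHom.id F1 E) Ψ.val : E ⊗[F] Ψ →ₐ[F1] E ⊗[F] D) y) =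
      TensorProduct.equivFinsuppOfBasisRight b y k := by
    intro y
    induction y using TensorProduct.induction_on with
    | zero => simp
    | tmul e a =>
      rw [Algebra.TensorProduct.map_tmul, MinI.ellE_tmul,
        TensorProduct.equivFinsuppOfBasisRight_apply_tmul_apply]
      have h3 : (t ∘ₗ LinearMap.mulRight F ψ) (Ψ.val a) = b.coord k a := hψ' a
      rw [h3]
      rfl
    | add a c ha hc => rw [map_add, map_add, ha, hc, map_add, Finsupp.add_apply]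
  rw [← h2]
  exact h1

end tensor

/-! ### commutative algebra inside `Λ` -/

section comm

variable {F D : Type} [Field F] [Ring D] [IsDomain D] [Algebra F D] [FiniteDimensional F D]
  {U : Submodule F D} {Λ : Subalgebra F D}

theorem psi_le (hU : U ≤ Subalgebra.toSubmodule Λ) : PsiOf U ≤ Λ := by
  apply Algebra.adjoin_le
  rintro x ⟨b, hb, hb0, hxb⟩
  obtain ⟨c, hc, hbc, _⟩ := P2Dim.exists_inv_mem Λ b (hU hb) hb0
  have : x = x * b * c := by rw [mul_assoc, hbc, mul_one]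
  rw [this]
  exact Λ.mul_mem (hU hxb) hc

variable (hc : ∀ a ∈ Λ, ∀ b ∈ Λ, a * b = b * a) (hU : U ≤ Subalgebra.toSubmodule Λ)

theorem mul_inv_mem_psi {u u' a : D} (hu : u ∈ U) (hu0 : u ≠ 0) (hu' : u' * u = 1)
    (ha : a ∈ U) : a * u' ∈ PsiOf U := by
  apply Algebra.subset_adjoin
  exact ⟨u, hu, hu0, by rw [mul_assoc, hu', mul_one]; exact ha⟩

include hU in
theorem pow_le (n : ℕ) : U ^ n ≤ Subalgebra.toSubmodule Λ := by
  induction n with
  | zero =>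
    rw [pow_zero]
    intro x hx
    obtain ⟨c, rfl⟩ := Submodule.mem_one.mp hx
    exact Λ.algebraMap_mem c
  | succ n ih =>
    rw [pow_succ, Submodule.mul_le]
    intro a ha b hb
    exact Λ.mul_mem (ih ha) (hU hb)

include hc hU in
theorem pow_mul_inv_mem {u u' : D} (hu : u ∈ U) (hu0 : u ≠ 0) (hu' : u' * u = 1)
    (hu'Λ : u' ∈ Λ) (n : ℕ) (y : D) (hy : y ∈ U ^ n) : y * u' ^ n ∈ PsiOf U := by
  induction n generalizing y with
  | zero =>
    rw [pow_zero] at hy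
    obtain ⟨c, rfl⟩ := Submodule.mem_one.mp hy
    rw [pow_zero, mul_one]
    exact (PsiOf U).algebraMap_mem c
  | succ n ih =>
    rw [pow_succ] at hy
    refine Submodule.mul_induction_on hy ?_ ?_
    · intro a ha b hb
      have h1 : a * b * u' ^ (n + 1) = (a * u' ^ n) * (b * u') := by
        rw [pow_succ, mul_assoc, mul_assoc, ← mul_assoc b, hc b (hU hb) _ (Λ.pow_mem hu'Λ n),
          mul_assoc]
      rw [h1]
      exact (PsiOf U).mul_mem (ih a ha) (mul_inv_mem_psi hu hu0 hu' hb)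
    · intro a b ha hb
      rw [add_mul]; exact (PsiOf U).add_mem ha hb

include hc hU in
theorem finrank_pow_le {u u' : D} (hu : u ∈ U) (hu0 : u ≠ 0) (hu' : u' * u = 1)
    (hu'Λ : u' ∈ Λ) (n : ℕ) :
    Module.finrank F (U ^ n : Submodule F D) ≤ Module.finrank F (PsiOf U) := by
  have hne : u' ^ n ≠ 0 := by
    apply pow_ne_zero
    rintro rfl
    rw [zero_mul] at hu'
    exact zero_ne_one hu'
  have h1 : (U ^ n).map (LinearMap.mulRight F (u' ^ n)) ≤ Subalgebra.toSubmodule (PsiOf U) := by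
    rintro _ ⟨y, hy, rfl⟩
    exact pow_mul_inv_mem hc hU hu hu0 hu' hu'Λ n y hy
  have h2 : Module.finrank F ((U ^ n).map (LinearMap.mulRight F (u' ^ n))) =
      Module.finrank F (U ^ n : Submodule F D) := by
    have hinj : Function.Injective (LinearMap.mulRight F (u' ^ n)) := by
      intro a b hab
      exact mul_right_cancel₀ hne hab
    exact (Submodule.equivMapOfInjective _ hinj (U ^ n)).finrank_eq.symm
  rw [← h2]
  exact Submodule.finrank_mono h1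

end comm

end MinIV

end Crest.Agent.R180
end
end

-- ▼ part R180/MinIVcore
section

set_option autoImplicit false
set_option linter.unusedSectionVars false

/-!
# Row 180, route M, step (IV): the index drops by one (helper164)
-/

noncomputable section
namespace Crest.Agent.R180

open TensorProduct

namespace MinIV

section comm2

variable {F D : Type} [Field F] [Ring D] [IsDomain D] [Algebra F D] [FiniteDimensional F D]
  {U : Submodule F D} {Λ : Subalgebra F D}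

/-- if `dim U^q = dim Ψ` then `U^q = Ψ u^q` -/
theorem full_spec (hc : ∀ a ∈ Λ, ∀ b ∈ Λ, a * b = b * a) (hU : U ≤ Subalgebra.toSubmodule Λ)
    {u u' : D} (hu : u ∈ U) (hu0 : u ≠ 0) (hu' : u' * u = 1) (hu'Λ : u' ∈ Λ) (q : ℕ)
    (hq : Module.finrank F (U ^ q : Submodule F D) = Module.finrank F (PsiOf U)) (ψ : D)
    (hψ : ψ ∈ PsiOf U) : ψ * u ^ q ∈ U ^ q := by
  have hne : u' ^ q ≠ 0 := by
    apply pow_ne_zero
    rintro rfl
    rw [zero_mul] at hu'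
    exact zero_ne_one hu'
  have h1 : (U ^ q).map (LinearMap.mulRight F (u' ^ q)) ≤ Subalgebra.toSubmodule (PsiOf U) := by
    rintro _ ⟨y, hy, rfl⟩
    exact pow_mul_inv_mem hc hU hu hu0 hu' hu'Λ q y hy
  have hinj : Function.Injective (LinearMap.mulRight F (u' ^ q)) := by
    intro a b hab
    exact mul_right_cancel₀ hne hab
  have h2 : Module.finrank F ((U ^ q).map (LinearMap.mulRight F (u' ^ q))) =
      Module.finrank F (U ^ q : Submodule F D) :=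
    (Submodule.equivMapOfInjective _ hinj (U ^ q)).finrank_eq.symm
  have h3 : (U ^ q).map (LinearMap.mulRight F (u' ^ q)) = Subalgebra.toSubmodule (PsiOf U) := by
    apply Submodule.eq_of_le_of_finrank_eq h1
    rw [h2, hq]
    rfl
  have h4 : ψ ∈ (U ^ q).map (LinearMap.mulRight F (u' ^ q)) := by
    rw [h3]; exact hψ
  obtain ⟨y, hy, rfl⟩ := h4
  have h5 : u' ^ q * u ^ q = 1 := by
    have hcomm : Commute u' u := hc u' hu'Λ u (hU hu)
    rw [← hcomm.mul_pow, hu', one_pow]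
  change y * u' ^ q * u ^ q ∈ U ^ q
  rw [mul_assoc, h5, mul_one]
  exact hy

end comm2

section core

variable {P : (A : DA) → (m : ℕ) → NC (Fin m) A.D → Prop} {A : DA} {m N : ℕ}
  {Λ : Subalgebra A.F A.D} {γ : NC (Fin m) A.D}

/-- products of residues of `U'` -/
theorem tmul_mem_pow (M : PE A N) (R : Submodule M.F1 M.D0) (U : Submodule A.F A.D)
    (hR : ∀ a ∈ U, ∀ l : M.L, (M.j l) ⊗ₜ[A.F] a ∈ R) (n : ℕ) :
    (∀ κ ∈ U ^ n, (1 : M.E) ⊗ₜ[A.F] κ ∈ R ^ n) ∧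
      ∀ κ ∈ U ^ (n + 1), ∀ l : M.L, (M.j l) ⊗ₜ[A.F] κ ∈ R ^ (n + 1) := by
  have h1 : ∀ n, ∀ κ ∈ U ^ n, (1 : M.E) ⊗ₜ[A.F] κ ∈ R ^ n := by
    intro n
    induction n with
    | zero =>
      intro κ hκ
      rw [pow_zero] at hκ ⊢
      obtain ⟨c, rfl⟩ := Submodule.mem_one.mp hκ
      refine Submodule.mem_one.mpr ⟨algebraMap A.F M.F1 c, ?_⟩
      rw [Algebra.TensorProduct.algebraMap_apply, ← IsScalarTower.algebraMap_apply A.F M.F1 M.E,
        Algebra.algebraMap_eq_smul_one, Algebra.algebraMap_eq_smul_one, TensorProduct.smul_tmul]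
    | succ n ih =>
      intro κ hκ
      rw [pow_succ] at hκ ⊢
      refine Submodule.mul_induction_on hκ ?_ ?_
      · intro a ha b hb
        have h2 := hR b hb 1
        rw [map_one] at h2
        have h3 : (1 : M.E) ⊗ₜ[A.F] (a * b) = ((1 : M.E) ⊗ₜ[A.F] a) * ((1 : M.E) ⊗ₜ[A.F] b) := by
          rw [Algebra.TensorProduct.tmul_mul_tmul, one_mul]
        rw [h3]
        exact Submodule.mul_mem_mul (ih a ha) h2
      · intro a b ha hb
        rw [TensorProduct.tmul_add]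
        exact Submodule.add_mem _ ha hb
  refine ⟨h1 n, fun κ hκ l => ?_⟩
  rw [pow_succ] at hκ ⊢
  refine Submodule.mul_induction_on hκ ?_ ?_
  · intro a ha b hb
    have h3 : (M.j l) ⊗ₜ[A.F] (a * b) = ((1 : M.E) ⊗ₜ[A.F] a) * ((M.j l) ⊗ₜ[A.F] b) := by
      rw [Algebra.TensorProduct.tmul_mul_tmul, one_mul]
    rw [h3]
    exact Submodule.mul_mem_mul (h1 n a ha) (hR b hb l)
  · intro a b ha hb
    rw [TensorProduct.tmul_add]
    exact Submodule.add_mem _ ha hb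

/-- **(IV)**: the index drops by one. -/
theorem core (M : PE A N) (hN : 2 ≤ N) {z : Fin m → PowerSeries M.E}
    (st : Step P Λ γ M.toAdm z) (t : A.D →ₗ[A.F] A.F) (ht : IsTr t) (tE : M.E →ₗ[M.F1] M.F1)
    (u u' : A.D) (hu : u ∈ UU γ) (huu' : u * u' = 1)
    (hΛ : ∀ a ∈ Λ, ∀ b ∈ Λ, a * b = b * a) (hU : UU γ ≤ Subalgebra.toSubmodule Λ)
    (hΛ' : ∀ a ∈ st.Lam, ∀ b ∈ st.Lam, a * b = b * a)
    (hU' : st.U ≤ Subalgebra.toSubmodule st.Lam) (hne' : ∃ a ∈ st.U, a ≠ 0)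
    (resPsi : LD.resSp (Subalgebra.toSubmodule st.Psi) =
      Subalgebra.toSubmodule (M.psiL (PsiOf (UU γ))))
    (resH : ∀ x ∈ st.H t tE, LD.IsInt x →
      x.co 0 ∈ Submodule.span M.F1 {y : M.D0 | ∃ (a : M.L) (h : A.D), h ∈ HH2 t (UU γ) u' ∧
          y = M.j a ⊗ₜ[A.F] h} ⊔
        Submodule.span M.F1 {y : M.D0 | ∃ h ∈ HH t (UU γ), y = (1 : M.E) ⊗ₜ[A.F] h})
    (resU : ∀ a ∈ UU γ, ∀ l : M.L, (M.j l) ⊗ₜ[A.F] a ∈ LD.resSp st.U)
    (q p : ℕ) (hq : Module.finrank A.F ((UU γ) ^ q : Submodule A.F A.D) =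
      Module.finrank A.F (PsiOf (UU γ))) (hqp : q ≤ p + 1) (hp : 2 ≤ p) :
    Module.finrank (LF M.F1) (st.U ^ p : Submodule (LF M.F1) (LD M.D0)) =
      Module.finrank (LF M.F1) st.Psi := by
  classical
  have hD : IsDomain M.D0 := M.dom
  set U := UU γ with hUdef
  -- inverses
  have hu0 : u ≠ 0 := by rintro rfl; rw [zero_mul] at huu'; exact zero_ne_one huu'
  obtain ⟨w, hwΛ, huw, hwu⟩ := P2Dim.exists_inv_mem Λ u (hU hu) hu0
  have hu'w : u' = w := by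
    calc u' = (w * u) * u' := by rw [hwu, one_mul]
      _ = w := by rw [mul_assoc, huu', mul_one]
  have hu'Λ : u' ∈ Λ := by rw [hu'w]; exact hwΛ
  have hu'u : u' * u = 1 := by rw [hu'w]; exact hwu
  obtain ⟨u1, hu1, hu10⟩ := hne'
  obtain ⟨u1', hu1'Λ, hu1u, hu1'u⟩ := P2Dim.exists_inv_mem st.Lam u1 (hU' hu1) hu10
  set T := LD.mapL (M.tt tE t) with hT
  by_contra hcon
  have hlt : Module.finrank (LF M.F1) (st.U ^ p : Submodule (LF M.F1) (LD M.D0)) <
      Module.finrank (LF M.F1) st.Psi :=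
    lt_of_le_of_ne (finrank_pow_le hΛ' hU' hu1 hu10 hu1'u hu1'Λ p) hcon
  -- the annihilating element
  obtain ⟨x, hx0, hx⟩ : ∃ x : LD M.D0, x ≠ 0 ∧ ∀ y ∈ st.U ^ p, x * y ∈ st.Psi ∧ T (x * y) = 0 := by
    have h1 : Module.finrank (LF M.F1)
        ((st.U ^ p).map (LinearMap.mulRight (LF M.F1) (u1' ^ p))) <
          Module.finrank (LF M.F1) (Subalgebra.toSubmodule st.Psi) :=
      lt_of_le_of_lt (Submodule.finrank_map_le _ _) hlt
    obtain ⟨ψ, hψ, hψ0, h2⟩ := exists_ne_zero_of_finrank_lt T _ _ h1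
    have hne : u1' ^ p ≠ 0 := by
      apply pow_ne_zero
      rintro rfl
      rw [zero_mul] at hu1'u
      exact zero_ne_one hu1'u
    refine ⟨ψ * u1' ^ p, mul_ne_zero hψ0 hne, fun y hy => ?_⟩
    have h3 : ψ * u1' ^ p * y = ψ * (y * u1' ^ p) := by
      rw [mul_assoc, hΛ' _ (st.Lam.pow_mem hu1'Λ p) y (pow_le hU' p hy)]
    rw [h3]
    exact ⟨st.Psi.mul_mem hψ (pow_mul_inv_mem hΛ' hU' hu1 hu10 hu1'u hu1'Λ p y hy),
      h2 _ ⟨y, hy, rfl⟩⟩
  -- normalise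
  obtain ⟨k, x', hxx', hxi, hx'0⟩ := LD.exists_normal hx0
  have hx' : ∀ y ∈ st.U ^ p, x' * y ∈ st.Psi ∧ T (x' * y) = 0 := by
    intro y hy
    have h1 : x' * y = (LF.tp (-k) : LF M.F1) • (x * y) := by
      rw [LD.smul_def, LD.toLD_tp, hxx', ← mul_assoc, ← mul_assoc, LD.tp_mul_tp]
      simp [LD.tp_zero]
    rw [h1, map_smul, (hx y hy).2, smul_zero]
    exact ⟨st.Psi.smul_mem (hx y hy).1 _, rfl⟩
  set x0 := x'.co 0 with hx0def
  -- (R1)
  have R1 : ∀ y ∈ st.U ^ (p - 1), x' * y ∈ st.H t tE := by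
    intro y hy a ha
    have h1 : y * a ∈ st.U ^ p := by
      have h2 : p = (p - 1) + 1 := by omega
      rw [h2, pow_succ]
      exact Submodule.mul_mem_mul hy ha
    rw [mul_assoc]
    exact hx' _ h1
  set R := Submodule.span M.F1 {y : M.D0 | ∃ (a : M.L) (h : A.D), h ∈ HH2 t U u' ∧
      y = M.j a ⊗ₜ[A.F] h} ⊔
    Submodule.span M.F1 {y : M.D0 | ∃ h ∈ HH t U, y = (1 : M.E) ⊗ₜ[A.F] h} with hRdef
  -- (R2)
  have R2 : ∀ y0 ∈ (LD.resSp st.U) ^ (p - 1), x0 * y0 ∈ R := by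
    intro y0 hy0
    obtain ⟨y, hy, hyi, rfl⟩ := resSp_pow st.U (p - 1) hy0
    have h1 := resH _ (R1 y hy) (hxi.mul hyi)
    rw [hxi.co_mul_zero hyi] at h1
    exact h1
  -- (R3)
  have R3 : ∀ y0 ∈ (LD.resSp st.U) ^ p, x0 * y0 ∈ M.psiL (PsiOf U) := by
    intro y0 hy0
    obtain ⟨y, hy, hyi, rfl⟩ := resSp_pow st.U p hy0
    have h1 : (x' * y).co 0 ∈ LD.resSp (Subalgebra.toSubmodule st.Psi) :=
      ⟨x' * y, (hx' y hy).1, hxi.mul hyi, rfl⟩
    rw [hxi.co_mul_zero hyi, resPsi] at h1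
    exact h1
  have R4 := tmul_mem_pow M (LD.resSp st.U) U resU
  -- Lemma A
  have lemA : ∀ z ∈ R, ∀ a ∈ U, ∀ b ∈ U, ∃ c : M.F1,
      M.con (t ∘ₗ LinearMap.mulRight A.F (a * b * u')) z = algebraMap M.F1 M.E c := by
    intro z hz a ha b hb
    have hle : R ≤ (LinearMap.range (Algebra.linearMap M.F1 M.E)).comap
        (M.con (t ∘ₗ LinearMap.mulRight A.F (a * b * u'))) := by
      refine sup_le ?_ ?_
      · rw [Submodule.span_le]
        rintro _ ⟨l, h, hh, rfl⟩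
        refine ⟨0, ?_⟩
        rw [map_zero]
        change (0 : M.E) = MinI.ellE (F1 := M.F1) M.E _ _
        rw [MinI.ellE_tmul]
        have h1 : (t ∘ₗ LinearMap.mulRight A.F (a * b * u')) h = t (h * a * b * u') := by
          change t (h * (a * b * u')) = _
          simp only [mul_assoc]
        rw [h1, hh.2 a ha b hb, zero_smul]
      · rw [Submodule.span_le]
        rintro _ ⟨h, hh, rfl⟩
        rw [SetLike.mem_coe, Submodule.mem_comap]
        change MinI.ellE (F1 := M.F1) M.E (t ∘ₗ LinearMap.mulRight A.F (a * b * u'))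
          ((1 : M.E) ⊗ₜ[A.F] h) ∈ _
        rw [MinI.ellE_tmul]
        refine ⟨algebraMap A.F M.F1 ((t ∘ₗ LinearMap.mulRight A.F (a * b * u')) h), ?_⟩
        rw [Algebra.linearMap_apply, ← IsScalarTower.algebraMap_apply A.F M.F1 M.E,
          Algebra.algebraMap_eq_smul_one]
    obtain ⟨c, hc⟩ := hle hz
    exact ⟨c, hc.symm⟩
  -- (R6)
  have R6 : ∀ l : M.L, ∀ y ∈ U ^ (p + 1),
      M.con (t ∘ₗ LinearMap.mulRight A.F (y * u')) x0 * M.j l ∈
        LinearMap.range (Algebra.linearMap M.F1 M.E) := by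
    intro l y hy
    have hp1 : p + 1 = (p - 1) + 1 + 1 := by omega
    rw [hp1, pow_succ] at hy
    have hadd : ∀ y1 y2 : A.D, M.con (t ∘ₗ LinearMap.mulRight A.F ((y1 + y2) * u')) x0 =
        M.con (t ∘ₗ LinearMap.mulRight A.F (y1 * u')) x0 +
          M.con (t ∘ₗ LinearMap.mulRight A.F (y2 * u')) x0 := by
      intro y1 y2
      have : ∀ x : M.D0, M.con (t ∘ₗ LinearMap.mulRight A.F ((y1 + y2) * u')) x =
        M.con (t ∘ₗ LinearMap.mulRight A.F (y1 * u')) x +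
          M.con (t ∘ₗ LinearMap.mulRight A.F (y2 * u')) x := by
        intro x
        induction x using TensorProduct.induction_on with
        | zero => simp
        | tmul e d =>
          change MinI.ellE (F1 := M.F1) M.E _ _ = MinI.ellE (F1 := M.F1) M.E _ _ +
            MinI.ellE (F1 := M.F1) M.E _ _
          rw [MinI.ellE_tmul, MinI.ellE_tmul, MinI.ellE_tmul, ← add_smul]
          congr 1
          change t (d * ((y1 + y2) * u')) = t (d * (y1 * u')) + t (d * (y2 * u'))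
          rw [add_mul, mul_add, map_add]
        | add a b ha hb => rw [map_add, map_add, map_add, ha, hb]; abel
      exact this x0
    refine Submodule.mul_induction_on hy ?_ ?_
    · intro y1 hy1 b hb
      rw [pow_succ] at hy1
      refine Submodule.mul_induction_on hy1 ?_ ?_
      · intro κ hκ a ha
        -- `x0 * (j l ⊗ κ) ∈ R`
        obtain ⟨n, hn⟩ : ∃ n, p - 1 = n + 1 := ⟨p - 2, by omega⟩
        rw [hn] at hκ
        have h1 := R2 ((M.j l) ⊗ₜ[A.F] κ) (by rw [hn]; exact (R4 n).2 κ hκ l)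
        obtain ⟨c, hc⟩ := lemA _ h1 a ha b hb
        refine ⟨c, ?_⟩
        rw [Algebra.linearMap_apply, ← hc]
        change MinI.ellE (F1 := M.F1) M.E _ _ = MinI.ellE (F1 := M.F1) M.E _ _ * _
        have h4 : (t ∘ₗ LinearMap.mulRight A.F (a * b * u')) ∘ₗ LinearMap.mulRight A.F κ =
            t ∘ₗ LinearMap.mulRight A.F (κ * a * b * u') := by
          apply LinearMap.ext
          intro d
          change t (d * κ * (a * b * u')) = t (d * (κ * a * b * u'))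
          simp only [mul_assoc]
        rw [ellE_mul_tmul, h4]
      · intro y1 y2 h1 h2
        rw [add_mul, hadd, add_mul]
        exact Submodule.add_mem _ h1 h2
    · intro y1 y2 h1 h2
      rw [hadd, add_mul]
      exact Submodule.add_mem _ h1 h2
  -- (R7)
  have R7 : ∀ y ∈ U ^ (p + 1), M.con (t ∘ₗ LinearMap.mulRight A.F (y * u')) x0 = 0 := by
    intro y hy
    by_contra hne
    obtain ⟨c, hc⟩ := R6 1 y hy
    rw [map_one, mul_one] at hc
    have hc0 : c ≠ 0 := by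
      rintro rfl
      rw [map_zero] at hc
      exact hne hc.symm
    have hall : ∀ l : M.L, ∃ d : M.F1, algebraMap M.F1 M.L d = l := by
      intro l
      obtain ⟨e, he⟩ := R6 l y hy
      rw [← hc, Algebra.linearMap_apply, Algebra.linearMap_apply] at he
      refine ⟨c⁻¹ * e, ?_⟩
      apply (M.j : M.L →+* M.E).injective
      change M.j (algebraMap M.F1 M.L (c⁻¹ * e)) = M.j l
      rw [AlgHom.commutes, map_mul, he, ← mul_assoc, ← map_mul, inv_mul_cancel₀ hc0, map_one,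
        one_mul]
    have hbot : (⊤ : Subalgebra M.F1 M.L) = ⊥ := by
      rw [eq_bot_iff]
      intro l _
      exact Algebra.mem_bot.mpr (hall l)
    have h1 : Module.finrank M.F1 M.L = 1 := by
      have h2 : Module.finrank M.F1 (⊤ : Subalgebra M.F1 M.L) = Module.finrank M.F1 M.L :=
        Subalgebra.topEquiv.toLinearEquiv.finrank_eq
      rw [← h2, hbot, Subalgebra.finrank_bot]
    rw [M.finrankL] at h1
    omega
  -- (R8), (R9)
  have hcomm : Commute u u' := hΛ u (hU hu) u' hu'Λ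
  have hupow : ∀ n : ℕ, u ^ n * u' ^ n = 1 := by
    intro n
    rw [← hcomm.mul_pow, huu', one_pow]
  have hupow' : ∀ n : ℕ, u' ^ n * u ^ n = 1 := by
    intro n
    rw [← hcomm.symm.mul_pow, hu'u, one_pow]
  have hψΛ : PsiOf U ≤ Λ := psi_le hU
  have hz0 : x0 * ((1 : M.E) ⊗ₜ[A.F] (u ^ p)) = 0 := by
    apply key_zero (F1 := M.F1) t (PsiOf U)
    · intro ψ hψ hψ0
      obtain ⟨ψ', hψ', h1, h2⟩ := P2Dim.exists_inv_mem (PsiOf U) ψ hψ hψ0
      exact ⟨ψ', hψ', by rw [h2]; exact ht.2⟩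
    · have h1 := R3 ((1 : M.E) ⊗ₜ[A.F] (u ^ p)) ((R4 p).1 _ (Submodule.pow_mem_pow _ hu p))
      have h2 : M.psiL (PsiOf U) ≤ (Algebra.TensorProduct.map (AlgHom.id M.F1 M.E)
          (PsiOf U).val : M.E ⊗[A.F] (PsiOf U) →ₐ[M.F1] M.E ⊗[A.F] A.D).range := by
        apply Algebra.adjoin_le
        rintro _ (⟨l, rfl⟩ | ⟨ψ, hψ, rfl⟩)
        · exact ⟨(M.j l) ⊗ₜ[A.F] (1 : PsiOf U), rfl⟩
        · exact ⟨(1 : M.E) ⊗ₜ[A.F] (⟨ψ, hψ⟩ : PsiOf U), rfl⟩
      exact h2 h1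
    · intro ψ hψ
      rw [ellE_mul_tmul, mul_one]
      -- `y = ψ u^(p+1) ∈ U^(p+1)`
      have h1 : ψ * u ^ q ∈ U ^ q := full_spec hΛ hU hu hu0 hu'u hu'Λ q hq ψ hψ
      have h2 : ψ * u ^ (p + 1) ∈ U ^ (p + 1) := by
        have h3 : p + 1 = q + (p + 1 - q) := by omega
        rw [h3, pow_add u, ← mul_assoc, pow_add]
        exact Submodule.mul_mem_mul h1 (Submodule.pow_mem_pow _ hu _)
      have h3 := R7 _ h2
      have h4 : (t ∘ₗ LinearMap.mulRight A.F ψ) ∘ₗ LinearMap.mulRight A.F (u ^ p) =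
          t ∘ₗ LinearMap.mulRight A.F (ψ * u ^ (p + 1) * u') := by
        apply LinearMap.ext
        intro d
        change t (d * u ^ p * ψ) = t (d * (ψ * u ^ (p + 1) * u'))
        rw [pow_succ, mul_assoc ψ, mul_assoc (u ^ p), huu', mul_one, mul_assoc,
          hΛ _ (Λ.pow_mem (hU hu) p) _ (hψΛ hψ)]
      rw [h4]
      exact h3
  apply hx'0
  have h1 : x0 = x0 * ((1 : M.E) ⊗ₜ[A.F] (u ^ p)) * ((1 : M.E) ⊗ₜ[A.F] (u' ^ p)) := by
    rw [mul_assoc, Algebra.TensorProduct.tmul_mul_tmul, hupow, one_mul,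
      ← Algebra.TensorProduct.one_def, mul_one]
  rw [h1, hz0, zero_mul]

end core

end MinIV

end Crest.Agent.R180
end
end

-- ▼ part R180/MinAlg
section

set_option autoImplicit false
noncomputable section
namespace Crest.Agent.R180

open TensorProduct

/-! # Row 180, ROUTE M: algebra of `E ⊗ D` for an extension `PE` -/

namespace MinI

section gen

variable {F D F1 E : Type} [Field F] [Ring D] [Algebra F D] [Field F1] [Algebra F F1]
  [Ring E] [Algebra F1 E] [Algebra F E] [IsScalarTower F F1 E]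

theorem sum_ellE {ι : Type*} [Fintype ι] (b : Module.Basis ι F D) (y : E ⊗[F] D) :
    ∑ i, ellE (F1 := F1) E (b.coord i) y ⊗ₜ[F] b i = y := by
  induction y using TensorProduct.induction_on with
  | zero => simp
  | tmul e d =>
    simp only [ellE_tmul]
    have h1 : ∀ i, (b.coord i d • e) ⊗ₜ[F] b i = e ⊗ₜ[F] (b.coord i d • b i) := fun i => by
      rw [TensorProduct.smul_tmul]
    rw [Finset.sum_congr rfl fun i _ => h1 i, ← TensorProduct.tmul_sum]
    congr 1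
    simp only [Module.Basis.coord_apply]
    exact b.sum_repr d
  | add x y hx hy =>
    simp only [map_add, TensorProduct.add_tmul, Finset.sum_add_distrib, hx, hy]

variable (F1 E) in
/-- `id ⊗ π` -/
def idT (π : D →ₗ[F] D) : E ⊗[F] D →ₗ[F1] E ⊗[F] D :=
  AlgebraTensorModule.map (LinearMap.id : E →ₗ[F1] E) π

@[simp] theorem idT_tmul (π : D →ₗ[F] D) (e : E) (d : D) :
    idT F1 E π (e ⊗ₜ[F] d) = e ⊗ₜ[F] π d := rfl

theorem ellE_idT (π : D →ₗ[F] D) (l : D →ₗ[F] F) (y : E ⊗[F] D) :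
    ellE (F1 := F1) E l (idT F1 E π y) = ellE (F1 := F1) E (l ∘ₗ π) y := by
  induction y using TensorProduct.induction_on with
  | zero => simp
  | tmul e d => rw [idT_tmul, ellE_tmul, ellE_tmul]; rfl
  | add x y hx hy => rw [map_add, map_add, map_add, hx, hy]

theorem idT_eq {ι : Type*} [Fintype ι] (b : Module.Basis ι F D) (π : D →ₗ[F] D) (y : E ⊗[F] D) :
    idT F1 E π y = ∑ i, ellE (F1 := F1) E (b.coord i) y ⊗ₜ[F] π (b i) := by
  conv_lhs => rw [← sum_ellE (F1 := F1) b y]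
  rw [map_sum]
  rfl

theorem idT_sub (π π' : D →ₗ[F] D) (y : E ⊗[F] D) :
    idT F1 E (π - π') y = idT F1 E π y - idT F1 E π' y := by
  induction y using TensorProduct.induction_on with
  | zero => simp
  | tmul e d => simp only [idT_tmul, LinearMap.sub_apply, TensorProduct.tmul_sub]
  | add x y hx hy => rw [map_add, map_add, map_add, hx, hy]; abel

theorem idT_comp (π π' : D →ₗ[F] D) (y : E ⊗[F] D) :
    idT F1 E (π ∘ₗ π') y = idT F1 E π (idT F1 E π' y) := by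
  induction y using TensorProduct.induction_on with
  | zero => simp
  | tmul e d => rfl
  | add x y hx hy => rw [map_add, map_add, map_add, hx, hy]

theorem idT_id (y : E ⊗[F] D) : idT F1 E (LinearMap.id : D →ₗ[F] D) y = y := by
  induction y using TensorProduct.induction_on with
  | zero => simp
  | tmul e d => rfl
  | add x y hx hy => rw [map_add, hx, hy]

/-- a linear projection onto a subspace -/
theorem exists_proj (V : Submodule F D) : ∃ π : D →ₗ[F] D, (∀ d, π d ∈ V) ∧ ∀ d ∈ V, π d = d := by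
  obtain ⟨g, hg⟩ := V.subtype.exists_leftInverse_of_injective (Submodule.ker_subtype V)
  refine ⟨V.subtype ∘ₗ g, fun d => (g d).2, fun d hd => ?_⟩
  have h1 := congrArg (fun f : V →ₗ[F] V => f ⟨d, hd⟩) hg
  exact congrArg Subtype.val h1

theorem ellE_eq_zero_idT [FiniteDimensional F D] (π : D →ₗ[F] D) (y : E ⊗[F] D)
    (h : ∀ l : D →ₗ[F] F, ellE (F1 := F1) E (l ∘ₗ π) y = 0) : idT F1 E π y = 0 := by
  rw [← sum_ellE (F1 := F1) (Module.finBasis F D) (idT F1 E π y)]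
  refine Finset.sum_eq_zero fun i _ => ?_
  rw [ellE_idT, h, TensorProduct.zero_tmul]


/-- adapted decomposition, general form: `P ⊆ E` a subset containing the contractions of `y`,
`Q` a subset containing those killing `V2` -/
theorem span_two [FiniteDimensional F D] (V1 V2 : Submodule F D) (hle : V2 ≤ V1)
    (P Q : Set E) (y : E ⊗[F] D)
    (h1 : ∀ l : D →ₗ[F] F, ellE (F1 := F1) E l y ∈ P)
    (h2 : ∀ l : D →ₗ[F] F, (∀ h ∈ V1, l h = 0) → ellE (F1 := F1) E l y = 0)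
    (h3 : ∀ l : D →ₗ[F] F, (∀ h ∈ V2, l h = 0) → ellE (F1 := F1) E l y ∈ Q) :
    y ∈ Submodule.span F1 {y : E ⊗[F] D | ∃ a ∈ P, ∃ h ∈ V2, y = a ⊗ₜ[F] h} ⊔
      Submodule.span F1 {y : E ⊗[F] D | ∃ a ∈ Q, ∃ h ∈ V1, y = a ⊗ₜ[F] h} := by
  obtain ⟨π1, hπ1, hπ1'⟩ := exists_proj V1
  obtain ⟨π2, hπ2, hπ2'⟩ := exists_proj V2
  set b := Module.finBasis F D
  set z := idT F1 E (LinearMap.id - π2) y with hz
  have e1 : y = idT F1 E π2 y + (idT F1 E π1 z + (z - idT F1 E π1 z)) := by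
    rw [hz, idT_sub, idT_id]; abel
  have e2 : z - idT F1 E π1 z = 0 := by
    have h4 : z - idT F1 E π1 z = idT F1 E ((LinearMap.id - π1) ∘ₗ (LinearMap.id - π2)) y := by
      rw [idT_comp, ← hz, idT_sub, idT_id]
    have h5 : (LinearMap.id - π1) ∘ₗ (LinearMap.id - π2) = LinearMap.id - π1 := by
      apply LinearMap.ext
      intro d
      have h6 := hπ1' _ (hle (hπ2 d))
      simp only [LinearMap.comp_apply, LinearMap.sub_apply, LinearMap.id_apply, map_sub, h6]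
      abel
    rw [h4, h5]
    apply ellE_eq_zero_idT
    intro l
    apply h2
    intro h hh
    rw [LinearMap.comp_apply, LinearMap.sub_apply, LinearMap.id_apply, hπ1' h hh, sub_self,
      map_zero]
  rw [e2, add_zero] at e1
  rw [e1]
  refine Submodule.add_mem_sup ?_ ?_
  · rw [idT_eq b]
    refine Submodule.sum_mem _ fun i _ => Submodule.subset_span ?_
    exact ⟨_, h1 _, _, hπ2 _, rfl⟩
  · rw [idT_eq b]
    refine Submodule.sum_mem _ fun i _ => Submodule.subset_span ?_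
    refine ⟨_, ?_, _, hπ1 (b i), rfl⟩
    rw [hz, ellE_idT]
    apply h3
    intro h hh
    rw [LinearMap.comp_apply, LinearMap.sub_apply, LinearMap.id_apply, hπ2' h hh, sub_self,
      map_zero]

end gen

end MinI

section PEalg
variable {A : DA} {N : ℕ} (M : PE A N)


/-- (a) -/
theorem PE.span_two (V1 V2 : Submodule A.F A.D) (hle : V2 ≤ V1) (y : M.D0)
    (h1 : ∀ l : A.D →ₗ[A.F] A.F, ∃ a : M.L, MinI.ellE (F1 := M.F1) M.E l y = M.j a)
    (h2 : ∀ l : A.D →ₗ[A.F] A.F, (∀ h ∈ V1, l h = 0) → MinI.ellE (F1 := M.F1) M.E l y = 0)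
    (h3 : ∀ l : A.D →ₗ[A.F] A.F, (∀ h ∈ V2, l h = 0) →
      ∃ c : M.F1, MinI.ellE (F1 := M.F1) M.E l y = algebraMap M.F1 M.E c) :
    y ∈ Submodule.span M.F1 {y : M.D0 | ∃ (a : M.L) (h : A.D), h ∈ V2 ∧
        y = M.j a ⊗ₜ[A.F] h} ⊔
      Submodule.span M.F1 {y : M.D0 | ∃ h ∈ V1, y = (1 : M.E) ⊗ₜ[A.F] h} := by
  have h := MinI.span_two V1 V2 hle (Set.range M.j) (Set.range (algebraMap M.F1 M.E)) y
    (fun l => by obtain ⟨a, ha⟩ := h1 l; exact ⟨a, ha.symm⟩) h2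
    (fun l hl => by obtain ⟨a, ha⟩ := h3 l hl; exact ⟨a, ha.symm⟩)
  revert h
  apply SetLike.le_def.mp
  refine sup_le_sup ?_ ?_
  · apply Submodule.span_mono
    rintro _ ⟨_, ⟨a, rfl⟩, h, hh, rfl⟩
    exact ⟨a, h, hh, rfl⟩
  · rw [Submodule.span_le]
    rintro _ ⟨_, ⟨c, rfl⟩, h, hh, rfl⟩
    have h4 : (algebraMap M.F1 M.E c) ⊗ₜ[A.F] h = c • ((1 : M.E) ⊗ₜ[A.F] h) := by
      rw [Algebra.algebraMap_eq_smul_one, TensorProduct.smul_tmul']
    rw [SetLike.mem_coe, h4]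
    exact Submodule.smul_mem _ _ (Submodule.subset_span ⟨h, hh, rfl⟩)

/-- (b) -/
theorem PE.fix_of_comm {r : ℕ} (hr : r < N) (a : Fin r → M.L)
    (h : ∑ i, M.j (a i) * M.u ^ (i.val + 1) = ∑ i, M.u ^ (i.val + 1) * M.j (a i)) (i : Fin r) :
    ∃ c : M.F1, algebraMap M.F1 M.L c = a i := by
  revert i
  have hN : 0 < N := M.pr.pos
  obtain ⟨n, rfl⟩ : ∃ n, N = n + 1 := ⟨N - 1, by omega⟩
  -- extension by zero
  set ext : (Fin r → M.L) → (Fin (n + 1) → M.L) := fun c k =>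
    if hk : 1 ≤ k.val ∧ k.val - 1 < r then c ⟨k.val - 1, hk.2⟩ else 0 with hext
  have hsum : ∀ c : Fin r → M.L, ∑ i, M.j (c i) * M.u ^ (i.val + 1) = M.coefE (ext c) := by
    intro c
    rw [M.coefE_apply]
    have hinj : Function.Injective fun i : Fin r => (⟨i.val + 1, by omega⟩ : Fin (n + 1)) := by
      intro i j hij
      have := congrArg Fin.val hij
      exact Fin.ext (by simpa using this)
    rw [← Finset.sum_subset (Finset.subset_univ (Finset.univ.image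
      fun i : Fin r => (⟨i.val + 1, by omega⟩ : Fin (n + 1)))),
      Finset.sum_image (fun i _ j _ hij => hinj hij)]
    · refine Finset.sum_congr rfl fun i _ => ?_
      simp [hext]
    · intro k _ hk
      have h0 : ext c k = 0 := by
        rw [hext]
        simp only
        rw [dif_neg]
        rintro ⟨h1, h2⟩
        apply hk
        rw [Finset.mem_image]
        exact ⟨⟨k.val - 1, h2⟩, Finset.mem_univ _, Fin.ext (by simp; omega)⟩
      rw [h0, map_zero, zero_mul]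
  have h2 : ∑ i, M.u ^ (i.val + 1) * M.j (a i) =
      ∑ i : Fin r, M.j ((M.τ ^ (i.val + 1)) (a i)) * M.u ^ (i.val + 1) :=
    Finset.sum_congr rfl fun i _ => M.pow_conj _ _
  rw [h2, hsum, hsum fun i => (M.τ ^ (i.val + 1)) (a i)] at h
  have h3 := M.coefE.injective h
  intro i
  have h4 := congrFun h3 ⟨i.val + 1, by omega⟩
  simp only [hext] at h4
  rw [dif_pos ⟨by omega, by simp⟩, dif_pos ⟨by omega, by simp⟩] at h4
  simp only [Nat.add_sub_cancel, Fin.eta] at h4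
  exact M.fix (i.val + 1) (by omega) (by omega) (a i) h4.symm

/-- (c) -/
theorem PE.psiL_eq (Ξ : Subalgebra A.F A.D) (_hc : ∀ a ∈ Ξ, ∀ b ∈ Ξ, a * b = b * a) :
    Subalgebra.toSubmodule (M.psiL Ξ) =
      Submodule.span M.F1 {y : M.D0 | ∃ (a : M.L) (h : A.D), h ∈ Ξ ∧ y = M.j a ⊗ₜ[A.F] h} := by
  set S := Submodule.span M.F1 {y : M.D0 | ∃ (a : M.L) (h : A.D), h ∈ Ξ ∧ y = M.j a ⊗ₜ[A.F] h}
    with hS
  have hone : (1 : M.D0) ∈ S := Submodule.subset_span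
    ⟨1, 1, Ξ.one_mem, by rw [map_one]; rfl⟩
  have hmul : ∀ x ∈ S, ∀ y ∈ S, x * y ∈ S := by
    intro x hx y hy
    induction hx using Submodule.span_induction with
    | mem x hx =>
      obtain ⟨a, h, hh, rfl⟩ := hx
      induction hy using Submodule.span_induction with
      | mem y hy =>
        obtain ⟨a', h', hh', rfl⟩ := hy
        rw [Algebra.TensorProduct.tmul_mul_tmul, ← map_mul]
        exact Submodule.subset_span ⟨a * a', h * h', Ξ.mul_mem hh hh', rfl⟩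
      | zero => rw [mul_zero]; exact Submodule.zero_mem _
      | add x y _ _ hx hy => rw [mul_add]; exact Submodule.add_mem _ hx hy
      | smul c x _ hx => rw [mul_smul_comm]; exact Submodule.smul_mem _ _ hx
    | zero => rw [zero_mul]; exact Submodule.zero_mem _
    | add x y _ _ hx hy => rw [add_mul]; exact Submodule.add_mem _ hx hy
    | smul c x _ hx => rw [smul_mul_assoc]; exact Submodule.smul_mem _ _ hx
  apply le_antisymm
  · intro x hx
    rw [Subalgebra.mem_toSubmodule, PE.psiL] at hx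
    induction hx using Algebra.adjoin_induction with
    | mem x hx =>
      rcases hx with ⟨a, rfl⟩ | ⟨h, hh, rfl⟩
      · exact Submodule.subset_span ⟨a, 1, Ξ.one_mem, rfl⟩
      · exact Submodule.subset_span ⟨1, h, hh, by rw [map_one]; rfl⟩
    | algebraMap c =>
      rw [Algebra.algebraMap_eq_smul_one]
      exact Submodule.smul_mem _ _ hone
    | add x y _ _ hx hy => exact Submodule.add_mem _ hx hy
    | mul x y _ _ hx hy => exact hmul x hx y hy
  · rw [hS, Submodule.span_le]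
    rintro _ ⟨a, h, hh, rfl⟩
    have h1 : M.j a ⊗ₜ[A.F] h = M.jE (M.j a) * M.jD h := by
      change _ = (M.j a ⊗ₜ[A.F] (1 : A.D)) * ((1 : M.E) ⊗ₜ[A.F] h)
      rw [Algebra.TensorProduct.tmul_mul_tmul, mul_one, one_mul]
    rw [h1]
    exact (M.psiL Ξ).mul_mem (Algebra.subset_adjoin (Or.inl ⟨a, rfl⟩))
      (Algebra.subset_adjoin (Or.inr ⟨h, hh, rfl⟩))

theorem PE.finrank_psiL (Ξ : Subalgebra A.F A.D) (hc : ∀ a ∈ Ξ, ∀ b ∈ Ξ, a * b = b * a) :
    Module.finrank M.F1 (M.psiL Ξ) = N * Module.finrank A.F Ξ := by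
  have h1 : Module.finrank M.F1 (M.psiL Ξ) =
      Module.finrank M.F1 (Subalgebra.toSubmodule (M.psiL Ξ)) := rfl
  rw [h1, M.psiL_eq Ξ hc]
  let bL := Module.finBasis M.F1 M.L
  have hbL : LinearIndependent M.F1 (fun i => M.j (bL i)) := by
    have := bL.linearIndependent.map' M.j.toLinearMap
      (LinearMap.ker_eq_bot_of_injective M.j_injective)
    exact this
  let b := Module.finBasis A.F Ξ
  have hb : LinearIndependent A.F (fun j => ((b j : Ξ) : A.D)) := by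
    have := b.linearIndependent.map' Ξ.val.toLinearMap
      (LinearMap.ker_eq_bot_of_injective Subtype.val_injective)
    exact this
  have hind := MinI.indep_tensor (F1 := M.F1) (E := M.E) _ hbL _ hb
  have hspan : Submodule.span M.F1 {y : M.D0 | ∃ (a : M.L) (h : A.D), h ∈ Ξ ∧
      y = M.j a ⊗ₜ[A.F] h} =
      Submodule.span M.F1 (Set.range fun p : Fin (Module.finrank M.F1 M.L) ×
        Fin (Module.finrank A.F Ξ) => M.j (bL p.1) ⊗ₜ[A.F] ((b p.2 : Ξ) : A.D)) := by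
    apply le_antisymm
    · rw [Submodule.span_le]
      rintro _ ⟨a, h, hh, rfl⟩
      have ha : M.j a = ∑ i, bL.repr a i • M.j (bL i) := by
        conv_lhs => rw [← bL.sum_repr a]
        rw [map_sum]
        exact Finset.sum_congr rfl fun i _ => map_smul _ _ _
      have hh' : h = ∑ i, b.repr ⟨h, hh⟩ i • ((b i : Ξ) : A.D) := by
        have := congrArg Subtype.val (b.sum_repr ⟨h, hh⟩)
        simp only [AddSubmonoidClass.coe_finsetSum, Subalgebra.coe_smul] at this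
        exact this.symm
      rw [SetLike.mem_coe, ha, hh', TensorProduct.sum_tmul]
      refine Submodule.sum_mem _ fun i _ => ?_
      rw [TensorProduct.tmul_sum]
      refine Submodule.sum_mem _ fun k _ => ?_
      rw [← TensorProduct.smul_tmul', TensorProduct.tmul_smul]
      refine Submodule.smul_mem _ _ ?_
      rw [← algebraMap_smul M.F1]
      exact Submodule.smul_mem _ _ (Submodule.subset_span ⟨(i, k), rfl⟩)
    · apply Submodule.span_mono
      rintro _ ⟨p, rfl⟩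
      exact ⟨bL p.1, b p.2, (b p.2).2, rfl⟩
  rw [hspan, finrank_span_eq_card hind, Fintype.card_prod, Fintype.card_fin, Fintype.card_fin,
    M.finrankL]

theorem PE.W_eq (l0 : M.L) (hl0 : Algebra.adjoin M.F1 ({l0} : Set M.L) = ⊤)
    (Ξ : Subalgebra A.F A.D) (hc : ∀ a ∈ Ξ, ∀ b ∈ Ξ, a * b = b * a) :
    MinI.W (F1 := M.F1) (M.j l0) Ξ = Subalgebra.toSubmodule (M.psiL Ξ) := by
  rw [M.psiL_eq Ξ hc, MinI.W]
  apply le_antisymm
  · apply Submodule.span_mono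
    rintro _ ⟨i, a, ha, rfl⟩
    exact ⟨l0 ^ i, a, ha, by rw [map_pow]⟩
  · rw [Submodule.span_le]
    rintro _ ⟨a, h, hh, rfl⟩
    have ha : a ∈ Algebra.adjoin M.F1 ({l0} : Set M.L) := by rw [hl0]; exact Algebra.mem_top
    rw [Algebra.adjoin_singleton_eq_range_aeval] at ha
    obtain ⟨p, rfl⟩ := ha
    have h1 : M.j (Polynomial.aeval l0 p) = ∑ i ∈ Finset.range (p.natDegree + 1),
        p.coeff i • (M.j l0) ^ i := by
      rw [Polynomial.aeval_eq_sum_range, map_sum]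
      exact Finset.sum_congr rfl fun i _ => by rw [map_smul, map_pow]
    change M.j (Polynomial.aeval l0 p) ⊗ₜ[A.F] h ∈ _
    rw [h1, TensorProduct.sum_tmul]
    refine Submodule.sum_mem _ fun i _ => ?_
    rw [← TensorProduct.smul_tmul']
    exact Submodule.smul_mem _ _ (Submodule.subset_span ⟨i, h, hh, rfl⟩)

theorem PE.finrank_adjoin_j (l0 : M.L) (hl0 : Algebra.adjoin M.F1 ({l0} : Set M.L) = ⊤) :
    Module.finrank M.F1 (Algebra.adjoin M.F1 ({M.j l0} : Set M.E)) = N := by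
  have h1 : Algebra.adjoin M.F1 ({M.j l0} : Set M.E) = (⊤ : Subalgebra M.F1 M.L).map M.j := by
    rw [← hl0, AlgHom.map_adjoin, Set.image_singleton]
  rw [h1, Algebra.map_top]
  exact ((AlgEquiv.ofInjective M.j M.j_injective).toLinearEquiv.finrank_eq).symm.trans M.finrankL



end PEalg

end Crest.Agent.R180
end
end

-- ▼ part R180/MinIII

set_option autoImplicit false

/-!
# Row 180, ROUTE M: (III), the move lemma
-/

noncomputable section
namespace Crest.Agent.R180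

open TensorProduct

variable {P : (A : DA) → (m : ℕ) → NC (Fin m) A.D → Prop}

/-! ### elementary facts about steps -/

namespace Step
section
variable {A : DA} {m : ℕ} {Λ : Subalgebra A.F A.D} {γ : NC (Fin m) A.D} {M : Adm A}
  {z : Fin m → PowerSeries M.E}

theorem lam_comm (st : Step P Λ γ M z) : ∀ a ∈ st.Lam, ∀ b ∈ st.Lam, a * b = b * a := st.rs.comm

theorem c0_mem (st : Step P Λ γ M z) : (LD.ofPS (M.ev z γ) : LD M.D0) ∈ st.Lam :=
  Algebra.subset_adjoin (Or.inr rfl)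

theorem inc_mem (st : Step P Λ γ M z) {a : A.D} (ha : a ∈ Λ) :
    (LD.C (M.jD a) : LD M.D0) ∈ st.Lam :=
  Algebra.subset_adjoin (Or.inl ⟨a, ha, rfl⟩)

/-- the pairing of `U'` with `Λ'` -/
theorem exists_pair (hz : GenPt M z) (st : Step P Λ γ M z) (t0 : M.D0 →ₗ[M.F1] M.F1)
    (ht : ∀ x y : LD M.D0, LD.mapL t0 (x * y) = LD.mapL t0 (y * x))
    (v : Fin m → PowerSeries M.E) : ∃ T ∈ st.U, ∀ l ∈ st.Lam,
      LD.mapL t0 (l * T) = LD.mapL t0 (l * LD.ofPS (M.dv z v γ)) := by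
  obtain ⟨T, hT, x, hx⟩ := st.exists_T hz v
  refine ⟨T, hT, fun l hl => ?_⟩
  have hc := st.lam_comm l hl _ st.c0_mem
  rw [hx, mul_sub, map_sub, mul_sub, map_sub]
  have h1 : LD.mapL t0 (l * (LD.ofPS (M.ev z γ) * x)) =
      LD.mapL t0 (l * (x * LD.ofPS (M.ev z γ))) := by
    rw [← mul_assoc, hc, mul_assoc, ht, mul_assoc]
  rw [h1, sub_self, sub_zero]

/-- with integral directions whose derivative has residue in `res Λ'` -/
theorem exists_int (hz : GenPt M z) (st : Step P Λ γ M z) (t0 : M.D0 →ₗ[M.F1] M.F1)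
    (ht : ∀ x y : LD M.D0, LD.mapL t0 (x * y) = LD.mapL t0 (y * x)) (ht1 : t0 1 ≠ 0)
    (hU : st.U ≤ Subalgebra.toSubmodule st.Lam)
    (v : Fin m → PowerSeries M.E)
    (hv : PowerSeries.coeff 0 (M.dv z v γ) ∈ LD.resSp (Subalgebra.toSubmodule st.Lam)) :
    ∃ T ∈ st.U, LD.IsInt T ∧ T.co 0 = PowerSeries.coeff 0 (M.dv z v γ) := by
  obtain ⟨T, hT, h⟩ := st.exists_pair hz t0 ht v
  have h0 : (LD.ofPS (M.dv z v γ) : LD M.D0).co 0 = PowerSeries.coeff 0 (M.dv z v γ) :=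
    LD.co_ofPS _ 0
  obtain ⟨h1, h2⟩ := LD.co_zero_of_pairing t0 ht1 st.Lam (hU hT) h (LD.isInt_ofPS _)
    (by rw [h0]; exact hv)
  exact ⟨T, hT, h1, by rw [h2, h0]⟩

/-- elements of `𝓗'` kill the derivatives -/
theorem H_pair (hz : GenPt M z) (st : Step P Λ γ M z) {t : A.D →ₗ[A.F] A.F}
    {tE : M.E →ₗ[M.F1] M.F1}
    (ht : ∀ x y : LD M.D0, LD.mapL (M.tt tE t) (x * y) = LD.mapL (M.tt tE t) (y * x))
    {x : LD M.D0} (hx : x ∈ st.H t tE) (hxΛ : x ∈ st.Lam) (v : Fin m → PowerSeries M.E) :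
    LD.mapL (M.tt tE t) (x * LD.ofPS (M.dv z v γ)) = 0 := by
  obtain ⟨T, hT, h⟩ := st.exists_pair hz _ ht v
  rw [← h x hxΛ]
  exact (hx T hT).2

end
end Step

/-! ### constant directions -/

section
variable {A : DA} {m : ℕ} (M : Adm A)

theorem Adm.l1_const (γ : NC (Fin m) A.D) (w : Fin m → A.F) (ξ : M.E) :
    M.l1 (fun j => PowerSeries.C (w j • ξ)) γ = PowerSeries.C (ξ ⊗ₜ[A.F] (lin γ w)) := by
  unfold Adm.l1
  have h1 : ∀ j, PowerSeries.map M.jE (PowerSeries.C (w j • ξ)) *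
      PowerSeries.C (M.jD (γ [j])) = PowerSeries.C (R := M.D0) (ξ ⊗ₜ[A.F] (w j • γ [j])) := by
    intro j
    rw [PowerSeries.map_C, ← map_mul]
    congr 1
    change ((w j • ξ) ⊗ₜ[A.F] (1 : A.D)) * ((1 : M.E) ⊗ₜ[A.F] γ [j]) = _
    rw [Algebra.TensorProduct.tmul_mul_tmul, mul_one, one_mul, TensorProduct.smul_tmul]
  rw [Finset.sum_congr rfl fun j _ => h1 j, ← map_sum, lin_apply, TensorProduct.tmul_sum]

end

/-! ### power series as Laurent series -/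

namespace LD
variable {K : Type} [Ring K]

theorem ofPS_X_pow_mul (m : ℕ) (f : PowerSeries K) :
    (ofPS (PowerSeries.X ^ m * f) : LD K) = tp (m : ℤ) * ofPS f := by
  apply LD.ext; intro n
  rw [co_tp_mul]
  rcases lt_or_ge n 0 with hn | hn
  · rw [co_ofPS_neg _ _ hn, co_ofPS_neg _ _ (by omega)]
  · obtain ⟨k, rfl⟩ := Int.eq_ofNat_of_zero_le hn
    rw [co_ofPS, PowerSeries.coeff_X_pow_mul']
    split_ifs with h
    · rw [show ((k : ℤ) - (m : ℤ)) = ((k - m : ℕ) : ℤ) by omega, co_ofPS]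
    · rw [co_ofPS_neg _ _ (by omega)]

theorem ofPS_C (a : K) : (ofPS (PowerSeries.C a) : LD K) = C a := rfl

theorem ofPS_ordGe (m : ℕ) (f : PowerSeries K) :
    OrdGe (m : ℤ) (ofPS (PowerSeries.X ^ m * f) : LD K) := by
  rw [ofPS_X_pow_mul]
  have := ordGe_tp_mul (a := 0) (b := (m : ℤ)) (x := (ofPS f : LD K)) (isInt_ofPS f)
  rwa [add_zero] at this

theorem tp_neg_mul_mul_tp (n : ℤ) (a x : LD K) : tp (-n) * (a * (tp n * x)) = a * x := by
  rw [← mul_assoc a, ← tp_commute, ← mul_assoc, ← mul_assoc, tp_mul_tp, neg_add_cancel, tp_zero,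
    one_mul]

theorem ofPS_co_zero (f : PowerSeries K) : (ofPS f : LD K).co 0 = PowerSeries.coeff 0 f :=
  co_ofPS f 0

theorem tp_mul_mem {F K : Type} [Field F] [Ring K] [Algebra F K] (S : Subalgebra (LF F) (LD K))
    {x : LD K} (hx : x ∈ S) (n : ℤ) : tp n * x ∈ S := by
  rw [← toLD_tp (F := F), ← smul_def]
  exact S.smul_mem hx _

end LD

/-! ### the setting of (III) -/

section III
variable {S : St P} {N : ℕ} {M : PE S.A N} {k : ℕ} {l0 : M.L} {u : S.A.D} {r : ℕ}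
  {b : Fin r → S.A.D} {ρ : M.D0} {z : Fin S.m → PowerSeries M.E}

theorem Pt3.dv_const (hz : Pt3 S.γ M k l0 u b ρ z) (w : Fin S.m → S.A.F) (ξ : M.E) :
    ∃ y, M.dv z (fun j => PowerSeries.C (w j • ξ)) S.γ =
      PowerSeries.C (ξ ⊗ₜ[S.A.F] (lin S.γ w)) + PowerSeries.X ^ 3 * y := by
  obtain ⟨y, hy⟩ := hz.d1 (fun j => PowerSeries.C (w j • ξ))
  exact ⟨y, by rw [hy, M.toAdm.l1_const]⟩

theorem Pt3.dv_const_co0 (hz : Pt3 S.γ M k l0 u b ρ z) (w : Fin S.m → S.A.F) (ξ : M.E) :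
    PowerSeries.coeff 0 (M.dv z (fun j => PowerSeries.C (w j • ξ)) S.γ) =
      ξ ⊗ₜ[S.A.F] (lin S.γ w) := by
  obtain ⟨y, hy⟩ := hz.dv_const w ξ
  rw [hy]
  simp

/-- `C(1 ⊗ u') c₀ = t^{3k-2} (j l₀ ⊗ 1 + …)` -/
theorem Pt3.jl0_mem (hz : Pt3 S.γ M k l0 u b ρ z) (st : Step P S.Λ S.γ M.toAdm z)
    {u' : S.A.D} (hu' : u' ∈ S.Λ) (hu'u : u' * u = 1) :
    (M.j l0 ⊗ₜ[S.A.F] (1 : S.A.D)) ∈ LD.resSp (Subalgebra.toSubmodule st.Lam) := by
  obtain ⟨y, hy⟩ := hz.c0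
  refine ⟨LD.tp (-((3 * k - 2 : ℕ) : ℤ)) * (LD.C (M.jD u') * LD.ofPS (M.ev z S.γ)), ?_, ?_, ?_⟩
  · exact LD.tp_mul_mem st.Lam (st.Lam.mul_mem (st.inc_mem hu') st.c0_mem) _
  · rw [hy, LD.ofPS_X_pow_mul, LD.tp_neg_mul_mul_tp]
    exact (LD.isInt_C _).mul (LD.isInt_ofPS _)
  · rw [hy, LD.ofPS_X_pow_mul, LD.tp_neg_mul_mul_tp,
      (LD.isInt_C _).co_mul_zero (LD.isInt_ofPS _), LD.co_C_zero, LD.ofPS_co_zero]
    simp only [map_add, PowerSeries.coeff_zero_eq_constantCoeff_apply, PowerSeries.constantCoeff_C,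
      map_mul, PowerSeries.constantCoeff_X, map_pow]
    change ((1 : M.E) ⊗ₜ[S.A.F] u') * _ = _
    simp only [zero_mul, ne_eq, OfNat.ofNat_ne_zero, not_false_eq_true, zero_pow, add_zero]
    rw [Algebra.TensorProduct.tmul_mul_tmul, one_mul, hu'u]

theorem Step.inc_res (st : Step P S.Λ S.γ M.toAdm z) {a : S.A.D} (ha : a ∈ S.Λ) :
    ((1 : M.E) ⊗ₜ[S.A.F] a) ∈ LD.resSp (Subalgebra.toSubmodule st.Lam) :=
  ⟨LD.C (M.jD a), st.inc_mem ha, LD.isInt_C _, LD.co_C_zero _⟩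

theorem St.lam_comm (S : St P) : ∀ a ∈ S.Λ, ∀ b ∈ S.Λ, a * b = b * a := S.rs.comm

/-- (1) the residues of `Λ'` -/
theorem III_resLam (h : S.Good1) (hl0 : Algebra.adjoin M.F1 ({l0} : Set M.L) = ⊤)
    (hz : Pt3 S.γ M k l0 u b ρ z) (st : Step P S.Λ S.γ M.toAdm z)
    {u' : S.A.D} (hu' : u' ∈ S.Λ) (hu'u : u' * u = 1) :
    LD.resSp (Subalgebra.toSubmodule st.Lam) = Subalgebra.toSubmodule (M.psiL S.Λ) := by
  have h1 := h.finrank_le M.finrank_E hz.gp st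
  rw [← M.W_eq l0 hl0 S.Λ S.lam_comm]
  refine MinI.res_eq_W (M.j l0) S.Λ st.Lam (fun a ha => st.inc_res ha)
    (hz.jl0_mem st hu' hu'u) ?_
  rw [M.finrank_adjoin_j l0 hl0]
  exact h1

theorem III_good1 (h : S.Good1) (hl0 : Algebra.adjoin M.F1 ({l0} : Set M.L) = ⊤)
    (hz : Pt3 S.γ M k l0 u b ρ z) (st : Step P S.Λ S.γ M.toAdm z)
    {u' : S.A.D} (hu' : u' ∈ S.Λ) (hu'u : u' * u = 1) : (st.toSt hz.gp).Good1 := by
  refine h.of_finrank M.finrank_E hz.gp st ?_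
  have h1 := LD.finrank_resSp (Subalgebra.toSubmodule st.Lam)
  rw [III_resLam h hl0 hz st hu' hu'u] at h1
  have h2 := M.finrank_psiL S.Λ S.lam_comm
  have h3 : Module.finrank (LF M.F1) st.Lam = N * Module.finrank S.A.F S.Λ := by
    rw [← h2]; exact h1.symm
  exact h3.ge

theorem III_U_le (hP : MoveClosed P) (h : S.Good1)
    (hl0 : Algebra.adjoin M.F1 ({l0} : Set M.L) = ⊤)
    (hz : Pt3 S.γ M k l0 u b ρ z) (st : Step P S.Λ S.γ M.toAdm z)
    {u' : S.A.D} (hu' : u' ∈ S.Λ) (hu'u : u' * u = 1) :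
    st.U ≤ Subalgebra.toSubmodule st.Lam :=
  (III_good1 h hl0 hz st hu' hu'u).lin_mem hP

/-- the trace functional of `D0` -/
theorem tt_one {t : S.A.D →ₗ[S.A.F] S.A.F} (ht : IsTr t) {tE : M.E →ₗ[M.F1] M.F1}
    (htE : tE 1 ≠ 0) : M.tt tE t 1 ≠ 0 := by
  change tE (MinI.ellE (F1 := M.F1) M.E t ((1 : M.E) ⊗ₜ[S.A.F] (1 : S.A.D))) ≠ 0
  rw [MinI.ellE_tmul, ← algebraMap_smul M.F1 (t 1) (1 : M.E), map_smul, smul_eq_mul]
  refine mul_ne_zero ?_ htE
  intro h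
  exact ht.2 ((map_eq_zero_iff _ (algebraMap S.A.F M.F1).injective).mp h)

/-- (4) elements of `U'` with residue `j l ⊗ a` -/
theorem III_T (hP : MoveClosed P) (h : S.Good1) (hl0 : Algebra.adjoin M.F1 ({l0} : Set M.L) = ⊤)
    (hz : Pt3 S.γ M k l0 u b ρ z) (st : Step P S.Λ S.γ M.toAdm z)
    {u' : S.A.D} (hu' : u' ∈ S.Λ) (hu'u : u' * u = 1)
    {t : S.A.D →ₗ[S.A.F] S.A.F} (ht : IsTr t) {tE : M.E →ₗ[M.F1] M.F1}
    (htE : (∀ x y, tE (x * y) = tE (y * x)) ∧ tE 1 ≠ 0) (a : S.A.D) (ha : a ∈ S.U) (l : M.L) :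
    ∃ T ∈ st.U, LD.IsInt T ∧ T.co 0 = (M.j l) ⊗ₜ[S.A.F] a := by
  obtain ⟨w, hw⟩ := ha
  have h0 := hz.dv_const_co0 w (M.j l)
  have hmem : (M.j l) ⊗ₜ[S.A.F] a ∈ LD.resSp (Subalgebra.toSubmodule st.Lam) := by
    rw [III_resLam h hl0 hz st hu' hu'u, M.psiL_eq S.Λ S.lam_comm]
    exact Submodule.subset_span ⟨l, a, h.lin_mem hP ⟨w, hw⟩, rfl⟩
  obtain ⟨T, hT, hTi, hT0⟩ := st.exists_int hz.gp (M.tt tE t) (isTr_mv M.toAdm ht htE).1
    (tt_one ht htE.2) (III_U_le hP h hl0 hz st hu' hu'u)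
    (fun j => PowerSeries.C (w j • M.j l)) (by rw [h0, hw]; exact hmem)
  exact ⟨T, hT, hTi, by rw [hT0, h0, hw]⟩

/-- quotients of elements of `U'` are in `Ψ'` -/
theorem Step.div_mem (st : Step P S.Λ S.γ M.toAdm z) (hU : st.U ≤ Subalgebra.toSubmodule st.Lam)
    {T1 T2 : LD M.D0} (h1 : T1 ∈ st.U) (h2 : T2 ∈ st.U) (hi1 : LD.IsInt T1) (hi2 : LD.IsInt T2)
    (h0 : T2.co 0 ≠ 0) : ∃ y ∈ st.Psi, LD.IsInt y ∧ y * T2 = T1 ∧ y.co 0 * T2.co 0 = T1.co 0 := by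
  obtain ⟨y, hy, hyi, hy1, hy2⟩ := LD.exists_div hi1 hi2 h0 st.Lam (hU h1) (hU h2)
  refine ⟨y, Algebra.subset_adjoin ⟨T2, h2, ?_, ?_⟩, hyi, hy1, hy2⟩
  · rintro rfl; exact h0 rfl
  · rw [hy1]; exact h1

theorem one_tmul_ne {a : S.A.D} (ha : a ≠ 0) : ((1 : M.E) ⊗ₜ[S.A.F] a) ≠ 0 := by
  intro h
  have hinj : Function.Injective M.jD :=
    Algebra.TensorProduct.includeRight_injective (algebraMap S.A.F M.E).injective
  exact ha (hinj (a₁ := a) (a₂ := 0) (by rw [map_zero]; exact h))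

theorem III_psi_res (hP : MoveClosed P) (h : S.Good1)
    (hl0 : Algebra.adjoin M.F1 ({l0} : Set M.L) = ⊤)
    (hz : Pt3 S.γ M k l0 u b ρ z) (st : Step P S.Λ S.γ M.toAdm z)
    {u' : S.A.D} (hu' : u' ∈ S.Λ) (hu'u : u' * u = 1)
    {t : S.A.D →ₗ[S.A.F] S.A.F} (ht : IsTr t) {tE : M.E →ₗ[M.F1] M.F1}
    (htE : (∀ x y, tE (x * y) = tE (y * x)) ∧ tE 1 ≠ 0) (a : S.A.D) (ha : a ∈ S.Psi) :
    ((1 : M.E) ⊗ₜ[S.A.F] a) ∈ LD.resSp (Subalgebra.toSubmodule st.Psi) := by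
  have hU := III_U_le hP h hl0 hz st hu' hu'u
  induction ha using Algebra.adjoin_induction with
  | mem x hx =>
    obtain ⟨c, hc, hc0, hxc⟩ := hx
    obtain ⟨T1, hT1, hi1, h1⟩ := III_T hP h hl0 hz st hu' hu'u ht htE (x * c) hxc 1
    obtain ⟨T2, hT2, hi2, h2⟩ := III_T hP h hl0 hz st hu' hu'u ht htE c hc 1
    rw [map_one] at h1 h2
    have h20 : T2.co 0 ≠ 0 := by rw [h2]; exact one_tmul_ne hc0
    obtain ⟨y, hy, hyi, -, hy0⟩ := st.div_mem hU hT1 hT2 hi1 hi2 h20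
    refine ⟨y, hy, hyi, ?_⟩
    rw [h1, h2] at hy0
    have h3 : ((1 : M.E) ⊗ₜ[S.A.F] (x * c)) = ((1 : M.E) ⊗ₜ[S.A.F] x) * ((1 : M.E) ⊗ₜ[S.A.F] c) := by
      rw [Algebra.TensorProduct.tmul_mul_tmul, one_mul]
    rw [h3] at hy0
    exact mul_right_cancel₀ (one_tmul_ne hc0) hy0
  | algebraMap c =>
    have h1 : ((1 : M.E) ⊗ₜ[S.A.F] (algebraMap S.A.F S.A.D c)) =
        (algebraMap S.A.F M.F1 c) • (1 : M.D0) := by
      rw [Algebra.algebraMap_eq_smul_one, TensorProduct.tmul_smul, algebraMap_smul]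
      rfl
    rw [h1]
    exact Submodule.smul_mem _ _ (MinI.res_one_mem _)
  | add x y _ _ hx hy =>
    rw [TensorProduct.tmul_add]
    exact Submodule.add_mem _ hx hy
  | mul x y _ _ hx hy =>
    have h1 : ((1 : M.E) ⊗ₜ[S.A.F] (x * y)) = ((1 : M.E) ⊗ₜ[S.A.F] x) * ((1 : M.E) ⊗ₜ[S.A.F] y) := by
      rw [Algebra.TensorProduct.tmul_mul_tmul, one_mul]
    rw [h1]
    exact MinI.res_mul_mem _ hx hy

/-- (5) the residues of `Ψ'` -/
theorem III_resPsi (hP : MoveClosed P) (h : S.Good2)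
    (hl0 : Algebra.adjoin M.F1 ({l0} : Set M.L) = ⊤)
    (hz : Pt3 S.γ M k l0 u b ρ z) (st : Step P S.Λ S.γ M.toAdm z) (hu : u ∈ S.U)
    {u' : S.A.D} (hu' : u' ∈ S.Λ) (hu'u : u' * u = 1)
    {t : S.A.D →ₗ[S.A.F] S.A.F} (ht : IsTr t) {tE : M.E →ₗ[M.F1] M.F1}
    (htE : (∀ x y, tE (x * y) = tE (y * x)) ∧ tE 1 ≠ 0) :
    LD.resSp (Subalgebra.toSubmodule st.Psi) = Subalgebra.toSubmodule (M.psiL S.Psi) := by
  have hUS : S.U ≤ Subalgebra.toSubmodule S.Λ := h.1.lin_mem hP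
  have hU := III_U_le hP h.1 hl0 hz st hu' hu'u
  have hg1 := III_good1 h.1 hl0 hz st hu' hu'u
  have hle := h.finrank_le hUS M.finrank_E hz.gp st hg1 hU
  have hc : ∀ a ∈ S.Psi, ∀ b ∈ S.Psi, a * b = b * a := fun a ha b hb =>
    S.lam_comm a (S.psi_le hUS ha) b (S.psi_le hUS hb)
  rw [← M.W_eq l0 hl0 S.Psi hc]
  refine MinI.res_eq_W (M.j l0) S.Psi st.Psi
    (fun a ha => III_psi_res hP h.1 hl0 hz st hu' hu'u ht htE a ha) ?_ ?_
  · have hu0 : u ≠ 0 := by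
      rintro rfl
      rw [mul_zero] at hu'u
      exact zero_ne_one hu'u
    obtain ⟨T1, hT1, hi1, h1⟩ := III_T hP h.1 hl0 hz st hu' hu'u ht htE u hu l0
    obtain ⟨T2, hT2, hi2, h2⟩ := III_T hP h.1 hl0 hz st hu' hu'u ht htE u hu 1
    rw [map_one] at h2
    have h20 : T2.co 0 ≠ 0 := by rw [h2]; exact one_tmul_ne hu0
    obtain ⟨y, hy, hyi, -, hy0⟩ := st.div_mem hU hT1 hT2 hi1 hi2 h20
    refine ⟨y, hy, hyi, ?_⟩
    rw [h1, h2] at hy0
    have h3 : (M.j l0 ⊗ₜ[S.A.F] u) = (M.j l0 ⊗ₜ[S.A.F] (1 : S.A.D)) * ((1 : M.E) ⊗ₜ[S.A.F] u) := by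
      rw [Algebra.TensorProduct.tmul_mul_tmul, one_mul, mul_one]
    rw [h3] at hy0
    exact mul_right_cancel₀ (one_tmul_ne hu0) hy0
  · rw [M.finrank_adjoin_j l0 hl0]
    exact hle

theorem III_good2 (hP : MoveClosed P) (h : S.Good2)
    (hl0 : Algebra.adjoin M.F1 ({l0} : Set M.L) = ⊤)
    (hz : Pt3 S.γ M k l0 u b ρ z) (st : Step P S.Λ S.γ M.toAdm z) (hu : u ∈ S.U)
    {u' : S.A.D} (hu' : u' ∈ S.Λ) (hu'u : u' * u = 1)
    {t : S.A.D →ₗ[S.A.F] S.A.F} (ht : IsTr t) {tE : M.E →ₗ[M.F1] M.F1}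
    (htE : (∀ x y, tE (x * y) = tE (y * x)) ∧ tE 1 ≠ 0) : (st.toSt hz.gp).Good2 := by
  have hUS : S.U ≤ Subalgebra.toSubmodule S.Λ := h.1.lin_mem hP
  have hc : ∀ a ∈ S.Psi, ∀ b ∈ S.Psi, a * b = b * a := fun a ha b hb =>
    S.lam_comm a (S.psi_le hUS ha) b (S.psi_le hUS hb)
  refine h.of_finrank hUS M.finrank_E hz.gp st (III_good1 h.1 hl0 hz st hu' hu'u)
    (III_U_le hP h.1 hl0 hz st hu' hu'u) ?_
  have h1 := LD.finrank_resSp (Subalgebra.toSubmodule st.Psi)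
  rw [III_resPsi hP h hl0 hz st hu hu' hu'u ht htE] at h1
  have h2 := M.finrank_psiL S.Psi hc
  have h3 : Module.finrank (LF M.F1) st.Psi = N * Module.finrank S.A.F S.Psi := by
    rw [← h2]; exact h1.symm
  exact h3.ge

/-! ### the annihilator `𝓗'` -/

theorem psi_le_lam (hP : MoveClosed P) (h : S.Good1)
    (hl0 : Algebra.adjoin M.F1 ({l0} : Set M.L) = ⊤)
    (hz : Pt3 S.γ M k l0 u b ρ z) (st : Step P S.Λ S.γ M.toAdm z)
    {u' : S.A.D} (hu' : u' ∈ S.Λ) (hu'u : u' * u = 1) : st.Psi ≤ st.Lam :=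
  (st.toSt hz.gp).psi_le (III_U_le hP h hl0 hz st hu' hu'u)

/-- `𝓗' ⊆ Λ'`, and the residues of `𝓗'` are in `(Ψ ⊗ L) u⁻¹` -/
theorem III_H_mem (hP : MoveClosed P) (h : S.Good2)
    (hl0 : Algebra.adjoin M.F1 ({l0} : Set M.L) = ⊤)
    (hz : Pt3 S.γ M k l0 u b ρ z) (st : Step P S.Λ S.γ M.toAdm z) (hu : u ∈ S.U)
    {u' : S.A.D} (hu' : u' ∈ S.Λ) (hu'u : u' * u = 1)
    {t : S.A.D →ₗ[S.A.F] S.A.F} (ht : IsTr t) {tE : M.E →ₗ[M.F1] M.F1}
    (htE : (∀ x y, tE (x * y) = tE (y * x)) ∧ tE 1 ≠ 0) {x : LD M.D0} (hx : x ∈ st.H t tE) :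
    x ∈ st.Lam ∧ (LD.IsInt x →
      x.co 0 * ((1 : M.E) ⊗ₜ[S.A.F] u) ∈ M.psiL S.Psi) := by
  have hu0 : u ≠ 0 := by
    rintro rfl
    rw [mul_zero] at hu'u
    exact zero_ne_one hu'u
  have hU := III_U_le hP h.1 hl0 hz st hu' hu'u
  obtain ⟨T, hT, hi, h0⟩ := III_T hP h.1 hl0 hz st hu' hu'u ht htE u hu 1
  rw [map_one] at h0
  have h00 : T.co 0 ≠ 0 := by rw [h0]; exact one_tmul_ne hu0
  have hxT := (hx T hT).1
  constructor
  · obtain ⟨T', hT', -, h1, -⟩ := hi.exists_inv h00 st.Lam (hU hT)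
    have h2 : x = (x * T) * T' := by rw [mul_assoc, h1, mul_one]
    rw [h2]
    exact st.Lam.mul_mem (psi_le_lam hP h.1 hl0 hz st hu' hu'u hxT) hT'
  · intro hxi
    have h3 : x.co 0 * ((1 : M.E) ⊗ₜ[S.A.F] u) ∈ LD.resSp (Subalgebra.toSubmodule st.Psi) :=
      ⟨x * T, hxT, hxi.mul hi, by rw [hxi.co_mul_zero hi, h0]⟩
    rw [III_resPsi hP h hl0 hz st hu hu' hu'u ht htE] at h3
    exact h3

theorem tE_nondeg {tE : M.E →ₗ[M.F1] M.F1} (h1 : tE 1 ≠ 0) {e : M.E}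
    (h : ∀ ξ : M.E, tE (e * ξ) = 0) : e = 0 := by
  by_contra he
  obtain ⟨e', -, he', -⟩ := exists_inv_sub (F := M.F1) (B := M.E) ⊤ (x := e) trivial he
  apply h1
  rw [← he']
  exact h e'

theorem ellE_mul_right (ℓ : S.A.D →ₗ[S.A.F] S.A.F) (x : M.D0) (e : M.E) :
    MinI.ellE (F1 := M.F1) M.E ℓ (x * (e ⊗ₜ[S.A.F] (1 : S.A.D))) =
      MinI.ellE (F1 := M.F1) M.E ℓ x * e := by
  have h := MinI.ellE_mul (F1 := M.F1) ℓ (1 : M.E) e x
  rw [one_mul] at h
  rw [← h]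
  congr 1
  rw [← Algebra.TensorProduct.one_def, one_mul]

theorem ellE_mul_left (ℓ : S.A.D →ₗ[S.A.F] S.A.F) (x : M.D0) (e : M.E) :
    MinI.ellE (F1 := M.F1) M.E ℓ ((e ⊗ₜ[S.A.F] (1 : S.A.D)) * x) =
      e * MinI.ellE (F1 := M.F1) M.E ℓ x := by
  have h := MinI.ellE_mul (F1 := M.F1) ℓ e (1 : M.E) x
  rw [mul_one] at h
  rw [← h]
  congr 1
  rw [← Algebra.TensorProduct.one_def, mul_one]

theorem ellE_zero (x : M.D0) : MinI.ellE (F1 := M.F1) M.E (0 : S.A.D →ₗ[S.A.F] S.A.F) x = 0 := by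
  induction x using TensorProduct.induction_on with
  | zero => simp
  | tmul e d => rw [MinI.ellE_tmul, LinearMap.zero_apply, zero_smul]
  | add x y hx hy => rw [map_add, hx, hy, add_zero]

theorem ellE_add (ℓ ℓ' : S.A.D →ₗ[S.A.F] S.A.F) (x : M.D0) :
    MinI.ellE (F1 := M.F1) M.E (ℓ + ℓ') x =
      MinI.ellE (F1 := M.F1) M.E ℓ x + MinI.ellE (F1 := M.F1) M.E ℓ' x := by
  induction x using TensorProduct.induction_on with
  | zero => simp
  | tmul e d => rw [MinI.ellE_tmul, MinI.ellE_tmul, MinI.ellE_tmul, LinearMap.add_apply, add_smul]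
  | add x y hx hy => rw [map_add, map_add, map_add, hx, hy]; abel

theorem ellE_smul (c : S.A.F) (ℓ : S.A.D →ₗ[S.A.F] S.A.F) (x : M.D0) :
    MinI.ellE (F1 := M.F1) M.E (c • ℓ) x = c • MinI.ellE (F1 := M.F1) M.E ℓ x := by
  induction x using TensorProduct.induction_on with
  | zero => simp
  | tmul e d =>
    rw [MinI.ellE_tmul, MinI.ellE_tmul, LinearMap.smul_apply, smul_eq_mul, mul_smul]
  | add x y hx hy => rw [map_add, map_add, hx, hy, smul_add]

theorem ellE_comp (ℓ : S.A.D →ₗ[S.A.F] S.A.F) (c : S.A.D) (x : M.D0) :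
    MinI.ellE (F1 := M.F1) M.E (ℓ ∘ₗ LinearMap.mulRight S.A.F c) x =
      MinI.ellE (F1 := M.F1) M.E ℓ (x * ((1 : M.E) ⊗ₜ[S.A.F] c)) := by
  induction x using TensorProduct.induction_on with
  | zero => simp
  | tmul e d =>
    rw [MinI.ellE_tmul, Algebra.TensorProduct.tmul_mul_tmul, mul_one, MinI.ellE_tmul]
    rfl
  | add x y hx hy => rw [map_add, add_mul, map_add, hx, hy]

/-- residues of `𝓗'` (and the next two coefficients) are orthogonal to `E ⊗ U` -/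
theorem III_H_orth (hP : MoveClosed P) (h : S.Good2)
    (hl0 : Algebra.adjoin M.F1 ({l0} : Set M.L) = ⊤)
    (hz : Pt3 S.γ M k l0 u b ρ z) (st : Step P S.Λ S.γ M.toAdm z) (hu : u ∈ S.U)
    {u' : S.A.D} (hu' : u' ∈ S.Λ) (hu'u : u' * u = 1)
    {t : S.A.D →ₗ[S.A.F] S.A.F} (ht : IsTr t) {tE : M.E →ₗ[M.F1] M.F1}
    (htE : (∀ x y, tE (x * y) = tE (y * x)) ∧ tE 1 ≠ 0) {x : LD M.D0} (hx : x ∈ st.H t tE)
    (hxi : LD.IsInt x) (n : ℤ) (hn : n < 3) (a : S.A.D) (ha : a ∈ S.U) :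
    MinI.ellE (F1 := M.F1) M.E t (x.co n * ((1 : M.E) ⊗ₜ[S.A.F] a)) = 0 := by
  apply tE_nondeg htE.2
  intro ξ
  obtain ⟨w, rfl⟩ := ha
  obtain ⟨y, hy⟩ := hz.dv_const w ξ
  have h1 := st.H_pair hz.gp (isTr_mv M.toAdm ht htE).1 hx
    (III_H_mem hP h hl0 hz st hu hu' hu'u ht htE hx).1 (fun j => PowerSeries.C (w j • ξ))
  have h2 := congrArg (fun f : LF M.F1 => f.co n) h1
  simp only [LD.co_mapL] at h2
  rw [hy, map_add, LD.ofPS_C, mul_add, LD.co_add, LD.mul_C_co] at h2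
  have h3 : (x * LD.ofPS (PowerSeries.X ^ 3 * y) : LD M.D0).co n = 0 := by
    have := LD.OrdGe.mul (a := 0) (b := 3) hxi (LD.ofPS_ordGe 3 y)
    exact this n (by omega)
  rw [h3, add_zero] at h2
  have h4 : x.co n * (ξ ⊗ₜ[S.A.F] (lin S.γ w)) =
      (x.co n * ((1 : M.E) ⊗ₜ[S.A.F] (lin S.γ w))) * (ξ ⊗ₜ[S.A.F] (1 : S.A.D)) := by
    rw [mul_assoc, Algebra.TensorProduct.tmul_mul_tmul, one_mul, mul_one]
  rw [h4] at h2
  change tE (MinI.ellE (F1 := M.F1) M.E t _) = 0 at h2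
  rwa [ellE_mul_right] at h2

/-- (8) -/
theorem III_rho (hP : MoveClosed P) (h : S.Good2)
    (hl0 : Algebra.adjoin M.F1 ({l0} : Set M.L) = ⊤) (hk : 2 ≤ k)
    (hz : Pt3 S.γ M k l0 u b ρ z) (st : Step P S.Λ S.γ M.toAdm z) (hu : u ∈ S.U)
    {u' : S.A.D} (hu' : u' ∈ S.Λ) (hu'u : u' * u = 1)
    {t : S.A.D →ₗ[S.A.F] S.A.F} (ht : IsTr t) {tE : M.E →ₗ[M.F1] M.F1}
    (htE : (∀ x y, tE (x * y) = tE (y * x)) ∧ tE 1 ≠ 0) {x : LD M.D0} (hx : x ∈ st.H t tE)
    (hxi : LD.IsInt x) : M.tt tE t (x.co 0 * ρ) = 0 := by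
  obtain ⟨v, y, hy⟩ := hz.eu
  have h1 := st.H_pair hz.gp (isTr_mv M.toAdm ht htE).1 hx
    (III_H_mem hP h hl0 hz st hu hu' hu'u ht htE hx).1 v
  have h2 := congrArg (fun f : LF M.F1 => f.co ((3 * k : ℕ) : ℤ)) h1
  simp only [LD.co_mapL] at h2
  rw [hy, LD.ofPS_X_pow_mul, ← mul_assoc, ← LD.tp_commute, mul_assoc, LD.co_tp_mul, sub_self,
    hxi.co_mul_zero (LD.isInt_ofPS _), LD.ofPS_co_zero] at h2
  simp only [map_add, PowerSeries.coeff_zero_eq_constantCoeff_apply, PowerSeries.constantCoeff_C,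
    map_mul, PowerSeries.constantCoeff_X, zero_mul, add_zero] at h2
  rw [mul_smul_comm, map_nsmul] at h2
  have h3 : M.tt tE t (x.co 0 * ρ) = 0 ∨ k = 0 := by
    rcases smul_eq_zero.mp (show k • M.tt tE t (x.co 0 * ρ) = 0 from h2) with h | h
    · exact Or.inr h
    · exact Or.inl h
  rcases h3 with h3 | h3
  · exact h3
  · omega


/-- the first-order commutator equation -/
theorem III_comm_eq (hP : MoveClosed P) (h : S.Good2)
    (hl0 : Algebra.adjoin M.F1 ({l0} : Set M.L) = ⊤)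
    (hz : Pt3 S.γ M k l0 u b ρ z) (st : Step P S.Λ S.γ M.toAdm z) (hu : u ∈ S.U)
    {u' : S.A.D} (hu' : u' ∈ S.Λ) (hu'u : u' * u = 1)
    {t : S.A.D →ₗ[S.A.F] S.A.F} (ht : IsTr t) {tE : M.E →ₗ[M.F1] M.F1}
    (htE : (∀ x y, tE (x * y) = tE (y * x)) ∧ tE 1 ≠ 0) {x : LD M.D0} (hx : x ∈ st.H t tE)
    (hxi : LD.IsInt x) :
    x.co 0 * (∑ i : Fin r, (M.u ^ (i.val + 1)) ⊗ₜ[S.A.F] b i) + x.co 1 * (M.j l0 ⊗ₜ[S.A.F] u) =
      (M.j l0 ⊗ₜ[S.A.F] u) * x.co 1 +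
        (∑ i : Fin r, (M.u ^ (i.val + 1)) ⊗ₜ[S.A.F] b i) * x.co 0 := by
  have hxΛ := (III_H_mem hP h hl0 hz st hu hu' hu'u ht htE hx).1
  obtain ⟨y, hy⟩ := hz.c0
  set g : PowerSeries M.D0 := PowerSeries.C (M.j l0 ⊗ₜ[S.A.F] u) +
    PowerSeries.X * PowerSeries.C (∑ i : Fin r, (M.u ^ (i.val + 1)) ⊗ₜ[S.A.F] b i) +
    PowerSeries.X ^ 2 * PowerSeries.C ρ + PowerSeries.X ^ 3 * y with hg
  have hgΛ : (LD.ofPS g : LD M.D0) ∈ st.Lam := by
    have h1 : (LD.ofPS g : LD M.D0) =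
        LD.tp (-((3 * k - 2 : ℕ) : ℤ)) * LD.ofPS (M.ev z S.γ) := by
      rw [hy, LD.ofPS_X_pow_mul, ← mul_assoc, LD.tp_mul_tp, neg_add_cancel, LD.tp_zero, one_mul]
    rw [h1]
    exact LD.tp_mul_mem st.Lam st.c0_mem _
  have hcomm := st.lam_comm x hxΛ _ hgΛ
  have hco0 : (LD.ofPS g : LD M.D0).co 0 = M.j l0 ⊗ₜ[S.A.F] u := by
    rw [LD.ofPS_co_zero, hg]
    simp only [map_add, PowerSeries.coeff_zero_eq_constantCoeff_apply, PowerSeries.constantCoeff_C,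
      map_mul, PowerSeries.constantCoeff_X, map_pow]
    simp
  have hco1 : (LD.ofPS g : LD M.D0).co 1 =
      ∑ i : Fin r, (M.u ^ (i.val + 1)) ⊗ₜ[S.A.F] b i := by
    have h1 := LD.co_ofPS g 1
    rw [Nat.cast_one] at h1
    rw [h1, hg]
    have e1 : PowerSeries.coeff 1 (PowerSeries.C (R := M.D0) (M.j l0 ⊗ₜ[S.A.F] u)) = 0 := by
      rw [PowerSeries.coeff_C, if_neg one_ne_zero]
    have e2 : ∀ B : M.D0, PowerSeries.coeff 1 (PowerSeries.X * PowerSeries.C B) = B := by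
      intro B
      rw [PowerSeries.coeff_mul_C]
      simp
    have e3 : ∀ f : PowerSeries M.D0, PowerSeries.coeff 1 (PowerSeries.X ^ 2 * f) = 0 := by
      intro f
      rw [PowerSeries.coeff_X_pow_mul', if_neg (by norm_num)]
    have e4 : ∀ f : PowerSeries M.D0, PowerSeries.coeff 1 (PowerSeries.X ^ 3 * f) = 0 := by
      intro f
      rw [PowerSeries.coeff_X_pow_mul', if_neg (by norm_num)]
    rw [map_add, map_add, map_add, e1, e2, e3, e4, zero_add, add_zero, add_zero]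
  have h2 : (x * LD.ofPS g : LD M.D0).co 1 = (LD.ofPS g * x : LD M.D0).co 1 := by rw [hcomm]
  rw [hxi.co_mul_one (LD.isInt_ofPS _), (LD.isInt_ofPS _).co_mul_one hxi, hco0, hco1] at h2
  exact h2

/-- coefficientwise commutation with constants in `Λ` -/
theorem III_co_comm (st : Step P S.Λ S.γ M.toAdm z) {x : LD M.D0} (hx : x ∈ st.Lam) {a : S.A.D}
    (ha : a ∈ S.Λ) (n : ℤ) :
    ((1 : M.E) ⊗ₜ[S.A.F] a) * x.co n = x.co n * ((1 : M.E) ⊗ₜ[S.A.F] a) := by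
  have h := st.lam_comm _ (st.inc_mem ha) x hx
  have h1 : (LD.C (M.jD a) * x : LD M.D0).co n = (x * LD.C (M.jD a) : LD M.D0).co n := by rw [h]
  rw [LD.C_mul_co, LD.mul_C_co] at h1
  exact h1

/-- key computation: `(id ⊗ t) (x₀ (b_i u' a)) ∈ F1` -/
theorem III_fix (hP : MoveClosed P) (h : S.Good2)
    (hl0 : Algebra.adjoin M.F1 ({l0} : Set M.L) = ⊤)
    (hz : Pt3 S.γ M k l0 u b ρ z) (st : Step P S.Λ S.γ M.toAdm z) (hu : u ∈ S.U)
    {u' : S.A.D} (hu' : u' ∈ S.Λ) (hu'u : u' * u = 1) (hrN : r < N) (hb : ∀ i, b i ∈ S.U)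
    {t : S.A.D →ₗ[S.A.F] S.A.F} (ht : IsTr t) {tE : M.E →ₗ[M.F1] M.F1}
    (htE : (∀ x y, tE (x * y) = tE (y * x)) ∧ tE 1 ≠ 0) {x : LD M.D0} (hx : x ∈ st.H t tE)
    (hxi : LD.IsInt x) (a : S.A.D) (ha : a ∈ S.U)
    (hL : ∀ ℓ : S.A.D →ₗ[S.A.F] S.A.F, ∃ α : M.L,
      MinI.ellE (F1 := M.F1) M.E ℓ (x.co 0) = M.j α) (i : Fin r) :
    ∃ c : M.F1, MinI.ellE (F1 := M.F1) M.E t (x.co 0 * ((1 : M.E) ⊗ₜ[S.A.F] (b i * (u' * a)))) =
      algebraMap M.F1 M.E c := by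
  have hUS : S.U ≤ Subalgebra.toSubmodule S.Λ := h.1.lin_mem hP
  have hxΛ := (III_H_mem hP h hl0 hz st hu hu' hu'u ht htE hx).1
  have haΛ : a ∈ S.Λ := hUS ha
  have huΛ : u ∈ S.Λ := hUS hu
  have huu' : u * u' = 1 := by rw [S.lam_comm u huΛ u' hu', hu'u]
  choose α hα using fun i : Fin r => hL (t ∘ₗ LinearMap.mulRight S.A.F (b i * (u' * a)))
  have hα' : ∀ i, MinI.ellE (F1 := M.F1) M.E t
      (x.co 0 * ((1 : M.E) ⊗ₜ[S.A.F] (b i * (u' * a)))) = M.j (α i) := by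
    intro i
    rw [← hα i, ellE_comp]
  have heq := III_comm_eq hP h hl0 hz st hu hu' hu'u ht htE hx hxi
  have horth : ∀ a ∈ S.U, MinI.ellE (F1 := M.F1) M.E t (x.co 1 * ((1 : M.E) ⊗ₜ[S.A.F] a)) = 0 :=
    fun a ha => III_H_orth hP h hl0 hz st hu hu' hu'u ht htE hx hxi 1 (by norm_num) a ha
  -- multiply by `1 ⊗ u' a` on the right and contract
  have h1 := congrArg (fun y : M.D0 => MinI.ellE (F1 := M.F1) M.E t
    (y * ((1 : M.E) ⊗ₜ[S.A.F] (u' * a)))) heq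
  simp only [add_mul, map_add] at h1
  -- the two terms with `x.co 1` vanish
  have e1 : MinI.ellE (F1 := M.F1) M.E t
      (x.co 1 * (M.j l0 ⊗ₜ[S.A.F] u) * ((1 : M.E) ⊗ₜ[S.A.F] (u' * a))) = 0 := by
    have : x.co 1 * (M.j l0 ⊗ₜ[S.A.F] u) * ((1 : M.E) ⊗ₜ[S.A.F] (u' * a)) =
        x.co 1 * ((1 : M.E) ⊗ₜ[S.A.F] a) * (M.j l0 ⊗ₜ[S.A.F] (1 : S.A.D)) := by
      rw [mul_assoc, mul_assoc, Algebra.TensorProduct.tmul_mul_tmul,
        Algebra.TensorProduct.tmul_mul_tmul, one_mul, mul_one, mul_one, ← mul_assoc, huu', one_mul]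
    rw [this, ellE_mul_right, horth a ha, zero_mul]
  have e2 : MinI.ellE (F1 := M.F1) M.E t
      ((M.j l0 ⊗ₜ[S.A.F] u) * x.co 1 * ((1 : M.E) ⊗ₜ[S.A.F] (u' * a))) = 0 := by
    have h3 : (M.j l0 ⊗ₜ[S.A.F] u) = (M.j l0 ⊗ₜ[S.A.F] (1 : S.A.D)) * ((1 : M.E) ⊗ₜ[S.A.F] u) := by
      rw [Algebra.TensorProduct.tmul_mul_tmul, one_mul, mul_one]
    rw [h3, mul_assoc (M.j l0 ⊗ₜ[S.A.F] (1 : S.A.D)), III_co_comm st hxΛ huΛ, mul_assoc, mul_assoc,
      Algebra.TensorProduct.tmul_mul_tmul, mul_one, ← mul_assoc u, huu', one_mul, ellE_mul_left,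
      horth a ha, mul_zero]
  rw [e1, e2, add_zero, zero_add] at h1
  -- expand the sums
  have e3 : MinI.ellE (F1 := M.F1) M.E t
      (x.co 0 * (∑ i : Fin r, (M.u ^ (i.val + 1)) ⊗ₜ[S.A.F] b i) *
        ((1 : M.E) ⊗ₜ[S.A.F] (u' * a))) = ∑ i, M.j (α i) * M.u ^ (i.val + 1) := by
    rw [Finset.mul_sum, Finset.sum_mul, map_sum]
    refine Finset.sum_congr rfl fun i _ => ?_
    rw [← hα' i, ← ellE_mul_right, mul_assoc, mul_assoc, Algebra.TensorProduct.tmul_mul_tmul,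
      Algebra.TensorProduct.tmul_mul_tmul, one_mul, mul_one, mul_one]
  have e4 : MinI.ellE (F1 := M.F1) M.E t
      ((∑ i : Fin r, (M.u ^ (i.val + 1)) ⊗ₜ[S.A.F] b i) * x.co 0 *
        ((1 : M.E) ⊗ₜ[S.A.F] (u' * a))) = ∑ i, M.u ^ (i.val + 1) * M.j (α i) := by
    rw [Finset.sum_mul, Finset.sum_mul, map_sum]
    refine Finset.sum_congr rfl fun i _ => ?_
    have h3 : (M.u ^ (i.val + 1)) ⊗ₜ[S.A.F] b i =
        ((M.u ^ (i.val + 1)) ⊗ₜ[S.A.F] (1 : S.A.D)) * ((1 : M.E) ⊗ₜ[S.A.F] b i) := by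
      rw [Algebra.TensorProduct.tmul_mul_tmul, one_mul, mul_one]
    rw [h3, mul_assoc ((M.u ^ (i.val + 1)) ⊗ₜ[S.A.F] (1 : S.A.D)),
      III_co_comm st hxΛ (hUS (hb i)),
      mul_assoc, mul_assoc, Algebra.TensorProduct.tmul_mul_tmul, mul_one, ellE_mul_left, hα' i]
  rw [e3, e4] at h1
  obtain ⟨c, hc⟩ := M.fix_of_comm hrN α h1 i
  exact ⟨c, by rw [hα' i, ← hc, AlgHom.commutes]⟩

/-- membership by functionals -/
theorem mem_of_dual {F V : Type} [Field F] [AddCommGroup V] [Module F V] [FiniteDimensional F V]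
    (𝒮 : Submodule F (Module.Dual F V)) (W : Submodule F V)
    (h : ∀ x : V, (∀ ℓ ∈ 𝒮, ℓ x = 0) → x ∈ W) (ℓ : Module.Dual F V) (hℓ : ∀ w ∈ W, ℓ w = 0) :
    ℓ ∈ 𝒮 := by
  have h1 : 𝒮.dualCoannihilator ≤ W := fun x hx => h x fun ℓ hℓ => by
    rw [Submodule.mem_dualCoannihilator] at hx
    exact hx ℓ hℓ
  rw [← Subspace.dualCoannihilator_dualAnnihilator_eq (W := 𝒮), Submodule.mem_dualAnnihilator]
  exact fun w hw => hℓ w (h1 hw)

/-- (7) -/
theorem III_resH (hP : MoveClosed P) (h : S.Good2)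
    (hl0 : Algebra.adjoin M.F1 ({l0} : Set M.L) = ⊤)
    (hz : Pt3 S.γ M k l0 u b ρ z) (st : Step P S.Λ S.γ M.toAdm z) (hu : u ∈ S.U)
    {u' : S.A.D} (hu' : u' ∈ S.Λ) (hu'u : u' * u = 1) (hrN : r < N)
    (hb : Submodule.span S.A.F (Set.range b) = S.U)
    {t : S.A.D →ₗ[S.A.F] S.A.F} (ht : IsTr t) {tE : M.E →ₗ[M.F1] M.F1}
    (htE : (∀ x y, tE (x * y) = tE (y * x)) ∧ tE 1 ≠ 0) {x : LD M.D0} (hx : x ∈ st.H t tE)
    (hxi : LD.IsInt x) :
    x.co 0 ∈ Submodule.span M.F1 {y : M.D0 | ∃ (a : M.L) (h : S.A.D), h ∈ HH2 t S.U u' ∧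
        y = M.j a ⊗ₜ[S.A.F] h} ⊔
      Submodule.span M.F1 {y : M.D0 | ∃ h ∈ HH t S.U, y = (1 : M.E) ⊗ₜ[S.A.F] h} := by
  have hUS : S.U ≤ Subalgebra.toSubmodule S.Λ := h.1.lin_mem hP
  have huΛ : u ∈ S.Λ := hUS hu
  have huu' : u * u' = 1 := by rw [S.lam_comm u huΛ u' hu', hu'u]
  have hPΛ := S.psi_le hUS
  have hc : ∀ a ∈ S.Psi, ∀ b ∈ S.Psi, a * b = b * a := fun a ha b hb =>
    S.lam_comm a (hPΛ ha) b (hPΛ hb)
  have hbU : ∀ i, b i ∈ S.U := fun i => by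
    rw [← hb]; exact Submodule.subset_span ⟨i, rfl⟩
  -- x₀ = y₀ (1 ⊗ u'), y₀ ∈ Ψ ⊗ L
  have hmem := (III_H_mem hP h hl0 hz st hu hu' hu'u ht htE hx).2 hxi
  obtain ⟨y0, hy0⟩ : ∃ y0 : M.D0, y0 = x.co 0 * ((1 : M.E) ⊗ₜ[S.A.F] u) := ⟨_, rfl⟩
  rw [← hy0] at hmem
  have hx0 : x.co 0 = y0 * ((1 : M.E) ⊗ₜ[S.A.F] u') := by
    rw [hy0, mul_assoc, Algebra.TensorProduct.tmul_mul_tmul, one_mul, huu',
      ← Algebra.TensorProduct.one_def, mul_one]
  have hy0' : y0 ∈ Submodule.span M.F1 {y : M.D0 | ∃ (a : M.L) (h : S.A.D), h ∈ S.Psi ∧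
      y = M.j a ⊗ₜ[S.A.F] h} := by
    rw [← M.psiL_eq S.Psi hc]; exact hmem
  have hL : ∀ ℓ : S.A.D →ₗ[S.A.F] S.A.F, ∃ α : M.L,
      MinI.ellE (F1 := M.F1) M.E ℓ (x.co 0) = M.j α := by
    intro ℓ
    rw [hx0, ← ellE_comp]
    clear hmem hy0 hx0
    induction hy0' using Submodule.span_induction with
    | mem y hy =>
      obtain ⟨a, g, hg, rfl⟩ := hy
      refine ⟨(algebraMap S.A.F M.F1 ((ℓ ∘ₗ LinearMap.mulRight S.A.F u') g)) • a, ?_⟩
      rw [MinI.ellE_tmul, map_smul, algebraMap_smul]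
    | zero => exact ⟨0, by rw [map_zero, map_zero]⟩
    | add y y' _ _ h1 h2 =>
      obtain ⟨a, ha⟩ := h1
      obtain ⟨a', ha'⟩ := h2
      exact ⟨a + a', by rw [map_add, map_add, ha, ha']⟩
    | smul c y _ h1 =>
      obtain ⟨a, ha⟩ := h1
      exact ⟨c • a, by rw [map_smul, map_smul, ha]⟩
  have hkill : ∀ ℓ : S.A.D →ₗ[S.A.F] S.A.F, (∀ ψ ∈ S.Psi, ℓ (ψ * u') = 0) →
      MinI.ellE (F1 := M.F1) M.E ℓ (x.co 0) = 0 := by
    intro ℓ hℓ
    rw [hx0, ← ellE_comp]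
    clear hmem hy0 hx0 hL
    induction hy0' using Submodule.span_induction with
    | mem y hy =>
      obtain ⟨a, g, hg, rfl⟩ := hy
      rw [MinI.ellE_tmul]
      change ℓ (g * u') • _ = _
      rw [hℓ g hg, zero_smul]
    | zero => rw [map_zero]
    | add y y' _ _ h1 h2 => rw [map_add, h1, h2, add_zero]
    | smul c y _ h1 => rw [map_smul, h1, smul_zero]
  -- membership in `Ψ u'` by functionals
  have hPsiu : ∀ v : S.A.D, (∀ ℓ : S.A.D →ₗ[S.A.F] S.A.F, (∀ ψ ∈ S.Psi, ℓ (ψ * u') = 0) → ℓ v = 0) →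
      ∃ ψ ∈ S.Psi, v = ψ * u' := by
    intro v hv
    let V : Submodule S.A.F S.A.D := (Subalgebra.toSubmodule S.Psi).map (LinearMap.mulRight S.A.F u')
    by_contra hcon
    have hvV : v ∉ V := by
      rintro ⟨ψ, hψ, hψv⟩
      exact hcon ⟨ψ, hψ, hψv.symm⟩
    obtain ⟨ℓ, hℓ1, hℓ2⟩ := Submodule.exists_le_ker_of_notMem hvV
    exact hℓ1 (hv ℓ fun ψ hψ => hℓ2 ⟨ψ, hψ, rfl⟩)
  have hPsi_a : ∀ v : S.A.D, (∃ ψ ∈ S.Psi, v = ψ * u') → ∀ a ∈ S.U, v * a ∈ S.Psi := by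
    rintro v ⟨ψ, hψ, rfl⟩ a ha
    have hu0 : u ≠ 0 := by
      rintro rfl
      rw [mul_zero] at hu'u
      exact zero_ne_one hu'u
    obtain ⟨φ, hφ, hφa⟩ := S.mem_U_mul hUS hu hu0 ha
    rw [hφa, mul_assoc, ← mul_assoc u', hu'u, one_mul]
    exact S.Psi.mul_mem hψ hφ
  -- the two spaces of functionals
  let 𝒮0 : Submodule S.A.F (Module.Dual S.A.F S.A.D) :=
    { carrier := {ℓ | MinI.ellE (F1 := M.F1) M.E ℓ (x.co 0) = 0}
      add_mem' := fun {a b} ha hb => by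
        change MinI.ellE (F1 := M.F1) M.E (a + b) (x.co 0) = 0
        rw [ellE_add]
        exact (congrArg₂ (· + ·) ha hb).trans (add_zero 0)
      zero_mem' := by
        change MinI.ellE (F1 := M.F1) M.E 0 (x.co 0) = 0
        rw [ellE_zero]
      smul_mem' := fun c a ha => by
        change MinI.ellE (F1 := M.F1) M.E (c • a) (x.co 0) = 0
        rw [ellE_smul]
        exact (congrArg (c • ·) ha).trans (smul_zero c) }
  let 𝒮1 : Submodule S.A.F (Module.Dual S.A.F S.A.D) :=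
    { carrier := {ℓ | ∃ c : M.F1, MinI.ellE (F1 := M.F1) M.E ℓ (x.co 0) = algebraMap M.F1 M.E c}
      add_mem' := fun {a b} ⟨c, hc⟩ ⟨c', hc'⟩ => ⟨c + c', by rw [ellE_add, hc, hc', map_add]⟩
      zero_mem' := ⟨0, by rw [ellE_zero, map_zero]⟩
      smul_mem' := fun c a ⟨c', hc'⟩ => ⟨algebraMap S.A.F M.F1 c * c', by
        rw [ellE_smul, hc', map_mul, ← IsScalarTower.algebraMap_apply, Algebra.smul_def]⟩ }
  refine M.span_two (HH t S.U) (HH2 t S.U u') ?_ (x.co 0) hL ?_ ?_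
  · intro v hv a ha
    refine ⟨hv.1 a ha, ?_⟩
    have := hv.2 a ha u hu
    rwa [mul_assoc (v * a), huu', mul_one] at this
  · intro ℓ hℓ
    refine mem_of_dual 𝒮0 (HH t S.U) (fun v hv => ?_) ℓ hℓ
    have hv1 := hPsiu v fun ℓ hℓ => hv ℓ (hkill ℓ hℓ)
    intro a ha
    refine ⟨hPsi_a v hv1 a ha, ?_⟩
    refine hv (t ∘ₗ LinearMap.mulRight S.A.F a) ?_
    change MinI.ellE (F1 := M.F1) M.E (t ∘ₗ LinearMap.mulRight S.A.F a) (x.co 0) = 0
    rw [ellE_comp]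
    exact III_H_orth hP h hl0 hz st hu hu' hu'u ht htE hx hxi 0 (by norm_num) a ha
  · intro ℓ hℓ
    refine mem_of_dual 𝒮1 (HH2 t S.U u') (fun v hv => ?_) ℓ hℓ
    have hv1 := hPsiu v fun ℓ hℓ => hv ℓ ⟨0, by rw [hkill ℓ hℓ, map_zero]⟩
    refine ⟨hPsi_a v hv1, fun a ha c hcU => ?_⟩
    have hkey : ∀ c ∈ S.U, (t ∘ₗ LinearMap.mulRight S.A.F (c * (u' * a))) ∈ 𝒮1 := by
      intro c hc
      rw [← hb] at hc
      induction hc using Submodule.span_induction with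
      | mem c hc =>
        obtain ⟨i, rfl⟩ := hc
        obtain ⟨c, hc⟩ := III_fix hP h hl0 hz st hu hu' hu'u hrN hbU ht htE hx hxi a ha hL i
        exact ⟨c, by rw [ellE_comp, hc]⟩
      | zero =>
        have : (t ∘ₗ LinearMap.mulRight S.A.F ((0 : S.A.D) * (u' * a))) = 0 := by
          ext v; simp
        rw [this]; exact 𝒮1.zero_mem
      | add c c' _ _ h1 h2 =>
        have : (t ∘ₗ LinearMap.mulRight S.A.F ((c + c') * (u' * a))) =
            (t ∘ₗ LinearMap.mulRight S.A.F (c * (u' * a))) +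
            (t ∘ₗ LinearMap.mulRight S.A.F (c' * (u' * a))) := by
          ext v
          simp only [LinearMap.comp_apply, LinearMap.mulRight_apply, LinearMap.add_apply, add_mul,
            mul_add, map_add]
        rw [this]; exact 𝒮1.add_mem h1 h2
      | smul d c _ h1 =>
        have : (t ∘ₗ LinearMap.mulRight S.A.F ((d • c) * (u' * a))) =
            d • (t ∘ₗ LinearMap.mulRight S.A.F (c * (u' * a))) := by
          ext v
          simp only [LinearMap.comp_apply, LinearMap.mulRight_apply, LinearMap.smul_apply,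
            smul_mul_assoc, mul_smul_comm, map_smul]
        rw [this]; exact 𝒮1.smul_mem d h1
    have h1 := hv _ (hkey c hcU)
    change t (v * (c * (u' * a))) = 0 at h1
    rw [← h1]
    congr 1
    have e1 : c * (u' * a) = a * c * u' := by
      rw [S.lam_comm u' hu' a (hUS ha), ← mul_assoc, S.lam_comm c (hUS hcU) a (hUS ha)]
    rw [e1, ← mul_assoc, ← mul_assoc]

theorem minIII_aux (hP : MoveClosed P) (h : S.Good2)
    (hl0 : Algebra.adjoin M.F1 ({l0} : Set M.L) = ⊤) (hk : 2 ≤ k)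
    (u' : S.A.D) (hu : u ∈ S.U) (huu' : u * u' = 1) (hrN : r < N)
    (hb : Submodule.span S.A.F (Set.range b) = S.U)
    (hz : Pt3 S.γ M k l0 u b ρ z)
    (st : Step P S.Λ S.γ M.toAdm z) (t : S.A.D →ₗ[S.A.F] S.A.F) (ht : IsTr t)
    (tE : M.E →ₗ[M.F1] M.F1) (htE : (∀ x y, tE (x * y) = tE (y * x)) ∧ tE 1 ≠ 0) :
    C3 M hz.gp st t tE u' ρ := by
  have hUS : S.U ≤ Subalgebra.toSubmodule S.Λ := h.1.lin_mem hP
  have hu0 : u ≠ 0 := by
    rintro rfl
    rw [zero_mul] at huu'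
    exact zero_ne_one huu'
  obtain ⟨v, hv, h1, h2⟩ := S.exists_inv (hUS hu) hu0
  have hv' : v = u' := by
    calc v = v * (u * u') := by rw [huu', mul_one]
      _ = u' := by rw [← mul_assoc, h2, one_mul]
  subst hv'
  exact
    { g2 := III_good2 hP h hl0 hz st hu hv h2 ht htE
      resLam := III_resLam h.1 hl0 hz st hv h2
      resPsi := III_resPsi hP h hl0 hz st hu hv h2 ht htE
      resH := fun x hx hxi => III_resH hP h hl0 hz st hu hv h2 hrN hb ht htE hx hxi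
      rho := fun x hx hxi => III_rho hP h hl0 hk hz st hu hv h2 ht htE hx hxi
      resU := fun a ha l => by
        obtain ⟨T, hT, hi, h0⟩ := III_T hP h.1 hl0 hz st hv h2 ht htE a ha l
        exact ⟨T, hT, hi, h0⟩ }

end III

/-- (III) -/
theorem minIII (hP : MoveClosed P) {S : St P} (h : S.Good2) {N : ℕ} (M : PE S.A N)
    (l0 : M.L) (hl0 : Algebra.adjoin M.F1 ({l0} : Set M.L) = ⊤) (k : ℕ) (hk : 2 ≤ k)
    (u u' : S.A.D) (hu : u ∈ S.U) (huu' : u * u' = 1) {r : ℕ} (hrN : r < N)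
    (b : Fin r → S.A.D) (hb : Submodule.span S.A.F (Set.range b) = S.U)
    (ρ : M.D0) {z : Fin S.m → PowerSeries M.E} (hz : Pt3 S.γ M k l0 u b ρ z)
    (st : Step P S.Λ S.γ M.toAdm z) (t : S.A.D →ₗ[S.A.F] S.A.F) (ht : IsTr t)
    (tE : M.E →ₗ[M.F1] M.F1) (htE : (∀ x y, tE (x * y) = tE (y * x)) ∧ tE 1 ≠ 0) :
    C3 M hz.gp st t tE u' ρ :=
  minIII_aux hP h hl0 hk u' hu huu' hrN hb hz st t ht tE htE

end Crest.Agent.R180
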