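import Crest.Agent.R180.MinIII_Mg
import Crest.Agent.R180.MinSt_Mg
import Crest.Agent.R180.MinStartCore
import Crest.Agent.R180.MinPoint
import Crest.Agent.R180.MinLive
import Crest.Agent.R180.MinDefs
import Crest.Agent.R180.MinGen
import Crest.Agent.R180.MinState
import Crest.Agent.R180.MinPE
import Crest.Agent.R180.MinMu
import Crest.Agent.R180.MinTaylor
import Crest.Agent.R180.MinAPrep
import Crest.Agent.R180.LaurentLemmas
import Crest.Agent.R180.MinFacts0
import Crest.Agent.R180.MinRes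
import Crest.Agent.R180.DCT
import Crest.Agent.R180.MinNDeg

-- ▼ part R180/MinIV
section

set_option autoImplicit false
set_option linter.unusedSectionVars false

/-!
# Row 180, route M, step (IV) (helper164)
-/

noncomputable section
namespace Crest.Agent.R180

open TensorProduct

variable {P : (A : DA) → (m : ℕ) → NC (Fin m) A.D → Prop}

namespace MinIV

/-- `U` is not zero at a live state -/
theorem U_ne (S : St P) : ∃ u ∈ S.U, u ≠ 0 := by
  obtain ⟨t, _, l, _, a, ha, h⟩ := S.live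
  refine ⟨a, ha, ?_⟩
  rintro rfl
  apply h
  rw [mul_zero, map_zero]

end MinIV

open MinIV in
/-- the index drops by one -/
theorem minIV (hP : MoveClosed P) {S : St P} (h : S.Good2) {N : ℕ} (M : PE S.A N) (hN : 2 ≤ N)
    {z : Fin S.m → PowerSeries M.E} (hz : GenPt M.toAdm z) (st : Step P S.Λ S.γ M.toAdm z)
    (t : S.A.D →ₗ[S.A.F] S.A.F) (ht : IsTr t) (tE : M.E →ₗ[M.F1] M.F1)
    (_htE : (∀ x y, tE (x * y) = tE (y * x)) ∧ tE 1 ≠ 0) (u u' : S.A.D) (hu : u ∈ S.U)
    (huu' : u * u' = 1) (ρ : M.D0) (hC : C3 M hz st t tE u' ρ) (q p : ℕ) (hq : S.Full q)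
    (hqp : q ≤ p + 1) (hp : 2 ≤ p) : (st.toSt hz).Full p :=
  core M hN st t ht tE u u' hu huu' S.rs.comm (St.Good1.lin_mem hP h.1) st.rs.comm
    (St.Good1.lin_mem hP hC.g2.1) (U_ne (st.toSt hz)) hC.resPsi hC.resH hC.resU q p hq hqp hp

namespace MinIV

/-- some power of `U` is full -/
theorem exists_full (hP : MoveClosed P) {S : St P} (h : S.Good2) : ∃ q, 2 ≤ q ∧ S.Full q := by
  have hU := St.Good1.lin_mem hP h.1
  have hc := S.rs.comm
  obtain ⟨u, hu, hu0⟩ := U_ne S
  obtain ⟨w, hwΛ, huw, hwu⟩ := P2Dim.exists_inv_mem S.Λ u (hU hu) hu0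
  -- `U1 = U w`
  set U1 : Submodule S.A.F S.A.D := S.U.map (LinearMap.mulRight S.A.F w) with hU1
  have h1 : (1 : S.A.D) ∈ U1 := ⟨u, hu, huw⟩
  obtain ⟨q, hq2, hq⟩ := exists_pow_eq_adjoin U1 h1
  have hcommw : ∀ a ∈ S.Λ, a * w = w * a := fun a ha => hc a ha w hwΛ
  -- `U1 ^ n = U ^ n w ^ n`
  have hpow : ∀ n : ℕ, ∀ y ∈ U1 ^ n, y * u ^ n ∈ S.U ^ n := by
    intro n
    induction n with
    | zero =>
      intro y hy
      rw [pow_zero] at hy
      rw [pow_zero, pow_zero, mul_one]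
      exact hy
    | succ n ih =>
      intro y hy
      rw [pow_succ] at hy
      refine Submodule.mul_induction_on hy ?_ ?_
      · rintro a ha _ ⟨b, hb, rfl⟩
        have haΛ : a ∈ S.Λ := by
          have h3 : U1 ≤ Subalgebra.toSubmodule S.Λ := by
            rintro _ ⟨b, hb, rfl⟩
            exact S.Λ.mul_mem (hU hb) hwΛ
          exact pow_le h3 n ha
        have h2 : a * (b * w) * u ^ (n + 1) = a * u ^ n * b := by
          have e1 : b * w * u ^ (n + 1) = u ^ n * b := by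
            rw [pow_succ', mul_assoc, ← mul_assoc w, hwu, one_mul]
            exact hc _ (hU hb) _ (S.Λ.pow_mem (hU hu) n)
          rw [mul_assoc, e1, mul_assoc]
        change a * (b * w) * u ^ (n + 1) ∈ S.U ^ (n + 1)
        rw [h2, pow_succ]
        exact Submodule.mul_mem_mul (ih a ha) hb
      · intro a b ha hb
        rw [add_mul]
        exact Submodule.add_mem _ ha hb
  have hadj : S.Psi ≤ Algebra.adjoin S.A.F (U1 : Set S.A.D) := by
    apply Algebra.adjoin_le
    rintro x ⟨b, hb, hb0, hxb⟩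
    -- `x = (x b w) (b w)⁻¹`
    set A1 := Algebra.adjoin S.A.F (U1 : Set S.A.D) with hA1
    have hbw : b * w ∈ A1 := Algebra.subset_adjoin ⟨b, hb, rfl⟩
    have hw0 : w ≠ 0 := by
      rintro rfl
      rw [zero_mul] at hwu
      exact zero_ne_one hwu
    obtain ⟨c, hcA, hc1, _⟩ := P2Dim.exists_inv_mem A1 (b * w) hbw (mul_ne_zero hb0 hw0)
    have h2 : x = (x * b * w) * c := by
      rw [mul_assoc x b w, mul_assoc, hc1, mul_one]
    rw [h2]
    exact A1.mul_mem (Algebra.subset_adjoin ⟨x * b, hxb, rfl⟩) hcA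
  refine ⟨q, hq2, le_antisymm (finrank_pow_le hc hU hu hu0 hwu hwΛ q) ?_⟩
  have hne : u ^ q ≠ 0 := pow_ne_zero _ hu0
  have hinj : Function.Injective (LinearMap.mulRight S.A.F (u ^ q)) := by
    intro a b hab
    exact mul_right_cancel₀ hne hab
  have h3 : (Subalgebra.toSubmodule S.Psi).map (LinearMap.mulRight S.A.F (u ^ q)) ≤ S.U ^ q := by
    rintro _ ⟨y, hy, rfl⟩
    apply hpow
    rw [hq]
    exact hadj hy
  have h4 : Module.finrank S.A.F ((Subalgebra.toSubmodule S.Psi).map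
      (LinearMap.mulRight S.A.F (u ^ q))) = Module.finrank S.A.F S.Psi :=
    (Submodule.equivMapOfInjective _ hinj (Subalgebra.toSubmodule S.Psi)).finrank_eq.symm
  rw [← h4]
  exact Submodule.finrank_mono h3

/-- a generator of a field extension of characteristic zero -/
theorem exists_generator {F1 L : Type} [Field F1] [CharZero F1] [Field L] [Algebra F1 L]
    [FiniteDimensional F1 L] : ∃ l0 : L, Algebra.adjoin F1 ({l0} : Set L) = ⊤ := by
  obtain ⟨a, ha⟩ := Field.exists_primitive_element F1 L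
  refine ⟨a, ?_⟩
  have h1 : (IntermediateField.adjoin F1 ({a} : Set L)).toSubalgebra = Algebra.adjoin F1 {a} :=
    IntermediateField.adjoin_simple_toSubalgebra_of_isAlgebraic (IsAlgebraic.of_finite F1 a)
  rw [← h1, ha]
  rfl

/-- a move of type III from a `(m₁, m₂)`-minimal state -/
theorem exists_move (hP : MoveClosed P) {S : St P} (h : S.Good2) (n : ℕ) :
    ∃ (N : ℕ) (M : PE S.A N) (z : Fin S.m → PowerSeries M.E) (hz : GenPt M.toAdm z)
      (st : Step P S.Λ S.γ M.toAdm z) (t : S.A.D →ₗ[S.A.F] S.A.F) (tE : M.E →ₗ[M.F1] M.F1)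
      (u u' : S.A.D), n < N ∧ IsTr t ∧ ((∀ x y, tE (x * y) = tE (y * x)) ∧ tE 1 ≠ 0) ∧
        u ∈ S.U ∧ u * u' = 1 ∧ C3 M hz st t tE u' 0 := by
  have hU := St.Good1.lin_mem hP h.1
  obtain ⟨u, hu, hu0⟩ := U_ne S
  obtain ⟨u', _, huu', _⟩ := P2Dim.exists_inv_mem S.Λ u (hU hu) hu0
  set r := Module.finrank S.A.F S.U with hr
  let b := Module.finBasis S.A.F S.U
  obtain ⟨N, hN, ⟨M⟩⟩ := exists_PE S.A (max n r)
  obtain ⟨l0, hl0⟩ := exists_generator (F1 := M.F1) (L := M.L)
  obtain ⟨z, hz⟩ := exists_pt3_zero S.hm S.γ S.rs.zero M l0 u hu (fun i => (b i : S.A.D))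
    (fun i => (b i).2)
  obtain ⟨st⟩ := exists_step hP S.hm S.rs M.toAdm z hz.gp
  obtain ⟨t, ht⟩ := exists_isTr S.A
  obtain ⟨tE, htE⟩ := exists_isTrE M.toAdm
  refine ⟨N, M, z, hz.gp, st, t, tE, u, u', by omega, ht, htE, hu, huu', ?_⟩
  refine minIII hP h M l0 hl0 2 le_rfl u u' hu huu' (lt_of_le_of_lt (le_max_right n r) hN) _ ?_ 0
    hz st t ht tE htE
  have h1 : Set.range (fun i => (b i : S.A.D)) = S.U.subtype '' (Set.range b) := by
    rw [← Set.range_comp]; rfl
  rw [h1, ← Submodule.map_span, b.span_eq, Submodule.map_top, Submodule.range_subtype]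

theorem exists_good3 (hP : MoveClosed P) (h : ∃ S : St P, S.Good2) : ∃ S : St P, S.Good3 := by
  classical
  have hex : ∃ q, 2 ≤ q ∧ ∃ S : St P, S.Good2 ∧ S.Full q := by
    obtain ⟨S, hS⟩ := h
    obtain ⟨q, hq, hf⟩ := exists_full hP hS
    exact ⟨q, hq, S, hS, hf⟩
  obtain ⟨hq2, S, hS, hf⟩ := Nat.find_spec hex
  have hmin : ∀ q', 2 ≤ q' → (∃ S : St P, S.Good2 ∧ S.Full q') → Nat.find hex ≤ q' :=
    fun q' h1 h2 => Nat.find_min' hex ⟨h1, h2⟩
  set q := Nat.find hex with hqdef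
  rcases Nat.lt_or_ge q 3 with h3 | h3
  · have : q = 2 := by omega
    rw [this] at hf
    exact ⟨S, hS, hf⟩
  · exfalso
    obtain ⟨N, M, z, hz, st, t, tE, u, u', hN, ht, htE, hu, huu', hC⟩ := exists_move hP hS 2
    have h4 := minIV hP hS M (by omega) hz st t ht tE htE u u' hu huu' 0 hC q (q - 1) hf
      (by omega) (by omega)
    have h5 := hmin (q - 1) (by omega) ⟨st.toSt hz, hC.g2, h4⟩
    omega

/-- minimal elements for natural number valued functions -/
theorem exists_min {α : Type 1} (p : α → Prop) (f : α → ℕ) (h : ∃ a, p a) :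
    ∃ a, p a ∧ ∀ b, p b → f a ≤ f b := by
  classical
  have hex : ∃ n, ∃ a, p a ∧ f a = n := by
    obtain ⟨a, ha⟩ := h
    exact ⟨f a, a, ha, rfl⟩
  obtain ⟨a, ha, hfa⟩ := Nat.find_spec hex
  refine ⟨a, ha, fun b hb => ?_⟩
  rw [hfa]
  exact Nat.find_min' hex ⟨b, hb, rfl⟩

end MinIV

theorem exists_good4 (hP : MoveClosed P) (h : Nonempty (St P)) : ∃ S : St P, S.Good4 := by
  obtain ⟨S0⟩ := h
  obtain ⟨S1, _, h1⟩ := MinIV.exists_min (fun _ : St P => True) St.mu1 ⟨S0, trivial⟩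
  have g1 : S1.Good1 := fun S' => h1 S' trivial
  obtain ⟨S2, g2, h2⟩ := MinIV.exists_min (fun S : St P => S.Good1) St.mu2 ⟨S1, g1⟩
  obtain ⟨S3, g3⟩ := MinIV.exists_good3 hP ⟨S2, g2, h2⟩
  obtain ⟨S4, g4, h4⟩ := MinIV.exists_min (fun S : St P => S.Good3) St.sd ⟨S3, g3⟩
  exact ⟨S4, g4, h4⟩

end Crest.Agent.R180
end
end

-- ▼ part R180/MinBigCore
section

set_option autoImplicit false

/-!
# Row 180, ROUTE M: pure algebra for (VI), first move
-/

noncomputable section
namespace Crest.Agent.R180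

open TensorProduct

namespace MinBig

/-- if `U₁² = Ψ` then `𝓗₂ = 0` -/
theorem HH2_eq_bot {F D : Type} [Field F] [Ring D] [IsDomain D] [Algebra F D]
    [FiniteDimensional F D] (t : D →ₗ[F] F) (ht : t 1 ≠ 0) (U : Submodule F D)
    (Λ : Subalgebra F D) (hc : ∀ a ∈ Λ, ∀ b ∈ Λ, a * b = b * a)
    (hU : U ≤ Subalgebra.toSubmodule Λ) (hΨ : PsiOf U ≤ Λ) {u u' : D} (hu : u ∈ U)
    (hu' : u' ∈ Λ) (huu' : u * u' = 1) (hu'u : u' * u = 1)
    (hfull : Module.finrank F (U ^ 2 : Submodule F D) = Module.finrank F (PsiOf U)) :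
    HH2 t U u' = ⊥ := by
  have hu0 : u ≠ 0 := fun h => by rw [h, zero_mul] at huu'; exact zero_ne_one huu'
  have hu'0 : u' ≠ 0 := fun h => by rw [h, mul_zero] at huu'; exact zero_ne_one huu'
  have hUΨ : ∀ b ∈ U, b * u' ∈ PsiOf U := fun b hb =>
    Algebra.subset_adjoin ⟨u, hu, hu0, by rw [mul_assoc, hu'u, mul_one]; exact hb⟩
  let φ : D →ₗ[F] D := LinearMap.mulRight F (u' * u')
  have hφ : Function.Injective φ := by
    intro a b hab
    exact mul_right_cancel₀ (mul_ne_zero hu'0 hu'0) hab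
  have hmap : (U ^ 2).map φ = Subalgebra.toSubmodule (PsiOf U) := by
    apply Submodule.eq_of_le_of_finrank_le
    · rw [Submodule.map_le_iff_le_comap, pow_two, Submodule.mul_le]
      intro a ha b hb
      change a * b * (u' * u') ∈ PsiOf U
      have h1 : a * b * (u' * u') = (a * u') * (b * u') := by
        rw [mul_assoc, ← mul_assoc b u' u', mul_assoc a u' (b * u'), hc u' hu' (b * u')
          (Λ.mul_mem (hU hb) hu')]
      rw [h1]
      exact (PsiOf U).mul_mem (hUΨ a ha) (hUΨ b hb)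
    · have h1 : Module.finrank F ((U ^ 2).map φ) = Module.finrank F (U ^ 2 : Submodule F D) :=
        (Submodule.equivMapOfInjective φ hφ (U ^ 2)).finrank_eq.symm
      rw [h1, hfull]
      exact le_rfl
  rw [eq_bot_iff]
  intro x hx
  rw [mem_HH2] at hx
  obtain ⟨hx1, hx2⟩ := hx
  have hxu := hx1 u hu
  have hkill : ∀ w ∈ U ^ 2, t (x * w * u') = 0 := by
    have hle : U ^ 2 ≤ LinearMap.ker (t ∘ₗ (LinearMap.mulRight F u' ∘ₗ LinearMap.mulLeft F x)) := by
      rw [pow_two, Submodule.mul_le]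
      intro a ha b hb
      rw [LinearMap.mem_ker]
      change t (x * (a * b) * u') = 0
      rw [← mul_assoc x a b]
      exact hx2 a ha b hb
    intro w hw
    exact LinearMap.mem_ker.1 (hle hw)
  have hxΛ : x ∈ Λ := by
    have : x = x * u * u' := by rw [mul_assoc, huu', mul_one]
    rw [this]; exact Λ.mul_mem (hΨ hxu) hu'
  have huΛ : u ∈ Λ := hU hu
  have hkill2 : ∀ ψ ∈ PsiOf U, t (x * u * ψ) = 0 := by
    intro ψ hψ
    have h1 : ψ ∈ (U ^ 2).map φ := by rw [hmap]; exact hψ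
    obtain ⟨w, hw, hwψ⟩ := h1
    have hwψ' : w * (u' * u') = ψ := hwψ
    have hw2 : w = ψ * (u * u) := by
      rw [← hwψ', mul_assoc, mul_assoc, ← mul_assoc u' u u, hu'u, one_mul, hu'u, mul_one]
    have h3 := hkill w hw
    have h4 : x * w * u' = x * u * ψ := by
      rw [hw2, mul_assoc x, mul_assoc ψ, mul_assoc u u u', huu', mul_one, hc ψ (hΨ hψ) u huΛ,
        mul_assoc]
    rwa [h4] at h3
  rw [Submodule.mem_bot]
  by_contra hx0
  have hy0 : x * u ≠ 0 := mul_ne_zero hx0 hu0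
  obtain ⟨y, hy, hyx⟩ := MinI.exists_inv_mem (Subalgebra.toSubmodule (PsiOf U))
    (fun a ha b hb => (PsiOf U).mul_mem ha hb) (PsiOf U).one_mem (x * u) hxu hy0
  have h5 := hkill2 y hy
  rw [hc _ (hΨ hxu) y (hΨ hy), hyx] at h5
  exact ht h5

/-- the `F1`-span of `1 ⊗ V` -/
theorem finrank_span_one {A : DA} (M : Adm A) (V : Submodule A.F A.D) :
    Module.finrank M.F1 (Submodule.span M.F1 {y : M.D0 | ∃ h ∈ V, y = (1 : M.E) ⊗ₜ[A.F] h}) ≤
      Module.finrank A.F V := by
  classical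
  let b := Module.finBasis A.F V
  have hle : Submodule.span M.F1 {y : M.D0 | ∃ h ∈ V, y = (1 : M.E) ⊗ₜ[A.F] h} ≤
      Submodule.span M.F1 (Set.range fun i => (1 : M.E) ⊗ₜ[A.F] ((b i : V) : A.D)) := by
    rw [Submodule.span_le]
    rintro _ ⟨h, hh, rfl⟩
    have h1 : h = ∑ i, b.repr ⟨h, hh⟩ i • ((b i : V) : A.D) := by
      have := congrArg Subtype.val (b.sum_repr ⟨h, hh⟩)
      rw [Submodule.coe_sum] at this
      exact this.symm
    have h2 : (1 : M.E) ⊗ₜ[A.F] h = ∑ i, (algebraMap A.F M.F1 (b.repr ⟨h, hh⟩ i)) •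
        ((1 : M.E) ⊗ₜ[A.F] ((b i : V) : A.D)) := by
      conv_lhs => rw [h1]
      rw [TensorProduct.tmul_sum]
      refine Finset.sum_congr rfl fun i _ => ?_
      rw [TensorProduct.smul_tmul', algebraMap_smul, TensorProduct.smul_tmul]
    rw [SetLike.mem_coe, h2]
    exact Submodule.sum_mem _ fun i _ => Submodule.smul_mem _ _ (Submodule.subset_span ⟨i, rfl⟩)
  refine (Submodule.finrank_mono hle).trans ?_
  have h3 := finrank_range_le_card (R := M.F1)
    (fun i : Fin (Module.finrank A.F V) => (1 : M.E) ⊗ₜ[A.F] ((b i : V) : A.D))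
  rwa [Set.finrank, Fintype.card_fin] at h3

end MinBig

end Crest.Agent.R180
end
end

-- ▼ part R180/MinBig
section

set_option autoImplicit false
noncomputable section
namespace Crest.Agent.R180

open TensorProduct

variable {P : (A : DA) → (m : ℕ) → NC (Fin m) A.D → Prop}

/-- one move of type III (`k = 2`, `X = 0`) from a `Good4` state -/
theorem exists_mv6 (hP : MoveClosed P) {S : St P} (h : S.Good4) (n : ℕ) :
    ∃ (N : ℕ) (M : PE S.A N) (l0 : M.L) (u u' : S.A.D) (z : Fin S.m → PowerSeries M.E) (r : ℕ)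
      (b : Fin r → S.A.D) (hz : Pt3 S.γ M 2 l0 u b 0 z) (st : Step P S.Λ S.γ M.toAdm z)
      (t : S.A.D →ₗ[S.A.F] S.A.F) (tE : M.E →ₗ[M.F1] M.F1),
      n < N ∧ Algebra.adjoin M.F1 ({l0} : Set M.L) = ⊤ ∧ u ∈ S.U ∧ u * u' = 1 ∧ u' * u = 1 ∧
      IsTr t ∧ ((∀ x y, tE (x * y) = tE (y * x)) ∧ tE 1 ≠ 0) ∧ C3 M hz.gp st t tE u' 0 ∧
      (st.toSt hz.gp).Good4 ∧ (st.toSt hz.gp).sd = S.sd ∧
      Module.finrank (LF M.F1) st.Psi = N * Module.finrank S.A.F S.Psi ∧
      (∀ x ∈ st.H t tE, LD.IsInt x →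
        x.co 0 ∈ Submodule.span M.F1 {y : M.D0 | ∃ h ∈ HH t S.U, y = (1 : M.E) ⊗ₜ[S.A.F] h}) := by
  classical
  have h2 : S.Good2 := h.1.1
  have h1 : S.Good1 := h2.1
  have hU := h1.lin_mem hP
  obtain ⟨u, hu, hu0⟩ := S.U_ne
  obtain ⟨u', hu'Λ, huu', hu'u⟩ := S.exists_inv (hU hu) hu0
  obtain ⟨N, hN, ⟨M⟩⟩ := exists_PE S.A (max (max n (Module.finrank S.A.F S.U)) 3)
  have hNn : n < N := lt_of_le_of_lt ((le_max_left _ _).trans (le_max_left _ _)) hN
  have hNr : Module.finrank S.A.F S.U < N :=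
    lt_of_le_of_lt ((le_max_right _ _).trans (le_max_left _ _)) hN
  have hN3 : 3 ≤ N := ((le_max_right _ _).trans_lt hN).le
  obtain ⟨l0, hl0⟩ := M.exists_gen
  let bU := Module.finBasis S.A.F S.U
  let b : Fin (Module.finrank S.A.F S.U) → S.A.D := fun i => ((bU i : S.U) : S.A.D)
  have hbU : ∀ i, b i ∈ UU S.γ := fun i => (bU i).2
  have hb : Submodule.span S.A.F (Set.range b) = S.U := by
    have h3 : Set.range b = S.U.subtype '' (Set.range bU) := by
      rw [← Set.range_comp]; rfl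
    rw [h3, ← Submodule.map_span, bU.span_eq, Submodule.map_top, Submodule.range_subtype]
  obtain ⟨z, hz⟩ := exists_pt3_zero S.hm S.γ S.rs.zero M l0 u hu b hbU
  obtain ⟨st⟩ := exists_step hP S.hm S.rs M.toAdm z hz.gp
  obtain ⟨t, ht⟩ := exists_isTr S.A
  obtain ⟨tE, htE⟩ := exists_isTrE M.toAdm
  have hC := minIII hP h2 M l0 hl0 2 le_rfl u u' hu huu' hNr b hb 0 hz st t ht tE htE
  have hF : (st.toSt hz.gp).Full 2 :=
    minIV hP h2 M (by omega) hz.gp st t ht tE htE u u' hu huu' 0 hC 2 2 h.1.2 (by norm_num) le_rfl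
  have hG3 : (st.toSt hz.gp).Good3 := ⟨hC.g2, hF⟩
  have hU' := hC.g2.1.lin_mem hP
  have hΨ := S.psi_le hU
  have hbot : HH2 t S.U u' = ⊥ := MinBig.HH2_eq_bot t ht.2 S.U S.Λ S.rs.comm hU hΨ hu hu'Λ huu' hu'u
    h.1.2
  have hres : ∀ x ∈ st.H t tE, LD.IsInt x →
      x.co 0 ∈ Submodule.span M.F1 {y : M.D0 | ∃ h ∈ HH t S.U, y = (1 : M.E) ⊗ₜ[S.A.F] h} := by
    intro x hx hxi
    have h3 := hC.resH x hx hxi
    have h4 : Submodule.span M.F1 {y : M.D0 | ∃ (a : M.L) (h : S.A.D), h ∈ HH2 t S.U u' ∧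
        y = M.j a ⊗ₜ[S.A.F] h} = ⊥ := by
      rw [Submodule.span_eq_bot]
      rintro _ ⟨a, h, hh, rfl⟩
      rw [hbot, Submodule.mem_bot] at hh
      rw [hh, TensorProduct.tmul_zero]
    rwa [h4, bot_sup_eq] at h3
  have hHH := (st.toSt hz.gp).finrank_HH hU' (isTr_mv M.toAdm ht htE)
  have hle : (st.toSt hz.gp).sd ≤ S.sd := by
    rw [← hHH.1, ← (S.finrank_HH hU ht).1]
    have h3 : Module.finrank M.F1 (LD.resSp (st.H t tE)) =
        Module.finrank (LF M.F1) (st.H t tE) := LD.finrank_resSp _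
    have h4 : Module.finrank M.F1 (LD.resSp (st.H t tE)) ≤ Module.finrank S.A.F (HH t S.U) := by
      refine le_trans (Submodule.finrank_mono ?_) (MinBig.finrank_span_one M.toAdm (HH t S.U))
      rintro _ ⟨x, hx, hxi, rfl⟩
      exact hres x hx hxi
    rw [h3] at h4
    exact h4
  have hsd : (st.toSt hz.gp).sd = S.sd := le_antisymm hle (h.2 _ hG3)
  refine ⟨N, M, l0, u, u', z, _, b, hz, st, t, tE, hNn, hl0, hu, huu', hu'u, ht, htE, hC,
    ⟨hG3, fun S' hS' => by rw [hsd]; exact h.2 S' hS'⟩, hsd, ?_, hres⟩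
  have h5 : Module.finrank M.F1 (LD.resSp (Subalgebra.toSubmodule st.Psi)) =
      Module.finrank (LF M.F1) st.Psi := LD.finrank_resSp _
  rw [← h5, hC.resPsi]
  exact PE.finrank_psiL M S.Psi (fun a ha b hb => S.rs.comm a (hΨ ha) b (hΨ hb))

/-- first move: make `dim Ψ` large -/
theorem exists_big (hP : MoveClosed P) {S : St P} (h : S.Good4) (n : ℕ) :
    ∃ S' : St P, S'.Good4 ∧ S'.sd = S.sd ∧ n ≤ Module.finrank S'.A.F S'.Psi := by
  obtain ⟨N, M, l0, u, u', z, r, b, hz, st, t, tE, hN, -, -, -, -, -, -, -, h4, hsd, hΨ, -⟩ :=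
    exists_mv6 hP h n
  refine ⟨st.toSt hz.gp, h4, hsd, ?_⟩
  have h5 : Module.finrank (st.toSt hz.gp).A.F (st.toSt hz.gp).Psi =
      N * Module.finrank S.A.F S.Psi := hΨ
  rw [h5]
  have h6 : 0 < Module.finrank S.A.F S.Psi := Module.finrank_pos
  calc n ≤ N := hN.le
    _ = N * 1 := (mul_one N).symm
    _ ≤ _ := Nat.mul_le_mul_left N h6

end Crest.Agent.R180
end
end

-- ▼ part R180/MinLin
section

set_option autoImplicit false
noncomputable section
namespace Crest.Agent.R180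

open TensorProduct

/-! # Row 180, ROUTE M: linearity of `dv` and `d2` in the directions -/

section PS
variable {F R : Type} [Field F] [Ring R] [Algebra F R]

theorem psmap_commute (c : PowerSeries F) (y : PowerSeries R) :
    PowerSeries.map (algebraMap F R) c * y = y * PowerSeries.map (algebraMap F R) c := by
  apply LD.ofPS_injective
  rw [map_mul, map_mul, MinA.ofPS_map_algebraMap]
  exact Algebra.commutes _ _

theorem ofPS_psmap_mul (c : PowerSeries F) (y : PowerSeries R) :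
    (LD.ofPS (PowerSeries.map (algebraMap F R) c * y) : LD R) = LF.ofPS c • LD.ofPS y := by
  rw [map_mul, MinA.ofPS_map_algebraMap, Algebra.smul_def]

theorem ofPS_X_pow' (N : ℕ) : (LF.ofPS ((PowerSeries.X : PowerSeries F) ^ N) : LF F) = LF.tp N := by
  apply LF.ext; intro n
  have htp : (LF.tp (N : ℤ) : LF F).co n = if n = (N : ℤ) then 1 else 0 := by
    change HahnSeries.coeff (HahnSeries.single (N : ℤ) (1 : F)) n = _
    rw [HahnSeries.coeff_single]
    split_ifs <;> rfl
  rw [htp]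
  rcases lt_or_ge n 0 with hn | hn
  · rw [LF.co_ofPS_neg _ n hn, if_neg (by omega)]
  · obtain ⟨m, rfl⟩ := Int.eq_ofNat_of_zero_le hn
    rw [LF.co_ofPS, PowerSeries.coeff_X_pow]
    by_cases h : m = N
    · rw [if_pos h, if_pos (by exact_mod_cast h)]
    · rw [if_neg h, if_neg (by exact_mod_cast h)]

end PS

section Lin
variable {A : DA} (M : Adm A) {m : ℕ}

/-- uniqueness of solutions of the functional equation -/
theorem rec_unique (z : Fin m → PowerSeries M.E) (hz : ∀ j, PowerSeries.constantCoeff (z j) = 0)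
    (r g₁ g₂ : NC (Fin m) A.D → PowerSeries M.D0)
    (h₁ : ∀ f, g₁ f = r f + ∑ j, PowerSeries.map M.jE (z j) * g₁ (NC.ld j f))
    (h₂ : ∀ f, g₂ f = r f + ∑ j, PowerSeries.map M.jE (z j) * g₂ (NC.ld j f))
    (f : NC (Fin m) A.D) : g₁ f = g₂ f := by
  rw [← sub_eq_zero]
  refine Ord.eq_zero fun n => ?_
  induction n generalizing f with
  | zero => exact Ord.zero _
  | succ n ih =>
    rw [h₁ f, h₂ f, add_sub_add_left_eq_sub, ← Finset.sum_sub_distrib]
    refine Ord.sum fun j _ => ?_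
    rw [← mul_sub, add_comm n 1]
    exact ((Ord.of_const (hz j)).map _).mul (ih _)

theorem map_jE_map (c : PowerSeries M.F1) :
    PowerSeries.map M.jE (PowerSeries.map (algebraMap M.F1 M.E) c) =
      PowerSeries.map (algebraMap M.F1 M.D0) c := by
  ext n
  rw [PowerSeries.coeff_map, PowerSeries.coeff_map, PowerSeries.coeff_map]
  rfl

variable (z : Fin m → PowerSeries M.E) (hz : ∀ j, PowerSeries.constantCoeff (z j) = 0)

include hz

theorem dv_smul (v : Fin m → PowerSeries M.E) (c : PowerSeries M.F1) (f : NC (Fin m) A.D) :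
    M.dv z (fun j => PowerSeries.map (algebraMap M.F1 M.E) c * v j) f =
      PowerSeries.map (algebraMap M.F1 M.D0) c * M.dv z v f := by
  refine rec_unique M z hz (fun f => ∑ j, PowerSeries.map M.jE
    (PowerSeries.map (algebraMap M.F1 M.E) c * v j) * M.ev z (NC.ld j f))
    (fun f => M.dv z (fun j => PowerSeries.map (algebraMap M.F1 M.E) c * v j) f)
    (fun f => PowerSeries.map (algebraMap M.F1 M.D0) c * M.dv z v f) ?_ ?_ f
  · intro f
    rw [dv_rec M z _ hz f, Finset.sum_add_distrib]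
  · intro f
    rw [dv_rec M z v hz f, Finset.sum_add_distrib, mul_add, Finset.mul_sum, Finset.mul_sum]
    congr 1
    · refine Finset.sum_congr rfl fun j _ => ?_
      rw [map_mul, map_jE_map, mul_assoc]
    · refine Finset.sum_congr rfl fun j _ => ?_
      rw [← mul_assoc, ← mul_assoc, psmap_commute]

theorem d2_add_left (v w v' : Fin m → PowerSeries M.E) (f : NC (Fin m) A.D) :
    M.d2 z (fun j => v j + w j) v' f = M.d2 z v v' f + M.d2 z w v' f := by
  refine rec_unique M z hz (fun f => ∑ j, PowerSeries.map M.jE (v j + w j) *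
    M.dv z v' (NC.ld j f)) (fun f => M.d2 z (fun j => v j + w j) v' f)
    (fun f => M.d2 z v v' f + M.d2 z w v' f) ?_ ?_ f
  · intro f
    rw [d2_rec M z _ _ hz f, Finset.sum_add_distrib]
  · intro f
    rw [d2_rec M z v _ hz f, d2_rec M z w _ hz f, ← Finset.sum_add_distrib,
      ← Finset.sum_add_distrib]
    refine Finset.sum_congr rfl fun j _ => ?_
    rw [map_add, add_mul, mul_add]
    abel

theorem d2_add_right (v v' w' : Fin m → PowerSeries M.E) (f : NC (Fin m) A.D) :
    M.d2 z v (fun j => v' j + w' j) f = M.d2 z v v' f + M.d2 z v w' f := by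
  refine rec_unique M z hz (fun f => ∑ j, PowerSeries.map M.jE (v j) *
    (M.dv z v' (NC.ld j f) + M.dv z w' (NC.ld j f)))
    (fun f => M.d2 z v (fun j => v' j + w' j) f)
    (fun f => M.d2 z v v' f + M.d2 z v w' f) ?_ ?_ f
  · intro f
    rw [d2_rec M z _ _ hz f, Finset.sum_add_distrib]
    congr 1
    refine Finset.sum_congr rfl fun j _ => ?_
    rw [dv_add M z v' w' hz]
  · intro f
    rw [d2_rec M z v _ hz f, d2_rec M z v _ hz f, ← Finset.sum_add_distrib,
      ← Finset.sum_add_distrib]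
    refine Finset.sum_congr rfl fun j _ => ?_
    rw [mul_add, mul_add]
    abel

theorem d2_smul_left (v v' : Fin m → PowerSeries M.E) (c : PowerSeries M.F1)
    (f : NC (Fin m) A.D) :
    M.d2 z (fun j => PowerSeries.map (algebraMap M.F1 M.E) c * v j) v' f =
      PowerSeries.map (algebraMap M.F1 M.D0) c * M.d2 z v v' f := by
  refine rec_unique M z hz (fun f => ∑ j, PowerSeries.map M.jE
    (PowerSeries.map (algebraMap M.F1 M.E) c * v j) * M.dv z v' (NC.ld j f))
    (fun f => M.d2 z (fun j => PowerSeries.map (algebraMap M.F1 M.E) c * v j) v' f)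
    (fun f => PowerSeries.map (algebraMap M.F1 M.D0) c * M.d2 z v v' f) ?_ ?_ f
  · intro f
    rw [d2_rec M z _ _ hz f, Finset.sum_add_distrib]
  · intro f
    rw [d2_rec M z v _ hz f, Finset.sum_add_distrib, mul_add, Finset.mul_sum, Finset.mul_sum]
    congr 1
    · refine Finset.sum_congr rfl fun j _ => ?_
      rw [map_mul, map_jE_map, mul_assoc]
    · refine Finset.sum_congr rfl fun j _ => ?_
      rw [← mul_assoc, ← mul_assoc, psmap_commute]

theorem d2_smul_right (v v' : Fin m → PowerSeries M.E) (c : PowerSeries M.F1)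
    (f : NC (Fin m) A.D) :
    M.d2 z v (fun j => PowerSeries.map (algebraMap M.F1 M.E) c * v' j) f =
      PowerSeries.map (algebraMap M.F1 M.D0) c * M.d2 z v v' f := by
  refine rec_unique M z hz (fun f => ∑ j, PowerSeries.map M.jE (v j) *
    (PowerSeries.map (algebraMap M.F1 M.D0) c * M.dv z v' (NC.ld j f)))
    (fun f => M.d2 z v (fun j => PowerSeries.map (algebraMap M.F1 M.E) c * v' j) f)
    (fun f => PowerSeries.map (algebraMap M.F1 M.D0) c * M.d2 z v v' f) ?_ ?_ f
  · intro f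
    rw [d2_rec M z _ _ hz f, Finset.sum_add_distrib]
    congr 1
    refine Finset.sum_congr rfl fun j _ => ?_
    rw [dv_smul M z hz v' c]
  · intro f
    rw [d2_rec M z v _ hz f, Finset.sum_add_distrib, mul_add, Finset.mul_sum, Finset.mul_sum]
    congr 1
    · refine Finset.sum_congr rfl fun j _ => ?_
      rw [← mul_assoc, ← mul_assoc, psmap_commute]
    · refine Finset.sum_congr rfl fun j _ => ?_
      rw [← mul_assoc, ← mul_assoc, psmap_commute]

omit hz in
/-- an additive map homogeneous over `F1⟦t⟧` is linear over Laurent series -/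
theorem lin_ext (Φ : (Fin m → PowerSeries M.E) → PowerSeries M.D0)
    (hadd : ∀ v w, Φ (fun j => v j + w j) = Φ v + Φ w)
    (hsmul : ∀ (c : PowerSeries M.F1) v, Φ (fun j => PowerSeries.map (algebraMap M.F1 M.E) c * v j) =
      PowerSeries.map (algebraMap M.F1 M.D0) c * Φ v)
    {μ : ℕ} (l : Fin μ → LF M.F1) (dir : Fin μ → Fin m → PowerSeries M.E)
    (V : Fin m → PowerSeries M.E)
    (hV : ∀ j, (LD.ofPS (V j) : LD M.E) = ∑ i, l i • LD.ofPS (dir i j)) :
    ∑ i, l i • (LD.ofPS (Φ (dir i)) : LD M.D0) = LD.ofPS (Φ V) := by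
  classical
  obtain ⟨N, a, -, ha, -⟩ := MinA.exists_denominator l (0 : LD M.E)
  have h0 : Φ (fun _ => 0) = 0 := by
    have := hsmul 0 (fun _ => 0)
    simpa using this
  have hsum : ∀ (s : Finset (Fin μ)) (v : Fin μ → Fin m → PowerSeries M.E),
      Φ (fun j => ∑ i ∈ s, v i j) = ∑ i ∈ s, Φ (v i) := by
    intro s v
    induction s using Finset.induction_on with
    | empty => simpa using h0
    | insert i s hi ih =>
      simp only [Finset.sum_insert hi]
      rw [hadd, ih]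
  have hXV : (fun j => PowerSeries.map (algebraMap M.F1 M.E) (PowerSeries.X ^ N) * V j) =
      fun j => ∑ i, PowerSeries.map (algebraMap M.F1 M.E) (a i) * dir i j := by
    funext j
    apply LD.ofPS_injective
    rw [ofPS_psmap_mul, ofPS_X_pow', hV j, Finset.smul_sum, map_sum]
    refine Finset.sum_congr rfl fun i _ => ?_
    rw [ofPS_psmap_mul, ha, mul_smul]
  have h1 : (LD.ofPS (Φ (fun j => PowerSeries.map (algebraMap M.F1 M.E) (PowerSeries.X ^ N) * V j)) :
      LD M.D0) = (LF.tp N : LF M.F1) • LD.ofPS (Φ V) := by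
    rw [hsmul, ofPS_psmap_mul, ofPS_X_pow']
  have h2 : (LD.ofPS (Φ (fun j => PowerSeries.map (algebraMap M.F1 M.E) (PowerSeries.X ^ N) * V j)) :
      LD M.D0) = (LF.tp N : LF M.F1) • ∑ i, l i • (LD.ofPS (Φ (dir i)) : LD M.D0) := by
    rw [hXV, hsum, map_sum, Finset.smul_sum]
    refine Finset.sum_congr rfl fun i _ => ?_
    rw [hsmul, ofPS_psmap_mul, ha, mul_smul]
  have h3 : (LF.tp N : LF M.F1) ≠ 0 := LF.tp_ne_zero _
  have h4 := h2.symm.trans h1
  exact (smul_right_injective _ h3) h4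

theorem dv_lin {μ : ℕ} (l : Fin μ → LF M.F1) (dir : Fin μ → Fin m → PowerSeries M.E)
    (V : Fin m → PowerSeries M.E)
    (hV : ∀ j, (LD.ofPS (V j) : LD M.E) = ∑ i, l i • LD.ofPS (dir i j)) (f : NC (Fin m) A.D) :
    ∑ i, l i • (LD.ofPS (M.dv z (dir i) f) : LD M.D0) = LD.ofPS (M.dv z V f) :=
  lin_ext M (fun v => M.dv z v f) (fun v w => dv_add M z v w hz f)
    (fun c v => dv_smul M z hz v c f) l dir V hV

theorem d2_lin {μ : ℕ} (l l' : Fin μ → LF M.F1) (dir : Fin μ → Fin m → PowerSeries M.E)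
    (V V' : Fin m → PowerSeries M.E)
    (hV : ∀ j, (LD.ofPS (V j) : LD M.E) = ∑ i, l i • LD.ofPS (dir i j))
    (hV' : ∀ j, (LD.ofPS (V' j) : LD M.E) = ∑ i, l' i • LD.ofPS (dir i j))
    (f : NC (Fin m) A.D) :
    ∑ i, ∑ k, (l i * l' k) • (LD.ofPS (M.d2 z (dir i) (dir k) f) : LD M.D0) =
      LD.ofPS (M.d2 z V V' f) := by
  have h1 : ∀ i, ∑ k, l' k • (LD.ofPS (M.d2 z (dir i) (dir k) f) : LD M.D0) =
      LD.ofPS (M.d2 z (dir i) V' f) := fun i =>
    lin_ext M (fun v => M.d2 z (dir i) v f) (fun v w => d2_add_right M z hz (dir i) v w f)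
      (fun c v => d2_smul_right M z hz (dir i) v c f) l' dir V' hV'
  have h2 : ∑ i, l i • (LD.ofPS (M.d2 z (dir i) V' f) : LD M.D0) = LD.ofPS (M.d2 z V V' f) :=
    lin_ext M (fun v => M.d2 z v V' f) (fun v w => d2_add_left M z hz v w V' f)
      (fun c v => d2_smul_left M z hz v V' c f) l dir V hV
  rw [← h2]
  refine Finset.sum_congr rfl fun i _ => ?_
  rw [← h1 i, Finset.smul_sum]
  refine Finset.sum_congr rfl fun k _ => ?_
  rw [mul_smul]

end Lin

end Crest.Agent.R180
end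
end

-- ▼ part R180/MinVIFam
section

set_option autoImplicit false
set_option linter.unusedSectionVars false
noncomputable section

/-!
# Row 180, ROUTE M, step (VI): families in a subspace with independent residues, Gram matrices
-/

namespace Crest.Agent.R180

open TensorProduct

namespace MinVI

section fam

variable {F1 E : Type} [Field F1] [Ring E] [Algebra F1 E] [Module.Finite F1 E] {μ m : ℕ}

/-- the linear map `l ↦ ∑ l i • dir i` -/
def comb (dir : Fin μ → Fin m → PowerSeries E) : (Fin μ → LF F1) →ₗ[LF F1] (Fin m → LD E) :=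
  LinearMap.pi fun j => ∑ i, (LinearMap.proj i : (Fin μ → LF F1) →ₗ[LF F1] LF F1).smulRight
    (LD.ofPS (dir i j) : LD E)

theorem comb_apply (dir : Fin μ → Fin m → PowerSeries E) (l : Fin μ → LF F1) (j : Fin m) :
    comb dir l j = ∑ i, l i • (LD.ofPS (dir i j) : LD E) := by
  simp [comb]

/-- coordinates -/
def coord {n : ℕ} (b : Module.Basis (Fin n) F1 E) :
    (Fin m → LD E) ≃ₗ[LF F1] (Fin m × Fin n → LF F1) :=
  (LinearEquiv.piCongrRight fun _ : Fin m => (LD.basis b).equivFun).trans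
    (LinearEquiv.curry (LF F1) (LF F1) (Fin m) (Fin n)).symm

theorem coord_apply {n : ℕ} (b : Module.Basis (Fin n) F1 E) (v : Fin m → LD E) (j : Fin m)
    (a : Fin n) : coord b v (j, a) = (LD.basis b).repr (v j) a := rfl

theorem exists_family (dir : Fin μ → Fin m → PowerSeries E)
    (hinj : ∀ l : Fin μ → LF F1, (∀ j, ∑ i, l i • (LD.ofPS (dir i j) : LD E) = 0) → l = 0)
    (W : Submodule (LF F1) (Fin μ → LF F1)) :
    ∃ (l : Fin (Module.finrank (LF F1) W) → Fin μ → LF F1)
      (V : Fin (Module.finrank (LF F1) W) → Fin m → PowerSeries E),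
      (∀ i, l i ∈ W) ∧
      (∀ i j, (LD.ofPS (V i j) : LD E) = ∑ k, l i k • (LD.ofPS (dir k j) : LD E)) ∧
      LinearIndependent F1 (fun i => (fun j => PowerSeries.constantCoeff (V i j) : Fin m → E)) := by
  classical
  let n := Module.finrank F1 E
  let bE : Module.Basis (Fin n) F1 E := Module.finBasis F1 E
  let Φ : (Fin μ → LF F1) →ₗ[LF F1] (Fin m × Fin n → LF F1) :=
    (coord (m := m) bE).toLinearMap ∘ₗ comb dir
  have hΦ : Function.Injective Φ := by
    rw [← LinearMap.ker_eq_bot, LinearMap.ker_eq_bot']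
    intro l hl
    apply hinj
    intro j
    have h1 : comb dir l = 0 := by
      apply (coord (m := m) bE).injective
      rw [map_zero]
      exact hl
    rw [← comb_apply, h1]
    rfl
  let T : Submodule (LF F1) (Fin m × Fin n → LF F1) := W.map Φ
  have hT : Module.finrank (LF F1) T = Module.finrank (LF F1) W :=
    (LinearEquiv.finrank_eq (Submodule.equivMapOfInjective Φ hΦ W)).symm
  have hres : Module.finrank F1 (LF.resPi T) = Module.finrank (LF F1) W := by
    rw [LF.finrank_resPi, hT]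
  let β : Module.Basis (Fin (Module.finrank (LF F1) W)) F1 (LF.resPi T) :=
    Module.finBasisOfFinrankEq F1 (LF.resPi T) hres
  have hb : ∀ i, ∃ x ∈ T, (∀ a, LF.IsInt (x a)) ∧ ∀ a, (x a).co 0 = (β i : Fin m × Fin n → F1) a :=
    fun i => (LF.mem_resPi T _).mp (β i).2
  choose x hxT hxi hxr using hb
  have hl : ∀ i, ∃ l ∈ W, Φ l = x i := fun i => hxT i
  choose l hlW hlx using hl
  -- integrality of the combinations
  have hint : ∀ i j, LD.IsInt (comb dir (l i) j) ∧
      (comb dir (l i) j).co 0 = ∑ a, (β i : Fin m × Fin n → F1) (j, a) • bE a := by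
    intro i j
    have h1 : ∀ a, (LD.basis bE).repr (comb dir (l i) j) a = x i (j, a) := by
      intro a
      rw [← hlx, ← coord_apply]
      rfl
    have h2 : ∀ (k : ℤ) (a : Fin n), bE.repr ((comb dir (l i) j).co k) a = (x i (j, a)).co k := by
      intro k a
      rw [← h1, LD.basis_repr_co]
    constructor
    · intro k hk
      apply bE.repr.injective
      ext a
      rw [h2, hxi i (j, a) k hk, map_zero, Finsupp.zero_apply]
    · apply bE.repr.injective
      ext a
      rw [h2, hxr, map_sum, Finsupp.finsetSum_apply]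
      rw [Finset.sum_eq_single a]
      · simp
      · intro c _ hc
        simp [Finsupp.single_eq_of_ne hc.symm]
      · simp
  have hV : ∀ i j, ∃ V : PowerSeries E, comb dir (l i) j = LD.ofPS V := fun i j =>
    (LD.isInt_iff _).mp (hint i j).1
  choose V hV using hV
  refine ⟨l, V, hlW, fun i j => by rw [← hV, comb_apply], ?_⟩
  have h3 : ∀ i j, PowerSeries.constantCoeff (V i j) =
      ∑ a, (β i : Fin m × Fin n → F1) (j, a) • bE a := by
    intro i j
    rw [← (hint i j).2, hV]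
    have := LD.co_ofPS (V i j) 0
    rw [Nat.cast_zero] at this
    rw [this, PowerSeries.coeff_zero_eq_constantCoeff_apply]
  rw [Fintype.linearIndependent_iff]
  intro g hg i
  have h4 : LinearIndependent F1 (fun i => (β i : Fin m × Fin n → F1)) :=
    β.linearIndependent.map' (LF.resPi T).subtype (Submodule.ker_subtype _)
  rw [Fintype.linearIndependent_iff] at h4
  apply h4 g _ i
  funext ⟨j, a⟩
  have h5 := congrFun hg j
  simp only [Finset.sum_apply, Pi.smul_apply, Pi.zero_apply, h3] at h5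
  have h6 := congrArg (fun y => bE.repr y a) h5
  simp only [map_sum, map_smul, Finsupp.finsetSum_apply, Finsupp.smul_apply, map_zero,
    Finsupp.zero_apply] at h6
  rw [Finset.sum_apply]
  simp only [Pi.smul_apply, Pi.zero_apply]
  rw [← h6]
  refine Finset.sum_congr rfl fun k _ => ?_
  congr 1
  rw [Finset.sum_eq_single a]
  · simp
  · intro c _ hc
    simp [Finsupp.single_eq_of_ne hc.symm]
  · simp

end fam

end MinVI

end Crest.Agent.R180
end
end

-- ▼ part R180/MinVIPair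
section

set_option autoImplicit false
set_option linter.unusedSectionVars false
noncomputable section

/-!
# Row 180, ROUTE M, step (VI): the second order form on `ker γ'₁`
-/

namespace Crest.Agent.R180

open TensorProduct

namespace MinVI

section pair
variable {P : (A : DA) → (m : ℕ) → NC (Fin m) A.D → Prop} {A : DA} {m : ℕ}
  {Λ : Subalgebra A.F A.D} {γ : NC (Fin m) A.D} {M : Adm A} {z : Fin m → PowerSeries M.E}

/-- combination of the correction terms -/
def kapC (st : Step P Λ γ M z) (l : Fin st.μ → LF M.F1) : LD M.D0 := ∑ i, l i • st.κ i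

theorem lin_comb (hz : ∀ j, PowerSeries.constantCoeff (z j) = 0) (st : Step P Λ γ M z)
    (l : Fin st.μ → LF M.F1) (V : Fin m → PowerSeries M.E)
    (hV : ∀ j, (LD.ofPS (V j) : LD M.E) = ∑ i, l i • (LD.ofPS (st.dir i j) : LD M.E)) :
    ∑ i, l i • st.γ' [i] = LD.ofPS (M.dv z V γ) -
      (LD.ofPS (M.ev z γ) * kapC st l - kapC st l * LD.ofPS (M.ev z γ)) := by
  rw [← dv_lin M z hz l st.dir V hV γ]
  simp only [st.lin, smul_sub, Finset.sum_sub_distrib, kapC, Finset.mul_sum, Finset.sum_mul,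
    mul_smul_comm, smul_mul_assoc]

theorem quad_comb (hz : ∀ j, PowerSeries.constantCoeff (z j) = 0) (st : Step P Λ γ M z)
    (l l' : Fin st.μ → LF M.F1) (V V' : Fin m → PowerSeries M.E)
    (hV : ∀ j, (LD.ofPS (V j) : LD M.E) = ∑ i, l i • (LD.ofPS (st.dir i j) : LD M.E))
    (hV' : ∀ j, (LD.ofPS (V' j) : LD M.E) = ∑ i, l' i • (LD.ofPS (st.dir i j) : LD M.E)) :
    ∃ Y : LD M.D0, ∑ i, ∑ k, (l i * l' k) • st.γ' [i, k] = LD.ofPS (M.d2 z V V' γ) +
      kapC st l * LD.ofPS (M.dv z V' γ) - (∑ i, l i • st.γ' [i]) * kapC st l' -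
      (LD.ofPS (M.ev z γ) * Y - Y * LD.ofPS (M.ev z γ)) := by
  choose y hy using st.quad
  refine ⟨∑ i, ∑ k, (l i * l' k) • y i k, ?_⟩
  rw [← dv_lin M z hz l' st.dir V' hV' γ, ← d2_lin M z hz l l' st.dir V V' hV hV' γ]
  have h1 : kapC st l * (∑ k, l' k • (LD.ofPS (M.dv z (st.dir k) γ) : LD M.D0)) =
      ∑ i, ∑ k, (l i * l' k) • (st.κ i * LD.ofPS (M.dv z (st.dir k) γ)) := by
    rw [kapC, Finset.sum_mul_sum]
    simp only [smul_mul_smul_comm]
  have h2 : (∑ i, l i • st.γ' [i]) * kapC st l' =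
      ∑ i, ∑ k, (l i * l' k) • (st.γ' [i] * st.κ k) := by
    rw [kapC, Finset.sum_mul_sum]
    simp only [smul_mul_smul_comm]
  have h3 : (LD.ofPS (M.ev z γ) : LD M.D0) * (∑ i, ∑ k, (l i * l' k) • y i k) =
      ∑ i, ∑ k, (l i * l' k) • (LD.ofPS (M.ev z γ) * y i k) := by
    simp only [Finset.mul_sum, mul_smul_comm]
  have h4 : (∑ i, ∑ k, (l i * l' k) • y i k) * (LD.ofPS (M.ev z γ) : LD M.D0) =
      ∑ i, ∑ k, (l i * l' k) • (y i k * LD.ofPS (M.ev z γ)) := by
    simp only [Finset.sum_mul, smul_mul_assoc]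
  rw [h1, h2, h3, h4]
  simp only [← Finset.sum_add_distrib, ← Finset.sum_sub_distrib]
  refine Finset.sum_congr rfl fun i _ => Finset.sum_congr rfl fun k _ => ?_
  rw [hy i k, smul_sub, smul_sub, smul_sub, smul_add]

/-- a tracial functional kills `h w [c₀, x]` when `h`, `w` commute with `c₀` -/
theorem tr_comm_zero {F' K' : Type} [Field F'] [Ring K'] [Algebra F' K'] (T : K' →ₗ[F'] F')
    (hT : ∀ x y, T (x * y) = T (y * x)) (h c0 x : K') (hh : c0 * h = h * c0) :
    T (h * (c0 * x - x * c0)) = 0 := by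
  have h1 : T (h * (x * c0)) = T (h * (c0 * x)) := by
    rw [← mul_assoc, hT, ← mul_assoc, hh, mul_assoc]
  rw [mul_sub, map_sub, h1, sub_self]

/-- **entry of the Gram matrix** -/
theorem gram_entry (hz : ∀ j, PowerSeries.constantCoeff (z j) = 0) (st : Step P Λ γ M z)
    (T : LD M.D0 →ₗ[LF M.F1] LF M.F1) (hT : ∀ x y, T (x * y) = T (y * x))
    (h : LD M.D0) (hh : LD.ofPS (M.ev z γ) * h = h * LD.ofPS (M.ev z γ))
    (l l' : Fin st.μ → LF M.F1) (V V' : Fin m → PowerSeries M.E)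
    (hV : ∀ j, (LD.ofPS (V j) : LD M.E) = ∑ i, l i • (LD.ofPS (st.dir i j) : LD M.E))
    (hV' : ∀ j, (LD.ofPS (V' j) : LD M.E) = ∑ i, l' i • (LD.ofPS (st.dir i j) : LD M.E))
    (hl : ∑ i, l i • st.γ' [i] = 0) (hl' : ∑ i, l' i • st.γ' [i] = 0)
    (n : ℤ) (κ : LD M.D0)
    (hκ : LD.ofPS (M.ev z γ) * (LD.tp n * kapC st l) - LD.tp n * kapC st l * LD.ofPS (M.ev z γ) =
      LD.ofPS (M.ev z γ) * κ - κ * LD.ofPS (M.ev z γ)) :
    LF.tp n * T (h * ∑ i, ∑ k, (l i * l' k) • st.γ' [i, k]) =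
      LF.tp n * T (h * LD.ofPS (M.d2 z V V' γ)) + T (h * κ * LD.ofPS (M.dv z V' γ)) := by
  obtain ⟨Y, hY⟩ := quad_comb hz st l l' V V' hV hV'
  have hy' : (LD.ofPS (M.dv z V' γ) : LD M.D0) =
      LD.ofPS (M.ev z γ) * kapC st l' - kapC st l' * LD.ofPS (M.ev z γ) := by
    have := lin_comb hz st l' V' hV'
    rw [hl'] at this
    exact (sub_eq_zero.mp this.symm)
  set c0 : LD M.D0 := LD.ofPS (M.ev z γ) with hc0
  rw [hY, hl, zero_mul, sub_zero, mul_sub, mul_add, map_sub, map_add,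
    tr_comm_zero T hT h c0 Y hh, sub_zero, mul_add]
  congr 1
  have h1 : c0 * (h * (LD.tp n * kapC st l - κ)) = (h * (LD.tp n * kapC st l - κ)) * c0 := by
    have h2 : c0 * (LD.tp n * kapC st l - κ) = (LD.tp n * kapC st l - κ) * c0 := by
      have h3 := sub_eq_zero.mpr hκ
      rw [mul_sub, sub_mul, ← sub_eq_zero]
      rw [← h3]
      abel
    rw [← mul_assoc, hh, mul_assoc, h2, mul_assoc]
  have h2 := tr_comm_zero T hT _ c0 (kapC st l') h1
  rw [← hy', mul_sub, sub_mul, map_sub, sub_eq_zero] at h2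
  rw [← h2, ← smul_eq_mul, ← map_smul, LD.smul_def, LD.toLD_tp]
  congr 1
  rw [← mul_assoc h (LD.tp n), ← LD.tp_commute n h]
  simp only [mul_assoc]

end pair

end MinVI

end Crest.Agent.R180
end
end

-- ▼ part R180/MinVIDim
section

set_option autoImplicit false
set_option linter.unusedSectionVars false
noncomputable section

/-!
# Row 180, ROUTE M, step (VI): dimension count for the linear part
-/

namespace Crest.Agent.R180

open TensorProduct

namespace MinVI

/-- rank-nullity for the image of a subspace -/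
theorem finrank_add_range_le {k V W : Type} [Field k] [AddCommGroup V] [Module k V]
    [AddCommGroup W] [Module k W] [FiniteDimensional k V] (f : V →ₗ[k] W) (Q : Submodule k V) :
    Module.finrank k Q + Module.finrank k (LinearMap.range f) ≤
      Module.finrank k (Q.map f) + Module.finrank k V := by
  have h1 := LinearMap.finrank_range_add_finrank_ker (f.domRestrict Q)
  have h2 : LinearMap.range (f.domRestrict Q) = Q.map f := by
    rw [LinearMap.domRestrict, LinearMap.range_comp, Submodule.range_subtype]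
  have h3 : Module.finrank k (LinearMap.ker (f.domRestrict Q)) ≤
      Module.finrank k (LinearMap.ker f) := by
    have h4 : (LinearMap.ker (f.domRestrict Q)).map Q.subtype ≤ LinearMap.ker f := by
      rintro _ ⟨x, hx, rfl⟩
      exact hx
    rw [← Submodule.finrank_map_subtype_eq Q (LinearMap.ker (f.domRestrict Q))]
    exact Submodule.finrank_mono h4
  have h4 := LinearMap.finrank_range_add_finrank_ker f
  rw [h2] at h1
  omega

variable {A : DA} (M : Adm A) {m : ℕ} (γ : NC (Fin m) A.D)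

/-- the leading term of the linear part at constant vectors -/
def xi : (Fin m → M.E) →ₗ[M.F1] M.D0 where
  toFun v := ∑ j, v j ⊗ₜ[A.F] γ [j]
  map_add' v w := by simp [TensorProduct.add_tmul, Finset.sum_add_distrib]
  map_smul' c v := by simp [Finset.smul_sum, TensorProduct.smul_tmul']

theorem xi_apply (v : Fin m → M.E) : xi M γ v = ∑ j, v j ⊗ₜ[A.F] γ [j] := rfl

/-- `E ⊗ U` is contained in the range -/
theorem tmul_mem_range_xi (e : M.E) {a : A.D} (ha : a ∈ UU γ) :
    e ⊗ₜ[A.F] a ∈ LinearMap.range (xi M γ) := by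
  obtain ⟨x, rfl⟩ := ha
  refine ⟨fun j => x j • e, ?_⟩
  rw [xi_apply, lin_apply, TensorProduct.tmul_sum]
  refine Finset.sum_congr rfl fun j _ => ?_
  rw [TensorProduct.smul_tmul]

/-- `e_a ⊗ b_i` is an independent family -/
theorem linearIndependent_tmul {ι κ : Type} (e : ι → M.E) (he : LinearIndependent M.F1 e)
    (b : κ → A.D) (hb : LinearIndependent A.F b) :
    LinearIndependent M.F1 fun p : ι × κ => (e p.1 ⊗ₜ[A.F] b p.2 : M.E ⊗[A.F] A.D) := by
  have h1 : LinearIndependent M.E (fun i => ((1 : M.E) ⊗ₜ[A.F] b i : M.E ⊗[A.F] A.D)) :=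
    Module.Flat.linearIndependent_one_tmul hb
  have h2 := linearIndependent_smul he h1
  have h3 : (fun p : ι × κ => (e p.1 ⊗ₜ[A.F] b p.2 : M.E ⊗[A.F] A.D)) =
      fun p : ι × κ => e p.1 • ((1 : M.E) ⊗ₜ[A.F] b p.2) := by
    funext p
    rw [TensorProduct.smul_tmul', smul_eq_mul, mul_one]
  rw [h3]
  exact h2

theorem le_finrank_range_xi :
    Module.finrank M.F1 M.E * Module.finrank A.F (UU γ) ≤
      Module.finrank M.F1 (LinearMap.range (xi M γ)) := by
  classical
  let e := Module.finBasis M.F1 M.E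
  let b := Module.finBasis A.F (UU γ)
  have hb : LinearIndependent A.F (fun i => (b i : A.D)) :=
    b.linearIndependent.map' (UU γ).subtype (Submodule.ker_subtype _)
  have h1 := linearIndependent_tmul M e e.linearIndependent _ hb
  have h2 := finrank_span_eq_card h1
  rw [Fintype.card_prod, Fintype.card_fin, Fintype.card_fin] at h2
  rw [← h2]
  refine Submodule.finrank_mono ?_
  rw [Submodule.span_le]
  rintro _ ⟨p, rfl⟩
  exact tmul_mem_range_xi M γ _ (b p.2).2

/-- **dimension of the space of leading terms** -/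
theorem finrank_span_xi {p : ℕ} (v : Fin p → Fin m → M.E) (hv : LinearIndependent M.F1 v) :
    p + Module.finrank M.F1 M.E * Module.finrank A.F (UU γ) ≤
      Module.finrank M.F1 (Submodule.span M.F1 (Set.range fun i => xi M γ (v i))) +
        m * Module.finrank M.F1 M.E := by
  have h1 := finrank_add_range_le (xi M γ) (Submodule.span M.F1 (Set.range v))
  have h2 := finrank_span_eq_card hv
  rw [Fintype.card_fin] at h2
  have h3 : (Submodule.span M.F1 (Set.range v)).map (xi M γ) =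
      Submodule.span M.F1 (Set.range fun i => xi M γ (v i)) := by
    rw [Submodule.map_span]
    congr 1
    exact (Set.range_comp _ _).symm
  have h4 : Module.finrank M.F1 (Fin m → M.E) = m * Module.finrank M.F1 M.E := by
    rw [Module.finrank_pi_fintype, Finset.sum_const, Finset.card_univ, Fintype.card_fin,
      smul_eq_mul]
  have h5 := le_finrank_range_xi M γ
  rw [h2, h3, h4] at h1
  omega

end MinVI

end Crest.Agent.R180
end
end

-- ▼ part R180/MinVIres
section

set_option autoImplicit false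

/-!
# Row 180, ROUTE M, (VI): the rank lemma `vi_rank` (helper881)
-/

noncomputable section
namespace Crest.Agent.R180

open TensorProduct

namespace MinVI

section lin
variable {K V : Type*} [Field K] [AddCommGroup V] [Module K V] [FiniteDimensional K V]

/-- `dim (A K') + dim (ker A ⊓ K') = dim K'` -/
theorem finrank_map_add {V2 : Type*} [AddCommGroup V2] [Module K V2] (A : V →ₗ[K] V2)
    (K' : Submodule K V) :
    Module.finrank K (K'.map A) + Module.finrank K (LinearMap.ker A ⊓ K' : Submodule K V) =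
      Module.finrank K K' := by
  have h := LinearMap.finrank_range_add_finrank_ker (A.domRestrict K')
  rw [LinearMap.range_domRestrict] at h
  have h2 : Module.finrank K (LinearMap.ker (A.domRestrict K')) =
      Module.finrank K (LinearMap.ker A ⊓ K' : Submodule K V) := by
    have h3 : (LinearMap.ker (A.domRestrict K')).map K'.subtype = LinearMap.ker A ⊓ K' := by
      ext y
      constructor
      · rintro ⟨z, hz, rfl⟩
        exact ⟨hz, z.2⟩
      · rintro ⟨hy1, hy2⟩
        exact ⟨⟨y, hy2⟩, hy1, rfl⟩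
    rw [← h3]
    exact (Submodule.equivMapOfInjective K'.subtype K'.injective_subtype _).finrank_eq
  rw [h2] at h
  exact h

/-- the rank of a Gram matrix for a form that lives on `V / ker A` -/
theorem rank_ge (β : V →ₗ[K] V →ₗ[K] K) (hβ : ∀ y, (∀ k, β k y = 0) → y = 0) (A : V →ₗ[K] V)
    (hA : ∀ k, A k = 0 → ∀ y, β k (A y) = 0) {p : ℕ} (k : Fin p → V) :
    2 * Module.finrank K (Submodule.span K (Set.range fun i => A (k i))) +
      Module.finrank K (LinearMap.ker A) ≤
      (Matrix.of fun i j => β (k i) (A (k j))).rank + Module.finrank K V := by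
  classical
  set X := Submodule.span K (Set.range fun i => A (k i)) with hX
  set K' := Submodule.span K (Set.range k) ⊔ LinearMap.ker A with hK'
  have h1 : K'.map A = X := by
    have h0 : (LinearMap.ker A).map A = ⊥ := by
      rw [eq_bot_iff]
      rintro _ ⟨y, hy, rfl⟩
      exact hy
    rw [hK', Submodule.map_sup, h0, sup_bot_eq, Submodule.map_span, ← Set.range_comp]
    rfl
  have h2 : Module.finrank K X + Module.finrank K (LinearMap.ker A) = Module.finrank K K' := by
    have := finrank_map_add A K'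
    rw [h1, inf_eq_left.2 (show LinearMap.ker A ≤ K' from le_sup_right)] at this
    exact this
  let Φ : V →ₗ[K] (Fin p → K) := LinearMap.pi fun i => β (k i)
  have h3 : (Matrix.of fun i j => β (k i) (A (k j))).rank = Module.finrank K (X.map Φ) := by
    rw [Matrix.rank_eq_finrank_span_cols, hX, Submodule.map_span, ← Set.range_comp]
    rfl
  have h4 := finrank_map_add Φ X
  have h5 : Module.finrank K (LinearMap.ker Φ ⊓ X : Submodule K V) ≤
      Module.finrank K K'.dualAnnihilator := by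
    have hinj : Function.Injective β.flip := by
      rw [← LinearMap.ker_eq_bot, LinearMap.ker_eq_bot']
      intro y hy
      apply hβ
      intro z
      exact congrArg (fun g : V →ₗ[K] K => g z) hy
    rw [(Submodule.equivMapOfInjective β.flip hinj (LinearMap.ker Φ ⊓ X)).finrank_eq]
    apply Submodule.finrank_mono
    rintro _ ⟨y, ⟨hy1, hy2⟩, rfl⟩
    rw [Submodule.mem_dualAnnihilator]
    intro w hw
    rw [hK', Submodule.mem_sup] at hw
    obtain ⟨w1, hw1, w2, hw2, rfl⟩ := hw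
    rw [map_add]
    have e1 : β.flip y w1 = 0 := by
      change β w1 y = 0
      induction hw1 using Submodule.span_induction with
      | mem x hx =>
        obtain ⟨i, rfl⟩ := hx
        exact congrFun hy1 i
      | zero => simp
      | add a b _ _ ha hb => rw [map_add, LinearMap.add_apply, ha, hb, add_zero]
      | smul c a _ ha => rw [map_smul, LinearMap.smul_apply, ha, smul_zero]
    have e2 : β.flip y w2 = 0 := by
      change β w2 y = 0
      have hyX : y ∈ X := hy2
      rw [← h1] at hyX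
      obtain ⟨y', -, rfl⟩ := hyX
      exact hA w2 hw2 y'
    rw [e1, e2, add_zero]
  have h6 := Subspace.finrank_add_finrank_dualAnnihilator_eq K'
  rw [h3]
  omega

end lin

section tensor

variable {F D F1 E : Type} [Field F] [Ring D] [Algebra F D] [Field F1] [Algebra F F1]
  [Ring E] [Algebra F1 E] [Algebra F E] [IsScalarTower F F1 E]

/-- the subspace `C ⊗ Ξ` of `E ⊗ D` -/
def TT (C : Submodule F1 E) (Ξ : Submodule F D) : Submodule F1 (E ⊗[F] D) :=
  Submodule.span F1 {y | ∃ e ∈ C, ∃ a ∈ Ξ, y = e ⊗ₜ[F] a}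

theorem tmul_mem_TT {C : Submodule F1 E} {Ξ : Submodule F D} {e : E} {a : D} (he : e ∈ C)
    (ha : a ∈ Ξ) : e ⊗ₜ[F] a ∈ TT C Ξ := Submodule.subset_span ⟨e, he, a, ha, rfl⟩

theorem finrank_TT [FiniteDimensional F1 E] [FiniteDimensional F D] (C : Submodule F1 E)
    (Ξ : Submodule F D) :
    Module.finrank F1 (TT C Ξ) = Module.finrank F1 C * Module.finrank F Ξ := by
  classical
  let bC := Module.finBasis F1 C
  let bX := Module.finBasis F Ξ
  have hC : LinearIndependent F1 (fun i => ((bC i : C) : E)) :=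
    bC.linearIndependent.map' C.subtype (Submodule.ker_subtype C)
  have hXX : LinearIndependent F (fun i => ((bX i : Ξ) : D)) :=
    bX.linearIndependent.map' Ξ.subtype (Submodule.ker_subtype Ξ)
  have hind := MinI.indep_tensor (F1 := F1) (E := E) _ hC _ hXX
  have hspan : TT C Ξ = Submodule.span F1 (Set.range fun p :
      Fin (Module.finrank F1 C) × Fin (Module.finrank F Ξ) =>
      ((bC p.1 : C) : E) ⊗ₜ[F] ((bX p.2 : Ξ) : D)) := by
    apply le_antisymm
    · rw [TT, Submodule.span_le]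
      rintro _ ⟨e, he, a, ha, rfl⟩
      have h1 : e = ∑ i, bC.repr ⟨e, he⟩ i • ((bC i : C) : E) := by
        have := congrArg Subtype.val (bC.sum_repr ⟨e, he⟩)
        rw [AddSubmonoidClass.coe_finsetSum] at this
        exact this.symm
      have h2 : a = ∑ i, bX.repr ⟨a, ha⟩ i • ((bX i : Ξ) : D) := by
        have := congrArg Subtype.val (bX.sum_repr ⟨a, ha⟩)
        rw [AddSubmonoidClass.coe_finsetSum] at this
        exact this.symm
      rw [SetLike.mem_coe, h1, h2, TensorProduct.sum_tmul]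
      refine Submodule.sum_mem _ fun i _ => ?_
      rw [TensorProduct.tmul_sum]
      refine Submodule.sum_mem _ fun j _ => ?_
      rw [← TensorProduct.smul_tmul', TensorProduct.tmul_smul,
        ← IsScalarTower.algebraMap_smul F1 ((bX.repr ⟨a, ha⟩) j)]
      exact Submodule.smul_mem _ _ (Submodule.smul_mem _ _ (Submodule.subset_span ⟨(i, j), rfl⟩))
    · rw [Submodule.span_le]
      rintro _ ⟨p, rfl⟩
      exact tmul_mem_TT (bC p.1).2 (bX p.2).2
  rw [hspan, finrank_span_eq_card hind, Fintype.card_prod, Fintype.card_fin, Fintype.card_fin]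

theorem TT_mul {Ψ : Subalgebra F D} {x y : E ⊗[F] D}
    (hx : x ∈ TT (F1 := F1) (E := E) ⊤ (Subalgebra.toSubmodule Ψ))
    (hy : y ∈ TT (F1 := F1) (E := E) ⊤ (Subalgebra.toSubmodule Ψ)) :
    x * y ∈ TT (F1 := F1) (E := E) ⊤ (Subalgebra.toSubmodule Ψ) := by
  induction hx using Submodule.span_induction with
  | mem x hx =>
    obtain ⟨e, -, a, ha, rfl⟩ := hx
    induction hy using Submodule.span_induction with
    | mem y hy =>
      obtain ⟨e', -, a', ha', rfl⟩ := hy
      rw [Algebra.TensorProduct.tmul_mul_tmul]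
      exact tmul_mem_TT Submodule.mem_top (Ψ.mul_mem ha ha')
    | zero => rw [mul_zero]; exact Submodule.zero_mem _
    | add p q _ _ hp hq => rw [mul_add]; exact Submodule.add_mem _ hp hq
    | smul c p _ hp => rw [mul_smul_comm]; exact Submodule.smul_mem _ _ hp
  | zero => rw [zero_mul]; exact Submodule.zero_mem _
  | add p q _ _ hp hq => rw [add_mul]; exact Submodule.add_mem _ hp hq
  | smul c p _ hp => rw [smul_mul_assoc]; exact Submodule.smul_mem _ _ hp

/-- `E ⊗ Ψ` as a subalgebra -/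
def TA (F1 E : Type) [Field F1] [Algebra F F1] [Ring E] [Algebra F1 E] [Algebra F E]
    [IsScalarTower F F1 E] (Ψ : Subalgebra F D) : Subalgebra F1 (E ⊗[F] D) where
  carrier := TT (F1 := F1) (E := E) ⊤ (Subalgebra.toSubmodule Ψ)
  mul_mem' := TT_mul
  add_mem' := Submodule.add_mem _
  algebraMap_mem' r := by
    rw [Algebra.TensorProduct.algebraMap_apply]
    exact tmul_mem_TT Submodule.mem_top Ψ.one_mem

/-- `E`-linear extension of a projection `D → Ψ` -/
theorem exists_proj (Ψ : Subalgebra F D) : ∃ P : E ⊗[F] D →ₗ[F1] E ⊗[F] D,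
    (∀ x, P x ∈ TA F1 E Ψ) ∧ (∀ x ∈ TA F1 E Ψ, P x = x) ∧
    (∀ (e : E) x, P ((e ⊗ₜ[F] (1 : D)) * x) = (e ⊗ₜ[F] (1 : D)) * P x) ∧
    (∀ (e : E) x, P (x * (e ⊗ₜ[F] (1 : D))) = P x * (e ⊗ₜ[F] (1 : D))) := by
  obtain ⟨π, hπ⟩ := LinearMap.exists_leftInverse_of_injective (Ψ.val.toLinearMap)
    (LinearMap.ker_eq_bot_of_injective Subtype.val_injective)
  have hπ' : ∀ a : Ψ, π (a : D) = a := fun a => congrArg (fun g : Ψ →ₗ[F] Ψ => g a) hπ
  let P : E ⊗[F] D →ₗ[F1] E ⊗[F] D :=
    AlgebraTensorModule.map (LinearMap.id : E →ₗ[F1] E) (Ψ.val.toLinearMap ∘ₗ π)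
  have hP : ∀ (e : E) (a : D), P (e ⊗ₜ[F] a) = e ⊗ₜ[F] ((π a : Ψ) : D) := fun e a => rfl
  refine ⟨P, fun x => ?_, fun x hx => ?_, fun e x => ?_, fun e x => ?_⟩
  · induction x using TensorProduct.induction_on with
    | zero => rw [map_zero]; exact (TA F1 E Ψ).zero_mem
    | tmul e a => rw [hP]; exact tmul_mem_TT Submodule.mem_top (π a).2
    | add p q hp hq => rw [map_add]; exact (TA F1 E Ψ).add_mem hp hq
  · change x ∈ TT (F1 := F1) (E := E) ⊤ (Subalgebra.toSubmodule Ψ) at hx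
    induction hx using Submodule.span_induction with
    | mem x hx =>
      obtain ⟨e, -, a, ha, rfl⟩ := hx
      have := hπ' ⟨a, ha⟩
      rw [hP, this]
    | zero => rw [map_zero]
    | add p q _ _ hp hq => rw [map_add, hp, hq]
    | smul c p _ hp => rw [map_smul, hp]
  · induction x using TensorProduct.induction_on with
    | zero => simp
    | tmul e' a =>
      rw [Algebra.TensorProduct.tmul_mul_tmul, one_mul, hP, hP,
        Algebra.TensorProduct.tmul_mul_tmul, one_mul]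
    | add p q hp hq => rw [mul_add, map_add, hp, hq, map_add, mul_add]
  · induction x using TensorProduct.induction_on with
    | zero => simp
    | tmul e' a =>
      rw [Algebra.TensorProduct.tmul_mul_tmul, mul_one, hP, hP,
        Algebra.TensorProduct.tmul_mul_tmul, mul_one]
    | add p q hp hq => rw [add_mul, map_add, hp, hq, map_add, add_mul]

end tensor

section adm
variable {A : DA} (M : Adm A)

theorem tt_tmul (tE : M.E →ₗ[M.F1] M.F1) (t : A.D →ₗ[A.F] A.F) (e : M.E) (a : A.D) :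
    M.tt tE t (e ⊗ₜ[A.F] a) = t a • tE e := by
  change tE (MinI.ellE (F1 := M.F1) M.E t (e ⊗ₜ[A.F] a)) = _
  rw [MinI.ellE_tmul, ← IsScalarTower.algebraMap_smul M.F1 (t a), map_smul,
    IsScalarTower.algebraMap_smul M.F1 (t a)]

theorem tt_comm {tE : M.E →ₗ[M.F1] M.F1} {t : A.D →ₗ[A.F] A.F} (ht : ∀ x y, t (x * y) = t (y * x))
    (htE : ∀ x y, tE (x * y) = tE (y * x)) (x y : M.D0) :
    M.tt tE t (x * y) = M.tt tE t (y * x) := by
  induction x using TensorProduct.induction_on with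
  | zero => simp
  | tmul e a =>
    induction y using TensorProduct.induction_on with
    | zero => simp
    | tmul e' a' =>
      rw [Algebra.TensorProduct.tmul_mul_tmul, Algebra.TensorProduct.tmul_mul_tmul, tt_tmul,
        tt_tmul, ht, htE]
    | add p q hp hq => rw [mul_add, add_mul, map_add, map_add, hp, hq]
  | add p q hp hq => rw [mul_add, add_mul, map_add, map_add, hp, hq]

theorem tt_one {tE : M.E →ₗ[M.F1] M.F1} {t : A.D →ₗ[A.F] A.F} (ht : t 1 ≠ 0) (htE : tE 1 ≠ 0) :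
    M.tt tE t 1 ≠ 0 := by
  rw [Algebra.TensorProduct.one_def, tt_tmul, ← IsScalarTower.algebraMap_smul M.F1 (t 1)]
  intro h
  rw [smul_eq_mul, mul_eq_zero] at h
  rcases h with h | h
  · exact ht ((map_eq_zero_iff _ (algebraMap A.F M.F1).injective).1 h)
  · exact htE h

/-- **rank lemma for (VI)** -/
theorem vi_rank {N : ℕ} (hN : Module.finrank M.F1 M.E = N * N)
    (Ψ : Subalgebra A.F A.D)
    {t : A.D →ₗ[A.F] A.F} (ht : IsTr t) {tE : M.E →ₗ[M.F1] M.F1}
    (htE : (∀ x y, tE (x * y) = tE (y * x)) ∧ tE 1 ≠ 0)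
    {l0 : M.E} (hl0 : Module.finrank M.F1 (Subalgebra.centralizer M.F1 ({l0} : Set M.E)) = N)
    {u u' : A.D} (huu' : u * u' = 1) (hu'u : u' * u = 1) (hu : ∀ a ∈ Ψ, u * a = a * u)
    {h0 : M.D0} (hh0 : h0 ≠ 0)
    (hh : h0 ∈ Submodule.span M.F1 {y : M.D0 | ∃ ψ ∈ Ψ, y = (1 : M.E) ⊗ₜ[A.F] (u' * ψ)})
    {p : ℕ} (k x : Fin p → M.D0)
    (hx : ∀ i, x i = (l0 ⊗ₜ[A.F] u) * k i - k i * (l0 ⊗ₜ[A.F] u))
    (hk : ∀ i, k i * ((1 : M.E) ⊗ₜ[A.F] u) = ((1 : M.E) ⊗ₜ[A.F] u) * k i)
    (hxm : ∀ i, x i ∈ Submodule.span M.F1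
      {y : M.D0 | ∃ (e : M.E) (ψ : A.D), ψ ∈ Ψ ∧ y = e ⊗ₜ[A.F] (u * ψ)}) :
    2 * Module.finrank M.F1 (Submodule.span M.F1 (Set.range x)) ≤
      (Matrix.of fun i j => M.tt tE t (h0 * k i * x j)).rank +
        (N * N - N) * Module.finrank A.F Ψ := by
  classical
  set τ := M.tt tE t with hτ
  have hτc : ∀ x y, τ (x * y) = τ (y * x) := tt_comm M ht.1 htE.1
  have hτ1 : τ 1 ≠ 0 := tt_one M ht.2 htE.2
  set v : M.D0 := (1 : M.E) ⊗ₜ[A.F] u with hv
  set v' : M.D0 := (1 : M.E) ⊗ₜ[A.F] u' with hv'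
  set l : M.D0 := l0 ⊗ₜ[A.F] (1 : A.D) with hl
  have hvv' : v * v' = 1 := by
    rw [hv, hv', Algebra.TensorProduct.tmul_mul_tmul, huu', mul_one, ← Algebra.TensorProduct.one_def]
  have hv'v : v' * v = 1 := by
    rw [hv, hv', Algebra.TensorProduct.tmul_mul_tmul, hu'u, mul_one, ← Algebra.TensorProduct.one_def]
  have hlv : l0 ⊗ₜ[A.F] u = l * v := by
    rw [hl, hv, Algebra.TensorProduct.tmul_mul_tmul, mul_one, one_mul]
  have hlvc : l * v = v * l := by
    rw [hl, hv, Algebra.TensorProduct.tmul_mul_tmul, Algebra.TensorProduct.tmul_mul_tmul]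
    simp
  -- the algebra `E ⊗ Ψ`
  set B := TA M.F1 M.E Ψ with hB
  obtain ⟨P, hP1, hP2, hP3, hP4⟩ := exists_proj (F1 := M.F1) (E := M.E) Ψ
  have hlB : l ∈ B := tmul_mem_TT Submodule.mem_top Ψ.one_mem
  have hvB : ∀ b ∈ B, v * b = b * v := by
    intro b hb
    change b ∈ TT (F1 := M.F1) (E := M.E) ⊤ (Subalgebra.toSubmodule Ψ) at hb
    induction hb using Submodule.span_induction with
    | mem x hx =>
      obtain ⟨e, -, a, ha, rfl⟩ := hx
      rw [hv, Algebra.TensorProduct.tmul_mul_tmul, Algebra.TensorProduct.tmul_mul_tmul, one_mul,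
        mul_one, hu a ha]
    | zero => simp
    | add p q _ _ hp hq => rw [mul_add, add_mul, hp, hq]
    | smul c p _ hp => rw [mul_smul_comm, smul_mul_assoc, hp]
  -- `ψ₀ = v h₀`
  set ψ0 : M.D0 := v * h0 with hψ0
  have hh0' : h0 = v' * ψ0 := by rw [hψ0, ← mul_assoc, hv'v, one_mul]
  have hψ0mem : ψ0 ∈ Submodule.span M.F1 {y : M.D0 | ∃ ψ ∈ Ψ, y = (1 : M.E) ⊗ₜ[A.F] ψ} := by
    have h1 : ∀ y ∈ Submodule.span M.F1 {y : M.D0 | ∃ ψ ∈ Ψ, y = (1 : M.E) ⊗ₜ[A.F] (u' * ψ)},
        v * y ∈ Submodule.span M.F1 {y : M.D0 | ∃ ψ ∈ Ψ, y = (1 : M.E) ⊗ₜ[A.F] ψ} := by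
      intro y hy
      induction hy using Submodule.span_induction with
      | mem x hx =>
        obtain ⟨a, ha, rfl⟩ := hx
        refine Submodule.subset_span ⟨a, ha, ?_⟩
        rw [hv, Algebra.TensorProduct.tmul_mul_tmul, one_mul, ← mul_assoc, huu', one_mul]
      | zero => rw [mul_zero]; exact Submodule.zero_mem _
      | add p q _ _ hp hq => rw [mul_add]; exact Submodule.add_mem _ hp hq
      | smul c p _ hp => rw [mul_smul_comm]; exact Submodule.smul_mem _ _ hp
    exact h1 _ hh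
  have hψ0B : ψ0 ∈ B := by
    have hle : Submodule.span M.F1 {y : M.D0 | ∃ ψ ∈ Ψ, y = (1 : M.E) ⊗ₜ[A.F] ψ} ≤
        Subalgebra.toSubmodule B := by
      rw [Submodule.span_le]
      rintro _ ⟨a, ha, rfl⟩
      exact tmul_mem_TT Submodule.mem_top ha
    exact hle hψ0mem
  have hv0 : v ≠ 0 := left_ne_zero_of_mul_eq_one hvv'
  have hψ00 : ψ0 ≠ 0 := mul_ne_zero hv0 hh0
  have hψl : ψ0 * l = l * ψ0 := by
    have h1 : ∀ y ∈ Submodule.span M.F1 {y : M.D0 | ∃ ψ ∈ Ψ, y = (1 : M.E) ⊗ₜ[A.F] ψ},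
        y * l = l * y := by
      intro y hy
      induction hy using Submodule.span_induction with
      | mem x hx =>
        obtain ⟨a, ha, rfl⟩ := hx
        rw [hl, Algebra.TensorProduct.tmul_mul_tmul, Algebra.TensorProduct.tmul_mul_tmul]
        simp
      | zero => simp
      | add p q _ _ hp hq => rw [mul_add, add_mul, hp, hq]
      | smul c p _ hp => rw [mul_smul_comm, smul_mul_assoc, hp]
    exact h1 _ hψ0mem
  -- `y = x v⁻¹ = [l, k]`
  have hkv : ∀ i, k i * v = v * k i := hk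
  let y : Fin p → M.D0 := fun i => x i * v'
  have hy : ∀ i, y i = l * k i - k i * l := by
    intro i
    have h1 : x i = (l * k i - k i * l) * v := by
      rw [hx i, hlv, sub_mul, mul_assoc l v, ← hkv i, mul_assoc (k i) l v, ← mul_assoc l]
    change x i * v' = _
    rw [h1, mul_assoc, hvv', mul_one]
  have hxy : ∀ i, x i = y i * v := by
    intro i
    change x i = x i * v' * v
    rw [mul_assoc, hv'v, mul_one]
  have hyB : ∀ i, y i ∈ B := by
    intro i
    have hle : Submodule.span M.F1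
        {y : M.D0 | ∃ (e : M.E) (ψ : A.D), ψ ∈ Ψ ∧ y = e ⊗ₜ[A.F] (u * ψ)} ≤
        (Subalgebra.toSubmodule B).comap (LinearMap.mulRight M.F1 v') := by
      rw [Submodule.span_le]
      rintro _ ⟨e, a, ha, rfl⟩
      change (e ⊗ₜ[A.F] (u * a)) * v' ∈ B
      rw [hv', Algebra.TensorProduct.tmul_mul_tmul, hu a ha, mul_one, mul_assoc, huu', mul_one]
      exact tmul_mem_TT Submodule.mem_top ha
    exact hle (hxm i)
  -- replace `k` by its projection
  let k' : Fin p → M.D0 := fun i => P (k i)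
  have hk'B : ∀ i, k' i ∈ B := fun i => hP1 _
  have hk' : ∀ i, l * k' i - k' i * l = y i := by
    intro i
    change l * P (k i) - P (k i) * l = y i
    rw [hl, ← hP3, ← hP4, ← map_sub, ← hl, ← hy i]
    exact hP2 _ (hyB i)
  -- the Gram matrix
  have hkill : ∀ κ : M.D0, κ * l = l * κ → ∀ b : M.D0, τ (κ * (l * b - b * l)) = 0 := by
    intro κ hκ b
    rw [mul_sub, map_sub, ← mul_assoc, hκ, mul_assoc l, hτc l, mul_assoc κ b l, sub_self]
  have hgram : ∀ i j, τ (h0 * k i * x j) = τ (ψ0 * k' i * y j) := by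
    intro i j
    have h1 : τ (h0 * k i * x j) = τ (ψ0 * k i * y j) := by
      have h2 : h0 * k i * x j = v' * (ψ0 * k i * y j * v) := by
        rw [hxy j, hh0']
        simp only [mul_assoc]
      rw [h2, hτc, mul_assoc, hvv', mul_one]
    rw [h1, ← sub_eq_zero, ← map_sub, ← sub_mul, ← mul_sub, ← hk' j]
    apply hkill
    have h2 : (k i - k' i) * l = l * (k i - k' i) := by
      have h3 := hk' i
      rw [hy i] at h3
      rw [mul_sub, sub_mul]
      rw [sub_eq_sub_iff_add_eq_add] at h3 ⊢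
      rw [add_comm, ← h3, add_comm]
    rw [mul_assoc, h2, ← mul_assoc, hψl, mul_assoc]
  -- the linear algebra on `E ⊗ Ψ`
  have hfinB : FiniteDimensional M.F1 B := FiniteDimensional.finiteDimensional_submodule
    (Subalgebra.toSubmodule B)
  let β : B →ₗ[M.F1] B →ₗ[M.F1] M.F1 :=
    ((LinearMap.mul M.F1 B).compr₂ (τ ∘ₗ B.val.toLinearMap)) ∘ₗ
      (LinearMap.mulLeft M.F1 (⟨ψ0, hψ0B⟩ : B))
  have hβ : ∀ a b : B, β a b = τ (ψ0 * a * b) := fun a b => rfl
  let Aop : B →ₗ[M.F1] B := LinearMap.mulLeft M.F1 (⟨l, hlB⟩ : B) -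
    LinearMap.mulRight M.F1 (⟨l, hlB⟩ : B)
  have hAop : ∀ a : B, ((Aop a : B) : M.D0) = l * a - a * l := fun a => rfl
  have hnd : ∀ b : B, (∀ a, β a b = 0) → b = 0 := by
    intro b hb
    by_contra hb0
    have hb0' : (b : M.D0) ≠ 0 := fun h => hb0 (Subtype.ext h)
    obtain ⟨b', hb'B, -, hb'⟩ := MinF.exists_inv_mem (F := M.F1) B b.2 hb0'
    obtain ⟨q, hqB, hq, -⟩ := MinF.exists_inv_mem (F := M.F1) B hψ0B hψ00
    have h1 := hb ⟨q * b', B.mul_mem hqB hb'B⟩
    rw [hβ] at h1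
    change τ (ψ0 * (q * b') * b) = 0 at h1
    rw [← mul_assoc, hq, one_mul, hb'] at h1
    exact hτ1 h1
  have hA : ∀ a : B, Aop a = 0 → ∀ b, β a (Aop b) = 0 := by
    intro a ha b
    rw [hβ, hAop]
    apply hkill
    have h1 : l * (a : M.D0) - a * l = 0 := by rw [← hAop, ha]; rfl
    rw [mul_assoc, ← sub_eq_zero.mp h1, ← mul_assoc, hψl, mul_assoc]
  have key := rank_ge β hnd Aop hA (fun i => (⟨k' i, hk'B i⟩ : B))
  have hrk : (Matrix.of fun i j => β (⟨k' i, hk'B i⟩ : B) (Aop (⟨k' j, hk'B j⟩ : B))).rank =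
      (Matrix.of fun i j => τ (h0 * k i * x j)).rank := by
    congr 2
    funext i j
    rw [hgram, hβ, hAop]
    change τ (ψ0 * k' i * (l * k' j - k' j * l)) = _
    rw [hk' j]
  have hdimB : Module.finrank M.F1 B = N * N * Module.finrank A.F Ψ := by
    have h1 := finrank_TT (F1 := M.F1) (E := M.E) ⊤ (Subalgebra.toSubmodule Ψ)
    rw [finrank_top, hN] at h1
    exact h1
  have hker : N * Module.finrank A.F Ψ ≤ Module.finrank M.F1 (LinearMap.ker Aop) := by
    have h1 := finrank_TT (F1 := M.F1) (E := M.E)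
      (Subalgebra.toSubmodule (Subalgebra.centralizer M.F1 ({l0} : Set M.E)))
      (Subalgebra.toSubmodule Ψ)
    have h2 : Module.finrank M.F1 (Subalgebra.toSubmodule
      (Subalgebra.centralizer M.F1 ({l0} : Set M.E))) = N := hl0
    rw [h2] at h1
    have h3 : TT (Subalgebra.toSubmodule (Subalgebra.centralizer M.F1 ({l0} : Set M.E)))
        (Subalgebra.toSubmodule Ψ) ≤ (LinearMap.ker Aop).map B.val.toLinearMap := by
      rw [TT, Submodule.span_le]
      rintro _ ⟨e, he, a, ha, rfl⟩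
      refine ⟨⟨e ⊗ₜ[A.F] a, tmul_mem_TT Submodule.mem_top ha⟩, ?_, rfl⟩
      rw [SetLike.mem_coe, LinearMap.mem_ker]
      apply Subtype.ext
      rw [hAop]
      change l * (e ⊗ₜ[A.F] a) - (e ⊗ₜ[A.F] a) * l = 0
      have he' : l0 * e = e * l0 := (Subalgebra.mem_centralizer_iff M.F1).1 he l0 rfl
      rw [hl, Algebra.TensorProduct.tmul_mul_tmul, Algebra.TensorProduct.tmul_mul_tmul, he',
        one_mul, mul_one, sub_self]
    have h4 := Submodule.finrank_mono h3
    rw [h1, ← (Submodule.equivMapOfInjective B.val.toLinearMap Subtype.val_injective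
      (LinearMap.ker Aop)).finrank_eq] at h4
    exact h4
  have hX : Module.finrank M.F1 (Submodule.span M.F1 (Set.range x)) =
      Module.finrank M.F1 (Submodule.span M.F1
        (Set.range fun i => Aop (⟨k' i, hk'B i⟩ : B))) := by
    have hinj : Function.Injective ((LinearMap.mulRight M.F1 v) ∘ₗ B.val.toLinearMap) := by
      rw [← LinearMap.ker_eq_bot, LinearMap.ker_eq_bot']
      intro b hb
      have h1 : (b : M.D0) * v = 0 := hb
      exact Subtype.ext ((mul_eq_zero.mp h1).resolve_right hv0)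
    rw [(Submodule.equivMapOfInjective _ hinj (Submodule.span M.F1
        (Set.range fun i => Aop (⟨k' i, hk'B i⟩ : B)))).finrank_eq, Submodule.map_span,
      ← Set.range_comp]
    have h2 : x = ((LinearMap.mulRight M.F1 v) ∘ₗ B.val.toLinearMap) ∘
        (fun i => Aop (⟨k' i, hk'B i⟩ : B)) := by
      funext i
      change x i = (l * k' i - k' i * l) * v
      rw [hk' i, hxy i]
    rw [← h2]
  rw [hrk, ← hX, hdimB] at key
  rw [Nat.sub_mul]
  omega

end adm

end MinVI

end Crest.Agent.R180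
end
end

-- ▼ part R180/MinKAP
section

set_option autoImplicit false

/-!
# Row 180, ROUTE M, (VI): the KAP lemma
-/

noncomputable section
namespace Crest.Agent.R180

open TensorProduct

namespace MinKAP

section central
variable {F B : Type} [Field F] [Ring B] [IsDomain B] [Algebra F B] [FiniteDimensional F B]
  [Algebra.IsCentral F B]

theorem finrank_centralizer (L : Subalgebra F B) :
    Module.finrank F L * Module.finrank F (Subalgebra.centralizer F (L : Set B)) =
      Module.finrank F B := by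
  have hcen : Subalgebra.center F B = ⊥ := Algebra.IsCentral.center_eq_bot F B
  have h := DCT.finrank_mul_centralizer (F := F) (B := B) L (by rw [hcen]; exact bot_le)
  rw [hcen, Subalgebra.finrank_bot, mul_one] at h
  exact h

end central

section res
variable {F K : Type} [Field F] [Ring K] [IsDomain K] [Algebra F K] [Module.Finite F K]
  [Algebra.IsCentral F K]

/-- the residues of a centraliser -/
theorem resSp_centralizer (S : Subalgebra (LF F) (LD K)) (R : Subalgebra F K)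
    (hR : LD.resSp (Subalgebra.toSubmodule S) = Subalgebra.toSubmodule R) :
    LD.resSp (Subalgebra.toSubmodule (Subalgebra.centralizer (LF F) (S : Set (LD K)))) =
      Subalgebra.toSubmodule (Subalgebra.centralizer F (R : Set K)) := by
  apply Submodule.eq_of_le_of_finrank_le
  · rintro k ⟨w, hw, hwi, rfl⟩
    change w.co 0 ∈ Subalgebra.centralizer F (R : Set K)
    rw [Subalgebra.mem_centralizer_iff]
    intro a ha
    have ha' : a ∈ LD.resSp (Subalgebra.toSubmodule S) := by rw [hR]; exact ha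
    obtain ⟨y, hy, hyi, rfl⟩ := ha'
    have h1 := (Subalgebra.mem_centralizer_iff (LF F)).mp hw y hy
    rw [← hyi.co_mul_zero hwi, ← hwi.co_mul_zero hyi, h1]
  · have h1 := LD.finrank_resSp (Subalgebra.toSubmodule
      (Subalgebra.centralizer (LF F) (S : Set (LD K))))
    have h2 := LD.finrank_resSp (Subalgebra.toSubmodule S)
    rw [hR] at h2
    have h3 := finrank_centralizer (F := LF F) (B := LD K) S
    have h4 := finrank_centralizer (F := F) (B := K) R
    have h5 : Module.finrank (LF F) (LD K) = Module.finrank F K := LD.finrank_eq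
    have h2' : Module.finrank F R = Module.finrank (LF F) S := h2
    have hpos : 0 < Module.finrank F R := Module.finrank_pos
    have h1' : Module.finrank F (LD.resSp (Subalgebra.toSubmodule
      (Subalgebra.centralizer (LF F) (S : Set (LD K))))) = Module.finrank (LF F)
      (Subalgebra.centralizer (LF F) (S : Set (LD K))) := h1
    rw [h1']
    change Module.finrank F (Subalgebra.centralizer F (R : Set K)) ≤ _
    rw [← h2', h5, ← h4] at h3
    exact (Nat.eq_of_mul_eq_mul_left hpos h3).symm.le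

end res

end MinKAP

theorem kap {A : DA} {N : ℕ} (M : PE A N) (l0 : M.L)
    (hl0 : Algebra.adjoin M.F1 ({l0} : Set M.L) = ⊤) (Λ : Subalgebra A.F A.D)
    (hΛ : ∀ a ∈ Λ, ∀ b ∈ Λ, a * b = b * a) (c0 : PowerSeries M.D0)
    (hres : LD.resSp (Subalgebra.toSubmodule (M.toAdm.adj Λ c0)) =
      Subalgebra.toSubmodule (M.psiL Λ)) (n : ℕ) (c : LD M.D0) (hc : LD.IsInt c)
    (hc0 : LD.ofPS c0 = LD.tp n * c) (u : A.D) (hu : u ∈ Λ) (hu0 : u ≠ 0)
    (hcu : c.co 0 = M.j l0 ⊗ₜ[A.F] u) (κ : LD M.D0)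
    (hκ : ∀ a ∈ Λ, (LD.C (M.toAdm.jD a) : LD M.D0) * κ = κ * LD.C (M.toAdm.jD a))
    (hy : LD.IsInt (c * κ - κ * c)) :
    ∃ κ' : LD M.D0, LD.IsInt κ' ∧
      (∀ a ∈ Λ, (LD.C (M.toAdm.jD a) : LD M.D0) * κ' = κ' * LD.C (M.toAdm.jD a)) ∧
      c * κ' - κ' * c = c * κ - κ * c := by
  have hC' := MinKAP.resSp_centralizer (M.toAdm.adj Λ c0) (M.psiL Λ) hres
  have hΛmem : ∀ a ∈ Λ, (LD.C (M.toAdm.jD a) : LD M.D0) ∈ M.toAdm.adj Λ c0 := fun a ha =>
    Algebra.subset_adjoin (Or.inl ⟨a, ha, rfl⟩)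
  have hc0mem : (LD.ofPS c0 : LD M.D0) ∈ M.toAdm.adj Λ c0 := Algebra.subset_adjoin (Or.inr rfl)
  have hc_eq : c = LD.tp (-(n : ℤ)) * LD.ofPS c0 := by
    rw [hc0, ← mul_assoc, LD.tp_mul_tp, neg_add_cancel, LD.tp_zero, one_mul]
  -- elements of the centraliser commute with `c`
  have hcw : ∀ w ∈ Subalgebra.centralizer (LF M.F1) (M.toAdm.adj Λ c0 : Set (LD M.D0)),
      c * w = w * c := by
    intro w hw
    have h1 := (Subalgebra.mem_centralizer_iff (LF M.F1)).mp hw _ hc0mem
    rw [hc_eq, mul_assoc, h1, ← mul_assoc, LD.tp_commute, mul_assoc]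
  -- key: a lowest coefficient is a residue of the centraliser
  have key : ∀ k : M.D0, (M.j l0 ⊗ₜ[A.F] u) * k = k * (M.j l0 ⊗ₜ[A.F] u) →
      (∀ a ∈ Λ, (M.toAdm.jD a) * k = k * M.toAdm.jD a) →
      k ∈ Subalgebra.centralizer M.F1 (M.psiL Λ : Set M.D0) := by
    intro k h1 h2
    have hu1 : (M.toAdm.jD u : M.D0) ≠ 0 := by
      intro h0
      apply hu0
      have hinj : Function.Injective (Algebra.TensorProduct.includeRight :
          A.D →ₐ[A.F] M.E ⊗[A.F] A.D) :=
        Algebra.TensorProduct.includeRight_injective (algebraMap A.F M.E).injective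
      exact hinj (h0.trans (map_zero _).symm)
    have h3 : (M.j l0 ⊗ₜ[A.F] u : M.D0) = M.toAdm.jE (M.j l0) * M.toAdm.jD u := by
      change _ = (M.j l0 ⊗ₜ[A.F] (1 : A.D)) * ((1 : M.E) ⊗ₜ[A.F] u)
      rw [Algebra.TensorProduct.tmul_mul_tmul, mul_one, one_mul]
    have h4 : M.toAdm.jE (M.j l0) * k = k * M.toAdm.jE (M.j l0) := by
      rw [h3, mul_assoc, h2 u hu, ← mul_assoc, ← mul_assoc] at h1
      exact mul_right_cancel₀ hu1 h1
    -- commutes with all of `L`
    have h5 : ∀ y : M.L, M.toAdm.jE (M.j y) * k = k * M.toAdm.jE (M.j y) := by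
      intro y
      have hy : y ∈ Algebra.adjoin M.F1 ({l0} : Set M.L) := by rw [hl0]; exact Algebra.mem_top
      induction hy using Algebra.adjoin_induction with
      | mem x hx => rw [Set.mem_singleton_iff.mp hx]; exact h4
      | algebraMap r =>
        have h6 : M.toAdm.jE (M.j (algebraMap M.F1 M.L r)) = algebraMap M.F1 M.D0 r := by
          rw [AlgHom.commutes]; rfl
        rw [h6]
        exact Algebra.commutes r k
      | add x y _ _ hx hy => rw [map_add, map_add, add_mul, mul_add, hx, hy]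
      | mul x y _ _ hx hy => rw [map_mul, map_mul, mul_assoc, hy, ← mul_assoc, hx, mul_assoc]
    rw [Subalgebra.mem_centralizer_iff]
    intro a ha
    change a ∈ M.psiL Λ at ha
    rw [PE.psiL] at ha
    induction ha using Algebra.adjoin_induction with
    | mem x hx =>
      rcases hx with ⟨y, rfl⟩ | ⟨a, ha, rfl⟩
      · exact h5 y
      · exact h2 a ha
    | algebraMap r => exact Algebra.commutes r k
    | add x y _ _ hx hy => rw [add_mul, mul_add, hx, hy]
    | mul x y _ _ hx hy => rw [mul_assoc, hy, ← mul_assoc, hx, mul_assoc]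
  -- induction on the order of the pole
  have main : ∀ (r : ℕ) (κ : LD M.D0), LD.OrdGe (-(r : ℤ)) κ →
      (∀ a ∈ Λ, (LD.C (M.toAdm.jD a) : LD M.D0) * κ = κ * LD.C (M.toAdm.jD a)) →
      LD.IsInt (c * κ - κ * c) →
      ∃ κ' : LD M.D0, LD.IsInt κ' ∧
        (∀ a ∈ Λ, (LD.C (M.toAdm.jD a) : LD M.D0) * κ' = κ' * LD.C (M.toAdm.jD a)) ∧
        c * κ' - κ' * c = c * κ - κ * c := by
    intro r
    induction r with
    | zero =>
      intro κ h0 hκ _
      exact ⟨κ, (LD.ordGe_zero_iff κ).mp (by simpa using h0), hκ, rfl⟩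
    | succ r ih =>
      intro κ h0 hκ hy
      obtain ⟨κ1, hκ1, hκ1'⟩ := h0.exists_tp
      set e : ℤ := -((r + 1 : ℕ) : ℤ) with he
      have he' : e < 0 := by rw [he]; push_cast; omega
      -- the lowest coefficient
      have hcomm1 : (c * κ1 - κ1 * c).co 0 = 0 := by
        have h1 : c * κ - κ * c = LD.tp e * (c * κ1 - κ1 * c) := by
          rw [hκ1', mul_sub, ← mul_assoc c, ← LD.tp_commute, mul_assoc, mul_assoc]
        have h2 := hy e he'
        rw [h1, LD.co_tp_mul, sub_self] at h2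
        exact h2
      rw [LD.co_sub, hc.co_mul_zero hκ1, hκ1.co_mul_zero hc, sub_eq_zero, hcu] at hcomm1
      have hcomm2 : ∀ a ∈ Λ, (M.toAdm.jD a) * κ1.co 0 = κ1.co 0 * M.toAdm.jD a := by
        intro a ha
        have h1 := congrArg (fun x => LD.co x e) (hκ a ha)
        simp only [LD.C_mul_co, LD.mul_C_co] at h1
        rw [hκ1', LD.co_tp_mul, sub_self] at h1
        exact h1
      have h2 := key _ hcomm1 hcomm2
      have h3 : κ1.co 0 ∈ LD.resSp (Subalgebra.toSubmodule
          (Subalgebra.centralizer (LF M.F1) (M.toAdm.adj Λ c0 : Set (LD M.D0)))) := by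
        rw [hC']; exact h2
      obtain ⟨w, hw, hwi, hw0⟩ := h3
      have hwc := hcw w hw
      have hwΛ : ∀ a ∈ Λ, (LD.C (M.toAdm.jD a) : LD M.D0) * w = w * LD.C (M.toAdm.jD a) :=
        fun a ha => (Subalgebra.mem_centralizer_iff (LF M.F1)).mp hw _ (hΛmem a ha)
      -- subtract
      have hdiff : c * (κ - LD.tp e * w) - (κ - LD.tp e * w) * c = c * κ - κ * c := by
        have h4 : c * (LD.tp e * w) = LD.tp e * w * c := by
          rw [← mul_assoc, ← LD.tp_commute, mul_assoc, hwc, mul_assoc]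
        rw [mul_sub, sub_mul, h4]
        abel
      have hord : LD.OrdGe (-(r : ℤ)) (κ - LD.tp e * w) := by
        intro k hk
        rw [LD.co_sub, hκ1', LD.co_tp_mul, LD.co_tp_mul]
        rcases lt_trichotomy k e with h | h | h
        · rw [hκ1 _ (by omega), hwi _ (by omega), sub_self]
        · rw [h, sub_self, hw0, sub_self]
        · exfalso
          rw [he] at h
          push_cast at h
          omega
      obtain ⟨κ', h5, h6, h7⟩ := ih (κ - LD.tp e * w) hord (by
        intro a ha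
        rw [mul_sub, sub_mul, hκ a ha, ← mul_assoc, ← LD.tp_commute, mul_assoc, hwΛ a ha,
          mul_assoc]) (by rw [hdiff]; exact hy)
      exact ⟨κ', h5, h6, h7.trans hdiff⟩
  obtain ⟨b, hb⟩ := LD.exists_bound κ
  refine main b.natAbs κ (fun k hk => hb k ?_) hκ hy
  omega

end Crest.Agent.R180
end
end

-- ▼ part R180/MinKer6Core
section

set_option autoImplicit false
noncomputable section
namespace Crest.Agent.R180

open TensorProduct

/-! # Row 180, ROUTE M (VI): dimension of the kernel of the new linear part -/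

variable {P : (A : DA) → (m : ℕ) → NC (Fin m) A.D → Prop}

theorem finrank_ker_lin {A : DA} {m : ℕ} (γ : NC (Fin m) A.D) :
    Module.finrank A.F (LinearMap.ker (lin γ)) + Module.finrank A.F (UU γ) = m := by
  have h := (lin γ).finrank_range_add_finrank_ker
  rw [Module.finrank_fin_fun] at h
  rw [add_comm]
  exact h

theorem finrank_ker_step {A : DA} {m : ℕ} {Λ : Subalgebra A.F A.D} {γ : NC (Fin m) A.D}
    {M : Adm A} {z : Fin m → PowerSeries M.E} (st : Step P Λ γ M z) :
    Module.finrank (A.mv M).F (LinearMap.ker (lin (A := A.mv M) st.γ')) +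
      Module.finrank (LF M.F1) st.U = (m - 1) * Module.finrank M.F1 M.E + 1 := by
  rw [← st.hμ]
  exact finrank_ker_lin (A := A.mv M) st.γ'


end Crest.Agent.R180
end
end

-- ▼ part R180/MinKer6
section

set_option autoImplicit false
noncomputable section
namespace Crest.Agent.R180

open TensorProduct

variable {P : (A : DA) → (m : ℕ) → NC (Fin m) A.D → Prop}

theorem finrank_ker6 (hP : MoveClosed P) {S : St P} {N : ℕ} {M : PE S.A N}
    {z : Fin S.m → PowerSeries M.E}
    (hz : GenPt M.toAdm z) (st : Step P S.Λ S.γ M.toAdm z) (hsd : (st.toSt hz).sd = S.sd)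
    (h1 : (st.toSt hz).Good1)
    (hPsi : Module.finrank (LF M.F1) st.Psi = N * Module.finrank S.A.F S.Psi) :
    Module.finrank (st.toSt hz).A.F (LinearMap.ker (lin (st.toSt hz).γ)) +
      N * Module.finrank S.A.F S.Psi = (S.m - 1) * (N * N) + 1 + S.sd := by
  obtain ⟨t, ht⟩ := exists_isTr (st.toSt hz).A
  have hle : Module.finrank (LF M.F1) st.U ≤ Module.finrank (LF M.F1) st.Psi :=
    ((st.toSt hz).finrank_HH (h1.lin_mem hP) ht).2
  have hs : Module.finrank (LF M.F1) st.Psi - Module.finrank (LF M.F1) st.U = S.sd := hsd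
  have hk : Module.finrank (st.toSt hz).A.F (LinearMap.ker (lin (st.toSt hz).γ)) +
      Module.finrank (LF M.F1) st.U = (S.m - 1) * Module.finrank M.F1 M.E + 1 := finrank_ker_step st
  rw [M.finrank_E] at hk
  rw [← hPsi]
  omega

end Crest.Agent.R180
end
end

-- ▼ part R180/MinVI

set_option autoImplicit false
set_option linter.unusedSectionVars false
noncomputable section

/-!
# Row 180, ROUTE M, step (VI)
-/

namespace Crest.Agent.R180

open TensorProduct

namespace MinVI

section gen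
variable {A : DA} {M : Adm A} {m : ℕ}

theorem jE_mul_jD (M : Adm A) (e : M.E) (d : A.D) : M.jE e * M.jD d = e ⊗ₜ[A.F] d := by
  change (e ⊗ₜ[A.F] (1 : A.D)) * ((1 : M.E) ⊗ₜ[A.F] d) = _
  rw [Algebra.TensorProduct.tmul_mul_tmul, mul_one, one_mul]

theorem constantCoeff_l1 (V : Fin m → PowerSeries M.E) (γ : NC (Fin m) A.D) :
    PowerSeries.constantCoeff (M.l1 V γ) = xi M γ (fun j => PowerSeries.constantCoeff (V j)) := by
  rw [Adm.l1, map_sum, xi_apply]
  refine Finset.sum_congr rfl fun j _ => ?_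
  rw [map_mul, PowerSeries.constantCoeff_C, ← jE_mul_jD]
  congr 1

end gen

theorem co_zero_ofPS {K : Type} [Ring K] (x : PowerSeries K) :
    (LD.ofPS x : LD K).co 0 = PowerSeries.constantCoeff x := by
  have := LD.co_ofPS x 0
  rw [Nat.cast_zero] at this
  rw [this, PowerSeries.coeff_zero_eq_constantCoeff_apply]

section main
variable {P : (A : DA) → (m : ℕ) → NC (Fin m) A.D → Prop} {A : DA} {m N : ℕ}
  {Λ : Subalgebra A.F A.D} {γ : NC (Fin m) A.D} (M : PE A N) {z : Fin m → PowerSeries M.E}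

/-- rank of the second order form on the kernel of the linear part -/
theorem rank_lower (st : Step P Λ γ M.toAdm z) (l0 : M.L)
    (hl0 : Algebra.adjoin M.F1 ({l0} : Set M.L) = ⊤) {r : ℕ} (u : A.D) (hu : u ∈ Λ)
    (hu0 : u ≠ 0) (b : Fin r → A.D) (hz : Pt3 γ M 2 l0 u b 0 z)
    (hΛ : ∀ a ∈ Λ, ∀ b ∈ Λ, a * b = b * a)
    (hres : LD.resSp (Subalgebra.toSubmodule (M.toAdm.adj Λ (M.toAdm.ev z γ))) =
      Subalgebra.toSubmodule (M.psiL Λ))
    (t : A.D →ₗ[A.F] A.F) (ht : IsTr t) (tE : M.E →ₗ[M.F1] M.F1)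
    (htE : (∀ x y, tE (x * y) = tE (y * x)) ∧ tE 1 ≠ 0)
    (h : LD M.D0) (hh : LD.ofPS (M.toAdm.ev z γ) * h = h * LD.ofPS (M.toAdm.ev z γ))
    (hi : LD.IsInt h) (W : Submodule (LF M.F1) (Fin st.μ → LF M.F1))
    (hW : ∀ l ∈ W, ∑ i, l i • st.γ' [i] = 0) :
    ∃ (k x : Fin (Module.finrank (LF M.F1) W) → M.D0) (v : Fin (Module.finrank (LF M.F1) W) →
      Fin m → M.E), LinearIndependent M.F1 v ∧ (∀ i, x i = xi M.toAdm γ (v i)) ∧
      (∀ i, x i = (M.j l0 ⊗ₜ[A.F] u) * k i - k i * (M.j l0 ⊗ₜ[A.F] u)) ∧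
      (∀ i, ∀ a ∈ Λ, M.toAdm.jD a * k i = k i * M.toAdm.jD a) ∧
      (Matrix.of fun i j => M.toAdm.tt tE t (h.co 0 * k i * x j)).rank ≤
        Module.finrank (LF M.F1) (LinearMap.range
          ((Matrix.toBilin' (Matrix.of fun i j : Fin st.μ => LD.mapL (M.toAdm.tt tE t)
            (h * st.γ' [i, j]))).domRestrict₁₂ W W)) := by
  classical
  set T : LD M.D0 →ₗ[LF M.F1] LF M.F1 := LD.mapL (M.toAdm.tt tE t) with hTdef
  have hT : ∀ x y, T (x * y) = T (y * x) := (isTr_mv M.toAdm ht htE).1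
  have hz0 : ∀ j, PowerSeries.constantCoeff (z j) = 0 := hz.gp.z0
  -- the family
  obtain ⟨l, V, hlW, hV, hli⟩ := exists_family st.dir (fun l hl => st.indep l 0 (fun j => by
    rw [hl j, zero_mul, mul_zero, sub_zero])) W
  -- the base point
  obtain ⟨y0, hy0⟩ := hz.c0
  set cP : PowerSeries M.D0 := PowerSeries.C (M.j l0 ⊗ₜ[A.F] u) +
    PowerSeries.X * PowerSeries.C (∑ i : Fin r, (M.u ^ (i.val + 1)) ⊗ₜ[A.F] b i) +
    PowerSeries.X ^ 2 * PowerSeries.C 0 + PowerSeries.X ^ 3 * y0 with hcP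
  have hc0 : (LD.ofPS (M.toAdm.ev z γ) : LD M.D0) = LD.tp ((4 : ℕ) : ℤ) * LD.ofPS cP := by
    rw [hy0, map_mul, MinA.ofPS_X_pow]
  have hcu : (LD.ofPS cP : LD M.D0).co 0 = M.j l0 ⊗ₜ[A.F] u := by
    rw [co_zero_ofPS, hcP]
    simp
  -- derivatives
  have hy : ∀ i, (LD.ofPS (M.toAdm.dv z (V i) γ) : LD M.D0) =
      LD.ofPS (M.toAdm.ev z γ) * kapC st (l i) - kapC st (l i) * LD.ofPS (M.toAdm.ev z γ) := by
    intro i
    have := lin_comb hz0 st (l i) (V i) (hV i)
    rw [hW _ (hlW i)] at this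
    exact sub_eq_zero.mp this.symm
  have hyc : ∀ i, (LD.ofPS (M.toAdm.dv z (V i) γ) : LD M.D0) =
      LD.ofPS cP * (LD.tp ((4 : ℕ) : ℤ) * kapC st (l i)) -
        (LD.tp ((4 : ℕ) : ℤ) * kapC st (l i)) * LD.ofPS cP := by
    intro i
    rw [hy, hc0]
    have h1 := LD.tp_commute ((4 : ℕ) : ℤ) (LD.ofPS cP : LD M.D0)
    have h2 := LD.tp_commute ((4 : ℕ) : ℤ) (kapC st (l i))
    have e2 : kapC st (l i) * (LD.ofPS cP * LD.tp ((4 : ℕ) : ℤ)) =
        LD.tp ((4 : ℕ) : ℤ) * kapC st (l i) * LD.ofPS cP := by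
      rw [← h1, ← mul_assoc, ← h2]
    rw [h1, mul_assoc, e2]
  have hcom : ∀ i, ∀ a ∈ Λ, (LD.C (M.toAdm.jD a) : LD M.D0) *
      (LD.tp ((4 : ℕ) : ℤ) * kapC st (l i)) =
      (LD.tp ((4 : ℕ) : ℤ) * kapC st (l i)) * LD.C (M.toAdm.jD a) := by
    intro i a ha
    have h1 : (LD.C (M.toAdm.jD a) : LD M.D0) * kapC st (l i) =
        kapC st (l i) * LD.C (M.toAdm.jD a) := by
      rw [kapC, Finset.mul_sum, Finset.sum_mul]
      refine Finset.sum_congr rfl fun k _ => ?_
      rw [mul_smul_comm, smul_mul_assoc, st.κΛ a ha]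
    rw [← mul_assoc, ← LD.tp_commute, mul_assoc, h1, mul_assoc]
  have hkap : ∀ i, ∃ κ' : LD M.D0, LD.IsInt κ' ∧
      (∀ a ∈ Λ, (LD.C (M.toAdm.jD a) : LD M.D0) * κ' = κ' * LD.C (M.toAdm.jD a)) ∧
      LD.ofPS cP * κ' - κ' * LD.ofPS cP = LD.ofPS (M.toAdm.dv z (V i) γ) := by
    intro i
    obtain ⟨κ', h1, h2, h3⟩ := kap M l0 hl0 Λ hΛ (M.toAdm.ev z γ) hres 4 (LD.ofPS cP)
      (LD.isInt_ofPS _) hc0 u hu hu0 hcu (LD.tp ((4 : ℕ) : ℤ) * kapC st (l i)) (hcom i) (by
        rw [← hyc]; exact LD.isInt_ofPS _)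
    exact ⟨κ', h1, h2, by rw [h3, ← hyc]⟩
  choose κ' hκi hκΛ hκc using hkap
  -- leading coefficients
  have hx0 : ∀ i, (LD.ofPS (M.toAdm.dv z (V i) γ) : LD M.D0).co 0 =
      xi M.toAdm γ (fun j => PowerSeries.constantCoeff (V i j)) := by
    intro i
    obtain ⟨y, hy⟩ := hz.d1 (V i)
    rw [co_zero_ofPS, hy, map_add, constantCoeff_l1]
    simp
  refine ⟨fun i => (κ' i).co 0, fun i => xi M.toAdm γ (fun j => PowerSeries.constantCoeff (V i j)),
    fun i j => PowerSeries.constantCoeff (V i j), hli, fun _ => rfl, ?_, ?_, ?_⟩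
  · intro i
    change xi M.toAdm γ (fun j => PowerSeries.constantCoeff (V i j)) =
      (M.j l0 ⊗ₜ[A.F] u) * (κ' i).co 0 - (κ' i).co 0 * (M.j l0 ⊗ₜ[A.F] u)
    rw [← hx0, ← hκc, LD.co_sub, (LD.isInt_ofPS cP).co_mul_zero (hκi i),
      (hκi i).co_mul_zero (LD.isInt_ofPS cP), hcu]
  · intro i a ha
    have h1 := congrArg (fun y : LD M.D0 => y.co 0) (hκΛ i a ha)
    simpa only [LD.C_mul_co, LD.mul_C_co] using h1
  · -- the Gram matrix
    set φ := (Matrix.toBilin' (Matrix.of fun i j : Fin st.μ => T (h * st.γ' [i, j]))).domRestrict₁₂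
      W W with hφ
    set Q : Matrix (Fin (Module.finrank (LF M.F1) W)) (Fin (Module.finrank (LF M.F1) W))
      (LF M.F1) := Matrix.of fun i j => φ ⟨l i, hlW i⟩ ⟨l j, hlW j⟩ with hQ
    have h1 : Q.rank ≤ Module.finrank (LF M.F1) (LinearMap.range φ) :=
      gram_rank_le φ (fun i => (⟨l i, hlW i⟩ : W)) (fun j => (⟨l j, hlW j⟩ : W))
    refine le_trans ?_ h1
    have h2 : ((LF.tp ((4 : ℕ) : ℤ) : LF M.F1) • Q).rank = Q.rank :=
      Matrix.rank_smul_of_mem_nonZeroDivisors Q (mem_nonZeroDivisors_of_ne_zero (LF.tp_ne_zero _))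
    rw [← h2]
    have h3 : ∀ i j, ((LF.tp ((4 : ℕ) : ℤ) : LF M.F1) • Q) i j =
        LF.tp ((4 : ℕ) : ℤ) * T (h * LD.ofPS (M.toAdm.d2 z (V i) (V j) γ)) +
          T (h * κ' i * LD.ofPS (M.toAdm.dv z (V j) γ)) := by
      intro i j
      rw [← gram_entry hz0 st T hT h hh (l i) (l j) (V i) (V j) (hV i) (hV j) (hW _ (hlW i))
        (hW _ (hlW j)) ((4 : ℕ) : ℤ) (κ' i) ?_]
      · rw [Matrix.smul_apply, smul_eq_mul]
        congr 1
        rw [hQ, Matrix.of_apply, hφ, LinearMap.domRestrict₁₂_apply, Matrix.toBilin'_apply,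
          Finset.mul_sum, map_sum]
        refine Finset.sum_congr rfl fun a _ => ?_
        rw [Finset.mul_sum, map_sum]
        refine Finset.sum_congr rfl fun c _ => ?_
        rw [mul_smul_comm, map_smul, smul_eq_mul, Matrix.of_apply]
        ring
      · have e1 := hκc i
        rw [hyc i] at e1
        rw [hc0]
        have h4 : ∀ y : LD M.D0, LD.tp ((4 : ℕ) : ℤ) * LD.ofPS cP * y - y *
            (LD.tp ((4 : ℕ) : ℤ) * LD.ofPS cP) =
            LD.tp ((4 : ℕ) : ℤ) * (LD.ofPS cP * y - y * LD.ofPS cP) := by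
          intro y
          rw [mul_sub, mul_assoc, ← mul_assoc y, ← LD.tp_commute _ y, mul_assoc]
        rw [h4, h4, e1]
    have h4 : ∀ y : LD M.D0, LD.IsInt y → LF.IsInt (T y) := fun y hy n hn => by
      rw [hTdef, LD.co_mapL, hy n hn, map_zero]
    have h5 : ∀ i j, LF.IsInt (((LF.tp ((4 : ℕ) : ℤ) : LF M.F1) • Q) i j) := by
      intro i j
      rw [h3]
      refine LF.IsInt.add ?_ (h4 _ ((hi.mul (hκi i)).mul (LD.isInt_ofPS _)))
      intro n hn
      rw [LF.co_tp_mul]
      exact h4 _ (hi.mul (LD.isInt_ofPS _)) _ (by push_cast; omega)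
    have h6 := LF.rank_residue_le _ h5
    refine le_trans (le_of_eq ?_) h6
    congr 1
    ext i j
    rw [Matrix.of_apply, Matrix.map_apply, h3, LF.co_add, LF.co_tp_mul,
      h4 _ (hi.mul (LD.isInt_ofPS _)) _ (by norm_num), zero_add, hTdef, LD.co_mapL,
      (hi.mul (hκi i)).co_mul_zero (LD.isInt_ofPS _), hi.co_mul_zero (hκi i), hx0]

/-- scaling the functional does not increase the rank -/
theorem range_scale {F' : Type} [Field F'] {μ : ℕ} (Q Q' : Matrix (Fin μ) (Fin μ) F') (c : F')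
    (hQ : ∀ i j, Q i j = c * Q' i j) (W : Submodule F' (Fin μ → F')) :
    Module.finrank F' (LinearMap.range ((Matrix.toBilin' Q).domRestrict₁₂ W W)) ≤
      Module.finrank F' (LinearMap.range ((Matrix.toBilin' Q').domRestrict₁₂ W W)) := by
  refine Submodule.finrank_mono ?_
  rintro _ ⟨x, rfl⟩
  refine ⟨c • x, ?_⟩
  ext y
  rw [map_smul, LinearMap.smul_apply, LinearMap.domRestrict₁₂_apply,
    LinearMap.domRestrict₁₂_apply, Matrix.toBilin'_apply, Matrix.toBilin'_apply, smul_eq_mul,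
    Finset.mul_sum]
  refine Finset.sum_congr rfl fun i _ => ?_
  rw [Finset.mul_sum]
  refine Finset.sum_congr rfl fun j _ => ?_
  rw [hQ]
  ring

theorem finrank_centralizer_j {A : DA} {N : ℕ} (M : PE A N) (l0 : M.L)
    (hl0 : Algebra.adjoin M.F1 ({l0} : Set M.L) = ⊤) :
    Module.finrank M.F1 (Subalgebra.centralizer M.F1 ({M.j l0} : Set M.E)) = N := by
  have hcen : Subalgebra.center M.F1 M.E = ⊥ := Algebra.IsCentral.center_eq_bot M.F1 M.E
  have h1 := DCT.finrank_mul_centralizer (F := M.F1) (B := M.E)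
    (Algebra.adjoin M.F1 ({M.j l0} : Set M.E)) (by rw [hcen]; exact bot_le)
  rw [hcen, Subalgebra.finrank_bot, mul_one, PE.finrank_E, PE.finrank_adjoin_j M l0 hl0] at h1
  have hN : 0 < N := M.pr.pos
  have h2 := Nat.eq_of_mul_eq_mul_left hN h1
  have h3 : Subalgebra.centralizer M.F1 ({M.j l0} : Set M.E) =
      Subalgebra.centralizer M.F1 ((Algebra.adjoin M.F1 ({M.j l0} : Set M.E) : Subalgebra M.F1 M.E) :
        Set M.E) := by
    apply le_antisymm
    · intro y hy
      rw [Subalgebra.mem_centralizer_iff] at hy ⊢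
      intro x hx
      have h4 : Algebra.adjoin M.F1 ({M.j l0} : Set M.E) ≤
          Subalgebra.centralizer M.F1 ({y} : Set M.E) := by
        apply Algebra.adjoin_le
        intro w hw
        rw [SetLike.mem_coe, Subalgebra.mem_centralizer_iff]
        rintro _ rfl
        exact (hy w hw).symm
      have h5 := h4 hx
      rw [Subalgebra.mem_centralizer_iff] at h5
      exact (h5 y rfl).symm
    · exact Subalgebra.centralizer_le _ _ _ Algebra.subset_adjoin
  rw [h3, h2]

/-- the arithmetic of (VI) -/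
theorem arith {m N d s rU p X R : ℕ} (hm : 2 ≤ m) (h1 : p + N * d = (m - 1) * (N * N) + 1 + s)
    (h2 : p + N * N * rU ≤ X + m * (N * N)) (h3 : 2 * X ≤ R + (N * N - N) * d)
    (h4 : rU + s = d) (h5 : 2 * s + 3 ≤ d) (h6 : d + s + 3 < N) : 3 * s ≤ R := by
  obtain ⟨m', rfl⟩ : ∃ m', m = m' + 2 := ⟨m - 2, by omega⟩
  obtain ⟨e, rfl⟩ : ∃ e, d = 2 * s + 3 + e := ⟨d - (2 * s + 3), by omega⟩
  obtain ⟨f, rfl⟩ : ∃ f, N = (2 * s + 3 + e) + s + 4 + f := ⟨N - ((2 * s + 3 + e) + s + 4), by omega⟩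
  have hr : rU = s + 3 + e := by omega
  subst hr
  have h1' : m' + 2 - 1 = m' + 1 := by omega
  rw [h1'] at h1
  generalize hN : (2 * s + 3 + e) + s + 4 + f = N at *
  have hNN : N ≤ N * N := Nat.le_mul_self N
  have h3' : 2 * X + N * (2 * s + 3 + e) ≤ R + N * N * (2 * s + 3 + e) := by
    have : (N * N - N) * (2 * s + 3 + e) + N * (2 * s + 3 + e) = N * N * (2 * s + 3 + e) := by
      rw [← add_mul, Nat.sub_add_cancel hNN]
    omega
  have hQ : N * N = N * (2 * s + 3 + e) + N * s + N * 4 + N * f := by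
    rw [← hN]; ring
  nlinarith [Nat.zero_le (N * s), Nat.zero_le (N * f), Nat.zero_le (N * N * e)]

theorem arith2 {m N d s p : ℕ} (hm : 2 ≤ m) (h1 : p + N * d = (m - 1) * (N * N) + 1 + s)
    (h6 : d + s + 3 < N) : s + 2 ≤ p := by
  obtain ⟨m', rfl⟩ : ∃ m', m = m' + 2 := ⟨m - 2, by omega⟩
  obtain ⟨f, rfl⟩ : ∃ f, N = d + s + 4 + f := ⟨N - (d + s + 4), by omega⟩
  have h1' : m' + 2 - 1 = m' + 1 := by omega
  rw [h1'] at h1
  nlinarith [Nat.zero_le (m' * ((d + s + 4 + f) * (d + s + 4 + f)))]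

end main

end MinVI

variable {P : (A : DA) → (m : ℕ) → NC (Fin m) A.D → Prop}

theorem St.mem_Lam_of_HH (S : St P) (hU : S.U ≤ Subalgebra.toSubmodule S.Λ)
    {t : S.A.D →ₗ[S.A.F] S.A.F} {y : S.A.D} (hy : y ∈ HH t S.U) : y ∈ S.Λ := by
  obtain ⟨a, ha, ha0⟩ := S.U_ne
  obtain ⟨a', h1, h2, -⟩ := S.exists_inv (hU ha) ha0
  have h3 : y = y * a * a' := by rw [mul_assoc, h2, mul_one]
  rw [h3]
  exact Subalgebra.mul_mem _ (S.psi_le hU (hy a ha).1) h1

/-- (VI) -/
theorem minVI (hP : MoveClosed P) {S : St P} (h : S.Good4)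
    (hd : 2 * S.sd + 3 ≤ Module.finrank S.A.F S.Psi) : ∃ S' : St P, S'.NDeg := by
  classical
  obtain ⟨N, M, l0, u, u', z, r, b, hz, st, t, tE, hN, hl0, hu, huu', hu'u, ht, htE, hC, hG4, hsd,
    hPsi, hH⟩ := exists_mv6 hP h (Module.finrank S.A.F S.Psi + S.sd + 3)
  have hU : S.U ≤ Subalgebra.toSubmodule S.Λ := h.1.1.1.lin_mem hP
  have hΨ : S.Psi ≤ S.Λ := S.psi_le hU
  have hΛc : ∀ a ∈ S.Λ, ∀ b ∈ S.Λ, a * b = b * a := S.rs.comm
  have hu0 : u ≠ 0 := by
    rintro rfl
    rw [zero_mul] at huu'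
    exact zero_ne_one huu'
  have hu'Λ : u' ∈ S.Λ := by
    obtain ⟨u'', h1, h2, h3⟩ := S.exists_inv (hU hu) hu0
    have : u' = u'' := by
      calc u' = u' * (u * u'') := by rw [h2, mul_one]
        _ = u'' := by rw [← mul_assoc, hu'u, one_mul]
    rw [this]; exact h1
  have hE : Module.finrank M.F1 M.E = N * N := PE.finrank_E M
  obtain ⟨hHH, hUle⟩ := S.finrank_HH hU ht
  have hker := finrank_ker6 hP hz.gp st hsd hG4.1.1.1 hPsi
  have h4 : Module.finrank S.A.F S.U + S.sd = Module.finrank S.A.F S.Psi := by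
    unfold St.sd; omega
  -- the rank bound
  let W : Submodule (LF M.F1) (Fin st.μ → LF M.F1) := LinearMap.ker (lin (A := S.A.mv M.toAdm) st.γ')
  have hker' : Module.finrank (LF M.F1) W + N * Module.finrank S.A.F S.Psi =
      (S.m - 1) * (N * N) + 1 + S.sd := hker
  have main : ∀ η ∈ st.H t tE, η ≠ 0 → 3 * S.sd ≤ Module.finrank (LF M.F1) (LinearMap.range
      ((Matrix.toBilin' (Matrix.of fun i j : Fin st.μ => LD.mapL (M.toAdm.tt tE t)
        (η * st.γ' [i, j]))).domRestrict₁₂ W W)) := by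
    intro η hη hη0
    -- normalise
    obtain ⟨q, y, hqy, hyi, hy0⟩ := LD.exists_normal hη0
    have hyH : y ∈ st.H t tE := by
      have h1 : y = (LF.tp (-q) : LF M.F1) • η := by
        rw [LD.smul_def, LD.toLD_tp, hqy, ← mul_assoc, LD.tp_mul_tp, neg_add_cancel, LD.tp_zero,
          one_mul]
      rw [h1]
      exact (st.H t tE).smul_mem _ hη
    -- `y` commutes with `c₀`
    have hyc : LD.ofPS (M.toAdm.ev z S.γ) * y = y * LD.ofPS (M.toAdm.ev z S.γ) := by
      have h2 : y ∈ (st.toSt hz.gp).Λ :=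
        (st.toSt hz.gp).mem_Lam_of_HH (hG4.1.1.1.lin_mem hP) hyH
      have h3 : (LD.ofPS (M.toAdm.ev z S.γ) : LD M.D0) ∈ (M.toAdm.adj S.Λ (M.toAdm.ev z S.γ)) :=
        Algebra.subset_adjoin (Or.inr rfl)
      exact (st.toSt hz.gp).rs.comm _ h3 _ h2
    have hW : ∀ l ∈ W, ∑ i, l i • st.γ' [i] = 0 := by
      intro l hl
      have h1 := lin_apply (A := S.A.mv M.toAdm) st.γ' l
      have h2 : lin (A := S.A.mv M.toAdm) st.γ' l = 0 := hl
      rw [h2] at h1
      exact h1.symm
    obtain ⟨k, x, v, hv, hxv, hxk, hkΛ, hrank⟩ := MinVI.rank_lower M st l0 hl0 u (hU hu) hu0 b hz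
      hΛc hC.resLam t ht tE htE y hyc hyi W hW
    -- the rank lemma
    have hh0 : y.co 0 ∈ Submodule.span M.F1
        {y : M.D0 | ∃ ψ ∈ S.Psi, y = (1 : M.E) ⊗ₜ[S.A.F] (u' * ψ)} := by
      refine Submodule.span_mono ?_ (hH y hyH hyi)
      rintro _ ⟨h', hh', rfl⟩
      refine ⟨h' * u, (hh' u hu).1, ?_⟩
      have h1 : h' * u ∈ S.Λ := hΨ (hh' u hu).1
      rw [hΛc u' hu'Λ _ h1, mul_assoc, huu', mul_one]
    have hxm : ∀ i, x i ∈ Submodule.span M.F1
        {y : M.D0 | ∃ (e : M.E) (ψ : S.A.D), ψ ∈ S.Psi ∧ y = e ⊗ₜ[S.A.F] (u * ψ)} := by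
      intro i
      rw [hxv, MinVI.xi_apply]
      refine Submodule.sum_mem _ fun j _ => Submodule.subset_span ?_
      have h1 : S.γ [j] ∈ S.U := by
        refine ⟨Pi.single j 1, ?_⟩
        rw [lin_apply, Finset.sum_eq_single j]
        · simp
        · intro i _ hi
          simp [Pi.single_eq_of_ne hi]
        · simp
      obtain ⟨ψ, hψ, h2⟩ := S.mem_U_mul hU hu hu0 h1
      exact ⟨v i j, ψ, hψ, by rw [h2]⟩
    have hvi := MinVI.vi_rank M.toAdm hE S.Psi ht htE (l0 := M.j l0)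
      (MinVI.finrank_centralizer_j M l0 hl0) huu' hu'u
      (fun a ha => hΛc u (hU hu) a (hΨ ha)) hy0 hh0 k x hxk (by
        intro i
        have h1 := hkΛ i u (hU hu)
        exact h1.symm) hxm
    have hsp := MinVI.finrank_span_xi M.toAdm S.γ v hv
    rw [hE] at hsp
    have hsp' : Module.finrank M.F1 (Submodule.span M.F1 (Set.range fun i =>
        MinVI.xi M.toAdm S.γ (v i))) = Module.finrank M.F1 (Submodule.span M.F1 (Set.range x)) := by
      rw [show (fun i => MinVI.xi M.toAdm S.γ (v i)) = x from funext fun i => (hxv i).symm]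
    rw [hsp'] at hsp
    have h5 := MinVI.arith S.hm hker' hsp hvi h4 hd hN
    refine h5.trans (hrank.trans ?_)
    refine MinVI.range_scale _ _ (LF.tp (-q)) ?_ W
    intro i j
    have e : y * st.γ' [i, j] = (LF.tp (-q) : LF M.F1) • (η * st.γ' [i, j]) := by
      rw [hqy, LD.smul_def, LD.toLD_tp, ← mul_assoc, ← mul_assoc, LD.tp_mul_tp, neg_add_cancel,
        LD.tp_zero, one_mul]
    rw [Matrix.of_apply, Matrix.of_apply, e, map_smul, smul_eq_mul]
  refine ⟨st.toSt hz.gp, hG4, ?_, LD.mapL (M.toAdm.tt tE t), isTr_mv M.toAdm ht htE, ?_⟩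
  · rw [hsd]
    exact MinVI.arith2 S.hm hker' hN
  · intro η hη hη0
    rw [hsd]
    exact main η hη hη0

end Crest.Agent.R180
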