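import Crest.Agent.R180.SSolve
import Mathlib
import Crest.Agent.R180.MinDefs
import Crest.Agent.R180.PRS
import Crest.Agent.R180.MinNDeg
import Crest.Agent.R180.MinGen
import Crest.Agent.R180.MinPoint
import Crest.Agent.R180.MinLive
import Crest.Agent.R180.MinSt_Mg
import Crest.Agent.R180.MinStartCore
import Crest.Agent.R180.MinPE
import Crest.Agent.R180.MinMu
import Crest.Agent.R180.TS
import Crest.Agent.R180.MinState
import Crest.Agent.R180.MinIII_Mg
import Crest.Agent.R180.Basic
import Crest.Agent.R180.Move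
import Crest.Agent.R180.MinVI
import Crest.Agent.R180.ModR

-- ▼ part R180/MinSolve
section

set_option autoImplicit false

/-!
# Row 180, ROUTE M, step (VII): the degree-by-degree solver (version with leading forms in a
subspace and vanishing cyclic sums)
-/

namespace Crest.Agent.R180

namespace NC

section Solver

variable {ι κ K : Type} [Field K] [CharZero K] [Fintype ι] [Fintype κ]

/-- The data used by the solver: the annihilator basis `h`, the vectors `u₁ u₂` and the dual
vectors; leading forms annihilated by `h` are values of the linear part; cyclic sums of leading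
forms vanish. -/
structure SolverDataW (Θ : κ → NC ι K) (s : ℕ) (h : Fin s → κ → K) (u₁ u₂ : ι → K)
    (v₁ v₂ : Fin s → ι → K) : Prop where
  hann : ∀ a i, ∑ c, h a c * Θ c [i] = 0
  hlin : ∀ X : ι → NC (Fin 2) K, (∀ i, OrdGE 1 (X i)) → ∀ n, 2 ≤ n →
    (∀ c, OrdGE n (tsub X (Θ c) - C (Θ c []))) → ∀ w : List (Fin 2), w.length = n →
    (∀ a, ∑ c, h a c * (tsub X (Θ c) - C (Θ c []) : NC (Fin 2) K) w = 0) →
    ∃ y : ι → K, ∀ c, ∑ i, Θ c [i] * y i = (tsub X (Θ c) - C (Θ c []) : NC (Fin 2) K) w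
  hcyc : ∀ X : ι → NC (Fin 2) K, (∀ i, OrdGE 1 (X i)) → ∀ n, 2 ≤ n →
    (∀ c, OrdGE n (tsub X (Θ c) - C (Θ c []))) → ∀ a (w : List (Fin 2)), w.length = n →
    ∑ k ∈ Finset.range n,
      (tsub X (hc Θ (h a)) - C (hc Θ (h a) []) : NC (Fin 2) K) (w.rotate k) = 0
  ku₁ : ∀ c, ∑ i, Θ c [i] * u₁ i = 0
  ku₂ : ∀ c, ∑ i, Θ c [i] * u₂ i = 0
  kv₁ : ∀ b c, ∑ i, Θ c [i] * v₁ b i = 0
  kv₂ : ∀ b c, ∑ i, Θ c [i] * v₂ b i = 0
  alt : ∀ a (x y : ι → K), (∀ c, ∑ i, Θ c [i] * x i = 0) → (∀ c, ∑ i, Θ c [i] * y i = 0) →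
    qf Θ (h a) x y + qf Θ (h a) y x = 0
  q12 : ∀ a, qf Θ (h a) u₁ u₂ = 0
  d11 : ∀ a b, qf Θ (h a) u₁ (v₁ b) = if a = b then 1 else 0
  d21 : ∀ a b, qf Θ (h a) u₂ (v₁ b) = 0
  d12 : ∀ a b, qf Θ (h a) u₁ (v₂ b) = 0
  d22 : ∀ a b, qf Θ (h a) u₂ (v₂ b) = if a = b then 1 else 0

section Data

variable {Θ : κ → NC ι K} {s : ℕ} {h : Fin s → κ → K} {u₁ u₂ : ι → K} {v₁ v₂ : Fin s → ι → K}

/-- killing the part of degree `n` in the image of the linear part -/
theorem correctW (D : SolverDataW Θ s h u₁ u₂ v₁ v₂) {n : ℕ} (hn : 2 ≤ n) (X : ι → NC (Fin 2) K)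
    (hX : ∀ i, OrdGE 1 (X i)) (hG : ∀ c, OrdGE n (tsub X (Θ c) - C (Θ c [])))
    (hH : ∀ a, OrdGE (n + 1) (tsub X (hc Θ (h a)) - C (hc Θ (h a) []))) :
    ∃ Y : ι → NC (Fin 2) K, (∀ i, OrdGE n (Y i)) ∧
      ∀ c, OrdGE (n + 1) (tsub (fun i => X i + Y i) (Θ c) - C (Θ c [])) := by
  classical
  have hsol : ∀ w : List (Fin 2), ∃ y : ι → K, w.length = n → ∀ c, ∑ i, Θ c [i] * y i =
      (tsub X (Θ c) - C (Θ c []) : NC (Fin 2) K) w := by
    intro w
    by_cases hw : w.length = n
    · obtain ⟨y, hy⟩ := D.hlin X hX n hn hG w hw (fun a => by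
        have h1 := hH a w (by omega)
        rw [tsub_hc, C_hc_nil, ← Finset.sum_sub_distrib, sum_apply] at h1
        rw [← h1]
        refine Finset.sum_congr rfl fun c _ => ?_
        rw [← mul_sub, C_mul_apply])
      exact ⟨y, fun _ => hy⟩
    · exact ⟨0, fun h => absurd h hw⟩
  choose y hy using hsol
  refine ⟨fun i => ⟨fun w => if w.length = n then - y w i else 0⟩, ?_, ?_⟩
  · intro i w hw
    change (if w.length = n then _ else 0) = 0
    rw [if_neg (by omega)]
  · intro c
    set Y : ι → NC (Fin 2) K := fun i => ⟨fun w => if w.length = n then - y w i else 0⟩ with hYdef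
    have hY : ∀ i, OrdGE n (Y i) := by
      intro i w hw
      change (if w.length = n then _ else 0) = 0
      rw [if_neg (by omega)]
    have hlin : lin (Θ c) Y = - homog n (tsub X (Θ c) - C (Θ c [])) := by
      apply ext'
      intro w
      unfold lin
      rw [sum_apply, neg_apply, homog_apply]
      simp only [C_mul_apply]
      by_cases hw : w.length = n
      · rw [if_pos hw, ← hy w hw c, ← Finset.sum_neg_distrib]
        refine Finset.sum_congr rfl fun i _ => ?_
        change Θ c [i] * (if w.length = n then - y w i else 0) = _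
        rw [if_pos hw, mul_neg]
      · rw [if_neg hw, neg_zero]
        refine Finset.sum_eq_zero fun i _ => ?_
        change Θ c [i] * (if w.length = n then - y w i else 0) = _
        rw [if_neg hw, mul_zero]
    have h1 := tsub_congr1 X Y n hX hY (by omega) (Θ c)
    have h2 := (hG c).sub_homog
    have h3 := h1.add h2
    rw [hlin] at h3
    exact h3.congr (by abel)


theorem approx_twoW (D : SolverDataW Θ s h u₁ u₂ v₁ v₂) : ∃ X, Approx Θ u₁ u₂ 2 X := by
  have hlinX1 : ∀ f : NC ι K, (∑ i, f [i] * u₁ i = 0) → (∑ i, f [i] * u₂ i = 0) →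
      lin f (X1 u₁ u₂) = 0 := by
    intro f h1 h2
    unfold X1
    rw [lin_add, lin_vec, lin_vec, h1, h2, map_zero, zero_mul, zero_mul, add_zero]
  have hG : ∀ c, OrdGE 2 (tsub (X1 u₁ u₂) (Θ c) - C (Θ c [])) := by
    intro c
    have h1 := tsub_lin (X1 u₁ u₂) X1_ordGE (Θ c)
    rwa [hlinX1 _ (D.ku₁ c) (D.ku₂ c), add_zero] at h1
  have hH : ∀ a, OrdGE 3 (tsub (X1 u₁ u₂) (hc Θ (h a)) - C (hc Θ (h a) [])) := by
    intro a
    have h1 := tsub_quad (X1 u₁ u₂) X1_ordGE (hc Θ (h a))
    rw [lin_hc_eq_zero (h a) (D.hann a), add_zero] at h1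
    have h11 : qf Θ (h a) u₁ u₁ = 0 := by
      have := D.alt a u₁ u₁ D.ku₁ D.ku₁
      have h2 : (2 : K) * qf Θ (h a) u₁ u₁ = 0 := by rw [two_mul]; exact this
      exact (mul_eq_zero.mp h2).resolve_left two_ne_zero
    have h22 : qf Θ (h a) u₂ u₂ = 0 := by
      have := D.alt a u₂ u₂ D.ku₂ D.ku₂
      have h2 : (2 : K) * qf Θ (h a) u₂ u₂ = 0 := by rw [two_mul]; exact this
      exact (mul_eq_zero.mp h2).resolve_left two_ne_zero
    have h12 := D.q12 a
    have h21 : qf Θ (h a) u₂ u₁ = 0 := by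
      have := D.alt a u₁ u₂ D.ku₁ D.ku₂
      rwa [h12, zero_add] at this
    have hq : quad (hc Θ (h a)) (X1 u₁ u₂) (X1 u₁ u₂) = 0 := by
      have e : (X1 u₁ u₂ : ι → NC (Fin 2) K) = fun i => (C (u₁ i) : NC (Fin 2) K) * X 0 +
        (C (u₂ i) : NC (Fin 2) K) * X 1 := rfl
      conv_lhs => rw [e]
      rw [quad_add_left, quad_add_right, quad_add_right, quad_vec, quad_vec, quad_vec, quad_vec]
      simp only [qf_eq, h11, h12, h21, h22, map_zero, zero_mul, add_zero]
    rwa [hq, add_zero] at h1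
  obtain ⟨Y, hY, hY'⟩ := correctW D (n := 2) (by norm_num) (X1 u₁ u₂) X1_ordGE hG hH
  refine ⟨fun i => X1 u₁ u₂ i + Y i, fun i => ?_, hY'⟩
  rw [add_sub_cancel_left]
  exact hY i

/-- one step of the solver -/
theorem approx_succW (D : SolverDataW Θ s h u₁ u₂ v₁ v₂) {n : ℕ} (hn : 2 ≤ n)
    (Xn : ι → NC (Fin 2) K) (hXn : Approx Θ u₁ u₂ n Xn) :
    ∃ X', Approx Θ u₁ u₂ (n + 1) X' ∧ ∀ i, OrdGE n (X' i - Xn i) := by
  classical
  have hX1 : ∀ i, OrdGE 1 (Xn i) := hXn.ordGE
  have hF : ∀ a, OrdGE (n + 1) (tsub Xn (hc Θ (h a)) - C (hc Θ (h a) [])) := by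
    intro a
    rw [tsub_hc, C_hc_nil, ← Finset.sum_sub_distrib]
    refine OrdGE.sum _ _ fun c _ => ?_
    rw [← mul_sub]
    exact (hXn.2 c).mul_left
  have hA : ∀ a, ∃ A : Fin 2 → NC (Fin 2) K, (∀ t, OrdGE n (A t)) ∧
      OrdGE (n + 2) (tsub Xn (hc Θ (h a)) - C (hc Θ (h a) []) -
        ∑ t, ((X t : NC (Fin 2) K) * A t - A t * X t)) := by
    intro a
    rcases exists_cyc_or_comm (n + 1) (Nat.succ_pos n) _ (hF a) with ⟨w, hw, hw'⟩ | hA
    · exact absurd (D.hcyc Xn hX1 (n + 1) (by omega) hXn.2 a w hw) hw'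
    · simpa using hA
  choose A hA hA' using hA
  -- the correction
  set Z : ι → NC (Fin 2) K := fun i =>
    - ∑ b, ((C (v₁ b i) : NC (Fin 2) K) * A b 0 + (C (v₂ b i) : NC (Fin 2) K) * A b 1) with hZdef
  have hZ : ∀ i, OrdGE n (Z i) := fun i =>
    (OrdGE.sum _ _ fun b _ => (hA b 0).mul_left.add (hA b 1).mul_left).neg
  have hlinZ : ∀ f : NC ι K, (∀ b, ∑ i, f [i] * v₁ b i = 0) → (∀ b, ∑ i, f [i] * v₂ b i = 0) →
      lin f Z = 0 := by
    intro f h1 h2
    have e : lin f Z = - ∑ b, (lin f (fun i => (C (v₁ b i) : NC (Fin 2) K) * A b 0) +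
        lin f (fun i => (C (v₂ b i) : NC (Fin 2) K) * A b 1)) := by
      unfold lin
      simp only [hZdef, mul_neg, Finset.mul_sum, mul_add, Finset.sum_neg_distrib,
        Finset.sum_add_distrib]
      rw [Finset.sum_comm, Finset.sum_comm (f := fun i b => (C (f [i]) : NC (Fin 2) K) *
        ((C (v₂ b i) : NC (Fin 2) K) * A b 1))]
    rw [e]
    simp only [lin_vec, h1, h2, map_zero, zero_mul, add_zero, Finset.sum_const_zero, neg_zero]
  -- the quadratic contribution
  have hquadZ : ∀ a, quad (hc Θ (h a)) Z (X1 u₁ u₂) + quad (hc Θ (h a)) (X1 u₁ u₂) Z =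
      - ∑ t, ((X t : NC (Fin 2) K) * A a t - A a t * X t) := by
    intro a
    have hanti : ∀ x y : ι → K, (∀ c, ∑ i, Θ c [i] * x i = 0) → (∀ c, ∑ i, Θ c [i] * y i = 0) →
        qf Θ (h a) y x = - qf Θ (h a) x y := fun x y hx hy =>
      eq_neg_of_add_eq_zero_right (D.alt a x y hx hy)
    have e1 : quad (hc Θ (h a)) (X1 u₁ u₂) Z = - (X 0 * A a 0 + X 1 * A a 1) := by
      rw [hZdef, quad_neg_right, quad_sum_right]
      congr 1
      simp only [quad_add_right, quad_X1_left, qf_eq, D.d11, D.d21, D.d12, D.d22, map_zero,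
        zero_mul, add_zero, zero_add]
      rw [Finset.sum_add_distrib]
      congr 1
      · rw [Finset.sum_eq_single a]
        · simp
        · intro b _ hb; rw [if_neg (Ne.symm hb), map_zero, zero_mul]
        · simp
      · rw [Finset.sum_eq_single a]
        · simp
        · intro b _ hb; rw [if_neg (Ne.symm hb), map_zero, zero_mul]
        · simp
    have e2 : quad (hc Θ (h a)) Z (X1 u₁ u₂) = A a 0 * X 0 + A a 1 * X 1 := by
      rw [hZdef, quad_neg_left, quad_sum_left]
      simp only [quad_add_left, quad_X1_right, qf_eq]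
      have f1 : ∀ b, qf Θ (h a) (v₁ b) u₁ = - (if a = b then 1 else 0) := fun b => by
        rw [hanti u₁ (v₁ b) D.ku₁ (D.kv₁ b), D.d11]
      have f2 : ∀ b, qf Θ (h a) (v₁ b) u₂ = 0 := fun b => by
        rw [hanti u₂ (v₁ b) D.ku₂ (D.kv₁ b), D.d21, neg_zero]
      have f3 : ∀ b, qf Θ (h a) (v₂ b) u₁ = 0 := fun b => by
        rw [hanti u₁ (v₂ b) D.ku₁ (D.kv₂ b), D.d12, neg_zero]
      have f4 : ∀ b, qf Θ (h a) (v₂ b) u₂ = - (if a = b then 1 else 0) := fun b => by
        rw [hanti u₂ (v₂ b) D.ku₂ (D.kv₂ b), D.d22]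
      simp only [f1, f2, f3, f4, map_neg, map_zero, zero_mul, add_zero, zero_add]
      rw [Finset.sum_add_distrib, neg_add]
      congr 1
      · rw [Finset.sum_eq_single a]
        · simp
        · intro b _ hb; rw [if_neg (Ne.symm hb), map_zero, neg_zero, zero_mul]
        · simp
      · rw [Finset.sum_eq_single a]
        · simp
        · intro b _ hb; rw [if_neg (Ne.symm hb), map_zero, neg_zero, zero_mul]
        · simp
    rw [e1, e2, Fin.sum_univ_two]
    abel
  have hXZ1 : ∀ i, OrdGE 1 (Xn i + Z i) := fun i => (hX1 i).add ((hZ i).mono (by omega))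
  -- the annihilator part vanishes to order n + 2
  have hH : ∀ a, OrdGE (n + 1 + 1)
      (tsub (fun i => Xn i + Z i) (hc Θ (h a)) - C (hc Θ (h a) [])) := by
    intro a
    have h1 := tsub_congr2 Xn Z n hX1 hZ hn (hc Θ (h a))
    rw [lin_hc_eq_zero (h a) (D.hann a), add_zero] at h1
    have h2 : OrdGE (n + 2) (quad (hc Θ (h a)) Z (fun i => Xn i - X1 u₁ u₂ i)) :=
      quad_ordGE _ _ _ hZ hXn.1
    have h3 : OrdGE (n + 2) (quad (hc Θ (h a)) (fun i => Xn i - X1 u₁ u₂ i) Z) := by
      have := quad_ordGE _ _ (hc Θ (h a)) hXn.1 hZ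
      rwa [add_comm 2 n] at this
    rw [quad_sub_right] at h2
    rw [quad_sub_left] at h3
    have h4 := ((h1.add h2).add h3).add (hA' a)
    have h5 := hquadZ a
    rw [show n + 1 + 1 = n + 2 from rfl]
    refine h4.congr ?_
    rw [← sub_eq_zero]
    rw [← sub_eq_zero] at h5
    rw [← neg_eq_zero, ← h5]
    abel
  have hG : ∀ c, OrdGE (n + 1) (tsub (fun i => Xn i + Z i) (Θ c) - C (Θ c [])) := by
    intro c
    have h1 := tsub_congr1 Xn Z n hX1 hZ (by omega) (Θ c)
    rw [hlinZ (Θ c) (fun b => D.kv₁ b c) (fun b => D.kv₂ b c), add_zero] at h1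
    have h2 := h1.add (hXn.2 c)
    rwa [sub_add_sub_cancel] at h2
  obtain ⟨Y, hY, hY'⟩ := correctW D (n := n + 1) (by omega) _ hXZ1 hG hH
  refine ⟨fun i => Xn i + Z i + Y i, ⟨fun i => ?_, hY'⟩, fun i => ?_⟩
  · have h1 := ((hXn.1 i).add ((hZ i).mono hn)).add ((hY i).mono (by omega : 2 ≤ n + 1))
    exact h1.congr (by simp only []; abel)
  · have h1 := (hZ i).add ((hY i).mono (by omega : n ≤ n + 1))
    have e : (Xn i + Z i + Y i) - Xn i = Z i + Y i := by
      rw [add_assoc]; exact add_sub_cancel_left _ _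
    exact h1.congr e.symm

/-- **The solver.** -/
theorem solveW (D : SolverDataW Θ s h u₁ u₂ v₁ v₂) :
    ∃ X' : ι → NC (Fin 2) K, (∀ i, OrdGE 2 (X' i - X1 u₁ u₂ i)) ∧
      ∀ c, tsub X' (Θ c) = C (Θ c []) := by
  classical
  -- the sequence
  obtain ⟨X0, hX0⟩ := approx_twoW D
  have hstep : ∀ (n : ℕ) (p : {X' : ι → NC (Fin 2) K // Approx Θ u₁ u₂ (n + 2) X'}),
      ∃ q : {X' : ι → NC (Fin 2) K // Approx Θ u₁ u₂ (n + 1 + 2) X'},
        ∀ i, OrdGE (n + 2) (q.1 i - p.1 i) := by
    intro n p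
    obtain ⟨X', h1, h2⟩ := approx_succW D (n := n + 2) (by omega) p.1 p.2
    exact ⟨⟨X', h1⟩, h2⟩
  choose next hnext using hstep
  let seq : (n : ℕ) → {X' : ι → NC (Fin 2) K // Approx Θ u₁ u₂ (n + 2) X'} := fun n =>
    Nat.rec ⟨X0, hX0⟩ (fun n p => next n p) n
  have hseq : ∀ n, ∀ i, OrdGE (n + 2) ((seq (n + 1)).1 i - (seq n).1 i) := fun n =>
    hnext n (seq n)
  have hcauchy : ∀ n m, n ≤ m → ∀ i, OrdGE (n + 2) ((seq m).1 i - (seq n).1 i) := by
    intro n m hnm
    induction m, hnm using Nat.le_induction with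
    | base => intro i; rw [sub_self]; exact OrdGE.zero _
    | succ m hm ih =>
      intro i
      have h1 := ((hseq m i).mono (by omega : n + 2 ≤ m + 2)).add (ih i)
      rwa [sub_add_sub_cancel] at h1
  let Xl : ι → NC (Fin 2) K := fun i => ⟨fun w => (seq w.length).1 i w⟩
  have hXl : ∀ n i, OrdGE (n + 2) (Xl i - (seq n).1 i) := by
    intro n i w hw
    rw [sub_apply]
    change (seq w.length).1 i w - (seq n).1 i w = 0
    rcases Nat.le_total n w.length with hl | hl
    · have := hcauchy n w.length hl i w hw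
      rwa [sub_apply] at this
    · have := hcauchy w.length n hl i w (by omega)
      rw [sub_apply] at this
      rw [← neg_eq_zero, neg_sub]
      exact this
  have hXl2 : ∀ i, OrdGE 2 (Xl i - X1 u₁ u₂ i) := by
    intro i
    have h1 := ((hXl 0 i).mono (by omega : 2 ≤ 0 + 2)).add ((seq 0).2.1 i)
    rwa [sub_add_sub_cancel] at h1
  have hXl1 : ∀ i, OrdGE 1 (Xl i) := by
    intro i
    have h1 := ((hXl2 i).mono (by norm_num : 1 ≤ 2)).add (X1_ordGE (u₁ := u₁) (u₂ := u₂) i)
    rwa [sub_add_cancel] at h1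
  refine ⟨Xl, hXl2, fun c => ?_⟩
  rw [← sub_eq_zero]
  apply ext'
  intro w
  have h1 := tsub_congr0 Xl (seq w.length).1 (w.length + 2) hXl1 (seq w.length).2.ordGE
    (hXl w.length) (Θ c)
  have h2 := (seq w.length).2.2 c
  have h3 := (h1.mono (by omega : w.length + 1 ≤ w.length + 2)).add
    (h2.mono (by omega : w.length + 1 ≤ w.length + 2 + 1))
  rw [sub_add_sub_cancel] at h3
  exact h3 w (by omega)


end Data

end Solver

end NC

end Crest.Agent.R180
end

-- ▼ part R180/LinSep
section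

set_option autoImplicit false
set_option linter.unusedSimpArgs false

/-!
# Row 180: linear algebra selection lemmas for Theorem S

* `exists_separating`: a finite-dimensional space `S` of operators all of whose nonzero elements
  have rank `≥ dim S` has a separating vector (infinite field).
* `exists_separating_notMem`: the same, outside of a given proper subspace.
* `exists_two`: for a space of bilinear forms of ranks `≥ 3 dim H`: the choice of `u₁, u₂`.
-/

namespace Crest.Agent.R180.LinSep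

open Module Polynomial

variable {K : Type*} [Field K]

/-- Linear independence is an open condition on a line (over an infinite field). -/
theorem exists_ne_zero_linearIndependent [Infinite K] {W : Type*} [AddCommGroup W] [Module K W]
    {n : ℕ} (a b : Fin n → W) (ha : LinearIndependent K a) (bad : Finset K) :
    ∃ t : K, t ∉ bad ∧ LinearIndependent K (fun i => a i + t • b i) := by
  classical
  -- a left inverse of the coordinates
  obtain ⟨φ, hφ⟩ : ∃ φ : W →ₗ[K] (Fin n → K), ∀ i, φ (a i) = Pi.single i 1 := by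
    have hinj : LinearMap.ker (Fintype.linearCombination K a) = ⊥ := by
      rw [LinearMap.ker_eq_bot']
      intro m hm
      rw [Fintype.linearCombination_apply] at hm
      funext i
      exact (Fintype.linearIndependent_iff.mp ha) m hm i
    obtain ⟨g, hg⟩ := LinearMap.exists_leftInverse_of_injective _ hinj
    refine ⟨g, fun i => ?_⟩
    have h1 : Fintype.linearCombination K a (Pi.single i 1) = a i := by
      simp [Fintype.linearCombination_apply, Pi.single_apply]
    rw [← h1]
    have := LinearMap.congr_fun hg (Pi.single i 1)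
    simpa using this
  let B : Matrix (Fin n) (Fin n) K := fun i j => φ (b j) i
  let P : K[X] := Matrix.det (1 + (X : K[X]) • B.map C)
  have hPeval : ∀ t : K, P.eval t = Matrix.det (1 + t • B) := by
    intro t
    have h := (RingHom.map_det (evalRingHom t) (1 + (X : K[X]) • B.map C))
    simp only [coe_evalRingHom] at h
    rw [h]
    congr 1
    ext i j
    simp [Matrix.one_apply, Matrix.map_apply]
    split_ifs <;> simp [mul_comm]
  have hP0 : P ≠ 0 := by
    intro h
    have := hPeval 0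
    rw [h] at this
    simp at this
  have hQ : P * ∏ c ∈ bad, (X - C c) ≠ 0 := by
    refine mul_ne_zero hP0 ?_
    rw [Finset.prod_ne_zero_iff]
    intro c _
    exact X_sub_C_ne_zero c
  obtain ⟨t, ht⟩ : ∃ t : K, (P * ∏ c ∈ bad, (X - C c)).eval t ≠ 0 := by
    by_contra hcon
    push Not at hcon
    apply hQ
    apply Polynomial.funext
    intro r
    rw [hcon r, eval_zero]
  rw [eval_mul, eval_prod] at ht
  have h1 := left_ne_zero_of_mul ht
  have h2 := right_ne_zero_of_mul ht
  refine ⟨t, ?_, ?_⟩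
  · intro hmem
    apply h2
    apply Finset.prod_eq_zero hmem
    simp
  · rw [hPeval] at h1
    -- if a combination vanishes then the matrix kills a vector
    rw [Fintype.linearIndependent_iff]
    intro m hm
    have hmv : (1 + t • B).mulVec m = 0 := by
      have hφm := congrArg φ hm
      rw [map_sum, map_zero] at hφm
      funext i
      have hi := congrFun hφm i
      simp only [Finset.sum_apply, Pi.zero_apply, map_smul, map_add, hφ, Pi.smul_apply,
        Pi.add_apply, smul_eq_mul] at hi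
      rw [Matrix.mulVec, dotProduct, Pi.zero_apply, ← hi]
      refine Finset.sum_congr rfl fun j _ => ?_
      simp only [Matrix.add_apply, Matrix.one_apply, Matrix.smul_apply, smul_eq_mul, B,
        Pi.single_apply]
      ring
    have := Matrix.eq_zero_of_mulVec_eq_zero h1 hmv
    intro i
    rw [this]; rfl

section Sep

variable {S V W : Type*} [AddCommGroup S] [Module K S] [FiniteDimensional K S]
  [AddCommGroup V] [Module K V] [AddCommGroup W] [Module K W]

/-- A finite-dimensional space of operators all of whose nonzero elements have rank at least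
the dimension of the space has a separating vector. -/
theorem exists_separating [Infinite K] [FiniteDimensional K W] (T : S →ₗ[K] V →ₗ[K] W)
    (hT : ∀ h : S, h ≠ 0 → finrank K S ≤ finrank K (LinearMap.range (T h))) :
    ∃ u : V, Function.Injective (T.flip u) := by
  classical
  -- choose `u` with maximal rank
  obtain ⟨u, hu⟩ : ∃ u : V, ∀ v : V, finrank K (LinearMap.range (T.flip v)) ≤
      finrank K (LinearMap.range (T.flip u)) := by
    have hbdd : ∀ v : V, finrank K (LinearMap.range (T.flip v)) ≤ finrank K S :=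
      fun v => LinearMap.finrank_range_le _
    have hne : (Set.range fun v : V => finrank K (LinearMap.range (T.flip v))).Nonempty :=
      ⟨_, 0, rfl⟩
    have hb : BddAbove (Set.range fun v : V => finrank K (LinearMap.range (T.flip v))) :=
      ⟨finrank K S, by rintro _ ⟨v, rfl⟩; exact hbdd v⟩
    obtain ⟨u, hu⟩ := Nat.sSup_mem hne hb
    refine ⟨u, fun v => ?_⟩
    have := le_csSup hb ⟨v, rfl⟩
    simp only at hu this
    rw [← hu] at this
    exact this
  refine ⟨u, ?_⟩
  by_contra hinj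
  obtain ⟨h0, hh0, hne0⟩ : ∃ h0 : S, T.flip u h0 = 0 ∧ h0 ≠ 0 := by
    rw [← LinearMap.ker_eq_bot, Submodule.eq_bot_iff] at hinj
    push Not at hinj
    obtain ⟨x, hx, hx0⟩ := hinj
    exact ⟨x, by simpa using hx, hx0⟩
  -- range of `T h0` is inside the range of `T.flip u`
  have hsub : LinearMap.range (T h0) ≤ LinearMap.range (T.flip u) := by
    rintro _ ⟨v, rfl⟩
    by_contra hnot
    set r := finrank K (LinearMap.range (T.flip u)) with hr
    let bas := Module.finBasis K (LinearMap.range (T.flip u))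
    have hch : ∀ i, ∃ h : S, T.flip u h = (bas i : W) := fun i => (bas i).2
    choose hh hhh using hch
    let a : Fin (r + 1) → W := Fin.cons (T h0 v) (fun i : Fin r => (bas i : W))
    let b : Fin (r + 1) → W := Fin.cons 0 (fun i : Fin r => T (hh i) v)
    have ha : LinearIndependent K a := by
      rw [linearIndependent_finCons]
      refine ⟨?_, ?_⟩
      · have := bas.linearIndependent
        exact this.map' (Submodule.subtype _) (Submodule.ker_subtype _)
      · intro hmem
        apply hnot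
        have hle : Submodule.span K (Set.range fun i : Fin r => (bas i : W)) ≤
            LinearMap.range (T.flip u) := by
          rw [Submodule.span_le]
          rintro _ ⟨i, rfl⟩
          exact (bas i).2
        exact hle hmem
    obtain ⟨t, ht0, ht⟩ := exists_ne_zero_linearIndependent a b ha {0}
    rw [Finset.mem_singleton] at ht0
    have hmem : ∀ i, a i + t • b i ∈ LinearMap.range (T.flip (u + t • v)) := by
      intro i
      refine Fin.cases ?_ (fun j => ?_) i
      · refine ⟨t⁻¹ • h0, ?_⟩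
        have h0u : T h0 u = 0 := by simpa using hh0
        change T (t⁻¹ • h0) (u + t • v) = T h0 v + t • (0 : W)
        rw [map_smul, LinearMap.smul_apply, map_add, map_smul, h0u, zero_add, smul_smul,
          inv_mul_cancel₀ ht0, one_smul, smul_zero, add_zero]
      · refine ⟨hh j, ?_⟩
        have hj : T (hh j) u = (bas j : W) := hhh j
        change T (hh j) (u + t • v) = (bas j : W) + t • T (hh j) v
        rw [map_add, map_smul, hj]
    have hcard : r + 1 ≤ finrank K (LinearMap.range (T.flip (u + t • v))) := by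
      have hli : LinearIndependent K
          (fun i => (⟨a i + t • b i, hmem i⟩ : LinearMap.range (T.flip (u + t • v)))) := by
        apply LinearIndependent.of_comp (Submodule.subtype _)
        exact ht
      have := hli.fintype_card_le_finrank
      simpa using this
    have := hu (u + t • v)
    omega
  have h1 : finrank K (LinearMap.range (T h0)) ≤ finrank K (LinearMap.range (T.flip u)) :=
    Submodule.finrank_mono hsub
  have h2 := hT h0 hne0
  have h3 := (T.flip u).finrank_range_add_finrank_ker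
  have h4 : 0 < finrank K (LinearMap.ker (T.flip u)) := by
    rw [Module.finrank_pos_iff_exists_ne_zero]
    exact ⟨⟨h0, hh0⟩, fun h => hne0 (congrArg Subtype.val h)⟩
  omega

/-- Separating vectors are stable under generic perturbation. -/
theorem separating_add_smul [Infinite K] (T : S →ₗ[K] V →ₗ[K] W) (u v : V)
    (hu : Function.Injective (T.flip u)) (bad : Finset K) :
    ∃ t : K, t ∉ bad ∧ Function.Injective (T.flip (u + t • v)) := by
  classical
  let bas := Module.finBasis K S
  have ha : LinearIndependent K (fun i => T.flip u (bas i)) :=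
    bas.linearIndependent.map' (T.flip u) (LinearMap.ker_eq_bot.mpr hu)
  obtain ⟨t, ht0, ht⟩ := exists_ne_zero_linearIndependent _ (fun i => T.flip v (bas i)) ha bad
  refine ⟨t, ht0, ?_⟩
  have ht' : LinearIndependent K (fun i => T.flip (u + t • v) (bas i)) := by
    convert ht using 2 with i
    simp
  rw [← LinearMap.ker_eq_bot, LinearMap.ker_eq_bot']
  intro m hm
  rw [← bas.sum_repr m, map_sum] at hm
  simp only [map_smul] at hm
  have := (Fintype.linearIndependent_iff.mp ht') _ hm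
  rw [← bas.sum_repr m]
  exact Finset.sum_eq_zero fun i _ => by rw [this i, zero_smul]

/-- A separating vector outside of a given proper subspace. -/
theorem exists_separating_notMem [Infinite K] [FiniteDimensional K W] (T : S →ₗ[K] V →ₗ[K] W)
    (hT : ∀ h : S, h ≠ 0 → finrank K S ≤ finrank K (LinearMap.range (T h)))
    (N : Submodule K V) (hN : N ≠ ⊤) :
    ∃ u : V, Function.Injective (T.flip u) ∧ u ∉ N := by
  classical
  obtain ⟨u, hu⟩ := exists_separating T hT
  by_cases huN : u ∈ N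
  · obtain ⟨v, hv⟩ : ∃ v, v ∉ N := by
      by_contra hcon
      push Not at hcon
      exact hN (Submodule.eq_top_iff'.mpr hcon)
    obtain ⟨t, ht0, ht⟩ := separating_add_smul T u v hu {0}
    rw [Finset.mem_singleton] at ht0
    refine ⟨u + t • v, ht, fun hmem => hv ?_⟩
    have : t • v ∈ N := by
      have := N.sub_mem hmem huN
      simpa using this
    exact (Submodule.smul_mem_iff N ht0).mp this
  · exact ⟨u, hu, huN⟩

end Sep

section Two

variable {H V : Type*} [AddCommGroup H] [Module K H] [FiniteDimensional K H]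
  [AddCommGroup V] [Module K V] [FiniteDimensional K V]

/-- Codimension of the common kernel of a family of functionals. -/
theorem finrank_le_ker_add (f : V →ₗ[K] (Dual K H)) :
    finrank K V ≤ finrank K (LinearMap.ker f) + finrank K H := by
  have h := f.finrank_range_add_finrank_ker
  have h2 : finrank K (LinearMap.range f) ≤ finrank K (Dual K H) := Submodule.finrank_le _
  rw [Subspace.dual_finrank_eq] at h2
  omega

/-- Rank after restricting to a subspace and passing to a quotient. -/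
theorem finrank_range_restrict {W : Type*} [AddCommGroup W] [Module K W] [FiniteDimensional K W]
    (g : V →ₗ[K] W) (V₁ : Submodule K V) (P : Submodule K W) :
    finrank K (LinearMap.range g) + finrank K V₁ ≤
      finrank K (LinearMap.range (P.mkQ ∘ₗ g ∘ₗ V₁.subtype)) + finrank K P + finrank K V := by
  -- kernel of the restricted map
  have h1 := (P.mkQ ∘ₗ g ∘ₗ V₁.subtype).finrank_range_add_finrank_ker
  have h2 := g.finrank_range_add_finrank_ker
  -- ker (restricted) maps by g into P with kernel inside ker g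
  let k := LinearMap.ker (P.mkQ ∘ₗ g ∘ₗ V₁.subtype)
  let e : k →ₗ[K] W := g ∘ₗ V₁.subtype ∘ₗ k.subtype
  have h3 := e.finrank_range_add_finrank_ker
  have h4 : finrank K (LinearMap.range e) ≤ finrank K P := by
    apply Submodule.finrank_mono
    rintro _ ⟨⟨x, hx⟩, rfl⟩
    have : P.mkQ (g (V₁.subtype x)) = 0 := hx
    simpa [e] using this
  have h5 : finrank K (LinearMap.ker e) ≤ finrank K (LinearMap.ker g) := by
    let j : LinearMap.ker e →ₗ[K] LinearMap.ker g :=
      LinearMap.codRestrict (LinearMap.ker g) (V₁.subtype ∘ₗ k.subtype ∘ₗ (LinearMap.ker e).subtype)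
        (fun x => x.2)
    apply LinearMap.finrank_le_finrank_of_injective (f := j)
    intro x y hxy
    have h7 : ((j x : LinearMap.ker g) : V) = ((j y : LinearMap.ker g) : V) :=
      congrArg Subtype.val hxy
    apply Subtype.ext; apply Subtype.ext; apply Subtype.ext
    exact h7
  have h6 : finrank K (LinearMap.ker (P.mkQ ∘ₗ g ∘ₗ V₁.subtype)) = finrank K k := rfl
  omega

/-- Choice of `u₁, u₂`: given a linear family `q` of bilinear forms with ranks `≥ 3 dim H`, and a
subspace `N` with `dim N + dim H + 2 ≤ dim V`, there are `u₁, u₂` with `q h u₁ u₂ = 0` for all `h`,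
the `2 dim H` functionals `q h u₁`, `q h u₂` independent, and no nonzero combination of
`u₁, u₂` in `N`. -/
theorem exists_two_avoid [Infinite K] (q : H →ₗ[K] V →ₗ[K] V →ₗ[K] K)
    (hq : ∀ h : H, h ≠ 0 → 3 * finrank K H ≤ finrank K (LinearMap.range (q h)))
    (N : Submodule K V) (hN : finrank K N + finrank K H + 2 ≤ finrank K V) :
    ∃ u₁ u₂ : V, (∀ h, q h u₁ u₂ = 0) ∧
      (∀ h h' : H, q h u₁ + q h' u₂ = 0 → h = 0 ∧ h' = 0) ∧
      (∀ a b : K, a • u₁ + b • u₂ ∈ N → a = 0 ∧ b = 0) := by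
  classical
  have hNtop : N ≠ ⊤ := by
    intro h
    rw [h, finrank_top] at hN
    omega
  obtain ⟨u₁, hu₁, hu₁N⟩ := exists_separating_notMem q
    (fun h hh => by have := hq h hh; omega) N hNtop
  -- the common kernel
  let f : V →ₗ[K] Dual K H := (q.flip u₁).flip
  let V₁ : Submodule K V := LinearMap.ker f
  have hV₁ : finrank K V ≤ finrank K V₁ + finrank K H := finrank_le_ker_add f
  let P : Submodule K (V →ₗ[K] K) := LinearMap.range (q.flip u₁)
  have hP : finrank K P ≤ finrank K H := LinearMap.finrank_range_le _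
  let T : H →ₗ[K] V₁ →ₗ[K] ((V →ₗ[K] K) ⧸ P) :=
    { toFun := fun h => P.mkQ ∘ₗ (q h) ∘ₗ V₁.subtype
      map_add' := fun a b => by ext x; simp
      map_smul' := fun a b => by ext x; simp }
  have hTrank : ∀ h : H, h ≠ 0 → finrank K H ≤ finrank K (LinearMap.range (T h)) := by
    intro h hh
    have h1 := finrank_range_restrict (q h) V₁ P
    have h2 := hq h hh
    have h3 : finrank K (LinearMap.range (T h)) =
      finrank K (LinearMap.range (P.mkQ ∘ₗ (q h) ∘ₗ V₁.subtype)) := rfl
    omega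
  -- subspace to avoid inside V₁
  let N' : Submodule K V := N ⊔ Submodule.span K {u₁}
  have hN'dim : finrank K N' ≤ finrank K N + 1 := by
    have h1 := Submodule.finrank_add_le_finrank_add_finrank N (Submodule.span K {u₁})
    have h2 : finrank K (Submodule.span K {u₁}) ≤ 1 := by
      have := finrank_span_le_card (R := K) ({u₁} : Set V)
      simpa using this
    exact h1.trans (by omega)
  have hN'top : N'.comap V₁.subtype ≠ ⊤ := by
    intro h
    have hle : V₁ ≤ N' := by
      intro x hx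
      have : (⟨x, hx⟩ : V₁) ∈ N'.comap V₁.subtype := by rw [h]; trivial
      exact this
    have := Submodule.finrank_mono hle
    omega
  obtain ⟨u₂, hu₂, hu₂N⟩ := exists_separating_notMem T hTrank _ hN'top
  refine ⟨u₁, u₂, ?_, ?_, ?_⟩
  · intro h
    have : f (u₂ : V) = 0 := u₂.2
    exact LinearMap.congr_fun this h
  · intro h h' hsum
    have hh' : h' = 0 := by
      have h0 : T.flip u₂ h' = 0 := by
        change P.mkQ (q h' (u₂ : V)) = 0
        rw [Submodule.mkQ_apply, Submodule.Quotient.mk_eq_zero]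
        refine ⟨-h, ?_⟩
        rw [map_neg]
        exact neg_eq_of_add_eq_zero_right hsum
      exact hu₂ (by rw [h0, map_zero])
    refine ⟨?_, hh'⟩
    rw [hh', map_zero, LinearMap.zero_apply, add_zero] at hsum
    exact hu₁ (by rw [map_zero]; exact hsum)
  · intro a b hab
    have hb : b = 0 := by
      by_contra hb
      apply hu₂N
      change (u₂ : V) ∈ N'
      have h1 : b • (u₂ : V) ∈ N' := by
        have : b • (u₂ : V) = (a • u₁ + b • (u₂ : V)) - a • u₁ := by abel
        rw [this]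
        refine N'.sub_mem (Submodule.mem_sup_left hab) (Submodule.mem_sup_right ?_)
        exact Submodule.smul_mem _ _ (Submodule.mem_span_singleton_self _)
      exact (Submodule.smul_mem_iff N' hb).mp h1
    refine ⟨?_, hb⟩
    by_contra ha
    apply hu₁N
    rw [hb, zero_smul, add_zero] at hab
    exact (Submodule.smul_mem_iff N ha).mp hab

omit [FiniteDimensional K H] in
/-- The dual vectors: if the functionals `q (hb i) u₁`, `q (hb i) u₂` are independent then there
are dual vectors. -/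
theorem exists_dual_vectors {s : ℕ} (q : H →ₗ[K] V →ₗ[K] V →ₗ[K] K) (hb : Basis (Fin s) K H)
    (u₁ u₂ : V) (hind : ∀ h h' : H, q h u₁ + q h' u₂ = 0 → h = 0 ∧ h' = 0) :
    ∃ v₁ v₂ : Fin s → V, (∀ i j, q (hb i) u₁ (v₁ j) = if i = j then 1 else 0) ∧
      (∀ i j, q (hb i) u₂ (v₁ j) = 0) ∧ (∀ i j, q (hb i) u₁ (v₂ j) = 0) ∧
      (∀ i j, q (hb i) u₂ (v₂ j) = if i = j then 1 else 0) := by
  classical
  -- the map V → Dual (H × H)
  let g : (H × H) →ₗ[K] Dual K V := LinearMap.coprod (q.flip u₁) (q.flip u₂)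
  have hg : Function.Injective g := by
    rw [← LinearMap.ker_eq_bot, LinearMap.ker_eq_bot']
    rintro ⟨h, h'⟩ hz
    have := hind h h' (by simpa [g] using hz)
    rw [this.1, this.2]; rfl
  have hsurj : Function.Surjective g.dualMap := LinearMap.dualMap_surjective_of_injective hg
  have key : ∀ φ : Dual K (H × H), ∃ v : V, ∀ x : H × H, g x v = φ x := by
    intro φ
    obtain ⟨ψ, hψ⟩ := hsurj φ
    obtain ⟨v, hv⟩ := (Module.evalEquiv K V).surjective ψ
    refine ⟨v, fun x => ?_⟩
    have := LinearMap.congr_fun hψ x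
    rw [← this, LinearMap.dualMap_apply, ← hv, Module.evalEquiv_apply]
    rfl
  have k1 : ∀ j : Fin s, ∃ v : V, ∀ x : H × H, g x v = hb.coord j x.1 := fun j => by
    obtain ⟨v, hv⟩ := key ((hb.coord j) ∘ₗ LinearMap.fst K H H)
    exact ⟨v, fun x => by rw [hv x]; rfl⟩
  have k2 : ∀ j : Fin s, ∃ v : V, ∀ x : H × H, g x v = hb.coord j x.2 := fun j => by
    obtain ⟨v, hv⟩ := key ((hb.coord j) ∘ₗ LinearMap.snd K H H)
    exact ⟨v, fun x => by rw [hv x]; rfl⟩
  choose v₁ hv₁ using k1
  choose v₂ hv₂ using k2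
  refine ⟨v₁, v₂, ?_, ?_, ?_, ?_⟩
  · intro i j
    have := hv₁ j (hb i, 0)
    simp only [g, LinearMap.coprod_apply, map_zero, LinearMap.flip_apply, add_zero,
      Basis.coord_apply, Basis.repr_self, LinearMap.add_apply] at this
    rw [this, Finsupp.single_apply]
  · intro i j
    have := hv₁ j (0, hb i)
    simp only [g, LinearMap.coprod_apply, map_zero, LinearMap.flip_apply, zero_add,
      Basis.coord_apply, LinearMap.add_apply, Finsupp.coe_zero, Pi.zero_apply] at this
    exact this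
  · intro i j
    have := hv₂ j (hb i, 0)
    simp only [g, LinearMap.coprod_apply, map_zero, LinearMap.flip_apply, add_zero,
      Basis.coord_apply, LinearMap.add_apply, Finsupp.coe_zero, Pi.zero_apply] at this
    exact this
  · intro i j
    have := hv₂ j (0, hb i)
    simp only [g, LinearMap.coprod_apply, map_zero, LinearMap.flip_apply, zero_add,
      Basis.coord_apply, Basis.repr_self, LinearMap.add_apply] at this
    rw [this, Finsupp.single_apply]

end Two

end Crest.Agent.R180.LinSep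
end

-- ▼ part R180/MinVII0
section

set_option autoImplicit false

/-!
# Row 180, ROUTE M, step (VII): solving at the minimal state
-/

noncomputable section
namespace Crest.Agent.R180

open TensorProduct Module

/-! ### alternation from the cyclic condition -/

namespace NC

section Alt

variable {ι κ K : Type} [Field K] [CharZero K] [Fintype ι] [Fintype κ]

theorem alt_of_hcyc {Θ : κ → NC ι K} (h : κ → K) (hann : ∀ i, ∑ c, h c * Θ c [i] = 0)
    (hcyc : ∀ X : ι → NC (Fin 2) K, (∀ i, OrdGE 1 (X i)) →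
      (∀ c, OrdGE 2 (tsub X (Θ c) - C (Θ c []))) → ∀ (w : List (Fin 2)), w.length = 2 →
      ∑ k ∈ Finset.range 2,
        (tsub X (hc Θ h) - C (hc Θ h []) : NC (Fin 2) K) (w.rotate k) = 0)
    (x y : ι → K) (hx : ∀ c, ∑ i, Θ c [i] * x i = 0) (hy : ∀ c, ∑ i, Θ c [i] * y i = 0) :
    qf Θ h x y + qf Θ h y x = 0 := by
  have hlinX1 : ∀ f : NC ι K, (∑ i, f [i] * x i = 0) → (∑ i, f [i] * y i = 0) →
      lin f (X1 x y) = 0 := by
    intro f h1 h2
    unfold X1
    rw [lin_add, lin_vec, lin_vec, h1, h2, map_zero, zero_mul, zero_mul, add_zero]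
  have hG : ∀ c, OrdGE 2 (tsub (X1 x y) (Θ c) - C (Θ c [])) := by
    intro c
    have h1 := tsub_lin (X1 x y) X1_ordGE (Θ c)
    rwa [hlinX1 _ (hx c) (hy c), add_zero] at h1
  have h1 := tsub_quad (X1 x y) X1_ordGE (hc Θ h)
  rw [lin_hc_eq_zero h hann, add_zero] at h1
  have h2 := hcyc (X1 x y) X1_ordGE hG [0, 1] rfl
  have hq : quad (hc Θ h) (X1 x y) (X1 x y) =
      (C (qf Θ h x x) : NC (Fin 2) K) * (X 0 * X 0) + (C (qf Θ h x y) : NC (Fin 2) K) * (X 0 * X 1) +
      ((C (qf Θ h y x) : NC (Fin 2) K) * (X 1 * X 0) +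
        (C (qf Θ h y y) : NC (Fin 2) K) * (X 1 * X 1)) := by
    have e : (X1 x y : ι → NC (Fin 2) K) = fun i => (C (x i) : NC (Fin 2) K) * X 0 +
      (C (y i) : NC (Fin 2) K) * X 1 := rfl
    conv_lhs => rw [e]
    rw [quad_add_left, quad_add_right, quad_add_right, quad_vec, quad_vec, quad_vec, quad_vec]
    simp only [qf_eq]
  have key : ∀ v : List (Fin 2), v.length = 2 → (tsub (X1 x y) (hc Θ h) - C (hc Θ h []) :
      NC (Fin 2) K) v = quad (hc Θ h) (X1 x y) (X1 x y) v := by
    intro v hv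
    have := h1 v (by omega)
    rw [sub_apply, add_apply] at this
    rw [sub_apply]
    rw [← sub_eq_zero, ← this]
    abel
  have e01 : quad (hc Θ h) (X1 x y) (X1 x y) [0, 1] = qf Θ h x y := by
    rw [hq]
    simp [mul_cons, ld_X]
  have e10 : quad (hc Θ h) (X1 x y) (X1 x y) [1, 0] = qf Θ h y x := by
    rw [hq]
    simp [mul_cons, ld_X]
  rw [Finset.sum_range_succ, Finset.sum_range_one] at h2
  have r0 : ([0, 1] : List (Fin 2)).rotate 0 = [0, 1] := rfl
  have r1 : ([0, 1] : List (Fin 2)).rotate 1 = [1, 0] := rfl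
  rw [r0, r1, key _ rfl, key _ rfl, e01, e10] at h2
  exact h2

end Alt

end NC

/-! ### composition in coordinates -/

section comp

variable {A : DA} {m n : ℕ}

theorem compD_C' (X : Fin m → NC (Fin n) A.F) (d : A.D) : compD X (NC.C d) = NC.C d :=
  NC.subst_C _ _ _ _ _ d

theorem compD_map (X : Fin m → NC (Fin n) A.F) (f : NC (Fin m) A.F) :
    compD X (NC.map (algebraMap A.F A.D) f) = NC.map (algebraMap A.F A.D) (NC.tsub X f) := by
  have hX : ∀ j, (NC.map (algebraMap A.F A.D) (X j - NC.C (X j [])) : NC (Fin n) A.D) ∈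
      (CFilt.nc (CFilt.discrete A.D) : CFilt (NC (Fin n) A.D)).I 1 := fun j => by
    rw [CFilt.mem_nc_one, CFilt.mem_discrete]
    right
    simp [NC.map_apply]
  have hc : ∀ (k : A.D) (j : Fin m), (NC.C k : NC (Fin n) A.D) *
      NC.map (algebraMap A.F A.D) (X j - NC.C (X j [])) =
      NC.map (algebraMap A.F A.D) (X j - NC.C (X j [])) * NC.C k := fun k j => by
    apply NC.ext'; intro w
    rw [NC.C_mul_apply, NC.mul_C_apply, NC.map_apply]
    exact (Algebra.commutes _ _).symm
  have h1 := NC.subst_unique (CFilt.nc (CFilt.discrete A.D))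
    ((NC.C : A.D →+* NC (Fin n) A.D).comp (algebraMap A.F A.D))
    (fun j => NC.map (algebraMap A.F A.D) (X j - NC.C (X j []))) hX
    (fun k j => hc (algebraMap A.F A.D k) j)
    (fun f => compD X (NC.map (algebraMap A.F A.D) f))
    (fun f => NC.subst_eq (CFilt.nc (CFilt.discrete A.D)) (NC.C : A.D →+* NC (Fin n) A.D)
      (fun j => NC.map (algebraMap A.F A.D) (X j - NC.C (X j []))) hX hc
      (NC.map (algebraMap A.F A.D) f)) f
  have h2 := NC.subst_unique (CFilt.nc (CFilt.discrete A.D))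
    ((NC.C : A.D →+* NC (Fin n) A.D).comp (algebraMap A.F A.D))
    (fun j => NC.map (algebraMap A.F A.D) (X j - NC.C (X j []))) hX
    (fun k j => hc (algebraMap A.F A.D k) j)
    (fun f => NC.map (algebraMap A.F A.D) (NC.tsub X f))
    (fun f => by
      have e : NC.tsub X f = NC.C (f []) + ∑ i, (X i - NC.C (X i [])) * NC.tsub X (NC.ld i f) :=
        NC.subst_eq _ _ _ _ _ f
      change NC.map (algebraMap A.F A.D) (NC.tsub X f) = _
      rw [e, map_add, map_sum, NC.map_C]
      congr 1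
      refine Finset.sum_congr rfl fun i _ => ?_
      rw [map_mul]) f
  exact h1.trans h2.symm

theorem compD_coord {κ : Type} [Fintype κ] (b : κ → A.D) (Θ : κ → NC (Fin m) A.F)
    (γ : NC (Fin m) A.D) (hγ : ∀ w, γ w = ∑ c, Θ c w • b c) (X : Fin m → NC (Fin n) A.F)
    (w : List (Fin n)) : compD X γ w = ∑ c, (NC.tsub X (Θ c)) w • b c := by
  have e : γ = ∑ c, (NC.map (algebraMap A.F A.D) (Θ c) : NC (Fin m) A.D) * NC.C (b c) := by
    apply NC.ext'; intro w
    rw [NC.sum_apply, hγ w]
    refine Finset.sum_congr rfl fun c _ => ?_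
    rw [NC.mul_C_apply, NC.map_apply, Algebra.smul_def]
  rw [e, map_sum, NC.sum_apply]
  refine Finset.sum_congr rfl fun c _ => ?_
  rw [map_mul, compD_map, compD_C', NC.mul_C_apply, NC.map_apply, Algebra.smul_def]

end comp

/-! ### the final trivial move -/

theorem hEv_map {K E : Type} [CommRing K] [Ring E] [Algebra K E] {m μ : ℕ}
    (X' : Fin m → NC (Fin μ) K) (hX' : ∀ j, X' j [] = 0)
    (hX : ∀ j, PowerSeries.constantCoeff
      ((NC.map ((PowerSeries.C (R := E)).comp (algebraMap K E)) (X' j) :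
        NC (Fin μ) (PowerSeries E)) []) = 0) (f : NC (Fin m) K) :
    hEv (fun j => NC.map ((PowerSeries.C (R := E)).comp (algebraMap K E)) (X' j)) hX f =
      NC.map ((PowerSeries.C (R := E)).comp (algebraMap K E)) (NC.tsub X' f) := by
  symm
  refine NC.subst_unique _ _ _ _ _
    (fun f => NC.map ((PowerSeries.C (R := E)).comp (algebraMap K E)) (NC.tsub X' f))
    (fun f => ?_) f
  rw [NC.tsub_eq X' hX' f, map_add, map_sum, NC.map_C]
  congr 1
  refine Finset.sum_congr rfl fun i _ => ?_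
  rw [map_mul]

/-- the final trivial move: an exact solution `X'` of `γ(X') = 0` with independent linear parts -/
theorem RS.final_move {P : (A : DA) → (m : ℕ) → NC (Fin m) A.D → Prop} (hP : MoveClosed P)
    {A : DA} {m : ℕ} {Λ : Subalgebra A.F A.D} {γ : NC (Fin m) A.D} (h : RS P A m Λ γ)
    (htriv : ∃ M : Adm A, Function.Bijective (algebraMap A.F M.F1) ∧
      Function.Bijective (algebraMap M.F1 M.E))
    {κ : Type} [Fintype κ] (b : κ → A.D) (Θ : κ → NC (Fin m) A.F)
    (hγ : ∀ w, γ w = ∑ c, Θ c w • b c)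
    (X' : Fin m → NC (Fin 2) A.F) (hX' : ∀ j, X' j [] = 0)
    (u₁ u₂ : Fin m → A.F) (h1 : ∀ j, X' j [0] = u₁ j) (h2 : ∀ j, X' j [1] = u₂ j)
    (hu : ∀ a b : A.F, a • u₁ + b • u₂ = 0 → a = 0 ∧ b = 0)
    (hs : ∀ c, NC.tsub X' (Θ c) = 0) :
    ∃ (A' : DA) (Λ' : Subalgebra A'.F A'.D), RS P A' 2 Λ' 0 := by
  obtain ⟨M, hM1, hM2⟩ := htriv
  set X : Fin m → NC (Fin 2) (PowerSeries M.E) :=
    fun j => NC.map ((PowerSeries.C (R := M.E)).comp (algebraMap A.F M.E)) (X' j) with hXdef
  have hXw : ∀ j w, X j w = PowerSeries.C (algebraMap A.F M.E (X' j w)) := fun j w => rfl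
  have hX0 : ∀ j, PowerSeries.constantCoeff (X j []) = 0 := by
    intro j
    rw [hXw, hX' j, map_zero, map_zero, map_zero]
  have hpt : ∀ j, M.pt X j = 0 := by
    intro j
    change LD.ofPS (X j []) = 0
    rw [hXw, hX' j, map_zero, map_zero, map_zero]
  have hfr1 : Module.finrank M.F1 M.E = 1 := by
    rw [← (LinearEquiv.ofBijective (Algebra.linearMap M.F1 M.E) hM2).finrank_eq]
    exact Module.finrank_self _
  have hgood : Good' M X := by
    refine ⟨hX0, ?_, ?_⟩
    · have hfr : Module.finrank (LF M.F1) (LD M.E) = 1 := by rw [LD.finrank_eq, hfr1]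
      have := Subalgebra.bot_eq_top_of_finrank_eq_one hfr
      exact top_le_iff.1 (this ▸ bot_le)
    · intro l g hl
      have hcof : ∀ (n : ℤ) (j : Fin m), (l 0).co n • algebraMap A.F M.E (u₁ j) +
          (l 1).co n • algebraMap A.F M.E (u₂ j) = 0 := by
        intro n j
        have h3 := hl j
        rw [hpt j, mul_zero, zero_mul, sub_zero, Fin.sum_univ_two] at h3
        have h4 : ∀ (i : Fin 2), M.dir X i j = LD.C (algebraMap A.F M.E (X' j [i])) := fun i => rfl
        rw [h4, h4, h1, h2] at h3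
        have h5 := congrArg (fun z : LD M.E => z.co n) h3
        simp only [LD.co_add, LD.co_smul_C, LD.co_zero] at h5
        exact h5
      have hl0 : ∀ n, (l 0).co n = 0 ∧ (l 1).co n = 0 := by
        intro n
        obtain ⟨a, ha⟩ := hM1.2 ((l 0).co n)
        obtain ⟨b', hb'⟩ := hM1.2 ((l 1).co n)
        have h6 : a • u₁ + b' • u₂ = 0 := by
          funext j
          have h7 := hcof n j
          rw [← ha, ← hb'] at h7
          simp only [Algebra.smul_def] at h7
          rw [← IsScalarTower.algebraMap_apply, ← IsScalarTower.algebraMap_apply, ← map_mul,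
            ← map_mul, ← map_add] at h7
          have hinj : Function.Injective (algebraMap A.F M.E) := by
            rw [IsScalarTower.algebraMap_eq A.F M.F1 M.E]
            exact hM2.1.comp hM1.1
          have h8 : a * u₁ j + b' * u₂ j = 0 := hinj (by rw [h7, map_zero])
          simpa using h8
        obtain ⟨h9, h10⟩ := hu a b' h6
        rw [← ha, ← hb', h9, h10, map_zero]
        exact ⟨rfl, rfl⟩
      funext i
      apply LF.ext; intro n
      fin_cases i
      · exact (hl0 n).1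
      · exact (hl0 n).2
  have hhX : M.hX X hX0 γ = 0 := by
    have e : γ = ∑ c, (NC.map (algebraMap A.F A.D) (Θ c) : NC (Fin m) A.D) * NC.C (b c) := by
      apply NC.ext'; intro w
      rw [NC.sum_apply, hγ w]
      refine Finset.sum_congr rfl fun c _ => ?_
      rw [NC.mul_C_apply, NC.map_apply, Algebra.smul_def]
    rw [e, map_sum]
    refine Finset.sum_eq_zero fun c _ => ?_
    rw [map_mul]
    have : M.hX X hX0 (NC.map (algebraMap A.F A.D) (Θ c)) = 0 := by
      apply NC.ext'; intro w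
      rw [M.hX_map_apply]
      have h3 : M.hE0 X hX0 (Θ c) = 0 := by
        refine (hEv_map X' hX' hX0 (Θ c)).trans ?_
        rw [hs c, map_zero]
      rw [h3, NC.zero_apply, map_zero, map_zero, NC.zero_apply]
    rw [this, zero_mul]
  refine ⟨A.mv M, _, h.move hP M X hgood 1 1 0 (one_mul 1) (one_mul 1) ?_ 0 ?_ rfl ?_ ?_ ?_⟩
  · intro v a _
    cases v with
    | nil => rw [NC.one_nil, mul_one, one_mul]
    | cons s v => rw [NC.one_cons, mul_zero, zero_mul]
  · rw [hhX, mul_zero, zero_mul, map_zero, add_zero]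
  · intro v a _; rw [NC.zero_apply, mul_zero, zero_mul]
  · intro v; rw [NC.zero_apply, mul_zero]
  · intro a _; rw [mul_zero, zero_mul]

end Crest.Agent.R180
end
end

-- ▼ part R180/MinVIICore
section

set_option autoImplicit false

/-!
# Row 180, ROUTE M, step (VII): core (with the outputs of the other steps as hypotheses)
-/

noncomputable section
namespace Crest.Agent.R180

open TensorProduct Module

theorem minVII_core {P : (A : DA) → (m : ℕ) → NC (Fin m) A.D → Prop} (hP : MoveClosed P)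
    {A : DA} {m : ℕ} {Λ : Subalgebra A.F A.D} {γ : NC (Fin m) A.D} (h : RS P A m Λ γ)
    (t : A.D →ₗ[A.F] A.F)
    (hdim : finrank A.F (HH t (UU γ)) + 2 ≤ finrank A.F (LinearMap.ker (lin γ)))
    (hnd : ∀ η ∈ HH t (UU γ), η ≠ 0 →
      3 * finrank A.F (HH t (UU γ)) ≤ brk (qH γ t η) (LinearMap.ker (lin γ)))
    (hlead : ∀ X : Fin m → NC (Fin 2) A.F, (∀ j, X j [] = 0) → ∀ k, 2 ≤ k →
      (∀ w : List (Fin 2), w.length < k → compD X γ w = 0) →
      ∀ w : List (Fin 2), w.length = k → (∀ η ∈ HH t (UU γ), t (η * compD X γ w) = 0) →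
      compD X γ w ∈ UU γ)
    (hcyc : ∀ X : Fin m → NC (Fin 2) A.F, (∀ j, X j [] = 0) → ∀ k, 2 ≤ k →
      (∀ w : List (Fin 2), w.length < k → compD X γ w = 0) →
      ∀ η ∈ HH t (UU γ), ∀ w : List (Fin 2), w.length = k →
      ∑ i ∈ Finset.range k, t (η * compD X γ (w.rotate i)) = 0)
    (htriv : ∃ M : Adm A, Function.Bijective (algebraMap A.F M.F1) ∧
      Function.Bijective (algebraMap M.F1 M.E)) :
    ∃ (A' : DA) (Λ' : Subalgebra A'.F A'.D), RS P A' 2 Λ' 0 := by
  classical
  -- coordinates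
  let b : Basis (Fin (finrank A.F A.D)) A.F A.D := Module.finBasis A.F A.D
  let Θ : Fin (finrank A.F A.D) → NC (Fin m) A.F := fun c => ⟨fun w => b.repr (γ w) c⟩
  have hΘ : ∀ c w, Θ c w = b.repr (γ w) c := fun _ _ => rfl
  have hΘ0 : ∀ c, Θ c [] = 0 := by
    intro c; rw [hΘ, h.zero, map_zero]; rfl
  have hγ : ∀ w, γ w = ∑ c, Θ c w • b c := fun w => (b.sum_repr (γ w)).symm
  have hcoord : ∀ (X : Fin m → NC (Fin 2) A.F) (w : List (Fin 2)),
      compD X γ w = ∑ c, (NC.tsub X (Θ c)) w • b c := fun X w => compD_coord b Θ γ hγ X w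
  -- the annihilator
  set H : Submodule A.F A.D := HH t (UU γ) with hH
  set s := finrank A.F H with hs
  let hb : Basis (Fin s) A.F H := Module.finBasis A.F H
  let ha : Fin s → Fin (finrank A.F A.D) → A.F := fun a c => t ((hb a : A.D) * b c)
  have hpair : ∀ (a : Fin s) (r : Fin (finrank A.F A.D) → A.F),
      ∑ c, ha a c * r c = t ((hb a : A.D) * ∑ c, r c • b c) := by
    intro a r
    rw [Finset.mul_sum, map_sum]
    refine Finset.sum_congr rfl fun c _ => ?_
    rw [mul_smul_comm, map_smul, smul_eq_mul, mul_comm]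
  have hpairΘ : ∀ (a : Fin s) (w : List (Fin m)), ∑ c, ha a c * Θ c w =
      t ((hb a : A.D) * γ w) := by
    intro a w; rw [hpair, ← hγ]
  have hUmem : ∀ i, γ [i] ∈ UU γ := by
    intro i
    refine ⟨Pi.single i 1, ?_⟩
    rw [lin_apply, Finset.sum_eq_single i]
    · rw [Pi.single_eq_same, one_smul]
    · intro j _ hj; rw [Pi.single_eq_of_ne hj, zero_smul]
    · intro hi; exact absurd (Finset.mem_univ i) hi
  have hann : ∀ a i, ∑ c, ha a c * Θ c [i] = 0 := by
    intro a i
    rw [hpairΘ]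
    exact ((mem_HH.1 (hb a).2) _ (hUmem i)).2
  -- every element of `H` is a combination of the basis
  have hspan : ∀ x : A.D, (∀ a, t ((hb a : A.D) * x) = 0) → ∀ η ∈ H, t (η * x) = 0 := by
    intro x hx η hη
    have e : η = ∑ a, (hb.repr ⟨η, hη⟩ a) • (hb a : A.D) := by
      have h2 : H.subtype (∑ a, (hb.repr ⟨η, hη⟩ a) • hb a) = η :=
        congrArg H.subtype (hb.sum_repr ⟨η, hη⟩)
      rw [map_sum] at h2
      simp only [map_smul] at h2
      exact h2.symm
    rw [e, Finset.sum_mul, map_sum]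
    refine Finset.sum_eq_zero fun a _ => ?_
    rw [smul_mul_assoc, map_smul, hx a, smul_zero]
  -- translation of orders
  have hX0 : ∀ X : Fin m → NC (Fin 2) A.F, (∀ i, NC.OrdGE 1 (X i)) → ∀ j, X j [] = 0 :=
    fun X hX j => NC.ordGE_nil (hX j)
  have hC0 : ∀ c, (NC.C (Θ c []) : NC (Fin 2) A.F) = 0 := fun c => by rw [hΘ0, map_zero]
  have hord : ∀ (X : Fin m → NC (Fin 2) A.F) (n : ℕ),
      (∀ c, NC.OrdGE n (NC.tsub X (Θ c) - NC.C (Θ c []))) →
      ∀ w : List (Fin 2), w.length < n → compD X γ w = 0 := by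
    intro X n hn w hw
    rw [hcoord]
    refine Finset.sum_eq_zero fun c _ => ?_
    have := hn c w hw
    rw [hC0, sub_zero] at this
    rw [this, zero_smul]
  have hvan : ∀ x : Fin m → A.F, (∀ c, ∑ i, Θ c [i] * x i = 0) ↔
      x ∈ LinearMap.ker (lin γ) := by
    intro x
    rw [LinearMap.mem_ker, lin_apply]
    have e : ∀ c, b.repr (∑ i, x i • γ [i]) c = ∑ i, Θ c [i] * x i := by
      intro c
      rw [map_sum, Finsupp.finsetSum_apply]
      refine Finset.sum_congr rfl fun i _ => ?_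
      rw [map_smul, Finsupp.smul_apply, smul_eq_mul, mul_comm]
    constructor
    · intro hx
      apply b.repr.injective
      ext c
      rw [e, hx c, map_zero]; rfl
    · intro hx c
      rw [← e, hx, map_zero]; rfl
  -- cyclic sums
  have hcyc' : ∀ X : Fin m → NC (Fin 2) A.F, (∀ i, NC.OrdGE 1 (X i)) → ∀ n, 2 ≤ n →
      (∀ c, NC.OrdGE n (NC.tsub X (Θ c) - NC.C (Θ c []))) → ∀ a (w : List (Fin 2)),
      w.length = n → ∑ k ∈ Finset.range n,
      (NC.tsub X (NC.hc Θ (ha a)) - NC.C (NC.hc Θ (ha a) []) : NC (Fin 2) A.F) (w.rotate k) = 0 := by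
    intro X hX n hn hG a w hw
    have h1 := hcyc X (hX0 X hX) n hn (hord X n hG) (hb a : A.D) (hb a).2 w hw
    rw [← h1]
    refine Finset.sum_congr rfl fun k _ => ?_
    rw [NC.tsub_hc, NC.C_hc_nil, hcoord, ← hpair]
    rw [NC.sub_apply, NC.sum_apply, NC.sum_apply]
    rw [Finset.sum_eq_zero (f := fun c => ((NC.C (ha a c) * NC.C (Θ c []) :
      NC (Fin 2) A.F)).coeff (w.rotate k)) (fun c _ => by rw [hC0, mul_zero, NC.zero_apply]),
      sub_zero]
    exact Finset.sum_congr rfl fun c _ => NC.C_mul_apply _ _ _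
  -- the bilinear forms on `V`
  set V : Submodule A.F (Fin m → A.F) := LinearMap.ker (lin γ) with hV
  let q : H →ₗ[A.F] V →ₗ[A.F] V →ₗ[A.F] A.F :=
    { toFun := fun η => (Matrix.toBilin' (qH γ t (η : A.D))).domRestrict₁₂ V V
      map_add' := by
        intro x y
        ext u v
        simp only [LinearMap.domRestrict₁₂_apply, LinearMap.add_apply, Matrix.toBilin'_apply, qH,
          Submodule.coe_add, add_mul, map_add, mul_add, Finset.sum_add_distrib]
      map_smul' := by
        intro c x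
        ext u v
        simp only [LinearMap.domRestrict₁₂_apply, LinearMap.smul_apply, Matrix.toBilin'_apply, qH,
          Submodule.coe_smul, smul_mul_assoc, map_smul, smul_eq_mul, RingHom.id_apply,
          Finset.mul_sum]
        refine Finset.sum_congr rfl fun i _ => Finset.sum_congr rfl fun j _ => ?_
        ring }
  have hq : ∀ η : H, q η = (Matrix.toBilin' (qH γ t (η : A.D))).domRestrict₁₂ V V := fun _ => rfl
  have hqf : ∀ (a : Fin s) (u v : V), q (hb a) u v = NC.qf Θ (ha a) u v := by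
    intro a u v
    rw [hq, LinearMap.domRestrict₁₂_apply, Matrix.toBilin'_apply]
    unfold NC.qf NC.qco
    refine Finset.sum_congr rfl fun i _ => Finset.sum_congr rfl fun j _ => ?_
    rw [hpairΘ, qH]
    ring
  obtain ⟨u₁, u₂, h12, hinj, hind⟩ := LinSep.exists_two_avoid q (fun η hη => by
      have h1 := hnd (η : A.D) η.2 (fun h0 => hη (Subtype.ext h0))
      rw [brk] at h1
      exact h1) (⊥ : Submodule A.F V) (by rw [finrank_bot]; omega)
  obtain ⟨v₁, v₂, d11, d21, d12, d22⟩ := LinSep.exists_dual_vectors q hb u₁ u₂ hinj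
  have D : NC.SolverDataW Θ s ha (u₁ : Fin m → A.F) (u₂ : Fin m → A.F)
      (fun a => (v₁ a : Fin m → A.F)) (fun a => (v₂ a : Fin m → A.F)) := by
    refine ⟨hann, ?_, hcyc', (hvan _).2 u₁.2, (hvan _).2 u₂.2, fun a => (hvan _).2 (v₁ a).2,
      fun a => (hvan _).2 (v₂ a).2, ?_, ?_, ?_, ?_, ?_, ?_⟩
    · intro X hX n hn hG w hw hker
      have h1 : compD X γ w ∈ UU γ := by
        refine hlead X (hX0 X hX) n hn (hord X n hG) w hw (hspan _ fun a => ?_)
        rw [hcoord, ← hpair]
        have := hker a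
        simpa only [hC0, sub_zero] using this
      obtain ⟨y, hy⟩ := h1
      refine ⟨y, fun c => ?_⟩
      rw [hC0, sub_zero]
      have e1 : b.repr (lin γ y) c = ∑ i, Θ c [i] * y i := by
        rw [lin_apply, map_sum, Finsupp.finsetSum_apply]
        refine Finset.sum_congr rfl fun i _ => ?_
        rw [map_smul, Finsupp.smul_apply, smul_eq_mul, mul_comm]
      rw [← e1, hy, hcoord, b.repr_sum_self]
    · intro a x y hx hy
      exact NC.alt_of_hcyc (ha a) (hann a) (fun X hX hG w hw => hcyc' X hX 2 le_rfl hG a w hw)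
        x y hx hy
    · intro a; rw [← hqf]; exact h12 _
    · intro a c; rw [← hqf]; exact d11 a c
    · intro a c; rw [← hqf]; exact d21 a c
    · intro a c; rw [← hqf]; exact d12 a c
    · intro a c; rw [← hqf]; exact d22 a c
  obtain ⟨X', hX'1, hX'2⟩ := NC.solveW D
  have hval : ∀ (j : Fin m) (w : List (Fin 2)), w.length < 2 →
      X' j w = NC.X1 (u₁ : Fin m → A.F) (u₂ : Fin m → A.F) j w := by
    intro j w hw
    have := hX'1 j w hw
    rw [NC.sub_apply, sub_eq_zero] at this
    exact this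
  refine h.final_move hP htriv b Θ hγ X' ?_ (u₁ : Fin m → A.F) (u₂ : Fin m → A.F) ?_ ?_ ?_ ?_
  · intro j
    rw [hval j [] (by simp)]
    simp [NC.X1]
  · intro j
    rw [hval j [0] (by simp)]
    simp [NC.X1]
  · intro j
    rw [hval j [1] (by simp)]
    simp [NC.X1]
  · intro x y hxy
    refine hind x y ?_
    rw [Submodule.mem_bot]
    apply Subtype.ext
    simpa using hxy
  · intro c
    rw [hX'2 c, hC0]

end Crest.Agent.R180
end
end

-- ▼ part R180/MinVIIOf
section

set_option autoImplicit false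

/-!
# Row 180, ROUTE M, step (VII): `minVII` from the statements of the other blocks
-/

noncomputable section
namespace Crest.Agent.R180

open TensorProduct Module

variable {P : (A : DA) → (m : ℕ) → NC (Fin m) A.D → Prop}

theorem minVII_of (hP : MoveClosed P) {S : St P} (h : S.NDeg)
    (hUne : ∃ u ∈ S.U, u ≠ 0)
    (hII : ∀ (X : Fin S.m → NC (Fin 2) S.A.F) (_ : ∀ j, X j [] = 0) (k : ℕ) (_ : 2 ≤ k)
      (_ : ∀ w : List (Fin 2), w.length < k → compD X S.γ w = 0) (w : List (Fin 2))
      (_ : w.length = k) (u : S.A.D) (_ : u ∈ S.U) (_ : u ≠ 0),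
      ∃ ψ ∈ S.Psi, compD X S.γ w = u * ψ)
    (hHH : ∀ {t : S.A.D →ₗ[S.A.F] S.A.F}, IsTr t → finrank S.A.F (HH t S.U) = S.sd)
    (hmem : ∀ {t : S.A.D →ₗ[S.A.F] S.A.F} (_ : IsTr t) {u : S.A.D} (_ : u ∈ S.U) (_ : u ≠ 0)
      (x : S.A.D) (_ : ∃ ψ ∈ S.Psi, x = u * ψ) (_ : ∀ h ∈ HH t S.U, t (h * x) = 0), x ∈ S.U)
    (hV : ∀ (t : S.A.D →ₗ[S.A.F] S.A.F) (_ : IsTr t) (X : Fin S.m → NC (Fin 2) S.A.F)
      (_ : ∀ j, X j [] = 0) (k : ℕ) (_ : 2 ≤ k)
      (_ : ∀ w : List (Fin 2), w.length < k → compD X S.γ w = 0) (η : S.A.D)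
      (_ : η ∈ HH t S.U) (w : List (Fin 2)) (_ : w.length = k),
      ∑ i ∈ Finset.range k, t (η * compD X S.γ (w.rotate i)) = 0)
    (htriv : ∃ M : Adm S.A, Function.Bijective (algebraMap S.A.F M.F1) ∧
      Function.Bijective (algebraMap M.F1 M.E)) :
    ∃ (A' : DA) (Λ' : Subalgebra A'.F A'.D), RS P A' 2 Λ' 0 := by
  obtain ⟨_, hker, t, ht, hnd⟩ := h
  obtain ⟨u, hu, hu0⟩ := hUne
  refine minVII_core hP S.rs t ?_ ?_ ?_ ?_ htriv
  · rw [show HH t (UU S.γ) = HH t S.U from rfl, hHH ht]; exact hker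
  · intro η hη hη0
    rw [show HH t (UU S.γ) = HH t S.U from rfl, hHH ht]
    exact hnd η hη hη0
  · intro X hX k hk hr w hw hη
    exact hmem ht hu hu0 _ (hII X hX k hk hr w hw u hu hu0) hη
  · intro X hX k hk hr η hη w hw
    exact hV t ht X hX k hk hr η hη w hw

end Crest.Agent.R180
end
end

-- ▼ part R180/MinOneCore
section

set_option autoImplicit false

/-!
# Row 180, ROUTE M: steps (I) and (II) at one base point
-/

noncomputable section
namespace Crest.Agent.R180

open TensorProduct RegPt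

namespace MinOne

section res

variable {F D F1 E : Type} [Field F] [Ring D] [Algebra F D] [Field F1] [Algebra F F1]
  [Ring E] [Algebra F1 E] [Algebra F E] [IsScalarTower F F1 E]
  [FiniteDimensional F D] [FiniteDimensional F1 E]

theorem finrank_ge_of_res [IsDomain E] (s : E) (Ξ : Subalgebra F D)
    (Λ' : Subalgebra (LF F1) (LD (E ⊗[F] D)))
    (hΞ : ∀ a ∈ Ξ, (1 : E) ⊗ₜ[F] a ∈ LD.resSp (Subalgebra.toSubmodule Λ'))
    (hs : s ⊗ₜ[F] (1 : D) ∈ LD.resSp (Subalgebra.toSubmodule Λ')) :
    Module.finrank F1 (Algebra.adjoin F1 ({s} : Set E)) * Module.finrank F Ξ ≤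
      Module.finrank (LF F1) Λ' := by
  have hfin : FiniteDimensional F1 (E ⊗[F] D) := by
    have : Module.Finite E (E ⊗[F] D) := inferInstance
    exact Module.Finite.trans E (E ⊗[F] D)
  have h1 : Module.finrank F1 (LD.resSp (Subalgebra.toSubmodule Λ')) =
      Module.finrank (LF F1) Λ' := LD.finrank_resSp _
  rw [← h1]
  refine (MinI.finrank_W_ge s Ξ).trans (Submodule.finrank_mono ?_)
  rw [MinI.W, Submodule.span_le]
  rintro _ ⟨i, a, ha, rfl⟩
  have h1 : (s ^ i) ⊗ₜ[F] a = (s ⊗ₜ[F] (1 : D)) ^ i * ((1 : E) ⊗ₜ[F] a) := by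
    rw [Algebra.TensorProduct.tmul_pow, one_pow, Algebra.TensorProduct.tmul_mul_tmul, mul_one,
      one_mul]
  rw [h1]
  exact MinI.res_mul_mem Λ' (MinI.res_pow_mem Λ' hs i) (hΞ a ha)

end res


variable {A : DA} {m : ℕ} {Λ : Subalgebra A.F A.D} {γ : NC (Fin m) A.D} {M : Adm A}

theorem tp_smul_ofPS (K : ℕ) (q : PowerSeries M.D0) :
    (LF.tp (-(K : ℤ)) : LF M.F1) • (LD.ofPS (PowerSeries.X ^ K * q) : LD M.D0) = LD.ofPS q := by
  apply LD.ext; intro n
  rw [LD.co_tp_smul]
  by_cases hn : 0 ≤ n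
  · obtain ⟨k, rfl⟩ := Int.eq_ofNat_of_zero_le hn
    have h1 : (k : ℤ) - -(K : ℤ) = ((k + K : ℕ) : ℤ) := by push_cast; ring
    rw [h1, LD.co_ofPS, LD.co_ofPS, PowerSeries.coeff_X_pow_mul]
  · push Not at hn
    rw [LD.co_ofPS_neg _ _ hn]
    by_cases h : n - -(K : ℤ) < 0
    · rw [LD.co_ofPS_neg _ _ h]
    · push Not at h
      obtain ⟨k, hk⟩ := Int.eq_ofNat_of_zero_le h
      have hkK : k < K := by omega
      rw [hk]
      have : ((Int.ofNat k : ℤ)) = (k : ℤ) := rfl
      rw [show (↑k : ℤ) = ((k : ℕ) : ℤ) from rfl, LD.co_ofPS, PowerSeries.coeff_X_pow_mul',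
        if_neg (by omega)]

theorem co_zero_q (a ρ : M.D0) (y : PowerSeries M.D0) :
    (LD.ofPS (PowerSeries.C a + PowerSeries.X * PowerSeries.C ρ + PowerSeries.X ^ 2 * y) :
      LD M.D0).co 0 = a := by
  have h1 := LD.co_ofPS (PowerSeries.C a + PowerSeries.X * PowerSeries.C ρ +
    PowerSeries.X ^ 2 * y) 0
  rw [Nat.cast_zero] at h1
  rw [h1]
  simp [pow_two, mul_assoc]

theorem co_one_q (a ρ : M.D0) (y : PowerSeries M.D0) :
    (LD.ofPS (PowerSeries.C a + PowerSeries.X * PowerSeries.C ρ + PowerSeries.X ^ 2 * y) :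
      LD M.D0).co 1 = ρ := by
  have h1 := LD.co_ofPS (PowerSeries.C a + PowerSeries.X * PowerSeries.C ρ +
    PowerSeries.X ^ 2 * y) 1
  rw [Nat.cast_one] at h1
  rw [h1, map_add, map_add]
  have e1 : PowerSeries.coeff 1 (PowerSeries.C a) = 0 := by
    rw [PowerSeries.coeff_C, if_neg one_ne_zero]
  have e2 : PowerSeries.coeff 1 (PowerSeries.X * PowerSeries.C ρ) = ρ := by
    have := PowerSeries.coeff_succ_X_mul 0 (PowerSeries.C ρ)
    rw [zero_add] at this
    rw [this]
    simp
  have e3 : PowerSeries.coeff 1 (PowerSeries.X ^ 2 * y) = 0 := by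
    rw [PowerSeries.coeff_X_pow_mul', if_neg (by norm_num)]
  rw [e1, e2, e3, zero_add, add_zero]

theorem inc_mem_adj (c0 : PowerSeries M.D0) {a : A.D} (ha : a ∈ Λ) :
    (LD.C ((1 : M.E) ⊗ₜ[A.F] a) : LD M.D0) ∈ M.adj Λ c0 :=
  Algebra.subset_adjoin (Or.inl ⟨a, ha, rfl⟩)

theorem c0_mem_adj (c0 : PowerSeries M.D0) : (LD.ofPS c0 : LD M.D0) ∈ M.adj Λ c0 :=
  Algebra.subset_adjoin (Or.inr rfl)

theorem one_tmul_res (c0 : PowerSeries M.D0) {a : A.D} (ha : a ∈ Λ) :
    (1 : M.E) ⊗ₜ[A.F] a ∈ LD.resSp (Subalgebra.toSubmodule (M.adj Λ c0)) :=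
  ⟨_, inc_mem_adj c0 ha, LD.isInt_C _, LD.co_C_zero _⟩

/-- the residue of the normalised value of `γ` -/
theorem s_tmul_res {K : ℕ} {c0 y : PowerSeries M.D0} {s : M.E} {u u' : A.D} {ρ : M.D0}
    (hc0 : c0 = PowerSeries.X ^ K * (PowerSeries.C (s ⊗ₜ[A.F] u) +
      PowerSeries.X * PowerSeries.C ρ + PowerSeries.X ^ 2 * y))
    (hu' : u' ∈ Λ) (huu' : u * u' = 1) :
    s ⊗ₜ[A.F] (1 : A.D) ∈ LD.resSp (Subalgebra.toSubmodule (M.adj Λ c0)) := by
  have h1 : s ⊗ₜ[A.F] (1 : A.D) = (s ⊗ₜ[A.F] u) * ((1 : M.E) ⊗ₜ[A.F] u') := by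
    rw [Algebra.TensorProduct.tmul_mul_tmul, mul_one, huu']
  rw [h1]
  refine MinI.res_mul_mem _ ⟨(LF.tp (-(K : ℤ)) : LF M.F1) • LD.ofPS c0,
    Subalgebra.smul_mem _ (c0_mem_adj c0) _, ?_, ?_⟩ (one_tmul_res c0 hu')
  · rw [hc0, tp_smul_ofPS]; exact LD.isInt_ofPS _
  · rw [hc0, tp_smul_ofPS, co_zero_q]

/-- step (I) at one base point -/
theorem pointI {N : ℕ} (hN : N.Prime) (hE : Module.finrank M.F1 M.E = N * N) {s : M.E}
    (hs : s ∉ Set.range (algebraMap M.F1 M.E)) {K : ℕ} {c0 y : PowerSeries M.D0} {u u' : A.D}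
    {ρ : M.D0}
    (hc0 : c0 = PowerSeries.X ^ K * (PowerSeries.C (s ⊗ₜ[A.F] u) +
      PowerSeries.X * PowerSeries.C ρ + PowerSeries.X ^ 2 * y))
    (hu' : u' ∈ Λ) (huu' : u * u' = 1)
    (hrank : Module.finrank (LF M.F1) (M.adj Λ c0) ≤ N * Module.finrank A.F Λ)
    (tE : M.E →ₗ[M.F1] M.F1) (htE : ∀ a b, tE (a * b) = tE (b * a))
    (ℓ : A.D →ₗ[A.F] A.F) (hℓ : ∀ a ∈ Λ, ℓ a = 0) :
    tE (s * MinI.ellE (F1 := M.F1) M.E ℓ (ρ * ((1 : M.E) ⊗ₜ[A.F] u'))) = 0 := by
  set x : LD M.D0 := (LF.tp (-(K : ℤ)) : LF M.F1) • LD.ofPS c0 with hx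
  have hx' : x = LD.ofPS (PowerSeries.C (s ⊗ₜ[A.F] u) +
      PowerSeries.X * PowerSeries.C ρ + PowerSeries.X ^ 2 * y) := by
    rw [hx, hc0, tp_smul_ofPS]
  have hxm : x ∈ M.adj Λ c0 := Subalgebra.smul_mem _ (c0_mem_adj c0) _
  set x' : LD M.D0 := x * LD.C ((1 : M.E) ⊗ₜ[A.F] u') with hx'd
  have h := MinI.core s Λ (M.adj Λ c0) (fun a ha => one_tmul_res c0 ha)
    (by rw [MinI.finrank_adjoin_of_prime hN hE s hs]; exact hrank) x'
    (Subalgebra.mul_mem _ hxm (inc_mem_adj c0 hu'))
    (by rw [hx'd, hx']; exact (LD.isInt_ofPS _).mul (LD.isInt_C _))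
    (by rw [hx'd, LD.mul_C_co, hx', co_zero_q, Algebra.TensorProduct.tmul_mul_tmul, mul_one, huu'])
    tE htE ℓ hℓ
  rwa [hx'd, LD.mul_C_co, hx', co_one_q] at h

/-- the constant direction of `w : F^m` -/
def cdir (M : Adm A) (w : Fin m → A.F) : Fin m → PowerSeries M.E :=
  fun j => PowerSeries.C (algebraMap A.F M.E (w j))

theorem l1_cdir (w : Fin m → A.F) (f : NC (Fin m) A.D) :
    M.l1 (cdir M w) f = PowerSeries.C ((1 : M.E) ⊗ₜ[A.F] (lin f w)) := by
  rw [Adm.l1, lin_apply, TensorProduct.tmul_sum, map_sum]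
  refine Finset.sum_congr rfl fun j _ => ?_
  rw [cdir, PowerSeries.map_C, ← map_mul]
  congr 1
  change (algebraMap A.F M.E (w j) ⊗ₜ[A.F] (1 : A.D)) * ((1 : M.E) ⊗ₜ[A.F] f [j]) = _
  rw [Algebra.TensorProduct.tmul_mul_tmul, mul_one, one_mul, TensorProduct.tmul_smul,
    Algebra.algebraMap_eq_smul_one, TensorProduct.smul_tmul']

/-- integrality of quotients -/
theorem quot_int {K : Type} [Ring K] [IsDomain K] {q w e : LD K} (h : q * w = e)
    (he : LD.IsInt e) (hw : LD.IsInt w) (hw0 : w.co 0 ≠ 0) :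
    LD.IsInt q ∧ q.co 0 * w.co 0 = e.co 0 := by
  have hqi : LD.IsInt q := by
    by_cases hq0 : q = 0
    · rw [hq0]; exact LD.isInt_zero
    obtain ⟨k, q', hk, hq'i, hq'0⟩ := LD.exists_normal hq0
    have hk0 : 0 ≤ k := by
      by_contra hk0
      push Not at hk0
      have h1 : e.co k = q'.co 0 * w.co 0 := by
        rw [← h, hk, mul_assoc, LD.co_tp_mul, sub_self, hq'i.co_mul_zero hw]
      rw [he k hk0] at h1
      rcases mul_eq_zero.1 h1.symm with h2 | h2
      · exact hq'0 h2
      · exact hw0 h2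
    intro n hn
    rw [hk, LD.co_tp_mul]
    exact hq'i _ (by omega)
  exact ⟨hqi, by rw [← hqi.co_mul_zero hw, h]⟩

theorem exists_inv_LD {w : LD M.D0} (hw : w ≠ 0) : ∃ V : LD M.D0, V * w = 1 := by
  let _ := divisionRingOfFiniteDimensional (LF M.F1) (LD M.D0)
  exact ⟨w⁻¹, inv_mul_cancel₀ hw⟩

theorem one_tmul_ne {b : A.D} (hb : b ≠ 0) : (1 : M.E) ⊗ₜ[A.F] b ≠ 0 := by
  have hinj : Function.Injective
      (Algebra.TensorProduct.includeRight : A.D →ₐ[A.F] M.E ⊗[A.F] A.D) :=
    Algebra.TensorProduct.includeRight_injective (algebraMap A.F M.E).injective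
  intro h
  exact hb (hinj (by rw [map_zero]; exact h))

/-- the trace of `η [c₀, x]` vanishes for `η` commuting with `c₀` -/
theorem trL_comm_zero (τ : M.D0 →ₗ[M.F1] M.F1) (hτ : ∀ a b, τ (a * b) = τ (b * a))
    {η c x : LD M.D0} (hη : η * c = c * η) :
    LD.trL τ (η * (c * x - x * c)) = 0 := by
  rw [mul_sub, map_sub, ← mul_assoc, hη, mul_assoc, LD.trL_mul_comm τ hτ c (η * x), mul_assoc,
    sub_self]

section II

variable {z : Fin m → PowerSeries M.E} (U' : Submodule (LF M.F1) (LD M.D0))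

/-- residues of `U'`: every `b ∈ U` lifts to an element of `U'` -/
theorem lift_U (hcomm : ∀ a ∈ M.adj Λ (M.ev z γ), ∀ b ∈ M.adj Λ (M.ev z γ), a * b = b * a)
    (hU : UU γ ≤ Subalgebra.toSubmodule Λ)
    (hU' : U' ≤ Subalgebra.toSubmodule (M.adj Λ (M.ev z γ)))
    (hT : ∀ v : Fin m → PowerSeries M.E, ∃ T ∈ U', ∃ x : LD M.D0,
      T = LD.ofPS (M.dv z v γ) - (LD.ofPS (M.ev z γ) * x - x * LD.ofPS (M.ev z γ)))
    (d1 : ∀ v, ∃ y, M.dv z v γ = M.l1 v γ + PowerSeries.X ^ 2 * y)
    (τ : M.D0 →ₗ[M.F1] M.F1) (hτ : ∀ a b, τ (a * b) = τ (b * a)) (hτ1 : τ 1 ≠ 0)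
    {b : A.D} (hb : b ∈ UU γ) :
    ∃ T ∈ U', LD.IsInt T ∧ T.co 0 = (1 : M.E) ⊗ₜ[A.F] b ∧
      ∃ y : LD M.D0, LD.IsInt y ∧ y.co 0 = (1 : M.E) ⊗ₜ[A.F] b ∧ y.co 1 = 0 ∧
        ∀ η ∈ M.adj Λ (M.ev z γ), LD.trL τ (η * T) = LD.trL τ (η * y) := by
  obtain ⟨w, rfl⟩ := hb
  obtain ⟨T, hT', x, hTx⟩ := hT (cdir M w)
  obtain ⟨y, hy⟩ := d1 (cdir M w)
  rw [l1_cdir] at hy
  have hbΛ : lin γ w ∈ Λ := hU ⟨w, rfl⟩
  have hy' : M.dv z (cdir M w) γ = PowerSeries.C ((1 : M.E) ⊗ₜ[A.F] (lin γ w)) +
      PowerSeries.X * PowerSeries.C 0 + PowerSeries.X ^ 2 * y := by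
    rw [hy, map_zero, mul_zero, add_zero]
  have htr : ∀ η ∈ M.adj Λ (M.ev z γ),
      LD.trL τ (η * T) = LD.trL τ (η * LD.ofPS (M.dv z (cdir M w) γ)) := by
    intro η hη
    rw [hTx, mul_sub, map_sub, trL_comm_zero τ hτ (hcomm η hη _ (c0_mem_adj _)), sub_zero]
  have hyi : LD.IsInt (LD.ofPS (M.dv z (cdir M w) γ) : LD M.D0) := LD.isInt_ofPS _
  have hy0 : (LD.ofPS (M.dv z (cdir M w) γ) : LD M.D0).co 0 = (1 : M.E) ⊗ₜ[A.F] (lin γ w) := by
    rw [hy', co_zero_q]
  have hy1 : (LD.ofPS (M.dv z (cdir M w) γ) : LD M.D0).co 1 = 0 := by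
    rw [hy', co_one_q]
  -- `σ = t⁻¹ (T - b)` is integral
  obtain ⟨hσi, -⟩ := MinI.proj_int τ hτ1 (M.adj Λ (M.ev z γ))
    ((LF.tp (-1) : LF M.F1) • (T - LD.C ((1 : M.E) ⊗ₜ[A.F] (lin γ w))))
    ((LF.tp (-1) : LF M.F1) • (LD.ofPS (M.dv z (cdir M w) γ) -
      LD.C ((1 : M.E) ⊗ₜ[A.F] (lin γ w))))
    (Subalgebra.smul_mem _ (Subalgebra.sub_mem _ (hU' hT') (inc_mem_adj _ hbΛ)) _)
    (by
      intro n hn
      rw [LD.co_tp_smul, LD.co_sub, LD.co_C]
      by_cases h0 : n = -1
      · subst h0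
        have : (-1 : ℤ) - -1 = 0 := by norm_num
        rw [this, hy0, if_pos rfl, sub_self]
      · rw [hyi _ (by omega), if_neg (by omega), sub_zero])
    (by
      intro η hη
      rw [mul_smul_comm, mul_smul_comm, map_smul, map_smul, mul_sub, mul_sub, map_sub, map_sub,
        htr η hη])
  have hTe : T = LD.C ((1 : M.E) ⊗ₜ[A.F] (lin γ w)) + (LF.tp 1 : LF M.F1) •
      ((LF.tp (-1) : LF M.F1) • (T - LD.C ((1 : M.E) ⊗ₜ[A.F] (lin γ w)))) := by
    rw [smul_smul, LF.tp_mul_tp, add_neg_cancel, LF.tp_zero, one_smul]; abel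
  refine ⟨T, hT', ?_, ?_, _, hyi, hy0, hy1, htr⟩
  · rw [hTe]
    refine LD.IsInt.add (LD.isInt_C _) ?_
    intro n hn; rw [LD.co_tp_smul, hσi _ (by omega)]
  · rw [hTe, LD.co_add, LD.co_C_zero, LD.co_tp_smul, hσi _ (by omega), add_zero]

/-- residues of `Ψ'` contain `Ψ` -/
theorem psi_res (hlift : ∀ b ∈ UU γ, ∃ T ∈ U', LD.IsInt T ∧ T.co 0 = (1 : M.E) ⊗ₜ[A.F] b)
    {a : A.D} (ha : a ∈ PsiOf (UU γ)) :
    (1 : M.E) ⊗ₜ[A.F] a ∈ LD.resSp (Subalgebra.toSubmodule (PsiOf U')) := by
  induction ha using Algebra.adjoin_induction with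
  | mem x hx =>
    obtain ⟨b, hb, hb0, hxb⟩ := hx
    obtain ⟨T, hT, hTi, hT0⟩ := hlift b hb
    obtain ⟨T', hT', hTi', hT0'⟩ := hlift _ hxb
    have hb1 : (1 : M.E) ⊗ₜ[A.F] b ≠ 0 := one_tmul_ne hb0
    have hTne : T ≠ 0 := by
      intro h; rw [h] at hT0; exact hb1 hT0.symm
    obtain ⟨V, hV⟩ := exists_inv_LD hTne
    obtain ⟨hqi, hq0⟩ := quot_int (q := T' * V) (w := T) (e := T')
      (by rw [mul_assoc, hV, mul_one]) hTi' hTi (by rw [hT0]; exact hb1)
    refine ⟨T' * V, ?_, hqi, ?_⟩
    · exact Algebra.subset_adjoin ⟨T, hT, hTne, by rw [mul_assoc, hV, mul_one]; exact hT'⟩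
    · rw [hT0, hT0'] at hq0
      have h2 : (1 : M.E) ⊗ₜ[A.F] (x * b) = ((1 : M.E) ⊗ₜ[A.F] x) * ((1 : M.E) ⊗ₜ[A.F] b) := by
        rw [Algebra.TensorProduct.tmul_mul_tmul, one_mul]
      rw [h2] at hq0
      exact mul_right_cancel₀ hb1 hq0
  | algebraMap c =>
    have h1 : (1 : M.E) ⊗ₜ[A.F] (algebraMap A.F A.D c) =
        (algebraMap A.F M.F1 c) • (1 : M.D0) := by
      rw [Algebra.TensorProduct.one_def, TensorProduct.smul_tmul', algebraMap_smul,
        Algebra.algebraMap_eq_smul_one, TensorProduct.tmul_smul, TensorProduct.smul_tmul']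
    rw [h1]
    exact Submodule.smul_mem _ _ (MinI.res_one_mem _)
  | add a b _ _ ha hb => rw [TensorProduct.tmul_add]; exact Submodule.add_mem _ ha hb
  | mul a b _ _ ha hb =>
    have h2 : (1 : M.E) ⊗ₜ[A.F] (a * b) = ((1 : M.E) ⊗ₜ[A.F] a) * ((1 : M.E) ⊗ₜ[A.F] b) := by
      rw [Algebra.TensorProduct.tmul_mul_tmul, one_mul]
    rw [h2]; exact MinI.res_mul_mem _ ha hb

/-- step (II) at one base point -/
theorem pointII {N : ℕ} (hN : N.Prime) (hE : Module.finrank M.F1 M.E = N * N) {s : M.E}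
    (hs : s ∉ Set.range (algebraMap M.F1 M.E)) {k : ℕ} (hk : 1 ≤ k) {u u' : A.D}
    {ρ : M.D0}
    (c0 : ∃ y, M.ev z γ = PowerSeries.X ^ (2 * k - 1) * (PowerSeries.C (s ⊗ₜ[A.F] u) +
      PowerSeries.X * PowerSeries.C ρ + PowerSeries.X ^ 2 * y))
    (d1 : ∀ v, ∃ y, M.dv z v γ = M.l1 v γ + PowerSeries.X ^ 2 * y)
    (eu : ∃ v y, M.dv z v γ = PowerSeries.X ^ (2 * k - 1) *
      ((2 * k - 1) • PowerSeries.C (s ⊗ₜ[A.F] u) + (2 * k) • (PowerSeries.X * PowerSeries.C ρ) +
        PowerSeries.X ^ 2 * y))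
    (hu : u ∈ UU γ) (hu' : u' ∈ Λ) (huu' : u * u' = 1)
    (hcomm : ∀ a ∈ M.adj Λ (M.ev z γ), ∀ b ∈ M.adj Λ (M.ev z γ), a * b = b * a)
    (hU : UU γ ≤ Subalgebra.toSubmodule Λ)
    (hU' : U' ≤ Subalgebra.toSubmodule (M.adj Λ (M.ev z γ)))
    (hT : ∀ v : Fin m → PowerSeries M.E, ∃ T ∈ U', ∃ x : LD M.D0,
      T = LD.ofPS (M.dv z v γ) - (LD.ofPS (M.ev z γ) * x - x * LD.ofPS (M.ev z γ)))
    (hrankΛ : Module.finrank (LF M.F1) (M.adj Λ (M.ev z γ)) ≤ N * Module.finrank A.F Λ)
    (hrankΨ : Module.finrank (LF M.F1) (PsiOf U') ≤ N * Module.finrank A.F (PsiOf (UU γ)))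
    (hρ : ∀ l : A.D →ₗ[A.F] A.F, (∀ a ∈ Λ, l a = 0) → MinI.ellE (F1 := M.F1) M.E l ρ = 0)
    (tE : M.E →ₗ[M.F1] M.F1) (htE : ∀ a b, tE (a * b) = tE (b * a)) (htE1 : tE 1 ≠ 0)
    (t : A.D →ₗ[A.F] A.F) (ht : IsTr t)
    (ℓ : A.D →ₗ[A.F] A.F) (hℓ : ∀ a ∈ PsiOf (UU γ), ℓ a = 0) :
    tE (s * MinI.ellE (F1 := M.F1) M.E ℓ (ρ * ((1 : M.E) ⊗ₜ[A.F] u'))) = 0 := by
  set τ := MinI.tau (F1 := M.F1) tE t with hτdef
  have hτ : ∀ a b, τ (a * b) = τ (b * a) := MinI.tau_comm tE t htE ht.1
  have hτ1 : τ 1 ≠ 0 := by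
    rw [hτdef, Algebra.TensorProduct.one_def, MinI.tau_tmul, Algebra.smul_def]
    exact mul_ne_zero (fun h => ht.2 ((map_eq_zero _).1 h)) htE1
  have huΛ : u ∈ Λ := hU hu
  have hdeg := MinI.finrank_adjoin_of_prime hN hE s hs
  obtain ⟨y0, hc0⟩ := c0
  obtain ⟨v, y1, hv⟩ := eu
  have hlift := fun (b : A.D) (hb : b ∈ UU γ) => lift_U U' hcomm hU hU' hT d1 τ hτ hτ1 hb
  set K := 2 * k - 1 with hK
  have hKpos : 0 < K := by omega
  have h2k : 2 * k = K + 1 := by omega
  rw [h2k] at hv
  -- the normalised value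
  set x : LD M.D0 := (LF.tp (-(K : ℤ)) : LF M.F1) • LD.ofPS (M.ev z γ) with hx
  have hx' : x = LD.ofPS (PowerSeries.C (s ⊗ₜ[A.F] u) +
      PowerSeries.X * PowerSeries.C ρ + PowerSeries.X ^ 2 * y0) := by
    rw [hx, hc0, tp_smul_ofPS]
  have hxm : x ∈ M.adj Λ (M.ev z γ) := Subalgebra.smul_mem _ (c0_mem_adj _) _
  have hx1 : x.co 1 = ρ := by rw [hx', co_one_q]
  -- the Euler direction
  obtain ⟨T, hTU, xv, hTx⟩ := hT v
  set e : LD M.D0 := (LF.tp (-(K : ℤ)) : LF M.F1) • T with he
  set Eul : LD M.D0 := (LF.tp (-(K : ℤ)) : LF M.F1) • LD.ofPS (M.dv z v γ) with hEul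
  have heE : ∀ η ∈ M.adj Λ (M.ev z γ), LD.trL τ (η * e) = LD.trL τ (η * Eul) := by
    intro η hη
    rw [he, hEul, mul_smul_comm, mul_smul_comm, map_smul, map_smul, hTx, mul_sub, map_sub,
      trL_comm_zero τ hτ (hcomm η hη _ (c0_mem_adj _)), sub_zero]
  have hEul' : Eul = (K : LD M.D0) * x + LD.ofPS (PowerSeries.X * (PowerSeries.C ρ +
      PowerSeries.X * (y1 - (K : PowerSeries M.D0) * y0))) := by
    rw [hEul, hv, tp_smul_ofPS, hx']
    have h1 : (K : LD M.D0) = LD.ofPS (K : PowerSeries M.D0) := by rw [map_natCast]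
    rw [h1, ← map_mul, ← map_add]
    congr 1
    rw [nsmul_eq_mul, nsmul_eq_mul]
    have hKc : PowerSeries.X * (PowerSeries.X * ((K : PowerSeries M.D0) * y0)) =
        (K : PowerSeries M.D0) * (PowerSeries.X ^ 2 * y0) := by
      have hc : ∀ a : PowerSeries M.D0, a * (K : PowerSeries M.D0) = (K : PowerSeries M.D0) * a :=
        fun a => (Nat.cast_commute K a).symm
      rw [pow_two, mul_assoc PowerSeries.X PowerSeries.X y0,
        ← mul_assoc PowerSeries.X (K : PowerSeries M.D0) y0, hc PowerSeries.X,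
        mul_assoc (K : PowerSeries M.D0) PowerSeries.X y0,
        ← mul_assoc PowerSeries.X (K : PowerSeries M.D0) (PowerSeries.X * y0), hc PowerSeries.X,
        mul_assoc]
    have e2 : PowerSeries.X * (PowerSeries.C ρ + PowerSeries.X * (y1 - (K : PowerSeries M.D0) * y0))
        = PowerSeries.X * PowerSeries.C ρ + PowerSeries.X ^ 2 * y1 -
          (K : PowerSeries M.D0) * (PowerSeries.X ^ 2 * y0) := by
      rw [← hKc, mul_add, mul_sub, mul_sub, pow_two, mul_assoc]; abel
    rw [e2]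
    push_cast
    rw [mul_add, mul_add, add_mul, one_mul]
    abel
  set ρ' : LD M.D0 := LD.ofPS (PowerSeries.C ρ +
      PowerSeries.X * (y1 - (K : PowerSeries M.D0) * y0)) with hρ'
  have hρ'0 : ρ'.co 0 = ρ := by
    have h1 := LD.co_ofPS (PowerSeries.C ρ +
      PowerSeries.X * (y1 - (K : PowerSeries M.D0) * y0)) 0
    rw [Nat.cast_zero] at h1
    rw [hρ', h1]
    simp
  have hEul2 : Eul = (K : LD M.D0) * x + (LF.tp 1 : LF M.F1) • ρ' := by
    rw [hEul']
    congr 1
    have h1 := tp_smul_ofPS (M := M) 1 (PowerSeries.C ρ +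
      PowerSeries.X * (y1 - (K : PowerSeries M.D0) * y0))
    rw [hρ', ← h1, smul_smul, LF.tp_mul_tp, pow_one]
    norm_num [LF.tp_zero]
  -- the direction of `u`
  obtain ⟨w, hwU, hwi, hw0, y, hyi, hy0, hy1, hwy⟩ := hlift u hu
  have hu0 : u ≠ 0 := fun h => by rw [h, zero_mul] at huu'; exact zero_ne_one huu'
  have hwne : w ≠ 0 := by
    intro h; rw [h] at hw0; exact one_tmul_ne hu0 hw0.symm
  obtain ⟨V, hV⟩ := exists_inv_LD hwne
  have hqw : e * V * w = e := by rw [mul_assoc, hV, mul_one]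
  have heU : e ∈ U' := Submodule.smul_mem _ _ hTU
  have hqΨ : e * V ∈ PsiOf U' := Algebra.subset_adjoin ⟨w, hwU, hwne, by rw [hqw]; exact heU⟩
  have hmain := MinI.coreII tE htE htE1 t ht.2 s Λ (PsiOf (UU γ)) u u' huΛ hu' huu'
    (M.adj Λ (M.ev z γ)) (PsiOf U') (fun a ha => inc_mem_adj _ ha)
    (by rw [hdeg]; exact hrankΛ)
    (fun a ha => psi_res U' (fun b hb => by
      obtain ⟨T, h1, h2, h3, -⟩ := hlift b hb
      exact ⟨T, h1, h2, h3⟩) ha)
    (by rw [hdeg]; exact hrankΨ) K hKpos x hxm (by rw [hx']; exact LD.isInt_ofPS _)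
    (by rw [hx', co_zero_q]) (by rw [hx1]; exact hρ) e Eul ρ' (hU' heU) hEul2 (LD.isInt_ofPS _)
    (by rw [hρ'0, hx1]) heE w y (hU' hwU) hyi hy0 hy1 hwy (e * V) hqΨ hqw ℓ hℓ
  rwa [hx1] at hmain

end II

end MinOne

end Crest.Agent.R180
end
end

-- ▼ part R180/MinOne
section

set_option autoImplicit false
noncomputable section
namespace Crest.Agent.R180

open TensorProduct RegPt

variable {P : (A : DA) → (m : ℕ) → NC (Fin m) A.D → Prop}

/-! # Row 180, ROUTE M: steps (I) and (II) -/

/-- (I) -/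
theorem minI (hP : MoveClosed P) {S : St P} (h : S.Good1) (X : Fin S.m → NC (Fin 2) S.A.F)
    (hX : ∀ j, X j [] = 0) (k : ℕ) (hk : 2 ≤ k)
    (hr : ∀ w : List (Fin 2), w.length < k → compD X S.γ w = 0) (w : List (Fin 2))
    (hw : w.length = k) : compD X S.γ w ∈ S.Λ := by
  obtain ⟨u, hu, h0⟩ := S.U_ne
  have hU := h.lin_mem hP
  obtain ⟨u', hu', huu', hu'u⟩ := S.exists_inv (hU hu) h0
  obtain ⟨N, hNk, ⟨M⟩⟩ := exists_PE S.A k
  have hE := M.finrank_E
  have hN2 := M.pr.two_le
  obtain ⟨tE, htE, htE1⟩ := exists_isTrE M.toAdm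
  have key := MinI.coeff_mem (F := S.A.F) (D := S.A.D) (F1 := M.F1) (E := M.E)
    (Subalgebra.toSubmodule S.Λ) k
    (fun w : Fin k → Fin 2 => compD X S.γ (List.ofFn w)) u' tE htE1
    (by rw [hE, pow_two]; exact Nat.mul_le_mul hNk hNk) (by rw [hE]; nlinarith)
    (fun ℓ hℓ p s hs => by
      obtain ⟨z, hz⟩ := exists_pt12 S.hm S.γ S.rs.zero M X hX k hk hr p s u hu
      obtain ⟨st⟩ := exists_step hP S.hm S.rs M.toAdm z hz.gp
      have hrank := h.finrank_le hE hz.gp st
      obtain ⟨y, hy⟩ := hz.c0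
      exact MinOne.pointI M.pr hE hs hy hu' huu' hrank tE htE ℓ hℓ)
  subst hw
  have h1 := key w.get
  have h2 : List.ofFn w.get = w := List.ofFn_get w
  rw [h2] at h1
  have h3 : compD X S.γ w = compD X S.γ w * u' * u := by rw [mul_assoc, hu'u, mul_one]
  rw [h3]
  exact S.Λ.mul_mem h1 (hU hu)

/-- (II) -/
theorem minII (hP : MoveClosed P) {S : St P} (h : S.Good2) (X : Fin S.m → NC (Fin 2) S.A.F)
    (hX : ∀ j, X j [] = 0) (k : ℕ) (hk : 2 ≤ k)
    (hr : ∀ w : List (Fin 2), w.length < k → compD X S.γ w = 0) (w : List (Fin 2))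
    (hw : w.length = k) (u : S.A.D) (hu : u ∈ S.U) (h0 : u ≠ 0) :
    ∃ ψ ∈ S.Psi, compD X S.γ w = u * ψ := by
  have hU := h.1.lin_mem hP
  obtain ⟨u', hu', huu', hu'u⟩ := S.exists_inv (hU hu) h0
  obtain ⟨N, hNk, ⟨M⟩⟩ := exists_PE S.A k
  have hE := M.finrank_E
  have hN2 := M.pr.two_le
  obtain ⟨tE, htE, htE1⟩ := exists_isTrE M.toAdm
  obtain ⟨t, ht⟩ := exists_isTr S.A
  have hmem : ∀ w : List (Fin 2), w.length = k → compD X S.γ w ∈ S.Λ :=
    fun w hw => minI hP h.1 X hX k hk hr w hw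
  have key := MinI.coeff_mem (F := S.A.F) (D := S.A.D) (F1 := M.F1) (E := M.E)
    (Subalgebra.toSubmodule S.Psi) k
    (fun w : Fin k → Fin 2 => compD X S.γ (List.ofFn w)) u' tE htE1
    (by rw [hE, pow_two]; exact Nat.mul_le_mul hNk hNk) (by rw [hE]; nlinarith)
    (fun ℓ hℓ p s hs => by
      obtain ⟨z, hz⟩ := exists_pt12 S.hm S.γ S.rs.zero M X hX k hk hr p s u hu
      obtain ⟨st⟩ := exists_step hP S.hm S.rs M.toAdm z hz.gp
      have hrank := h.1.finrank_le hE hz.gp st
      obtain ⟨y, hy⟩ := hz.c0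
      have hg1 : (st.toSt hz.gp).Good1 := by
        refine h.1.of_finrank hE hz.gp st ?_
        have h5 := MinOne.finrank_ge_of_res s S.Λ (M.adj S.Λ (M.ev z S.γ))
          (fun a ha => MinOne.one_tmul_res _ ha) (MinOne.s_tmul_res hy hu' huu')
        rwa [MinI.finrank_adjoin_of_prime M.pr hE s hs] at h5
      have hU' := hg1.lin_mem hP
      have hrankΨ := h.finrank_le hU hE hz.gp st hg1 hU'
      refine MinOne.pointII st.U M.pr hE hs (k := k) (by omega) hz.c0 hz.d1 hz.eu hu hu' huu'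
        st.rs.comm hU hU' (fun v => Step.exists_T hz.gp st v) hrank hrankΨ ?_ tE htE htE1 t ht ℓ hℓ
      intro l hl
      rw [Adm.homv, map_sum]
      refine Finset.sum_eq_zero fun w _ => ?_
      rw [MinI.ellE_tmul, hl _ (hmem _ (List.length_ofFn)), zero_smul])
  have h1 := key (fun i => w.get (i.cast hw.symm))
  have h2 : List.ofFn (fun i : Fin k => w.get (i.cast hw.symm)) = w := by
    subst hw; exact List.ofFn_get w
  rw [h2] at h1
  refine ⟨u' * compD X S.γ w, ?_, by rw [← mul_assoc, huu', one_mul]⟩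
  rw [S.rs.comm u' hu' _ (hmem w hw)]
  exact h1

end Crest.Agent.R180
end
end

-- ▼ part R180/MinVAlg
section

set_option autoImplicit false

/-! # Row 180, ROUTE M, (V): auxiliary lemmas -/

noncomputable section
namespace Crest.Agent.R180

open TensorProduct

namespace MinV

section Alg
variable {F D : Type} [Field F] [Ring D] [IsDomain D] [Algebra F D] [FiniteDimensional F D]

/-- `U₁² = Ψ` implies `𝓗₂ = 0` -/
theorem HH2_eq_bot (t : D →ₗ[F] F) (ht : t 1 ≠ 0) (U : Submodule F D) {u u' : D} (hu : u ∈ U)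
    (huu' : u * u' = 1) (hfull : Module.finrank F (U ^ 2 : Submodule F D) =
      Module.finrank F (PsiOf U)) : HH2 t U u' = ⊥ := by
  classical
  have hu0 : u ≠ 0 := left_ne_zero_of_mul_eq_one huu'
  have hu'0 : u' ≠ 0 := right_ne_zero_of_mul_eq_one huu'
  have hu'u : u' * u = 1 := by
    apply mul_left_cancel₀ hu0
    rw [← mul_assoc, huu', one_mul, mul_one]
  rw [eq_bot_iff]
  intro x hx
  rw [Submodule.mem_bot]
  by_contra hx0
  rw [mem_HH2] at hx
  let φ : D →ₗ[F] D := (LinearMap.mulLeft F x) ∘ₗ (LinearMap.mulRight F u')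
  have hφ : ∀ y, φ y = x * (y * u') := fun y => rfl
  have hφi : Function.Injective φ := by
    rw [← LinearMap.ker_eq_bot, LinearMap.ker_eq_bot']
    intro y hy
    rw [hφ] at hy
    rcases mul_eq_zero.mp hy with h | h
    · exact absurd h hx0
    · rcases mul_eq_zero.mp h with h | h
      · exact h
      · exact absurd h hu'0
  have hle : (U ^ 2 : Submodule F D).map φ ≤ Subalgebra.toSubmodule (PsiOf U) := by
    rw [Submodule.map_le_iff_le_comap, pow_two, Submodule.mul_le]
    intro a ha b hb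
    rw [Submodule.mem_comap, hφ, Subalgebra.mem_toSubmodule]
    have h1 : x * (a * b * u') = (x * a) * (b * u') := by noncomm_ring
    rw [h1]
    refine (PsiOf U).mul_mem (hx.1 a ha) (Algebra.subset_adjoin ⟨u, hu, hu0, ?_⟩)
    rw [mul_assoc, hu'u, mul_one]
    exact hb
  have heq : (U ^ 2 : Submodule F D).map φ = Subalgebra.toSubmodule (PsiOf U) := by
    apply Submodule.eq_of_le_of_finrank_eq hle
    rw [← (Submodule.equivMapOfInjective φ hφi (U ^ 2 : Submodule F D)).finrank_eq, hfull]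
    rfl
  have h1 : (1 : D) ∈ (U ^ 2 : Submodule F D).map φ := by
    rw [heq]; exact (PsiOf U).one_mem
  obtain ⟨y, hy, hy1⟩ := h1
  have hker : (U ^ 2 : Submodule F D) ≤ LinearMap.ker (t ∘ₗ φ) := by
    rw [pow_two, Submodule.mul_le]
    intro a ha b hb
    rw [LinearMap.mem_ker, LinearMap.comp_apply, hφ]
    have h1 : x * (a * b * u') = x * a * b * u' := by noncomm_ring
    rw [h1]
    exact hx.2 a ha b hb
  have h2 := hker hy
  rw [LinearMap.mem_ker, LinearMap.comp_apply, hy1] at h2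
  exact ht h2

end Alg

section Sp
variable {A : DA} (M : Adm A)

/-- `F1 ⊗ H` has dimension at most `dim H`; with one nontrivial condition less -/
theorem finrank_lt (H : Submodule A.F A.D) (φ : M.D0 →ₗ[M.F1] M.F1) (η : A.D) (hη : η ∈ H)
    (hne : φ ((1 : M.E) ⊗ₜ[A.F] η) ≠ 0) (R : Submodule M.F1 M.D0)
    (hR : R ≤ Submodule.span M.F1 {y : M.D0 | ∃ h ∈ H, y = (1 : M.E) ⊗ₜ[A.F] h})
    (hφ : ∀ x ∈ R, φ x = 0) : Module.finrank M.F1 R < Module.finrank A.F H := by
  classical
  set T := Submodule.span M.F1 {y : M.D0 | ∃ h ∈ H, y = (1 : M.E) ⊗ₜ[A.F] h} with hT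
  have hTle : Module.finrank M.F1 T ≤ Module.finrank A.F H := by
    let b := Module.finBasis A.F H
    have h1 : T ≤ Submodule.span M.F1 (Set.range fun i => ((1 : M.E) ⊗ₜ[A.F] (b i : A.D) : M.D0)) := by
      rw [hT, Submodule.span_le]
      rintro _ ⟨h, hh, rfl⟩
      have h2 : h = ∑ i, b.repr ⟨h, hh⟩ i • (b i : A.D) := by
        have h3 := congrArg Subtype.val (b.sum_repr ⟨h, hh⟩)
        rw [AddSubmonoidClass.coe_finsetSum] at h3
        exact h3.symm
      rw [h2, TensorProduct.tmul_sum, SetLike.mem_coe]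
      refine Submodule.sum_mem _ fun i _ => ?_
      rw [← TensorProduct.smul_tmul, Algebra.smul_def, mul_one,
        IsScalarTower.algebraMap_apply A.F M.F1 M.E, Algebra.algebraMap_eq_smul_one,
        ← TensorProduct.smul_tmul']
      exact Submodule.smul_mem _ _ (Submodule.subset_span ⟨i, rfl⟩)
    calc Module.finrank M.F1 T ≤ Module.finrank M.F1 (Submodule.span M.F1
          (Set.range fun i => ((1 : M.E) ⊗ₜ[A.F] (b i : A.D) : M.D0))) := Submodule.finrank_mono h1
      _ ≤ Fintype.card (Fin (Module.finrank A.F H)) := finrank_range_le_card _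
      _ = Module.finrank A.F H := Fintype.card_fin _
  have hlt : R < T := by
    refine lt_of_le_of_ne hR ?_
    rintro rfl
    exact hne (hφ _ (Submodule.subset_span ⟨η, hη, rfl⟩))
  exact lt_of_lt_of_le (Submodule.finrank_lt_finrank_of_lt hlt) hTle

theorem con_tmul (t : A.D →ₗ[A.F] A.F) (x : M.E) (a : A.D) :
    M.con t (x ⊗ₜ[A.F] a) = t a • x := rfl

/-- value of `t_E ⊗ t` on `(1 ⊗ η) · r(p)` -/
theorem tt_homv (t : A.D →ₗ[A.F] A.F) (tE : M.E →ₗ[M.F1] M.F1) (η : A.D) (k : ℕ) {n : ℕ}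
    (p : Fin n → M.E) (f : NC (Fin n) A.D) :
    M.tt tE t (((1 : M.E) ⊗ₜ[A.F] η) * M.homv k p f) =
      tE (∑ w : Fin k → Fin n, t (η * f (List.ofFn w)) • (List.ofFn fun i => p (w i)).prod) := by
  unfold Adm.homv Adm.tt
  rw [LinearMap.comp_apply, Finset.mul_sum, map_sum]
  congr 1
  refine Finset.sum_congr rfl fun w _ => ?_
  rw [Algebra.TensorProduct.tmul_mul_tmul, one_mul, con_tmul]

end Sp

theorem get_rotate {σ : Type} (w : List σ) [NeZero w.length] (r : Fin w.length) :
    List.ofFn (fun i => w.get (i + r)) = w.rotate r := by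
  apply List.ext_getElem
  · simp
  · intro i h1 h2
    simp only [List.getElem_ofFn, List.getElem_rotate, List.get_eq_getElem]
    congr 1

/-- primitive element of the maximal subfield -/
theorem exists_prim {A : DA} {N : ℕ} (M : PE A N) :
    ∃ l0 : M.L, Algebra.adjoin M.F1 ({l0} : Set M.L) = ⊤ := by
  have : CharZero M.F1 := charZero_of_injective_algebraMap (algebraMap A.F M.F1).injective
  obtain ⟨l0, hl0⟩ := Field.exists_primitive_element M.F1 M.L
  refine ⟨l0, ?_⟩
  have h1 := IntermediateField.adjoin_simple_toSubalgebra_of_isAlgebraic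
    (F := M.F1) (α := l0) (Algebra.IsAlgebraic.isAlgebraic l0)
  rw [← h1, hl0, IntermediateField.top_toSubalgebra]

end MinV

end Crest.Agent.R180
end
end

-- ▼ part R180/MinV
section

set_option autoImplicit false

/-! # Row 180, ROUTE M, (V) -/

noncomputable section
namespace Crest.Agent.R180

open TensorProduct

variable {P : (A : DA) → (m : ℕ) → NC (Fin m) A.D → Prop}

open MinV in
theorem minV (hP : MoveClosed P) {S : St P} (h : S.Good4) (t : S.A.D →ₗ[S.A.F] S.A.F)
    (ht : IsTr t) (X : Fin S.m → NC (Fin 2) S.A.F)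
    (hX : ∀ j, X j [] = 0) (k : ℕ) (hk : 2 ≤ k)
    (hr : ∀ w : List (Fin 2), w.length < k → compD X S.γ w = 0) (η : S.A.D)
    (hη : η ∈ HH t S.U) (w : List (Fin 2)) (hw : w.length = k) :
    ∑ i ∈ Finset.range k, t (η * compD X S.γ (w.rotate i)) = 0 := by
  classical
  by_contra hne
  have hg1 : S.Good1 := h.1.1.1
  have hU := hg1.lin_mem hP
  obtain ⟨u, hu, hu0⟩ := S.U_ne
  obtain ⟨u', -, huu', -⟩ := S.exists_inv (hU hu) hu0
  -- basis of `U`
  let b : Fin (Module.finrank S.A.F S.U) → S.A.D := fun i => (Module.finBasis S.A.F S.U i : S.A.D)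
  have hbU : ∀ i, b i ∈ S.U := fun i => (Module.finBasis S.A.F S.U i).2
  have hb : Submodule.span S.A.F (Set.range b) = S.U := by
    have h1 := (Module.finBasis S.A.F S.U).span_eq
    have h2 := congrArg (Submodule.map S.U.subtype) h1
    rw [Submodule.map_span, Submodule.map_top, Submodule.range_subtype, ← Set.range_comp] at h2
    exact h2
  -- the extension
  obtain ⟨N, hN, ⟨M⟩⟩ := exists_PE S.A (k + Module.finrank S.A.F S.U + 3)
  obtain ⟨l0, hl0⟩ := exists_prim M
  obtain ⟨tE, htE⟩ := exists_isTrE M.toAdm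
  have htE0 : tE ≠ 0 := fun h0 => htE.2 (by rw [h0, LinearMap.zero_apply])
  have hfE := M.finrank_E
  -- the point
  have : NeZero k := ⟨by omega⟩
  subst hw
  obtain ⟨p, hp⟩ := exists_trace_ne_zero (K₀ := S.A.F) (K := M.F1) (E := M.E) (n := w.length)
    (by rw [hfE, pow_two]; exact Nat.mul_le_mul (by omega) (by omega)) tE htE.1 htE0
    (fun v : Fin w.length → Fin 2 => t (η * compD X S.γ (List.ofFn v))) w.get (by
      intro h1
      apply hne
      rw [← h1, Finset.sum_range]
      refine Finset.sum_congr rfl fun r _ => ?_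
      rw [get_rotate])
  obtain ⟨z, hz⟩ := exists_pt3 S.hm S.γ S.rs.zero M X hX w.length hk hr p l0 u hu b hbU
  obtain ⟨st⟩ := exists_step hP S.hm S.rs M.toAdm z hz.gp
  have hC := minIII hP h.1.1 M l0 hl0 w.length hk u u' hu huu' (by omega) b hb _ hz st t ht tE htE
  have hF : (st.toSt hz.gp).Full 2 :=
    MinIV.core M (by omega) st t ht tE u u' hu huu' S.rs.comm (hg1.lin_mem hP) st.rs.comm
      ((hC.g2.1).lin_mem hP) ((st.toSt hz.gp).U_ne) hC.resPsi hC.resH hC.resU 2 2 h.1.2
      (by omega) le_rfl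
  have hs := h.2 (st.toSt hz.gp) ⟨hC.g2, hF⟩
  -- compute `s'`
  have hU' := (hC.g2.1).lin_mem hP
  have hH' := ((st.toSt hz.gp).finrank_HH hU' (isTr_mv M.toAdm ht htE)).1
  have hres : Module.finrank M.F1 (LD.resSp (st.H t tE)) =
      Module.finrank (LF M.F1) (st.H t tE) := LD.finrank_resSp _
  have hlt : Module.finrank M.F1 (LD.resSp (st.H t tE)) < Module.finrank S.A.F (HH t S.U) := by
    refine MinV.finrank_lt M.toAdm (HH t S.U)
      (M.tt tE t ∘ₗ LinearMap.mulRight M.F1 (M.homv w.length p (compD X S.γ))) η hη ?_ _ ?_ ?_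
    · rw [LinearMap.comp_apply, LinearMap.mulRight_apply, tt_homv]
      exact hp
    · rintro _ ⟨x, hx, hxi, rfl⟩
      have h1 := hC.resH x hx hxi
      rw [HH2_eq_bot t ht.2 S.U hu huu' h.1.2] at h1
      have h2 : {y : M.D0 | ∃ (a : M.L) (h : S.A.D), h ∈ (⊥ : Submodule S.A.F S.A.D) ∧
          y = M.j a ⊗ₜ[S.A.F] h} ⊆ ({0} : Set M.D0) := by
        rintro _ ⟨a, h, hh, rfl⟩
        rw [Submodule.mem_bot] at hh
        rw [hh, TensorProduct.tmul_zero]
        rfl
      have h3 := Submodule.span_mono (R := M.F1) h2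
      rw [Submodule.span_zero_singleton, le_bot_iff] at h3
      rw [h3, bot_sup_eq] at h1
      exact h1
    · rintro _ ⟨x, hx, hxi, rfl⟩
      rw [LinearMap.comp_apply, LinearMap.mulRight_apply]
      exact hC.rho x hx hxi
  have hsd := (S.finrank_HH hU ht).1
  rw [hres, hsd] at hlt
  have h5 : Module.finrank (LF M.F1) (st.H t tE) = (st.toSt hz.gp).sd := hH'
  omega

end Crest.Agent.R180
end
end

-- ▼ part R180/MinVII
section

set_option autoImplicit false

/-!
# Row 180, ROUTE M, step (VII)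
-/

noncomputable section
namespace Crest.Agent.R180

variable {P : (A : DA) → (m : ℕ) → NC (Fin m) A.D → Prop}

theorem minVII (hP : MoveClosed P) {S : St P} (h : S.NDeg) :
    ∃ (A' : DA) (Λ' : Subalgebra A'.F A'.D), RS P A' 2 Λ' 0 := by
  have h4 : S.Good4 := h.1
  have h2 : S.Good2 := h4.1.1
  have hU : S.U ≤ Subalgebra.toSubmodule S.Λ := h2.1.lin_mem hP
  exact minVII_of hP h S.U_ne
    (fun X hX k hk hr w hw u hu h0 => minII hP h2 X hX k hk hr w hw u hu h0)
    (fun ht => (S.finrank_HH hU ht).1)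
    (fun ht _ hu h0 x hx hh => S.mem_U_of_HH hU ht hu h0 x hx hh)
    (fun t ht X hX k hk hr η hη w hw => minV hP h4 t ht X hX k hk hr η hη w hw)
    (exists_trivialAdm S.A)

end Crest.Agent.R180
end
end

-- ▼ part R180/MulLR
section

set_option autoImplicit false

/-!
# Row 180: two-sided multiplications on a finite-dimensional central division algebra

`E` a finite-dimensional domain, central over the field `k`.
* `MulLR.eq_zero_of_sum`: `y ↦ ∑ cᵢ y bᵢ` is zero only if `c = 0` (`b` linearly independent).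
* `MulLR.exists_coeffs`: every `k`-linear endomorphism of `E` is `y ↦ ∑ cᵢ y bᵢ`.
* `MulLR.derivation_inner`: every `k`-linear derivation of `E` is inner.
* `MulLR.bimodule_eq_top`: a sub-bimodule of `E^J` killed by no nonzero functional of `k^J` is `⊤`.
-/

namespace Crest.Agent.R180.MulLR

variable {k E : Type*} [Field k] [Ring E] [IsDomain E] [Algebra k E] [Algebra.IsCentral k E]
  [FiniteDimensional k E]

theorem exists_inv (k : Type*) {E : Type*} [Field k] [Ring E] [IsDomain E] [Algebra k E]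
    [FiniteDimensional k E] (x : E) (hx : x ≠ 0) : ∃ y : E, y * x = 1 ∧ x * y = 1 := by
  have hinj : Function.Injective (LinearMap.mulRight k x) := by
    intro a b hab
    exact mul_right_cancel₀ hx hab
  have hsurj := LinearMap.injective_iff_surjective.mp hinj
  obtain ⟨y, hy⟩ := hsurj 1
  have hy' : y * x = 1 := hy
  refine ⟨y, hy', ?_⟩
  have : (x * y - 1) * x = 0 := by
    rw [sub_mul, mul_assoc, hy', mul_one, one_mul, sub_self]
  rcases mul_eq_zero.mp this with h | h
  · exact sub_eq_zero.mp h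
  · exact absurd h hx

theorem eq_zero_of_sum {n : ℕ} (b : Fin n → E) (hb : LinearIndependent k b) :
    ∀ (c : Fin n → E), (∀ y : E, ∑ i, c i * y * b i = 0) → c = 0 := by
  classical
  suffices H : ∀ (m : ℕ) (c : Fin n → E), (Finset.univ.filter fun i => c i ≠ 0).card = m →
      (∀ y : E, ∑ i, c i * y * b i = 0) → c = 0 from fun c hc => H _ c rfl hc
  intro m
  induction m using Nat.strong_induction_on with
  | _ m ih =>
    intro c hm hc
    by_contra hne
    obtain ⟨i0, hi0⟩ : ∃ i, c i ≠ 0 := by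
      by_contra hcon
      push Not at hcon
      exact hne (funext hcon)
    obtain ⟨d, hd, -⟩ := exists_inv k (c i0) hi0
    -- normalise
    let c' : Fin n → E := fun i => d * c i
    have hc' : ∀ y : E, ∑ i, c' i * y * b i = 0 := by
      intro y
      have : d * ∑ i, c i * y * b i = 0 := by rw [hc y, mul_zero]
      rw [Finset.mul_sum] at this
      rw [← this]
      refine Finset.sum_congr rfl fun i _ => ?_
      simp only [c', mul_assoc]
    have hcen : ∀ i (x : E), x * c' i - c' i * x = 0 := by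
      intro i x
      have hsum : ∀ y : E, ∑ i, (x * c' i - c' i * x) * y * b i = 0 := by
        intro y
        have h1 : x * ∑ i, c' i * y * b i = 0 := by rw [hc' y, mul_zero]
        have h2 := hc' (x * y)
        rw [Finset.mul_sum] at h1
        have h3 : ∑ i, (x * c' i - c' i * x) * y * b i
            = ∑ i, x * (c' i * y * b i) - ∑ i, c' i * (x * y) * b i := by
          rw [← Finset.sum_sub_distrib]
          refine Finset.sum_congr rfl fun i _ => ?_
          simp only [sub_mul, mul_assoc]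
        rw [h3, h1, h2, sub_zero]
      have hlt : (Finset.univ.filter fun i => (fun i => x * c' i - c' i * x) i ≠ 0).card < m := by
        rw [← hm]
        apply Finset.card_lt_card
        rw [Finset.ssubset_iff_of_subset]
        · refine ⟨i0, by simp [hi0], ?_⟩
          simp [c', hd]
        · intro j hj
          simp only [Finset.mem_filter, Finset.mem_univ, true_and] at hj ⊢
          intro hcj
          apply hj
          simp [c', hcj]
      have := ih _ hlt (fun i => x * c' i - c' i * x) rfl hsum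
      exact congrFun this i
    have hk : ∀ i, ∃ a : k, c' i = algebraMap k E a := by
      intro i
      rw [← Algebra.IsCentral.mem_center_iff k, Subalgebra.mem_center_iff]
      intro x
      exact sub_eq_zero.mp (hcen i x)
    choose a ha using hk
    have hlin : ∑ i, a i • b i = 0 := by
      have := hc' 1
      rw [← this]
      refine Finset.sum_congr rfl fun i _ => ?_
      rw [ha i, mul_one, Algebra.smul_def]
    have := (Fintype.linearIndependent_iff.mp hb) a hlin i0
    have h1 : c' i0 = 1 := hd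
    rw [ha i0, this, map_zero] at h1
    exact zero_ne_one h1

/-- the operator `y ↦ ∑ cᵢ y bᵢ`, linear in `c` -/
noncomputable def op {n : ℕ} (b : Fin n → E) : (Fin n → E) →ₗ[k] (E →ₗ[k] E) where
  toFun c :=
    { toFun := fun y => ∑ i, c i * y * b i
      map_add' := fun x y => by
        rw [← Finset.sum_add_distrib]
        exact Finset.sum_congr rfl fun i _ => by rw [mul_add, add_mul]
      map_smul' := fun t y => by
        rw [RingHom.id_apply, Finset.smul_sum]
        exact Finset.sum_congr rfl fun i _ => by simp }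
  map_add' c c' := by
    ext y
    simp only [LinearMap.coe_mk, AddHom.coe_mk, Pi.add_apply, LinearMap.add_apply]
    rw [← Finset.sum_add_distrib]
    exact Finset.sum_congr rfl fun i _ => by rw [add_mul, add_mul]
  map_smul' t c := by
    ext y
    simp only [LinearMap.coe_mk, AddHom.coe_mk, Pi.smul_apply, LinearMap.smul_apply,
      RingHom.id_apply]
    rw [Finset.smul_sum]
    exact Finset.sum_congr rfl fun i _ => by simp

theorem exists_coeffs {n : ℕ} (b : Module.Basis (Fin n) k E) (f : E →ₗ[k] E) :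
    ∃ c : Fin n → E, ∀ y, f y = ∑ i, c i * y * b i := by
  have hinj : Function.Injective (op (k := k) b) := by
    rw [← LinearMap.ker_eq_bot, LinearMap.ker_eq_bot']
    intro c hc
    refine eq_zero_of_sum b b.linearIndependent c fun y => ?_
    exact LinearMap.congr_fun hc y
  have hdim : Module.finrank k (Fin n → E) = Module.finrank k (E →ₗ[k] E) := by
    rw [Module.finrank_pi_fintype, Module.finrank_linearMap, Module.finrank_eq_card_basis b]
    simp
  have hsurj : Function.Surjective (op (k := k) b) :=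
    (LinearMap.injective_iff_surjective_of_finrank_eq_finrank hdim).mp hinj
  obtain ⟨c, hc⟩ := hsurj f
  exact ⟨c, fun y => by rw [← hc]; rfl⟩

/-- every `k`-linear endomorphism of `E` is a sum of two-sided multiplications -/
theorem exists_sum_mul (f : E →ₗ[k] E) : ∃ (n : ℕ) (c b : Fin n → E),
    ∀ y, f y = ∑ i, c i * y * b i := by
  obtain ⟨c, hc⟩ := exists_coeffs (Module.finBasis k E) f
  exact ⟨_, c, _, hc⟩

/-- every `k`-linear derivation of `E` is inner -/
theorem derivation_inner (δ : E →ₗ[k] E) (hδ : ∀ x y, δ (x * y) = δ x * y + x * δ y) :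
    ∃ v : E, ∀ x, δ x = v * x - x * v := by
  let b := Module.finBasis k E
  obtain ⟨a, ha⟩ := exists_coeffs b δ
  set β := b.repr 1 with hβ
  have h1 : ∑ i, β i • b i = (1 : E) := b.sum_repr 1
  have key : ∀ x i, (a i * x - x * a i) = algebraMap k E (β i) * δ x := by
    intro x i
    have := eq_zero_of_sum b b.linearIndependent
      (fun i => (a i * x - x * a i) - algebraMap k E (β i) * δ x) ?_
    · exact sub_eq_zero.mp (congrFun this i)
    · intro y
      have e1 : δ x * y = ∑ i, algebraMap k E (β i) * δ x * y * b i := by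
        calc δ x * y = δ x * y * ∑ i, β i • b i := by rw [h1, mul_one]
          _ = _ := by
            rw [Finset.mul_sum]
            refine Finset.sum_congr rfl fun i _ => ?_
            rw [Algebra.smul_def, ← mul_assoc, ← Algebra.commutes (β i) (δ x * y),
              ← mul_assoc]
      have e2 : δ x * y = δ (x * y) - x * δ y := by rw [hδ]; abel
      rw [ha (x * y), ha y, Finset.mul_sum, ← Finset.sum_sub_distrib] at e2
      rw [e1] at e2
      rw [← sub_eq_zero.mpr e2.symm, ← Finset.sum_sub_distrib]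
      refine Finset.sum_congr rfl fun i _ => ?_
      simp only [sub_mul, mul_assoc]
  obtain ⟨i, hi⟩ : ∃ i, β i ≠ 0 := by
    by_contra hcon
    push Not at hcon
    rw [Finset.sum_eq_zero (fun i _ => by rw [hcon i, zero_smul])] at h1
    exact zero_ne_one h1
  refine ⟨(β i)⁻¹ • a i, fun x => ?_⟩
  have := key x i
  rw [← Algebra.smul_def] at this
  calc δ x = (β i)⁻¹ • (β i • δ x) := by rw [smul_smul, inv_mul_cancel₀ hi, one_smul]
    _ = _ := by rw [← this, smul_sub, smul_mul_assoc, mul_smul_comm]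

/-- a sub-bimodule of `E^J` annihilated by no nonzero functional in `k^J` is everything -/
theorem bimodule_eq_top {J : Type*} [Fintype J] (M : Submodule k (J → E))
    (hl : ∀ (a : E) (m : J → E), m ∈ M → (fun j => a * m j) ∈ M)
    (hr : ∀ (a : E) (m : J → E), m ∈ M → (fun j => m j * a) ∈ M)
    (hM : ∀ l : J → k, (∀ m ∈ M, ∑ j, l j • m j = 0) → l = 0) : M = ⊤ := by
  classical
  -- closed under coordinatewise `k`-linear maps
  have hf : ∀ (f : E →ₗ[k] E) (m : J → E), m ∈ M → (fun j => f (m j)) ∈ M := by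
    intro f m hm
    obtain ⟨n, c, b, hcb⟩ := exists_sum_mul f
    have : (fun j => f (m j)) = ∑ i, fun j => c i * m j * b i := by
      funext j
      rw [hcb, Finset.sum_apply]
    rw [this]
    refine Submodule.sum_mem _ fun i _ => ?_
    exact hr (b i) _ (hl (c i) m hm)
  -- the `k`-rational vectors of `M`
  let V : Submodule k (J → k) :=
    { carrier := {c | (fun j => algebraMap k E (c j)) ∈ M}
      add_mem' := fun {a b} ha hb => by
        have := M.add_mem ha hb
        simp only [Set.mem_ofPred_eq] at *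
        convert this using 1
        funext j
        simp
      zero_mem' := by
        simp only [Set.mem_ofPred_eq]
        convert M.zero_mem using 1
        funext j
        simp
      smul_mem' := fun t a ha => by
        have := M.smul_mem t ha
        simp only [Set.mem_ofPred_eq] at *
        convert this using 1
        funext j
        simp [Algebra.smul_def] }
  have hV : V = ⊤ := by
    by_contra hne
    obtain ⟨g, hg0, hg⟩ := Submodule.exists_dual_map_eq_bot_of_lt_top (lt_top_iff_ne_top.mpr hne)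
      inferInstance
    let l : J → k := fun j => g (Pi.single j 1)
    have hgl : ∀ c : J → k, g c = ∑ j, l j * c j := by
      intro c
      have : c = ∑ j, c j • (Pi.single j (1 : k) : J → k) := by
        funext j
        simp [Finset.sum_apply, Pi.single_apply]
      conv_lhs => rw [this]
      rw [map_sum]
      refine Finset.sum_congr rfl fun j _ => ?_
      rw [map_smul, smul_eq_mul, mul_comm]
    have hl0 : l = 0 := by
      apply hM
      intro m hm
      rw [← Module.forall_dual_apply_eq_zero_iff k]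
      intro φ
      have hmem : (fun j => φ (m j)) ∈ V := by
        have := hf ((Algebra.linearMap k E).comp φ) m hm
        exact this
      have h0 : g (fun j => φ (m j)) = 0 := by
        have : g (fun j => φ (m j)) ∈ V.map g := Submodule.mem_map_of_mem hmem
        rw [hg] at this
        exact (Submodule.mem_bot k).mp this
      rw [hgl] at h0
      rw [map_sum, ← h0]
      refine Finset.sum_congr rfl fun j _ => ?_
      rw [map_smul, smul_eq_mul]
    apply hg0
    ext j
    have := congrFun hl0 j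
    simpa [l] using this
  rw [eq_top_iff]
  intro x _
  have hone : ∀ j : J, (fun j' => algebraMap k E ((Pi.single j (1 : k) : J → k) j')) ∈ M := by
    intro j
    have : (Pi.single j (1 : k) : J → k) ∈ V := by rw [hV]; trivial
    exact this
  have : x = ∑ j, fun j' => x j * algebraMap k E ((Pi.single j (1 : k) : J → k) j') := by
    funext j'
    rw [Finset.sum_apply, Finset.sum_eq_single j']
    · simp
    · intro j _ hj
      rw [Pi.single_apply, if_neg (Ne.symm hj)]
      simp
    · simp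
  rw [this]
  exact Submodule.sum_mem _ fun j _ => hl (x j) _ (hone j)

end Crest.Agent.R180.MulLR
end

-- ▼ part R180/Jet
section

set_option autoImplicit false

/-!
# Row 180: the jet lemma

`E` a finite-dimensional domain central over `k`, `X i ∈ NC J E`.  If the constant terms of the
`X i` generate `E` over `k` and no nontrivial `k`-combination of the linear parts
`(X i [j])_i` is an inner derivation `([v, X i []])_i`, then the algebra generated by the `X i`
is dense (surjects onto `NC J E / 𝔪²`).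
-/

namespace Crest.Agent.R180

namespace NC

theorem mul_single {σ K : Type} [Ring K] (f g : NC σ K) (s : σ) :
    (f * g) [s] = f [s] * g [] + f [] * g [s] := by
  rw [mul_cons, mul_nil, ld_apply]

end NC

section

variable {k E ι J : Type} [Field k] [Ring E] [IsDomain E] [Algebra k E] [Algebra.IsCentral k E]
  [FiniteDimensional k E] [Fintype J]

/-- residue as an algebra hom -/
def NC.resAlg (k : Type) {E J : Type} [Field k] [Ring E] [Algebra k E] : NC J E →ₐ[k] E :=
  { (NC.res : NC J E →+* E) with commutes' := fun _ => rfl }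

@[simp] theorem NC.resAlg_apply {k : Type} {E J : Type} [Field k] [Ring E] [Algebra k E]
    (f : NC J E) : NC.resAlg k f = f [] := rfl

/-- general form: a subalgebra `S` of `NC J E` whose constant terms are everything, and such that no
nonzero functional `l ∈ k^J` is inner on `S`, is dense. -/
theorem jet_dense_subalgebra (S : Subalgebra k (NC J E))
    (hz : ∀ a : E, ∃ q ∈ S, q [] = a)
    (hu : ∀ (l : J → k) (v : E), (∀ q ∈ S, ∑ j, l j • q [j] = v * q [] - q [] * v) → l = 0) :
    NC.Dense S := by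
  classical
  let M : Submodule k (J → E) :=
    { carrier := {m | ∃ p ∈ S, p [] = 0 ∧ ∀ j, p [j] = m j}
      add_mem' := by
        rintro a b ⟨p, hp, hp0, hpj⟩ ⟨q, hq, hq0, hqj⟩
        exact ⟨p + q, S.add_mem hp hq, by simp [hp0, hq0], fun j => by simp [hpj, hqj]⟩
      zero_mem' := ⟨0, S.zero_mem, rfl, fun j => rfl⟩
      smul_mem' := by
        rintro c a ⟨p, hp, hp0, hpj⟩
        exact ⟨c • p, S.smul_mem hp c, by simp [hp0], fun j => by simp [hpj]⟩ }
  have hMem : ∀ m : J → E, m ∈ M ↔ ∃ p ∈ S, p [] = 0 ∧ ∀ j, p [j] = m j := fun _ => Iff.rfl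
  choose q hqS hq0 using hz
  have hMtop : M = ⊤ := by
    apply MulLR.bimodule_eq_top
    · rintro a m ⟨p, hp, hp0, hpj⟩
      refine ⟨q a * p, S.mul_mem (hqS a) hp, by simp [hp0], fun j => ?_⟩
      rw [NC.mul_single, hp0, hq0, hpj]; simp
    · rintro a m ⟨p, hp, hp0, hpj⟩
      refine ⟨p * q a, S.mul_mem hp (hqS a), by simp [hp0], fun j => ?_⟩
      rw [NC.mul_single, hp0, hq0, hpj]; simp
    · intro l hl
      -- the induced derivation
      have hwd : ∀ p ∈ S, p [] = 0 → ∑ j, l j • p [j] = 0 := fun p hp hp0 =>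
        hl (fun j => p [j]) ⟨p, hp, hp0, fun _ => rfl⟩
      let D : NC J E → E := fun p => ∑ j, l j • p [j]
      have hDsub : ∀ p p' : NC J E, D (p - p') = D p - D p' := by
        intro p p'
        simp only [D, NC.sub_apply, smul_sub, Finset.sum_sub_distrib]
      have hDadd : ∀ p p' : NC J E, D (p + p') = D p + D p' := by
        intro p p'
        simp only [D, NC.add_apply, smul_add, Finset.sum_add_distrib]
      have hDsmul : ∀ (c : k) (p : NC J E), D (c • p) = c • D p := by
        intro c p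
        simp only [D, NC.smul_apply, Finset.smul_sum]
        exact Finset.sum_congr rfl fun j _ => smul_comm _ _ _
      have hDmul : ∀ p p' : NC J E, D (p * p') = D p * p' [] + p [] * D p' := by
        intro p p'
        simp only [D, NC.mul_single, smul_add, Finset.sum_add_distrib, Finset.sum_mul,
          Finset.mul_sum, smul_mul_assoc, mul_smul_comm]
      have heq : ∀ p ∈ S, ∀ p' ∈ S, p [] = p' [] → D p = D p' := by
        intro p hp p' hp' h
        have := hwd (p - p') (S.sub_mem hp hp') (by simp [h])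
        have h2 := hDsub p p'
        rw [← sub_eq_zero, ← h2]
        exact this
      let δ : E →ₗ[k] E :=
        { toFun := fun a => D (q a)
          map_add' := fun a b => by
            rw [← hDadd]
            exact heq _ (hqS _) _ (S.add_mem (hqS _) (hqS _)) (by simp [hq0])
          map_smul' := fun c a => by
            rw [RingHom.id_apply, ← hDsmul]
            exact heq _ (hqS _) _ (S.smul_mem (hqS _) c) (by simp [hq0]) }
      have hδ : ∀ x y, δ (x * y) = δ x * y + x * δ y := by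
        intro x y
        have h1 : D (q (x * y)) = D (q x * q y) :=
          heq _ (hqS _) _ (S.mul_mem (hqS _) (hqS _)) (by simp [hq0])
        change D (q (x * y)) = D (q x) * y + x * D (q y)
        rw [h1, hDmul, hq0, hq0]
      obtain ⟨v, hv⟩ := MulLR.derivation_inner δ hδ
      refine hu l v fun p hp => ?_
      have h1 : D p = δ (p []) := heq p hp _ (hqS _) (by simp [hq0])
      change D p = _
      rw [h1, hv]
  intro f
  have hm : (fun j => f [j] - q (f []) [j]) ∈ M := by rw [hMtop]; trivial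
  obtain ⟨p, hp, hp0, hpj⟩ := hm
  refine ⟨q (f []) + p, S.add_mem (hqS _) hp, fun w hw => ?_⟩
  match w, hw with
  | [], _ => simp [hp0, hq0]
  | [j], _ => simp [hpj]

/-- **Jet lemma.** -/
theorem jet_dense (X : ι → NC J E)
    (hz : Algebra.adjoin k (Set.range fun i => (X i) []) = ⊤)
    (hu : ∀ (l : J → k) (v : E),
      (∀ i, ∑ j, l j • (X i) [j] = v * (X i) [] - (X i) [] * v) → l = 0) :
    NC.Dense (Algebra.adjoin k (Set.range X)) := by
  apply jet_dense_subalgebra
  · intro a
    have h1 : (Algebra.adjoin k (Set.range X)).map (NC.resAlg k) = ⊤ := by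
      rw [AlgHom.map_adjoin, ← Set.range_comp]
      exact hz
    have h2 : a ∈ (Algebra.adjoin k (Set.range X)).map (NC.resAlg k) := by rw [h1]; trivial
    obtain ⟨q, hq, hqa⟩ := h2
    exact ⟨q, hq, hqa⟩
  · intro l v h
    exact hu l v fun i => h (X i) (Algebra.subset_adjoin ⟨i, rfl⟩)

end

end Crest.Agent.R180
end

-- ▼ part R180/DenseAll
section

set_option autoImplicit false

/-!
# Row 180: density modulo all powers of the augmentation ideal
-/

namespace Crest.Agent.R180.NC

variable {σ K : Type} [Ring K]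

/-- order is superadditive -/
theorem mul_vanish (f g : NC σ K) (m n : ℕ) (hf : ∀ w : List σ, w.length < m → f w = 0)
    (hg : ∀ w : List σ, w.length < n → g w = 0) (w : List σ) (hw : w.length < m + n) :
    (f * g) w = 0 := by
  induction w generalizing f m with
  | nil =>
    rw [mul_nil]
    by_cases hm : 0 < m
    · rw [hf [] (by simpa using hm), zero_mul]
    · rw [hg [] (by simp at hw ⊢; omega), mul_zero]
  | cons s w ih =>
    rw [mul_cons]
    simp only [List.length_cons] at hw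
    have h1 : (ld s f * g) w = 0 := by
      refine ih (ld s f) (m - 1) (fun v hv => ?_) (by omega)
      rw [ld_apply]
      exact hf _ (by simp only [List.length_cons]; omega)
    rw [h1, zero_add]
    by_cases hm : 0 < m
    · rw [hf [] (by simpa using hm), zero_mul]
    · rw [hg (s :: w) (by simp only [List.length_cons]; omega), mul_zero]

theorem decomp_of_nil [DecidableEq σ] [Fintype σ] (f : NC σ K) (hf : f [] = 0) :
    f = ∑ i, NC.X i * ld i f := by
  apply ext'; intro w
  rw [sum_apply]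
  cases w with
  | nil => simp [hf]
  | cons s w =>
    have h1 : ∀ i, (NC.X i * ld i f : NC σ K) (s :: w) = if s = i then f (i :: w) else 0 := by
      intro i
      rw [mul_cons, X_nil, zero_mul, add_zero]
      have h2 : ld s (NC.X i : NC σ K) = if s = i then 1 else 0 := by
        apply ext'; intro v
        cases v with
        | nil => by_cases h : s = i <;> simp [h]
        | cons r v => by_cases h : s = i <;> simp [h]
      rw [h2]
      split_ifs <;> simp
    rw [Finset.sum_congr rfl fun i _ => h1 i, Finset.sum_ite_eq Finset.univ s]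
    simp

/-- a subalgebra dense mod `𝔪²` is dense mod `𝔪^k` for all `k` -/
theorem Dense.all_gen {F : Type} [CommRing F] [Algebra F K] [Fintype σ] {𝒜 : Subalgebra F (NC σ K)}
    (h : Dense 𝒜) (k : ℕ) (f : NC σ K) : ∃ a ∈ 𝒜, ∀ w : List σ, w.length < k → a w = f w := by
  classical
  induction k generalizing f with
  | zero => exact ⟨0, 𝒜.zero_mem, fun w hw => absurd hw (Nat.not_lt_zero _)⟩
  | succ k ih =>
    by_cases hk : k ≤ 1
    · obtain ⟨a, ha, haf⟩ := h f
      exact ⟨a, ha, fun w hw => haf w (by omega)⟩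
    · obtain ⟨b, hb, hbf⟩ := ih f
      have hr : ∀ w : List σ, w.length < k → (f - b) w = 0 := fun w hw => by
        rw [sub_apply, hbf w hw, sub_self]
      choose c hc hcf using fun i => ih (ld i (f - b))
      choose x hx hxf using fun i : σ => h (NC.X i)
      refine ⟨b + ∑ i, x i * c i,
        𝒜.add_mem hb (𝒜.sum_mem fun i _ => 𝒜.mul_mem (hx i) (hc i)), fun w hw => ?_⟩
      have e1 : f = b + ∑ i, NC.X i * ld i (f - b) := by
        rw [← decomp_of_nil (f - b) (hr [] (by simp; omega))]; abel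
      have e2 : (∑ i, x i * c i) - ∑ i, NC.X i * ld i (f - b) =
          ∑ i, ((x i - NC.X i) * c i + NC.X i * (c i - ld i (f - b))) := by
        rw [← Finset.sum_sub_distrib]
        refine Finset.sum_congr rfl fun i _ => ?_
        noncomm_ring
      have e3 : ((∑ i, x i * c i) - ∑ i, NC.X i * ld i (f - b)) w = 0 := by
        rw [e2, sum_apply]
        refine Finset.sum_eq_zero fun i _ => ?_
        rw [add_apply]
        have t1 : ((x i - NC.X i) * c i : NC σ K) w = 0 := by
          refine mul_vanish _ _ 2 (k - 1) (fun v hv => ?_) (fun v hv => ?_) w (by omega)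
          · rw [sub_apply, hxf i v hv, sub_self]
          · rw [hcf i v (by omega), ld_apply]
            exact hr _ (by simp only [List.length_cons]; omega)
        have t2 : (NC.X i * (c i - ld i (f - b)) : NC σ K) w = 0 := by
          refine mul_vanish _ _ 1 k (fun v hv => ?_) (fun v hv => ?_) w (by omega)
          · have : v = [] := List.length_eq_zero_iff.mp (by omega)
            rw [this, X_nil]
          · rw [sub_apply, hcf i v hv, sub_self]
        rw [t1, t2, add_zero]
      rw [sub_apply, sub_eq_zero] at e3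
      conv_rhs => rw [e1]
      rw [add_apply, add_apply, e3]

end Crest.Agent.R180.NC
end

-- ▼ part R180/ModD
section

set_option autoImplicit false

/-!
# Row 180, MODULE D: reachability is closed under good moves
-/

noncomputable section
namespace Crest.Agent.R180

open TensorProduct

namespace ModD

section hX

variable {A : DA} (M : Adm A) {m μ : ℕ} (X : Fin m → NC (Fin μ) (PowerSeries M.E))
  (hX : ∀ j, PowerSeries.constantCoeff (X j []) = 0)

/-- plain-typed version of `Adm.hX` -/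
def hXr : NC (Fin m) A.D →+* NC (Fin μ) (LD M.D0) :=
  (NC.map (LD.ofPS (K := M.D0))).comp (M.hX0 X hX)

/-- plain-typed version of `Adm.inc` -/
def incr : A.D →+* LD M.D0 := (LD.C (K := M.D0)).comp M.jD

/-- plain-typed version of `Adm.incE` -/
def incEr : LD M.E →+* LD M.D0 := LD.map M.jE

theorem hX_C (d : A.D) : hXr M X hX (NC.C d) = NC.C (incr M d) := by
  have h1 : M.hX0 X hX (NC.C d) = NC.C (PowerSeries.C (M.jD d)) := NC.subst_C _ _ _ _ _ d
  change NC.map LD.ofPS (M.hX0 X hX (NC.C d)) = _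
  rw [h1, NC.map_C]
  rfl

/-- the image of a letter, as a series over `E((t))` -/
def flat (j : Fin m) : NC (Fin μ) (LD M.E) := NC.map LD.ofPS (X j)


theorem ofPS_map {K K' : Type} [Ring K] [Ring K'] (φ : K →+* K') (x : PowerSeries K) :
    (LD.ofPS (PowerSeries.map φ x) : LD K') = LD.map φ (LD.ofPS x) := by
  apply LD.ext; intro n
  rw [LD.co_map]
  rcases lt_or_ge n 0 with hn | hn
  · rw [LD.co_ofPS_neg _ _ hn, LD.co_ofPS_neg _ _ hn, map_zero]
  · obtain ⟨k, rfl⟩ := Int.eq_ofNat_of_zero_le hn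
    rw [LD.co_ofPS, LD.co_ofPS, PowerSeries.coeff_map]

theorem hX_X (j : Fin m) : hXr M X hX (NC.X j) = NC.map (incEr M) (flat M X j) := by
  have h1 : M.hX0 X hX (NC.X j) = M.let0 X j := NC.subst_X _ _ _ _ _ j
  change NC.map LD.ofPS (M.hX0 X hX (NC.X j)) = _
  rw [h1]
  apply NC.ext'; intro w
  rw [NC.map_apply, NC.map_apply, flat, NC.map_apply]
  change _ = LD.map M.jE _
  rw [← ofPS_map]
  rfl

/-- continuity of the move homomorphism -/
theorem hX_co (f : NC (Fin m) A.D) (n : ℕ) (hf : ∀ w : List (Fin m), w.length < n → f w = 0)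
    (w : List (Fin μ)) (k : ℤ) (hk : k + w.length < n) : LD.co ((hXr M X hX f) w) k = 0 := by
  change LD.co (LD.ofPS ((M.hX0 X hX f) w)) k = 0
  rcases lt_or_ge k 0 with h | h
  · rw [LD.co_ofPS_neg _ _ h]
  · obtain ⟨i, rfl⟩ := Int.eq_ofNat_of_zero_le h
    rw [LD.co_ofPS]
    have h1 : M.hX0 X hX f ∈ (M.filt μ).I n := NC.subst_mem _ _ _ _ _ n f hf
    rw [CFilt.mem_nc] at h1
    have h2 := h1 w
    rw [CFilt.mem_powerSeries] at h2
    exact h2 i (by omega)

theorem hX_algebraMap (c : A.F) : hXr M X hX (algebraMap A.F _ c) =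
    algebraMap (LF M.F1) (NC (Fin μ) (LD M.D0)) (LF.C (algebraMap A.F M.F1 c)) := by
  rw [NC.algebraMap_eq, hX_C, NC.algebraMap_eq]
  congr 1
  rw [LD.algebraMap_eq, LD.toLD_C]
  change LD.C (M.jD (algebraMap A.F A.D c)) = _
  congr 1
  change (1 : M.E) ⊗ₜ[A.F] (algebraMap A.F A.D c) = algebraMap M.F1 M.E (algebraMap A.F M.F1 c) ⊗ₜ[A.F] (1 : A.D)
  rw [Algebra.algebraMap_eq_smul_one, TensorProduct.tmul_smul, TensorProduct.smul_tmul',
    ← IsScalarTower.algebraMap_apply, Algebra.algebraMap_eq_smul_one]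

end hX

/-- the jet (constant and linear part) -/
def jet {F K : Type} [Field F] [Ring K] [Algebra F K] {μ : ℕ} :
    NC (Fin μ) K →ₗ[F] (Option (Fin μ) → K) where
  toFun f o := match o with
    | none => f []
    | some i => f [i]
  map_add' f g := by
    funext o
    cases o <;> rfl
  map_smul' c f := by
    funext o
    cases o <;> simp


/-- core statement with plain types -/
theorem core {A : DA} (M : Adm A) {m μ : ℕ} (X : Fin m → NC (Fin μ) (PowerSeries M.E))
    (hG : Good' M X) (S : Set (NC (Fin m) A.D)) (hdense : NC.Dense (Algebra.adjoin A.F S)) :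
    NC.Dense (Algebra.adjoin (LF M.F1) (hXr M X hG.x0 '' S)) := by
  classical
  set B := Algebra.adjoin A.F S with hB
  let B' : Subalgebra (LF M.F1) (NC (Fin μ) (LD M.D0)) := Algebra.adjoin (LF M.F1)
    (hXr M X hG.x0 '' S)
  change NC.Dense B'
  -- `hX` maps `B` into `B'`
  have hBB' : ∀ b ∈ B, hXr M X hG.x0 b ∈ B' := by
    intro b hb
    induction hb using Algebra.adjoin_induction with
    | mem x hx => exact Algebra.subset_adjoin ⟨x, hx, rfl⟩
    | algebraMap r =>
      rw [hX_algebraMap]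
      exact B'.algebraMap_mem _
    | add x y _ _ hx hy => rw [map_add]; exact B'.add_mem hx hy
    | mul x y _ _ hx hy => rw [map_mul]; exact B'.mul_mem hx hy
  -- jets of `B'`
  let V : Submodule (LF M.F1) (Option (Fin μ) → LD M.D0) :=
    (Subalgebra.toSubmodule B').map (jet (F := LF M.F1) (K := LD M.D0))
  have hV1 : ∀ q : NC (Fin m) A.D, jet (F := LF M.F1) (K := LD M.D0) (hXr M X hG.x0 q) ∈ V := by
    intro q
    apply LD.closed_pi
    intro n
    obtain ⟨b, hb, hbq⟩ := hdense.all_gen (n.toNat + 1) q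
    refine ⟨jet (F := LF M.F1) (K := LD M.D0) (hXr M X hG.x0 b),
      Submodule.mem_map_of_mem (hBB' b hb), fun o k hk => ?_⟩
    have hcont : ∀ w : List (Fin μ), w.length < 2 → LD.co ((hXr M X hG.x0 (q - b)) w) k = 0 := by
      intro w hw
      refine hX_co M X hG.x0 (q - b) (n.toNat + 1) (fun v hv => ?_) w k (by omega)
      rw [NC.sub_apply, hbq v hv, sub_self]
    rw [map_sub] at hcont
    cases o with
    | none => exact hcont [] (by simp)
    | some j => exact hcont [j] (by simp)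
  -- hence all jets of the algebra generated by the range of `hX` are in `V`
  let B2 : Subalgebra (LF M.F1) (NC (Fin μ) (LD M.D0)) :=
    Algebra.adjoin (LF M.F1) (Set.range (hXr M X hG.x0))
  have hV2 : ∀ f ∈ B2, jet (F := LF M.F1) (K := LD M.D0) f ∈ V := by
    intro f hf
    have hspan : f ∈ Submodule.span (LF M.F1) (Set.range (hXr M X hG.x0)) := by
      have h1 : Subalgebra.toSubmodule B2 =
          Submodule.span (LF M.F1) (Submonoid.closure (Set.range (hXr M X hG.x0)) : Set _) :=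
        Algebra.adjoin_eq_span _ _
      have h2 : (Submonoid.closure (Set.range (hXr M X hG.x0)) : Set (NC (Fin μ) (LD M.D0))) =
          Set.range (hXr M X hG.x0) := by
        have : Submonoid.closure (Set.range (hXr M X hG.x0)) =
            MonoidHom.mrange (hXr M X hG.x0 : NC (Fin m) A.D →* NC (Fin μ) (LD M.D0)) :=
          Submonoid.closure_eq (MonoidHom.mrange
            (hXr M X hG.x0 : NC (Fin m) A.D →* NC (Fin μ) (LD M.D0)))
        rw [this]; rfl
      rw [h2] at h1
      rw [← h1]; exact hf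
    have hle : Submodule.span (LF M.F1) (Set.range (hXr M X hG.x0)) ≤
        V.comap (jet (F := LF M.F1) (K := LD M.D0)) := by
      rw [Submodule.span_le]
      rintro _ ⟨q, rfl⟩
      exact hV1 q
    exact hle hspan
  -- `B2` is dense, by the jet lemma
  have hjet : NC.Dense (Algebra.adjoin (LF M.F1) (Set.range (flat M X))) := by
    apply jet_dense
    · exact hG.gen
    · exact hG.indep
  have hB2E : ∀ p ∈ Algebra.adjoin (LF M.F1) (Set.range (flat M X)),
      NC.map (incEr M) p ∈ B2 := by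
    intro p hp
    induction hp using Algebra.adjoin_induction with
    | mem x hx =>
      obtain ⟨j, rfl⟩ := hx
      rw [← hX_X M X hG.x0]
      exact Algebra.subset_adjoin ⟨_, rfl⟩
    | algebraMap r =>
      have : NC.map (incEr M) (algebraMap (LF M.F1) (NC (Fin μ) (LD M.E)) r) =
          algebraMap (LF M.F1) (NC (Fin μ) (LD M.D0)) r := by
        rw [NC.algebraMap_eq, NC.map_C, NC.algebraMap_eq]
        congr 1
      rw [this]
      exact B2.algebraMap_mem _
    | add x y _ _ hx hy => rw [map_add]; exact B2.add_mem hx hy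
    | mul x y _ _ hx hy => rw [map_mul]; exact B2.mul_mem hx hy
  have hB2D : ∀ d : A.D, (NC.C (incr M d) : NC (Fin μ) (LD M.D0)) ∈ B2 := by
    intro d
    rw [← hX_C M X hG.x0]
    exact Algebra.subset_adjoin ⟨_, rfl⟩
  -- coordinates of `E ⊗ D` along a basis of `D`
  let b := Module.finBasis A.F A.D
  let crd : Fin (Module.finrank A.F A.D) → M.D0 → M.E := fun κ x =>
    TensorProduct.equivFinsuppOfBasisRight (M := M.E) b x κ
  have hcrd0 : ∀ κ, crd κ 0 = 0 := by intro κ; simp [crd]
  have hcrd : ∀ x : M.D0, x = ∑ κ, (crd κ x) ⊗ₜ[A.F] (b κ) := by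
    intro x
    apply (TensorProduct.equivFinsuppOfBasisRight (M := M.E) b).injective
    ext κ
    rw [map_sum, Finsupp.coe_finsetSum, Finset.sum_apply, Finset.sum_eq_single κ]
    · simp [crd]
    · intro j _ hj
      simp [hj]
    · simp
  let crdL : Fin (Module.finrank A.F A.D) → LD M.D0 → LD M.E := fun κ x =>
    HahnSeries.map (x : HahnSeries ℤ M.D0) (⟨crd κ, hcrd0 κ⟩ : ZeroHom M.D0 M.E)
  have hcrdL : ∀ x : LD M.D0, x = ∑ κ, incr M (b κ) * (incEr M) (crdL κ x) := by
    intro x
    apply LD.ext; intro n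
    have hs : LD.co (∑ κ, incr M (b κ) * (incEr M) (crdL κ x)) n =
        ∑ κ, LD.co (incr M (b κ) * (incEr M) (crdL κ x)) n := by
      let g : LD M.D0 →+ M.D0 :=
        { toFun := fun y => LD.co y n, map_zero' := rfl, map_add' := fun _ _ => rfl }
      exact map_sum g _ _
    rw [hs, hcrd (LD.co x n)]
    refine Finset.sum_congr rfl fun κ _ => ?_
    have e1 : LD.co (incr M (b κ) * (incEr M) (crdL κ x)) n =
        M.jD (b κ) * LD.co ((incEr M) (crdL κ x)) n := LD.C_mul_co _ _ _
    rw [e1]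
    change _ = ((1 : M.E) ⊗ₜ[A.F] (b κ)) * ((crd κ (LD.co x n)) ⊗ₜ[A.F] (1 : A.D))
    rw [Algebra.TensorProduct.tmul_mul_tmul, one_mul, mul_one]
  intro f
  -- approximate `f` by an element of `B2`
  choose p hp hpf using fun κ : Fin (Module.finrank A.F A.D) =>
    hjet (⟨fun w => crdL κ (f w)⟩ : NC (Fin μ) (LD M.E))
  let f2 : NC (Fin μ) (LD M.D0) := ∑ κ, NC.C (incr M (b κ)) * NC.map (incEr M) (p κ)
  have hf2 : f2 ∈ B2 := B2.sum_mem fun κ _ => B2.mul_mem (hB2D _) (hB2E _ (hp κ))
  have hf2f : ∀ w : List (Fin μ), w.length < 2 → f2 w = f w := by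
    intro w hw
    rw [NC.sum_apply, hcrdL (f w)]
    refine Finset.sum_congr rfl fun κ _ => ?_
    rw [NC.C_mul_apply, NC.map_apply, hpf κ w hw]
  obtain ⟨b', hb', hb'j⟩ := hV2 f2 hf2
  refine ⟨b', hb', fun w hw => ?_⟩
  rw [← hf2f w hw]
  match w, hw with
  | [], _ => exact congrFun hb'j none
  | [j], _ => exact congrFun hb'j (some j)

end ModD

theorem reach_moveClosed (A₀ : DA) (𝒜 : Subalgebra A₀.F (NC (Fin 2) A₀.D))
    (a₀ : NC (Fin 2) A₀.D) : MoveClosed (Reach A₀ 𝒜 a₀) := by
  rintro A m a ⟨i, h, hc, rfl, hdense⟩ M μ X hG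
  refine ⟨(LF.C.comp (algebraMap A.F M.F1)).comp i, (M.hX X hG.x0).comp h, fun c => ?_, rfl, ?_⟩
  · rw [RingHom.comp_apply, hc]
    exact ModD.hX_algebraMap M X hG.x0 (i c)
  · have h1 := ModD.core M X hG _ hdense
    have h2 : ((M.hX X hG.x0).comp h : NC (Fin 2) A₀.D → NC (Fin μ) (A.mv M).D) ''
        (𝒜 : Set (NC (Fin 2) A₀.D)) =
        (M.hX X hG.x0 : NC (Fin m) A.D → NC (Fin μ) (A.mv M).D) ''
          (h '' (𝒜 : Set (NC (Fin 2) A₀.D))) := by
      rw [← Set.image_comp]; rfl
    rw [h2]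
    exact h1

end Crest.Agent.R180
end
end

-- ▼ part R180/MinFinal

set_option autoImplicit false
noncomputable section
namespace Crest.Agent.R180

/-! # Row 180, ROUTE M: final assembly of Theorem A -/

variable {P : (A : DA) → (m : ℕ) → NC (Fin m) A.D → Prop}

theorem St.reach_zero (hP : MoveClosed P) (h : Nonempty (St P)) :
    ∃ (A' : DA) (Λ' : Subalgebra A'.F A'.D), RS P A' 2 Λ' 0 := by
  obtain ⟨S, hS⟩ := exists_good4 hP h
  obtain ⟨S1, h1, h2, h3⟩ := exists_big hP hS (2 * S.sd + 3)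
  obtain ⟨S2, h4⟩ := minVI hP h1 (by rw [h2]; exact h3)
  exact minVII hP h4

theorem theoremA : TheoremA := by
  intro F D _ _ _ _ _ _ _ 𝒜 h𝒜 a
  let A₀ : DA := { F := F, D := D }
  let P := Reach A₀ 𝒜 a
  have hP : MoveClosed P := reach_moveClosed A₀ 𝒜 a
  have key : ∃ (A' : DA) (Λ' : Subalgebra A'.F A'.D), RS P A' 2 Λ' 0 := by
    have h0 : P A₀ 2 a := by
      refine ⟨RingHom.id _, RingHom.id _, fun c => rfl, rfl, ?_⟩
      have : (RingHom.id (NC (Fin 2) A₀.D) : NC (Fin 2) A₀.D → NC (Fin 2) A₀.D) ''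
          (𝒜 : Set (NC (Fin 2) A₀.D)) = (𝒜 : Set (NC (Fin 2) A₀.D)) := by
        simp
      rw [this, Algebra.adjoin_eq]
      exact h𝒜
    obtain ⟨γ, hγ⟩ := RS.start (A := A₀) a h0
    by_cases hz : γ = 0
    · subst hz; exact ⟨_, _, hγ⟩
    · exact St.reach_zero hP (exists_live hP le_rfl hγ hz)
  obtain ⟨A', Λ', hRS⟩ := key
  obtain ⟨a', ⟨i, h, h1, h2, h3⟩, halg⟩ := RS.final hRS
  refine ⟨A'.F, A'.D, A'.fF, A'.cz, A'.rD, A'.dD, A'.aD, A'.fd, A'.ce, i, h, h1, ?_, h3⟩
  rw [h2]; exact halg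

end Crest.Agent.R180
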