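import Crest.Agent.R180.Basic
import Crest.Agent.R180.StmtA

-- ▼ part R180/NCFacts
section

set_option autoImplicit false

/-! # Row 180: facts on noncommutative power series (domain, density, centralizer) -/

namespace Crest.Agent.R180

namespace NC

variable {σ K : Type}

section Ring
variable [Ring K]

theorem mul_eq_zero_of_short (f g : NC σ K) (n : ℕ) (hg : ∀ w : List σ, w.length < n → g w = 0)
    (w : List σ) (hw : w.length < n) : (f * g) w = 0 := by
  induction w generalizing f with
  | nil => rw [mul_nil, hg [] hw, mul_zero]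
  | cons s w ih =>
    have hw' : w.length < n := by simp only [List.length_cons] at hw; omega
    rw [mul_cons, ih (ld s f) hw', hg _ hw, mul_zero, add_zero]

theorem mul_eq_of_short (f g : NC σ K) (n : ℕ) (hg : ∀ w : List σ, w.length < n → g w = 0)
    (w : List σ) (hw : w.length ≤ n) : (f * g) w = f [] * g w := by
  cases w with
  | nil => rw [mul_nil]
  | cons s w =>
    have hw' : w.length < n := by simp only [List.length_cons] at hw; omega
    rw [mul_cons, mul_eq_zero_of_short (ld s f) g n hg w hw', zero_add]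

theorem mul_append (f g : NC σ K) (u v : List σ) (hf : ∀ w : List σ, w.length < u.length → f w = 0)
    (hg : ∀ w : List σ, w.length < v.length → g w = 0) : (f * g) (u ++ v) = f u * g v := by
  induction u generalizing f with
  | nil => rw [List.nil_append, mul_eq_of_short f g v.length hg v le_rfl]
  | cons s u ih =>
    have h0 : f [] = 0 := hf [] (by simp)
    rw [List.cons_append, mul_cons, h0, zero_mul, add_zero, ih (ld s f)]
    · rfl
    · intro w hw
      rw [ld_apply]
      exact hf _ (by simp only [List.length_cons]; omega)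

instance instNoZeroDivisors [NoZeroDivisors K] : NoZeroDivisors (NC σ K) := by
  classical
  refine ⟨?_⟩
  intro f g hfg
  by_contra hne
  rw [not_or] at hne
  have key : ∀ f : NC σ K, f ≠ 0 → ∃ u : List σ, f u ≠ 0 ∧ ∀ w : List σ, w.length < u.length → f w = 0 := by
    intro f hf
    have hex : ∃ n, ∃ u : List σ, u.length = n ∧ f u ≠ 0 := by
      by_contra h
      push Not at h
      exact hf (ext' fun w => h w.length w rfl)
    obtain ⟨u, hu, hfu⟩ := Nat.find_spec hex
    refine ⟨u, hfu, fun w hw => ?_⟩
    by_contra hw0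
    exact Nat.find_min hex (by rw [← hu]; exact hw) ⟨w, rfl, hw0⟩
  obtain ⟨u, hu, hu'⟩ := key f hne.1
  obtain ⟨v, hv, hv'⟩ := key g hne.2
  have h1 := mul_append f g u v hu' hv'
  rw [hfg, zero_apply] at h1
  exact mul_ne_zero hu hv h1.symm

theorem C_injective : Function.Injective (C : K →+* NC σ K) := by
  intro a b h
  have := congrArg (fun f : NC σ K => f []) h
  simpa using this

instance instNontrivial [Nontrivial K] : Nontrivial (NC σ K) :=
  (C_injective (σ := σ) (K := K)).nontrivial

/-- (F1) -/
instance isDomain [IsDomain K] : IsDomain (NC σ K) := NoZeroDivisors.to_isDomain _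

instance instCharZero [CharZero K] : CharZero (NC σ K) :=
  charZero_of_injective_ringHom (C_injective (σ := σ) (K := K))

theorem ld_X' [DecidableEq σ] (r s : σ) : ld r (X s : NC σ K) = if r = s then 1 else 0 := by
  apply ext'
  intro w
  cases w with
  | nil => rw [ld_apply, X_single]; split_ifs <;> simp
  | cons t w => rw [ld_apply, X_cons_cons]; split_ifs <;> simp

theorem X_mul_cons [DecidableEq σ] (s r : σ) (z : NC σ K) (v : List σ) :
    ((X s : NC σ K) * z) (r :: v) = if r = s then z v else 0 := by
  rw [mul_cons, X_nil, zero_mul, add_zero, ld_X']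
  split_ifs
  · rw [one_mul]
  · rw [zero_mul, zero_apply]

theorem mul_X_concat [DecidableEq σ] (s t : σ) (z : NC σ K) (w : List σ) :
    (z * (X s : NC σ K)) (w ++ [t]) = if t = s then z w else 0 := by
  induction w generalizing z with
  | nil =>
    rw [List.nil_append, mul_cons, mul_nil, X_nil, mul_zero, zero_add, X_single]
    split_ifs <;> simp
  | cons r w ih =>
    have h0 : (X s : NC σ K) (r :: (w ++ [t])) = 0 := by
      cases w with
      | nil => rfl
      | cons a w => rfl
    rw [List.cons_append, mul_cons, ih, h0, mul_zero, add_zero]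
    rfl

end Ring

section Dense

variable {F D : Type} [Field F] [Ring D] [Algebra F D] {𝒜 : Subalgebra F (NC (Fin 2) D)}

/-- (F0) -/
theorem Dense.all (h𝒜 : Dense 𝒜) (k : ℕ) (f : NC (Fin 2) D) :
    ∃ a ∈ 𝒜, ∀ w : List (Fin 2), w.length < k → a w = f w := by
  classical
  -- approximations of letters and constants
  choose u hu hu' using fun s : Fin 2 => h𝒜 (X s)
  choose c hc hc' using fun d : D => h𝒜 (C d)
  -- monomials
  let U : List (Fin 2) → NC (Fin 2) D := fun w => (w.map u).prod
  have hU : ∀ w, U w ∈ 𝒜 := by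
    intro w
    refine Subalgebra.list_prod_mem 𝒜 ?_
    intro x hx
    obtain ⟨s, _, rfl⟩ := List.mem_map.1 hx
    exact hu s
  have hUcons : ∀ s w, U (s :: w) = u s * U w := fun s w => by simp [U]
  have hUval : ∀ w v : List (Fin 2), v.length ≤ w.length →
      (U w) v = if v = w then 1 else 0 := by
    intro w
    induction w with
    | nil =>
      intro v hv
      have : v = [] := List.length_eq_zero_iff.1 (Nat.le_zero.1 hv)
      subst this
      simp [U]
    | cons s w ih =>
      intro v hv
      have hshort : ∀ v : List (Fin 2), v.length < w.length → (U w) v = 0 := by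
        intro v hv
        rw [ih v hv.le, if_neg]
        rintro rfl
        exact lt_irrefl _ hv
      rw [hUcons]
      cases v with
      | nil =>
        rw [mul_nil, hu' s [] (by simp), X_nil, zero_mul, if_neg (by simp)]
      | cons r v =>
        have hv' : v.length ≤ w.length := by simpa using hv
        have h0 : (u s) [] = 0 := by rw [hu' s [] (by simp), X_nil]
        rw [mul_cons, h0, zero_mul, add_zero, mul_eq_of_short _ _ w.length hshort v hv', ld_apply,
          hu' s [r] (by simp), X_single, ih v hv']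
        by_cases h1 : r = s
        · by_cases h2 : v = w
          · simp [h1, h2]
          · simp [h1, h2]
        · simp [h1]
  induction k with
  | zero => exact ⟨0, 𝒜.zero_mem, fun w hw => absurd hw (Nat.not_lt_zero _)⟩
  | succ k ih =>
    obtain ⟨a, ha, ha'⟩ := ih
    let g := f - a
    let b : NC (Fin 2) D := ∑ w : List.Vector (Fin 2) k, c (g w.toList) * U w.toList
    have hb : b ∈ 𝒜 := Subalgebra.sum_mem 𝒜 fun w _ => 𝒜.mul_mem (hc _) (hU _)
    have hbval : ∀ v : List (Fin 2), v.length ≤ k →
        b v = ∑ w : List.Vector (Fin 2) k, g w.toList * (if v = w.toList then 1 else 0) := by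
      intro v hv
      simp only [b]
      rw [sum_apply]
      refine Finset.sum_congr rfl fun w _ => ?_
      have hwl : w.toList.length = k := w.toList_length
      have hshort : ∀ v : List (Fin 2), v.length < k → (U w.toList) v = 0 := by
        intro v hv
        rw [hUval _ v (by rw [hwl]; exact hv.le), if_neg]
        rintro rfl
        rw [hwl] at hv; exact lt_irrefl _ hv
      rw [mul_eq_of_short _ _ k hshort v hv, hc' _ [] (by simp), C_nil,
        hUval _ v (by rw [hwl]; exact hv)]
    refine ⟨a + b, 𝒜.add_mem ha hb, fun v hv => ?_⟩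
    have hvk : v.length ≤ k := Nat.lt_succ_iff.1 hv
    rw [add_apply, hbval v hvk]
    rcases Nat.lt_or_ge v.length k with h | h
    · rw [Finset.sum_eq_zero, add_zero, ha' v h]
      intro w _
      rw [if_neg, mul_zero]
      rintro rfl
      rw [w.toList_length] at h
      exact lt_irrefl _ h
    · have hvk' : v.length = k := le_antisymm hvk h
      have hs : (∑ w : List.Vector (Fin 2) k, g w.toList * (if v = w.toList then 1 else 0)) = g v := by
        have h3 := Finset.sum_eq_single_of_mem (s := (Finset.univ : Finset (List.Vector (Fin 2) k)))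
          (f := fun w : List.Vector (Fin 2) k => g w.toList * (if v = w.toList then (1 : D) else 0))
          (List.Vector.ofFn fun i : Fin k => v.get (i.cast hvk'.symm)) (Finset.mem_univ _)
        have h4 : (List.Vector.ofFn fun i : Fin k => v.get (i.cast hvk'.symm)).toList = v := by
          rw [List.Vector.toList_ofFn]
          subst hvk'
          exact List.ofFn_get v
        rw [h3]
        · rw [h4, if_pos rfl, mul_one]
        · intro w _ hw
          rw [if_neg, mul_zero]
          intro hvw
          exact hw (List.Vector.eq _ _ (by rw [h4, hvw]))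
      rw [hs, sub_apply]
      abel

/-- (F2) -/
theorem centralizer_dense [Algebra.IsCentral F D]
    (𝒜 : Subalgebra F (NC (Fin 2) D)) (h𝒜 : Dense 𝒜) (z : NC (Fin 2) D)
    (hz : ∀ a ∈ 𝒜, a * z = z * a) : ∃ c : F, z = algebraMap F _ c := by
  classical
  -- `z` is central
  have hmul1 : ∀ (f a z : NC (Fin 2) D) (k : ℕ), (∀ w : List (Fin 2), w.length < k → a w = f w) →
      ∀ w : List (Fin 2), w.length < k → (a * z) w = (f * z) w := by
    intro f a z k h w hw
    induction w generalizing f a k with
    | nil => rw [mul_nil, mul_nil, h [] hw]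
    | cons s w ih =>
      have hk : 0 < k := by omega
      rw [mul_cons, mul_cons, h [] (by simpa using hk)]
      rw [ih (ld s f) (ld s a) (k - 1) (fun v hv => h _ (by simp only [List.length_cons]; omega))
        (by simp only [List.length_cons] at hw; omega)]
  have hmul2 : ∀ (f a z : NC (Fin 2) D) (k : ℕ), (∀ w : List (Fin 2), w.length < k → a w = f w) →
      ∀ w : List (Fin 2), w.length < k → (z * a) w = (z * f) w := by
    intro f a z k h w hw
    have h0 : ∀ w : List (Fin 2), w.length < k → (a - f) w = 0 := by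
      intro w hw; rw [sub_apply, h w hw, sub_self]
    have := mul_eq_zero_of_short z (a - f) k h0 w hw
    rw [mul_sub, sub_apply] at this
    exact sub_eq_zero.1 this
  have hcen : ∀ f : NC (Fin 2) D, f * z = z * f := by
    intro f
    apply ext'
    intro w
    obtain ⟨a, ha, ha'⟩ := h𝒜.all (w.length + 1) f
    rw [← hmul1 f a z _ ha' w (Nat.lt_succ_self _), hz a ha,
      hmul2 f a z _ ha' w (Nat.lt_succ_self _)]
  -- constant term central
  have h1 : z [] ∈ Subalgebra.center F D := by
    rw [Subalgebra.mem_center_iff]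
    intro d
    have := congrArg (fun f : NC (Fin 2) D => f []) (hcen (C d))
    simpa using this
  have h2 : ∀ w : List (Fin 2), w ≠ [] → z w = 0 := by
    intro w hw
    obtain ⟨r, v, rfl⟩ := List.exists_cons_of_ne_nil hw
    obtain ⟨s, hs⟩ : ∃ s : Fin 2, r ≠ s := by
      refine ⟨r + 1, ?_⟩
      fin_cases r <;> decide
    have := congrArg (fun f : NC (Fin 2) D => f ((r :: v) ++ [s])) (hcen (X s : NC (Fin 2) D))
    simp only [List.cons_append] at this
    rw [X_mul_cons, if_neg hs, ← List.cons_append, mul_X_concat, if_pos rfl] at this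
    exact this.symm
  rw [Algebra.IsCentral.center_eq_bot, Algebra.mem_bot] at h1
  obtain ⟨c, hc⟩ := h1
  refine ⟨c, ?_⟩
  rw [algebraMap_eq]
  apply ext'
  intro w
  cases w with
  | nil => rw [C_nil, hc]
  | cons s w => rw [C_cons, h2 _ (by simp)]

/-- (F3) -/
theorem not_finite_of_dense [Nontrivial D]
    (𝒜 : Subalgebra F (NC (Fin 2) D)) (h𝒜 : Dense 𝒜) (V : Submodule F (NC (Fin 2) D))
    [FiniteDimensional F V] : ¬ (∀ a ∈ 𝒜, a ∈ V) := by
  classical
  intro hV
  choose a ha ha' using fun k : ℕ => h𝒜.all (k + 1)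
    (⟨fun w => if w = List.replicate k 0 then (1 : D) else 0⟩ : NC (Fin 2) D)
  have hval : ∀ k j : ℕ, j ≤ k → (a k) (List.replicate j 0) = if j = k then 1 else 0 := by
    intro k j hj
    rw [ha' k _ (by rw [List.length_replicate]; omega)]
    by_cases h : j = k
    · simp [h]
    · rw [if_neg h]
      change (if List.replicate j (0 : Fin 2) = List.replicate k 0 then (1 : D) else 0) = 0
      rw [if_neg]
      intro h'
      exact h (by simpa using congrArg List.length h')
  let b : ℕ → V := fun k => ⟨a k, hV _ (ha k)⟩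
  have hli : LinearIndependent F b := by
    rw [linearIndependent_iff']
    intro s g hg i
    induction i using Nat.strong_induction_on with
    | _ i ih =>
      intro hi
      have h1 : ∑ k ∈ s, g k • a k = 0 := by
        have := congrArg (Subtype.val) hg
        simpa [b] using this
      have h2 := congrArg (fun f : NC (Fin 2) D => f (List.replicate i 0)) h1
      simp only [sum_apply, zero_apply, smul_apply] at h2
      rw [Finset.sum_eq_single i] at h2
      · rw [hval i i le_rfl, if_pos rfl] at h2
        rw [Algebra.smul_def, mul_one] at h2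
        exact (map_eq_zero_iff _ (algebraMap F D).injective).1 h2
      · intro k hk hki
        rcases Nat.lt_or_ge k i with h | h
        · rw [ih k h hk, zero_smul]
        · rw [hval k i h, if_neg (Ne.symm hki), smul_zero]
      · intro h; exact absurd hi h
  have hfin : Finite ℕ := by
    have := hli.finite_of_isNoetherian
    exact this
  exact not_finite ℕ

end Dense

end NC

end Crest.Agent.R180
end

-- ▼ part R180/PartI

set_option autoImplicit false

/-!
# Row 180 (S0270), PART I: `TheoremA → Goal` (the limit construction)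
-/

namespace Crest.Agent.R180.PartI

open Filter

/-- Theorem A (one step) over base fields with all roots of unity. -/
def TheoremAR : Prop :=
  ∀ (F D : Type) [Field F] [CharZero F] [Ring D] [IsDomain D] [Algebra F D]
    [FiniteDimensional F D] [Algebra.IsCentral F D]
    (_ : ∀ n : ℕ, 0 < n → ∃ z : F, IsPrimitiveRoot z n)
    (𝒜 : Subalgebra F (NC (Fin 2) D)), NC.Dense 𝒜 → ∀ a : NC (Fin 2) D,
    ∃ (F' D' : Type) (_ : Field F') (_ : CharZero F') (_ : Ring D') (_ : IsDomain D')
      (_ : Algebra F' D') (_ : FiniteDimensional F' D') (_ : Algebra.IsCentral F' D')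
      (i : F →+* F') (h : NC (Fin 2) D →+* NC (Fin 2) D'),
      (∀ c : F, h (algebraMap F (NC (Fin 2) D) c) = algebraMap F' (NC (Fin 2) D') (i c)) ∧
      IsAlgebraic F' (h a) ∧
      NC.Dense (Algebra.adjoin F' (h '' (𝒜 : Set (NC (Fin 2) D))))

theorem TheoremA.toAR (h : TheoremA) : TheoremAR :=
  fun F D _ _ _ _ _ _ _ _ 𝒜 h𝒜 a => h F D 𝒜 h𝒜 a

/-- A stage together with two generators and names of central elements. -/
structure Stage : Type 1 where
  F : Type
  D : Type
  [fieldF : Field F]
  [charF : CharZero F]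
  [ringD : Ring D]
  [domD : IsDomain D]
  [algD : Algebra F D]
  [finD : FiniteDimensional F D]
  [centD : Algebra.IsCentral F D]
  x : NC (Fin 2) D
  y : NC (Fin 2) D
  dense : NC.Dense (Algebra.adjoin F ({x, y} : Set (NC (Fin 2) D)))
  roots : ∀ n : ℕ, 0 < n → ∃ z : F, IsPrimitiveRoot z n
  c : ℕ × ℕ → F

attribute [instance] Stage.fieldF Stage.charF Stage.ringD Stage.domD Stage.algD Stage.finD
  Stage.centD

/-- the ring of a stage -/
abbrev Stage.R (s : Stage) : Type := NC (Fin 2) s.D

/-- names of generators: `inl true` is `x`, `inl false` is `y`, `inr (n, k)` is a central element -/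
abbrev Gen : Type := Bool ⊕ (ℕ × ℕ)

/-- the free ring on the names -/
abbrev P : Type := FreeAlgebra ℤ Gen

instance : Countable P := by
  rw [← Cardinal.mk_le_aleph0_iff]
  refine (FreeAlgebra.cardinalMk_le_max ℤ Gen).trans ?_
  simp

/-- value of a generator at a stage -/
def Stage.gen (s : Stage) : Gen → s.R
  | Sum.inl true => s.x
  | Sum.inl false => s.y
  | Sum.inr p => algebraMap s.F s.R (s.c p)

/-- evaluation at a stage -/
noncomputable def Stage.ev (s : Stage) : P →ₐ[ℤ] s.R := FreeAlgebra.lift ℤ s.gen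

/-- generators of `P` -/
noncomputable def g (a : Gen) : P := FreeAlgebra.ι ℤ a

@[simp] theorem Stage.ev_g (s : Stage) (a : Gen) : s.ev (g a) = s.gen a := by
  simp [Stage.ev, g]

/-- one step: everything old is transported by `h`, names `(n, ·)` are the coefficients of a
polynomial `q` with `p * q(p) = 1` at the new stage (if `p ≠ 0` there). -/
structure IsStep (n : ℕ) (p : P) (s t : Stage) (i : s.F →+* t.F) (h : s.R →+* t.R) : Prop where
  comm : ∀ c : s.F, h (algebraMap s.F s.R c) = algebraMap t.F t.R (i c)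
  hx : h s.x = t.x
  hy : h s.y = t.y
  hc : ∀ m k, m ≠ n → t.c (m, k) = i (s.c (m, k))
  hinv : ∃ K : ℕ, h (s.ev p) ≠ 0 →
    h (s.ev p) * ∑ k ∈ Finset.range K, algebraMap t.F t.R (t.c (n, k)) * (h (s.ev p)) ^ k = 1

theorem exists_inv {F R : Type} [Field F] [Ring R] [IsDomain R] [Algebra F R] (a : R)
    (ha : IsAlgebraic F a) : ∃ (K : ℕ) (q : ℕ → F), a ≠ 0 →
      a * ∑ k ∈ Finset.range K, algebraMap F R (q k) * a ^ k = 1 := by
  classical
  by_cases h0 : a = 0
  · exact ⟨0, fun _ => 0, fun h => absurd h0 h⟩
  have hint : IsIntegral F a := ha.isIntegral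
  set m := minpoly F a with hm
  have hc0 : m.coeff 0 ≠ 0 := minpoly.coeff_zero_ne_zero hint h0
  set q : Polynomial F := Polynomial.C (-(m.coeff 0)⁻¹) * m.divX with hq
  refine ⟨q.natDegree + 1, fun k => q.coeff k, fun _ => ?_⟩
  have h1 : ∑ k ∈ Finset.range (q.natDegree + 1), algebraMap F R (q.coeff k) * a ^ k
      = Polynomial.aeval a q := by
    rw [Polynomial.aeval_eq_sum_range]
    simp [Algebra.smul_def]
  rw [h1]
  have h2 : Polynomial.aeval a m = 0 := minpoly.aeval F a
  have h3 : m.divX * Polynomial.X + Polynomial.C (m.coeff 0) = m := Polynomial.divX_mul_X_add m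
  have h4 : a * Polynomial.aeval a m.divX = - algebraMap F R (m.coeff 0) := by
    have h5 : Polynomial.aeval a (Polynomial.X * m.divX + Polynomial.C (m.coeff 0)) = 0 := by
      rw [mul_comm, h3, h2]
    rw [map_add, map_mul, Polynomial.aeval_X, Polynomial.aeval_C] at h5
    exact eq_neg_of_add_eq_zero_left h5
  have h6 : Polynomial.aeval a q = algebraMap F R (-(m.coeff 0)⁻¹) * Polynomial.aeval a m.divX := by
    rw [hq, map_mul, Polynomial.aeval_C]
  rw [h6, ← mul_assoc, ← Algebra.commutes, mul_assoc, h4, map_neg, neg_mul_neg, ← map_mul,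
    inv_mul_cancel₀ hc0, map_one]

theorem exists_step (hA : TheoremAR) (n : ℕ) (p : P) (s : Stage) :
    ∃ (t : Stage) (i : s.F →+* t.F) (h : s.R →+* t.R), IsStep n p s t i h := by
  classical
  obtain ⟨F', D', _, _, _, _, _, _, _, i, h, hcomm, halg, hdense⟩ :=
    hA s.F s.D s.roots (Algebra.adjoin s.F ({s.x, s.y} : Set (NC (Fin 2) s.D))) s.dense (s.ev p)
  have : IsDomain (NC (Fin 2) D') := NC.isDomain
  obtain ⟨K, q, hq⟩ := exists_inv (h (s.ev p)) halg
  have hd : NC.Dense (Algebra.adjoin F' ({h s.x, h s.y} : Set (NC (Fin 2) D'))) := by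
    have hle : Algebra.adjoin F' (h '' (Algebra.adjoin s.F ({s.x, s.y} : Set (NC (Fin 2) s.D)) :
        Set (NC (Fin 2) s.D))) ≤ Algebra.adjoin F' ({h s.x, h s.y} : Set (NC (Fin 2) D')) := by
      apply Algebra.adjoin_le
      rintro _ ⟨a, ha, rfl⟩
      induction ha using Algebra.adjoin_induction with
      | mem a ha =>
        rcases ha with rfl | ha
        · exact Algebra.subset_adjoin (by simp)
        · rw [Set.mem_singleton_iff] at ha
          subst ha
          exact Algebra.subset_adjoin (by simp)
      | algebraMap c =>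
        rw [hcomm]
        exact Subalgebra.algebraMap_mem _ _
      | add a b _ _ ha hb =>
        rw [map_add]
        exact Subalgebra.add_mem _ ha hb
      | mul a b _ _ ha hb =>
        rw [map_mul]
        exact Subalgebra.mul_mem _ ha hb
    intro f
    obtain ⟨a, ha, haf⟩ := hdense f
    exact ⟨a, hle ha, haf⟩
  refine ⟨{ F := F', D := D', x := h s.x, y := h s.y, dense := hd,
            roots := fun n hn => by
              obtain ⟨z, hz⟩ := s.roots n hn
              exact ⟨i z, hz.map_of_injective i.injective⟩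
            c := fun mk => if mk.1 = n then q mk.2 else i (s.c mk) }, i, h, ?_⟩
  refine ⟨hcomm, rfl, rfl, ?_, K, ?_⟩
  · intro m k hm
    simp [hm]
  · intro h0
    have := hq h0
    simpa using this


/-- the tower of stages -/
structure Tower where
  s : ℕ → Stage
  i : ∀ n, (s n).F →+* (s (n + 1)).F
  h : ∀ n, (s n).R →+* (s (n + 1)).R
  e : ℕ → P
  he : ∀ (p : P) (N : ℕ), ∃ n, N ≤ n ∧ e n = p
  step : ∀ n, IsStep n (e n) (s n) (s (n + 1)) (i n) (h n)

theorem exists_tower (hA : TheoremAR) (s0 : Stage) : Nonempty Tower := by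
  classical
  obtain ⟨e0, he0⟩ := exists_surjective_nat P
  have hstep : ∀ (n : ℕ) (s : Stage), ∃ (t : Stage) (i : s.F →+* t.F) (h : s.R →+* t.R),
      IsStep n (e0 (Nat.unpair n).1) s t i h := fun n s => exists_step hA n _ s
  choose t i h hs using hstep
  let S : ℕ → Stage := fun n => Nat.rec s0 (fun n s => t n s) n
  refine ⟨{ s := S, i := fun n => i n (S n), h := fun n => h n (S n),
            e := fun n => e0 (Nat.unpair n).1, he := ?_, step := fun n => hs n (S n) }⟩
  intro p N
  obtain ⟨m, rfl⟩ := he0 p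
  exact ⟨Nat.pair m N, Nat.right_le_pair m N, by simp⟩

namespace Tower

variable (T : Tower)

/-- evaluation at stage `n` -/
noncomputable def ev (n : ℕ) : P →ₐ[ℤ] (T.s n).R := (T.s n).ev

/-- elements which are compatible with all transition maps from `n` on -/
def Compat (p : P) (N : ℕ) : Prop := ∀ n, N ≤ n → T.ev (n + 1) p = T.h n (T.ev n p)

theorem compat_mono {p : P} {N M : ℕ} (h : T.Compat p N) (hNM : N ≤ M) : T.Compat p M :=
  fun n hn => h n (hNM.trans hn)

theorem compat_add {p q : P} {N : ℕ} (hp : T.Compat p N) (hq : T.Compat q N) :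
    T.Compat (p + q) N := fun n hn => by rw [map_add, map_add, map_add, hp n hn, hq n hn]

theorem compat_mul {p q : P} {N : ℕ} (hp : T.Compat p N) (hq : T.Compat q N) :
    T.Compat (p * q) N := fun n hn => by rw [map_mul, map_mul, map_mul, hp n hn, hq n hn]

theorem compat_int (k : ℤ) (N : ℕ) : T.Compat (algebraMap ℤ P k) N := fun n _ => by
  simp

theorem compat_one (N : ℕ) : T.Compat 1 N := fun n _ => by simp

theorem compat_pow {p : P} {N : ℕ} (hp : T.Compat p N) (k : ℕ) :
    T.Compat (p ^ k) N := fun n hn => by rw [map_pow, map_pow, map_pow, hp n hn]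

theorem compat_sum {ι : Type*} (s : Finset ι) (f : ι → P) {N : ℕ}
    (hf : ∀ a ∈ s, T.Compat (f a) N) : T.Compat (∑ a ∈ s, f a) N := fun n hn => by
  rw [map_sum, map_sum, map_sum]
  exact Finset.sum_congr rfl fun a ha => hf a ha n hn

theorem compat_x (N : ℕ) : T.Compat (g (Sum.inl true)) N := fun n _ => by
  change (T.s (n + 1)).ev _ = T.h n ((T.s n).ev _)
  rw [Stage.ev_g, Stage.ev_g]
  exact ((T.step n).hx).symm

theorem compat_y (N : ℕ) : T.Compat (g (Sum.inl false)) N := fun n _ => by
  change (T.s (n + 1)).ev _ = T.h n ((T.s n).ev _)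
  rw [Stage.ev_g, Stage.ev_g]
  exact ((T.step n).hy).symm

theorem compat_c (m k : ℕ) {N : ℕ} (hN : m < N) : T.Compat (g (Sum.inr (m, k))) N := fun n hn => by
  change (T.s (n + 1)).ev _ = T.h n ((T.s n).ev _)
  rw [Stage.ev_g, Stage.ev_g]
  change algebraMap _ _ _ = T.h n (algebraMap _ _ _)
  rw [(T.step n).comm, (T.step n).hc m k (by omega)]

theorem exists_compat (p : P) : ∃ N, T.Compat p N := by
  induction p using FreeAlgebra.induction with
  | grade0 r => exact ⟨0, T.compat_int r 0⟩
  | grade1 a =>
    match a with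
    | Sum.inl true => exact ⟨0, T.compat_x 0⟩
    | Sum.inl false => exact ⟨0, T.compat_y 0⟩
    | Sum.inr (m, k) => exact ⟨m + 1, T.compat_c m k (Nat.lt_succ_self m)⟩
  | mul a b ha hb =>
    obtain ⟨N, hN⟩ := ha
    obtain ⟨M, hM⟩ := hb
    exact ⟨max N M, T.compat_mul (T.compat_mono hN (le_max_left _ _))
      (T.compat_mono hM (le_max_right _ _))⟩
  | add a b ha hb =>
    obtain ⟨N, hN⟩ := ha
    obtain ⟨M, hM⟩ := hb
    exact ⟨max N M, T.compat_add (T.compat_mono hN (le_max_left _ _))
      (T.compat_mono hM (le_max_right _ _))⟩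

/-- equality at some compatible stage propagates -/
theorem eventually_of_eq {p q : P} {N n : ℕ} (hp : T.Compat p N) (hq : T.Compat q N) (hn : N ≤ n)
    (h : T.ev n p = T.ev n q) : ∀ m, n ≤ m → T.ev m p = T.ev m q := by
  intro m hm
  induction m, hm using Nat.le_induction with
  | base => exact h
  | succ m hm ih => rw [hp m (hn.trans hm), hq m (hn.trans hm), ih]

/-- the congruence: eventually equal -/
def con : RingCon P where
  r p q := ∀ᶠ n in atTop, T.ev n p = T.ev n q
  iseqv := by
    refine ⟨fun p => Eventually.of_forall fun n => rfl, fun h => h.mono fun n hn => hn.symm,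
      fun h h' => ?_⟩
    filter_upwards [h, h'] with n hn hn' using hn.trans hn'
  add' := by
    intro a b c d h h'
    filter_upwards [h, h'] with n hn hn'
    rw [map_add, map_add, hn, hn']
  mul' := by
    intro a b c d h h'
    filter_upwards [h, h'] with n hn hn'
    rw [map_mul, map_mul, hn, hn']

/-- the limit ring -/
abbrev Q : Type := T.con.Quotient

noncomputable instance : Ring T.Q := inferInstance

/-- quotient map -/
noncomputable def pr : P →+* T.Q := T.con.mk'

theorem pr_surjective : Function.Surjective T.pr := RingCon.mk'_surjective _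

theorem pr_eq {p q : P} : T.pr p = T.pr q ↔ ∀ᶠ n in atTop, T.ev n p = T.ev n q := by
  change (p : T.con.Quotient) = (q : T.con.Quotient) ↔ _
  rw [RingCon.eq]
  rfl

theorem pr_eq_zero {p : P} : T.pr p = 0 ↔ ∀ᶠ n in atTop, T.ev n p = 0 := by
  rw [← map_zero T.pr, pr_eq]
  simp

instance : Countable T.Q := T.pr_surjective.countable

instance : Nontrivial T.Q := by
  refine ⟨⟨T.pr 1, T.pr 0, ?_⟩⟩
  intro h
  rw [pr_eq] at h
  obtain ⟨n, hn⟩ := h.exists
  have : IsDomain (NC (Fin 2) (T.s n).D) := NC.isDomain
  rw [map_one, map_zero] at hn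
  exact one_ne_zero hn

theorem charZero : CharZero T.Q := by
  refine charZero_of_inj_zero fun k hk => ?_
  rw [← map_natCast T.pr, pr_eq_zero] at hk
  obtain ⟨n, hn⟩ := hk.exists
  have : IsDomain (NC (Fin 2) (T.s n).D) := NC.isDomain
  rw [map_natCast] at hn
  have h1 : algebraMap (T.s n).F (T.s n).R (k : (T.s n).F) = 0 := by rw [map_natCast, hn]
  have h2 := (FaithfulSMul.algebraMap_injective (T.s n).F (T.s n).R) (h1.trans (map_zero _).symm)
  exact_mod_cast h2

/-- the names are central -/
theorem c_central (a : ℕ × ℕ) : T.pr (g (Sum.inr a)) ∈ Subring.center T.Q := by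
  rw [Subring.mem_center_iff]
  intro q
  obtain ⟨p, rfl⟩ := T.pr_surjective q
  rw [← map_mul, ← map_mul, pr_eq]
  refine Eventually.of_forall fun n => ?_
  rw [map_mul, map_mul]
  have : T.ev n (g (Sum.inr a)) = algebraMap (T.s n).F (T.s n).R ((T.s n).c a) :=
    Stage.ev_g _ _
  rw [this]
  exact (Algebra.commutes _ _).symm

theorem exists_inv' (q : T.Q) (hq : q ≠ 0) : ∃ (K : ℕ) (z : ℕ → Subring.center T.Q),
    q * ∑ k ∈ Finset.range K, (z k : T.Q) * q ^ k = 1 := by
  obtain ⟨p, rfl⟩ := T.pr_surjective q
  obtain ⟨N, hN⟩ := T.exists_compat p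
  obtain ⟨n, hn, hen⟩ := T.he p N
  have hst := T.step n
  rw [hen] at hst
  obtain ⟨K, hK⟩ := hst.hinv
  refine ⟨K, fun k => ⟨T.pr (g (Sum.inr (n, k))), T.c_central (n, k)⟩, ?_⟩
  have hne : ∀ m, N ≤ m → T.ev m p ≠ 0 := by
    intro m hm h0
    apply hq
    rw [pr_eq_zero]
    rw [eventually_atTop]
    refine ⟨m, fun b hb => ?_⟩
    have := T.eventually_of_eq hN (T.compat_int 0 N) hm (by rw [h0, map_zero, map_zero]) b hb
    simpa using this
  have hp1 : T.h n ((T.s n).ev p) = T.ev (n + 1) p := (hN n hn).symm
  rw [hp1] at hK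
  have hK' := hK (hne (n + 1) (by omega))
  have key : T.pr (p * ∑ k ∈ Finset.range K, g (Sum.inr (n, k)) * p ^ k) = T.pr 1 := by
    rw [pr_eq, eventually_atTop]
    refine ⟨n + 1, T.eventually_of_eq (N := n + 1) ?_ (T.compat_one _) le_rfl ?_⟩
    · refine T.compat_mul (T.compat_mono hN (by omega)) (T.compat_sum _ _ fun k _ =>
        T.compat_mul (T.compat_c n k (Nat.lt_succ_self n)) (T.compat_pow (T.compat_mono hN (by omega)) k))
    · rw [map_one, ← hK', map_mul, map_sum]
      congr 1
      refine Finset.sum_congr rfl fun k _ => ?_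
      rw [map_mul, map_pow]
      congr 1
      exact Stage.ev_g _ _
  simpa using key

theorem isUnit_or (q : T.Q) : IsUnit q ∨ q = 0 := by
  by_cases hq : q = 0
  · exact Or.inr hq
  left
  obtain ⟨K, z, hz⟩ := T.exists_inv' q hq
  have hcomm : Commute q (∑ k ∈ Finset.range K, (z k : T.Q) * q ^ k) := by
    refine Commute.sum_right _ _ _ fun k _ => ?_
    exact Commute.mul_right ((Subring.mem_center_iff.1 (z k).2 q)) ((Commute.refl q).pow_right k)
  exact ⟨⟨q, _, hz, by rw [← hcomm.eq, hz]⟩, rfl⟩

noncomputable instance : DivisionRing T.Q := DivisionRing.ofIsUnitOrEqZero T.isUnit_or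


/-- the quotient map into the division ring -/
theorem isAlgebraic : Algebra.IsAlgebraic (Subring.center T.Q) T.Q := by
  constructor
  intro q
  by_cases hq : q = 0
  · subst hq; exact isAlgebraic_zero
  obtain ⟨K, z, hz⟩ := T.exists_inv' q hq
  refine ⟨(∑ k ∈ Finset.range K, Polynomial.C (z k) * Polynomial.X ^ (k + 1)) - 1, ?_, ?_⟩
  · intro h0
    have := congrArg (fun f => Polynomial.coeff f 0) h0
    simp [Polynomial.coeff_X_pow] at this
  · rw [map_sub, map_sum, map_one, sub_eq_zero, ← hz, Finset.mul_sum]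
    refine Finset.sum_congr rfl fun k _ => ?_
    rw [map_mul, Polynomial.aeval_C, map_pow, Polynomial.aeval_X, pow_succ']
    change (z k : T.Q) * (q * q ^ k) = q * ((z k : T.Q) * q ^ k)
    rw [← mul_assoc, ← mul_assoc, Subring.mem_center_iff.1 (z k).2 q]

theorem adjoin_eq_top : Algebra.adjoin (Subring.center T.Q)
    ({T.pr (g (Sum.inl true)), T.pr (g (Sum.inl false))} : Set T.Q) = ⊤ := by
  rw [eq_top_iff]
  rintro q -
  obtain ⟨p, rfl⟩ := T.pr_surjective q
  induction p using FreeAlgebra.induction with
  | grade0 r =>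
    have : T.pr (algebraMap ℤ P r) = algebraMap (Subring.center T.Q) T.Q r := by simp
    rw [this]
    exact Subalgebra.algebraMap_mem _ _
  | grade1 a =>
    match a with
    | Sum.inl true => exact Algebra.subset_adjoin (by simp [g])
    | Sum.inl false => exact Algebra.subset_adjoin (by simp [g])
    | Sum.inr (m, k) =>
      exact Subalgebra.algebraMap_mem _ (⟨T.pr (g (Sum.inr (m, k))), T.c_central (m, k)⟩ :
        Subring.center T.Q)
  | mul a b ha hb => rw [map_mul]; exact Subalgebra.mul_mem _ ha hb
  | add a b ha hb => rw [map_add]; exact Subalgebra.add_mem _ ha hb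

theorem not_finite : ¬ Module.Finite (Subring.center T.Q) T.Q := by
  classical
  intro hfin
  obtain ⟨N, e, he⟩ := Module.Finite.exists_fin (R := Subring.center T.Q) (M := T.Q)
  have hrep : ∀ q : T.Q, ∃ z : Fin N → Subring.center T.Q, q = ∑ i, (z i : T.Q) * e i := by
    intro q
    have hq : q ∈ Submodule.span (Subring.center T.Q) (Set.range e) := by rw [he]; trivial
    rw [Submodule.mem_span_range_iff_exists_fun] at hq
    obtain ⟨z, hz⟩ := hq
    exact ⟨z, by rw [← hz]; rfl⟩
  -- lifts
  choose z hz using hrep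
  choose l hl using T.pr_surjective
  set X : P := g (Sum.inl true) with hX
  set Y : P := g (Sum.inl false) with hY
  have hevent : ∀ q : T.Q, ∀ᶠ n in atTop, T.ev n (l q) = ∑ i, T.ev n (l (z q i)) * T.ev n (l (e i)) := by
    intro q
    have h1 : T.pr (l q) = T.pr (∑ i, l (z q i) * l (e i)) := by
      rw [map_sum, hl]
      conv_lhs => rw [hz q]
      refine Finset.sum_congr rfl fun i _ => ?_
      rw [map_mul, hl, hl]
    rw [pr_eq] at h1
    filter_upwards [h1] with n hn
    rw [hn, map_sum]
    exact Finset.sum_congr rfl fun i _ => by rw [map_mul]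
  have hcomm : ∀ (q : T.Q) (i : Fin N) (W : P), ∀ᶠ n in atTop,
      T.ev n W * T.ev n (l (z q i)) = T.ev n (l (z q i)) * T.ev n W := by
    intro q i W
    have h1 : T.pr (W * l (z q i)) = T.pr (l (z q i) * W) := by
      rw [map_mul, map_mul, hl]
      exact Subring.mem_center_iff.1 (z q i).2 _
    rw [pr_eq] at h1
    filter_upwards [h1] with n hn
    rw [← map_mul, hn, map_mul]
  have hmulX : ∀ (q : T.Q) (W : P), ∀ᶠ n in atTop,
      T.ev n (l (T.pr W * q)) = T.ev n W * T.ev n (l q) := by
    intro q W
    have h1 : T.pr (l (T.pr W * q)) = T.pr (W * l q) := by rw [hl, map_mul, hl]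
    rw [pr_eq] at h1
    filter_upwards [h1] with n hn
    rw [hn, map_mul]
  have hone : ∀ᶠ n in atTop, T.ev n (l 1) = 1 := by
    have h1 : T.pr (l 1) = T.pr 1 := by rw [hl, map_one]
    rw [pr_eq] at h1
    filter_upwards [h1] with n hn
    rw [hn, map_one]
  have hall : ∀ᶠ n in atTop,
      (T.ev n (l 1) = 1 ∧ T.ev n (l 1) = ∑ i, T.ev n (l (z 1 i)) * T.ev n (l (e i)) ∧
        (∀ i, T.ev n X * T.ev n (l (z 1 i)) = T.ev n (l (z 1 i)) * T.ev n X) ∧
        (∀ i, T.ev n Y * T.ev n (l (z 1 i)) = T.ev n (l (z 1 i)) * T.ev n Y)) ∧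
      (∀ j, T.ev n (l (T.pr X * e j)) = T.ev n X * T.ev n (l (e j)) ∧
        T.ev n (l (T.pr X * e j)) = ∑ i, T.ev n (l (z (T.pr X * e j) i)) * T.ev n (l (e i)) ∧
        (∀ i, T.ev n X * T.ev n (l (z (T.pr X * e j) i)) =
          T.ev n (l (z (T.pr X * e j) i)) * T.ev n X) ∧
        (∀ i, T.ev n Y * T.ev n (l (z (T.pr X * e j) i)) =
          T.ev n (l (z (T.pr X * e j) i)) * T.ev n Y)) ∧
      (∀ j, T.ev n (l (T.pr Y * e j)) = T.ev n Y * T.ev n (l (e j)) ∧
        T.ev n (l (T.pr Y * e j)) = ∑ i, T.ev n (l (z (T.pr Y * e j) i)) * T.ev n (l (e i)) ∧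
        (∀ i, T.ev n X * T.ev n (l (z (T.pr Y * e j) i)) =
          T.ev n (l (z (T.pr Y * e j) i)) * T.ev n X) ∧
        (∀ i, T.ev n Y * T.ev n (l (z (T.pr Y * e j) i)) =
          T.ev n (l (z (T.pr Y * e j) i)) * T.ev n Y)) := by
    refine Eventually.and ?_ (Eventually.and ?_ ?_)
    · exact hone.and ((hevent 1).and ((eventually_all.2 fun i => hcomm 1 i X).and
        (eventually_all.2 fun i => hcomm 1 i Y)))
    · exact eventually_all.2 fun j => (hmulX (e j) X).and ((hevent _).and
        ((eventually_all.2 fun i => hcomm _ i X).and (eventually_all.2 fun i => hcomm _ i Y)))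
    · exact eventually_all.2 fun j => (hmulX (e j) Y).and ((hevent _).and
        ((eventually_all.2 fun i => hcomm _ i X).and (eventually_all.2 fun i => hcomm _ i Y)))
  obtain ⟨n, ⟨ho1, ho2, ho3, ho4⟩, hx, hy⟩ := hall.exists
  -- at stage `n`
  have : IsDomain (NC (Fin 2) (T.s n).D) := NC.isDomain
  have hevX : T.ev n X = (T.s n).x := Stage.ev_g _ _
  have hevY : T.ev n Y = (T.s n).y := Stage.ev_g _ _
  set A := Algebra.adjoin (T.s n).F ({(T.s n).x, (T.s n).y} : Set (NC (Fin 2) (T.s n).D)) with hA
  have hcent : ∀ w : (T.s n).R, T.ev n X * w = w * T.ev n X → T.ev n Y * w = w * T.ev n Y →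
      ∃ c : (T.s n).F, w = algebraMap (T.s n).F (T.s n).R c := by
    intro w h1 h2
    refine NC.centralizer_dense A (T.s n).dense w ?_
    intro a ha
    induction ha using Algebra.adjoin_induction with
    | mem a ha =>
      rcases ha with rfl | ha
      · rw [← hevX, h1]
      · rw [Set.mem_singleton_iff] at ha
        rw [ha, ← hevY, h2]
    | algebraMap c => exact Algebra.commutes _ _
    | add a b _ _ ha hb => rw [add_mul, mul_add, ha, hb]
    | mul a b _ _ ha hb => rw [mul_assoc, hb, ← mul_assoc, ha, mul_assoc]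
  set V : Submodule (T.s n).F (T.s n).R :=
    Submodule.span (T.s n).F (Set.range fun i => T.ev n (l (e i))) with hV
  have hfinV : FiniteDimensional (T.s n).F V := by
    rw [hV]; exact FiniteDimensional.span_of_finite _ (Set.finite_range _)
  have hsum : ∀ w : Fin N → (T.s n).R,
      (∀ i, T.ev n X * w i = w i * T.ev n X) → (∀ i, T.ev n Y * w i = w i * T.ev n Y) →
      ∑ i, w i * T.ev n (l (e i)) ∈ V := by
    intro w h1 h2
    refine Submodule.sum_mem _ fun i _ => ?_
    obtain ⟨c, hc⟩ := hcent (w i) (h1 i) (h2 i)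
    rw [hc, ← Algebra.smul_def]
    exact Submodule.smul_mem _ _ (Submodule.subset_span ⟨i, rfl⟩)
  have h1V : (1 : (T.s n).R) ∈ V := by
    rw [← ho1, ho2]
    exact hsum _ ho3 ho4
  have hXV : ∀ v ∈ V, T.ev n X * v ∈ V := by
    intro v hv
    induction hv using Submodule.span_induction with
    | mem v hv =>
      obtain ⟨j, rfl⟩ := hv
      obtain ⟨h1, h2, h3, h4⟩ := hx j
      rw [← h1, h2]
      exact hsum _ h3 h4
    | zero => rw [mul_zero]; exact Submodule.zero_mem _
    | add a b _ _ ha hb => rw [mul_add]; exact Submodule.add_mem _ ha hb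
    | smul c a _ ha => rw [mul_smul_comm]; exact Submodule.smul_mem _ _ ha
  have hYV : ∀ v ∈ V, T.ev n Y * v ∈ V := by
    intro v hv
    induction hv using Submodule.span_induction with
    | mem v hv =>
      obtain ⟨j, rfl⟩ := hv
      obtain ⟨h1, h2, h3, h4⟩ := hy j
      rw [← h1, h2]
      exact hsum _ h3 h4
    | zero => rw [mul_zero]; exact Submodule.zero_mem _
    | add a b _ _ ha hb => rw [mul_add]; exact Submodule.add_mem _ ha hb
    | smul c a _ ha => rw [mul_smul_comm]; exact Submodule.smul_mem _ _ ha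
  refine NC.not_finite_of_dense A (T.s n).dense V ?_
  intro a ha
  have hmain : ∀ v ∈ V, a * v ∈ V := by
    induction ha using Algebra.adjoin_induction with
    | mem a ha =>
      rcases ha with rfl | ha
      · rw [← hevX]; exact hXV
      · rw [Set.mem_singleton_iff] at ha
        rw [ha, ← hevY]; exact hYV
    | algebraMap c =>
      intro v hv
      rw [← Algebra.smul_def]; exact Submodule.smul_mem _ _ hv
    | add a b _ _ ha hb =>
      intro v hv
      rw [add_mul]; exact Submodule.add_mem _ (ha v hv) (hb v hv)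
    | mul a b _ _ ha hb =>
      intro v hv
      rw [mul_assoc]; exact ha _ (hb v hv)
  simpa using hmain 1 h1V

end Tower

end Crest.Agent.R180.PartI

namespace Crest.Agent.R180.PartI

open Filter

/-- the initial stage -/
noncomputable def stage0 : Stage where
  F := AlgebraicClosure ℚ
  D := AlgebraicClosure ℚ
  x := NC.X 0
  y := NC.X 1
  dense := by
    intro f
    set A := Algebra.adjoin (AlgebraicClosure ℚ)
      ({NC.X 0, NC.X 1} : Set (NC (Fin 2) (AlgebraicClosure ℚ))) with hA
    refine ⟨algebraMap (AlgebraicClosure ℚ) (NC (Fin 2) (AlgebraicClosure ℚ)) (f []) +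
      (f [0] • (NC.X 0 : NC (Fin 2) (AlgebraicClosure ℚ)) +
        f [1] • (NC.X 1 : NC (Fin 2) (AlgebraicClosure ℚ))), ?_, ?_⟩
    · refine Subalgebra.add_mem _ (Subalgebra.algebraMap_mem _ _) (Subalgebra.add_mem _
        (Subalgebra.smul_mem _ (Algebra.subset_adjoin (by simp)) _)
        (Subalgebra.smul_mem _ (Algebra.subset_adjoin (by simp)) _))
    · intro w hw
      rw [NC.algebraMap_eq]
      match w, hw with
      | [], _ => simp
      | [s], _ =>
        fin_cases s <;> simp
  roots := by
    intro n hn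
    have : NeZero n := ⟨hn.ne'⟩
    have : NeZero (n : AlgebraicClosure ℚ) := ⟨by exact_mod_cast hn.ne'⟩
    exact HasEnoughRootsOfUnity.exists_primitiveRoot (AlgebraicClosure ℚ) n
  c := fun _ => 0

theorem goal_of_theoremAR (hA : TheoremAR) : Goal := by
  obtain ⟨T⟩ := exists_tower hA stage0
  exact ⟨T.Q, inferInstance, inferInstance, T.charZero, T.isAlgebraic,
    ⟨_, _, T.adjoin_eq_top⟩, T.not_finite⟩

theorem goal_of_theoremA (hA : TheoremA) : Goal := goal_of_theoremAR (TheoremA.toAR hA)

end Crest.Agent.R180.PartI
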