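import Crest.Agent.R180.Basic
import Crest.Agent.R180.Subst

-- ▼ part R180/SOrd
section

set_option autoImplicit false

/-!
# Row 180, Theorem S: order (lowest degree) of noncommutative power series, cyclic words
-/

namespace Crest.Agent.R180

namespace NC

variable {σ K : Type}

section Ord
variable [Ring K]

/-- `f` has no terms of degree `< n`. -/
def OrdGE (n : ℕ) (f : NC σ K) : Prop := ∀ w : List σ, w.length < n → f w = 0

theorem OrdGE.mono {m n : ℕ} {f : NC σ K} (h : OrdGE n f) (hmn : m ≤ n) : OrdGE m f :=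
  fun w hw => h w (lt_of_lt_of_le hw hmn)

theorem OrdGE.congr {n : ℕ} {f g : NC σ K} (h : OrdGE n f) (e : f = g) : OrdGE n g := e ▸ h

theorem ordGE_zero (f : NC σ K) : OrdGE 0 f := fun _ hw => absurd hw (Nat.not_lt_zero _)

theorem OrdGE.zero (n : ℕ) : OrdGE n (0 : NC σ K) := fun _ _ => rfl

theorem OrdGE.add {n : ℕ} {f g : NC σ K} (hf : OrdGE n f) (hg : OrdGE n g) : OrdGE n (f + g) :=
  fun w hw => by rw [add_apply, hf w hw, hg w hw, add_zero]

theorem OrdGE.neg {n : ℕ} {f : NC σ K} (hf : OrdGE n f) : OrdGE n (-f) :=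
  fun w hw => by rw [neg_apply, hf w hw, neg_zero]

theorem OrdGE.sub {n : ℕ} {f g : NC σ K} (hf : OrdGE n f) (hg : OrdGE n g) : OrdGE n (f - g) :=
  fun w hw => by rw [sub_apply, hf w hw, hg w hw, sub_zero]

theorem OrdGE.sum {n : ℕ} {α : Type*} (s : Finset α) (f : α → NC σ K)
    (hf : ∀ a ∈ s, OrdGE n (f a)) : OrdGE n (∑ a ∈ s, f a) :=
  fun w hw => by rw [sum_apply]; exact Finset.sum_eq_zero fun a ha => hf a ha w hw

theorem OrdGE.mul {a b : ℕ} {f g : NC σ K} (hf : OrdGE a f) (hg : OrdGE b g) :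
    OrdGE (a + b) (f * g) := by
  intro w
  induction w generalizing f a with
  | nil =>
    intro hw
    rw [mul_nil]
    rcases Nat.eq_zero_or_pos a with h | h
    · subst h
      rw [hg [] (by simpa using hw), mul_zero]
    · rw [hf [] (by simpa using h), zero_mul]
  | cons s w ih =>
    intro hw
    rw [List.length_cons] at hw
    rw [mul_cons]
    cases a with
    | zero =>
      rw [ih (ordGE_zero (ld s f)) (by omega), hg (s :: w) (by rw [List.length_cons]; omega),
        mul_zero, add_zero]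
    | succ a =>
      have h1 : OrdGE a (ld s f) := fun v hv => hf (s :: v) (by rw [List.length_cons]; omega)
      rw [ih h1 (by omega), hf [] (Nat.succ_pos a), zero_mul, add_zero]

theorem OrdGE.mul_left {n : ℕ} {f g : NC σ K} (hg : OrdGE n g) : OrdGE n (f * g) := by
  have := OrdGE.mul (ordGE_zero f) hg
  rwa [zero_add] at this

theorem OrdGE.mul_right {n : ℕ} {f g : NC σ K} (hf : OrdGE n f) : OrdGE n (f * g) := by
  have := OrdGE.mul hf (ordGE_zero g)
  rwa [add_zero] at this

theorem ordGE_X [DecidableEq σ] (s : σ) : OrdGE 1 (X s : NC σ K) := by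
  intro w hw
  have : w = [] := List.length_eq_zero_iff.1 (Nat.lt_one_iff.1 hw)
  subst this; rfl



/-- homogeneous component of degree `n` -/
def homog (n : ℕ) (f : NC σ K) : NC σ K := ⟨fun w => if w.length = n then f w else 0⟩

theorem homog_apply (n : ℕ) (f : NC σ K) (w : List σ) :
    homog n f w = if w.length = n then f w else 0 := rfl


theorem OrdGE.sub_homog {n : ℕ} {f : NC σ K} (hf : OrdGE n f) : OrdGE (n + 1) (f - homog n f) := by
  intro w hw
  rw [sub_apply, homog_apply]
  by_cases h : w.length = n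
  · rw [if_pos h, sub_self]
  · rw [if_neg h, sub_zero, hf w (by omega)]

end Ord

section Letters
variable [Ring K]

theorem ld_letter [DecidableEq σ] (r s : σ) : ld r (X s : NC σ K) = if r = s then 1 else 0 := by
  apply ext'
  intro w
  cases w with
  | nil => rw [ld_apply, X_single]; split_ifs <;> simp
  | cons t w => rw [ld_apply, X_cons_cons]; split_ifs <;> simp

theorem letter_mul_cons [DecidableEq σ] (s r : σ) (z : NC σ K) (v : List σ) :
    ((X s : NC σ K) * z) (r :: v) = if r = s then z v else 0 := by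
  rw [mul_cons, X_nil, zero_mul, add_zero, ld_letter]
  split_ifs
  · rw [one_mul]
  · rw [zero_mul, zero_apply]

theorem mul_letter_concat [DecidableEq σ] (s t : σ) (z : NC σ K) (w : List σ) :
    (z * (X s : NC σ K)) (w ++ [t]) = if t = s then z w else 0 := by
  induction w generalizing z with
  | nil =>
    rw [List.nil_append, mul_cons, mul_nil, X_nil, mul_zero, zero_add, X_single]
    split_ifs <;> simp
  | cons r w ih =>
    have h0 : (X s : NC σ K) (r :: (w ++ [t])) = 0 := by
      cases w with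
      | nil => rfl
      | cons a w => rfl
    rw [List.cons_append, mul_cons, ih, h0, mul_zero, add_zero]
    rfl

end Letters

section Cyc
variable [Field K] [CharZero K]

theorem sum_range_mul_sub (n : ℕ) (r : ℕ → K) :
    ∑ i ∈ Finset.range n, (i : K) * (r (i + 1) - r i) =
      n * r n - ∑ i ∈ Finset.range n, r (i + 1) := by
  induction n with
  | zero => simp
  | succ n ih =>
    rw [Finset.sum_range_succ, ih, Finset.sum_range_succ]
    push_cast
    ring

/-- The cyclic primitive of `f` in degree `n`. -/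
noncomputable def cycPrim (n : ℕ) (f : List σ → K) (w : List σ) : K :=
  (n : K)⁻¹ * ∑ i ∈ Finset.range n, (i : K) * f (w.rotate (i + 1))

/-- In characteristic zero a homogeneous element all of whose cyclic sums vanish is a combination
of commutators with letters. Here in coordinates: `f w = g w - g (w.rotate (n-1))`. -/
theorem cycPrim_sub (n : ℕ) (hn : 0 < n) (f : List σ → K) (w : List σ) (hw : w.length = n)
    (hcyc : ∑ k ∈ Finset.range n, f (w.rotate k) = 0) :
    cycPrim n f w - cycPrim n f (w.rotate (n - 1)) = f w := by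
  have hn0 : (n : K) ≠ 0 := by exact_mod_cast hn.ne'
  have h1 : ∀ i, (w.rotate (n - 1)).rotate (i + 1) = w.rotate i := by
    intro i
    rw [List.rotate_rotate, show n - 1 + (i + 1) = w.length + i by omega, ← List.rotate_rotate,
      List.rotate_length]
  have h2 : w.rotate n = w := by rw [← hw, List.rotate_length]
  unfold cycPrim
  simp only [h1]
  rw [← mul_sub, ← Finset.sum_sub_distrib]
  simp only [← mul_sub]
  rw [sum_range_mul_sub n (fun i => f (w.rotate i)), h2]
  have h3 : ∑ i ∈ Finset.range n, f (w.rotate (i + 1)) = 0 := by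
    have h4 := Finset.sum_range_succ (fun i => f (w.rotate i)) n
    have h5 := Finset.sum_range_succ' (fun i => f (w.rotate i)) n
    rw [h4, hcyc, zero_add, h2, List.rotate_zero] at h5
    exact (add_eq_right.mp h5.symm)
  rw [h3, sub_zero, ← mul_assoc, inv_mul_cancel₀ hn0, one_mul]

/-- The element of degree `n - 1` starting the commutator with the letter `s`. -/
noncomputable def cycPart (n : ℕ) (f : NC σ K) (s : σ) : NC σ K :=
  ⟨fun v => if v.length + 1 = n then cycPrim n f.coeff (s :: v) else 0⟩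

theorem cycPart_ordGE (n : ℕ) (f : NC σ K) (s : σ) : OrdGE (n - 1) (cycPart n f s) := by
  intro w hw
  change (if w.length + 1 = n then _ else 0) = 0
  rw [if_neg (by omega)]

theorem eq_sum_comm [Fintype σ] [DecidableEq σ] (n : ℕ) (hn : 0 < n) (f : NC σ K)
    (hhom : ∀ w : List σ, w.length ≠ n → f w = 0)
    (hcyc : ∀ w : List σ, w.length = n → ∑ k ∈ Finset.range n, f (w.rotate k) = 0) :
    f = ∑ s, ((X s : NC σ K) * cycPart n f s - cycPart n f s * X s) := by
  apply ext'
  intro w
  rw [sum_apply]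
  simp only [sub_apply]
  rw [Finset.sum_sub_distrib]
  have hfst : ∑ s, ((X s : NC σ K) * cycPart n f s) w =
      if w.length = n then cycPrim n f.coeff w else 0 := by
    cases w with
    | nil =>
      simp only [mul_nil, X_nil, zero_mul, Finset.sum_const_zero]
      rw [if_neg (by simpa using hn.ne)]
    | cons r v =>
      simp only [letter_mul_cons]
      rw [Finset.sum_ite_eq Finset.univ r, if_pos (Finset.mem_univ _)]
      rfl
  have hsnd : ∑ s, (cycPart n f s * (X s : NC σ K)) w =
      if w.length = n then cycPrim n f.coeff (w.rotate (n - 1)) else 0 := by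
    rcases List.eq_nil_or_concat w with rfl | ⟨v, t, rfl⟩
    · simp only [mul_nil, X_nil, mul_zero, Finset.sum_const_zero]
      rw [if_neg (by simpa using hn.ne)]
    · rw [List.concat_eq_append]
      simp only [mul_letter_concat]
      rw [Finset.sum_ite_eq Finset.univ t, if_pos (Finset.mem_univ _)]
      change (if v.length + 1 = n then cycPrim n f.coeff (t :: v) else 0) = _
      by_cases h : v.length + 1 = n
      · rw [if_pos h, if_pos (by simpa using h)]
        have : (v ++ [t]).rotate (n - 1) = t :: v := by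
          rw [show n - 1 = v.length by omega, List.rotate_append_length_eq]
          rfl
        rw [this]
      · rw [if_neg h, if_neg (by simpa using h)]
  rw [hfst, hsnd]
  by_cases h : w.length = n
  · rw [if_pos h, if_pos h, cycPrim_sub n hn f.coeff w h (hcyc w h)]
  · rw [if_neg h, if_neg h, hhom w h, sub_zero]

/-- Either the component of degree `n` of `f` has a nonzero cyclic sum or it is a combination
of commutators with the letters (elements of order `≥ n - 1`). -/
theorem exists_cyc_or_comm [Fintype σ] [DecidableEq σ] (n : ℕ) (hn : 0 < n) (f : NC σ K)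
    (hf : OrdGE n f) :
    (∃ w : List σ, w.length = n ∧ ∑ k ∈ Finset.range n, f (w.rotate k) ≠ 0) ∨
    ∃ A : σ → NC σ K, (∀ s, OrdGE (n - 1) (A s)) ∧
      OrdGE (n + 1) (f - ∑ s, ((X s : NC σ K) * A s - A s * X s)) := by
  by_cases h : ∃ w : List σ, w.length = n ∧ ∑ k ∈ Finset.range n, f (w.rotate k) ≠ 0
  · exact Or.inl h
  · right
    push Not at h
    refine ⟨cycPart n (homog n f), cycPart_ordGE n _, ?_⟩
    rw [← eq_sum_comm n hn (homog n f)]
    · exact hf.sub_homog
    · intro w hw
      rw [homog_apply, if_neg hw]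
    · intro w hw
      rw [← h w hw]
      refine Finset.sum_congr rfl fun k _ => ?_
      rw [homog_apply, if_pos (by rw [List.length_rotate]; exact hw)]

end Cyc

end NC

end Crest.Agent.R180
end

-- ▼ part R180/SSolve

set_option autoImplicit false

/-!
# Row 180, Theorem S: the degree-by-degree solver over the base field
-/

namespace Crest.Agent.R180

namespace NC

section TSub

variable {ι σ K : Type} [CommRing K] [Fintype ι]

theorem C_mul_comm (k : K) (f : NC σ K) : (C k : NC σ K) * f = f * C k := by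
  apply ext'; intro w; rw [C_mul_apply, mul_C_apply, mul_comm]

/-- substitution `NC ι K → NC σ K`, `letter i ↦ X i - X i []` (a total function of `X`). -/
noncomputable def tsub (X : ι → NC σ K) : NC ι K →+* NC σ K :=
  subst (CFilt.nc (CFilt.discrete K)) (C : K →+* NC σ K) (fun i => X i - C (X i []))
    (fun i => by
      rw [CFilt.mem_nc_one, CFilt.mem_discrete]
      right
      simp)
    (fun k i => C_mul_comm k _)

theorem tsub_eq (X : ι → NC σ K) (hX : ∀ i, X i [] = 0) (f : NC ι K) :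
    tsub X f = C (f []) + ∑ i, X i * tsub X (ld i f) := by
  have hX' : ∀ i, X i - (C (X i []) : NC σ K) = X i := fun i => by
    rw [hX i, map_zero, sub_zero]
  have := subst_eq (CFilt.nc (CFilt.discrete K)) (C : K →+* NC σ K) (fun i => X i - C (X i []))
    (fun i => by
      rw [CFilt.mem_nc_one, CFilt.mem_discrete]
      right
      simp)
    (fun k i => C_mul_comm k _) f
  simp only [hX'] at this
  simpa only [tsub, hX'] using this

@[simp] theorem tsub_C (X : ι → NC σ K) (k : K) : tsub X (C k) = C k :=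
  subst_C _ _ _ _ _ k

/-- linear part -/
noncomputable def lin (f : NC ι K) (X : ι → NC σ K) : NC σ K := ∑ i, (C (f [i]) : NC σ K) * X i

/-- quadratic part -/
noncomputable def quad (f : NC ι K) (X Y : ι → NC σ K) : NC σ K :=
  ∑ i, ∑ j, (C (f [i, j]) : NC σ K) * (X i * Y j)

variable (X Y Z : ι → NC σ K)

omit [Fintype ι] in
theorem ordGE_nil {X : NC σ K} (h : OrdGE 1 X) : X [] = 0 := h [] (by simp)

theorem lin_ordGE {n : ℕ} (f : NC ι K) (hX : ∀ i, OrdGE n (X i)) : OrdGE n (lin f X) :=
  OrdGE.sum _ _ fun i _ => (hX i).mul_left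

theorem quad_ordGE {m n : ℕ} (f : NC ι K) (hX : ∀ i, OrdGE m (X i)) (hY : ∀ i, OrdGE n (Y i)) :
    OrdGE (m + n) (quad f X Y) :=
  OrdGE.sum _ _ fun i _ => OrdGE.sum _ _ fun j _ => ((hX i).mul (hY j)).mul_left

theorem lin_add (f : NC ι K) : lin f (fun i => X i + Y i) = lin f X + lin f Y := by
  simp only [lin, mul_add, Finset.sum_add_distrib]


theorem quad_add_left (f : NC ι K) :
    quad f (fun i => X i + Y i) Z = quad f X Z + quad f Y Z := by
  simp only [quad, add_mul, mul_add, Finset.sum_add_distrib]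

theorem quad_sub_left (f : NC ι K) :
    quad f (fun i => X i - Y i) Z = quad f X Z - quad f Y Z := by
  simp only [quad, sub_mul, mul_sub, Finset.sum_sub_distrib]

theorem quad_sub_right (f : NC ι K) :
    quad f X (fun i => Y i - Z i) = quad f X Y - quad f X Z := by
  simp only [quad, mul_sub, Finset.sum_sub_distrib]

/-- level 0 -/
theorem tsub_congr0 (m : ℕ) (hX : ∀ i, OrdGE 1 (X i)) (hY : ∀ i, OrdGE 1 (Y i))
    (h : ∀ i, OrdGE m (X i - Y i)) (f : NC ι K) : OrdGE m (tsub X f - tsub Y f) := by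
  have key : ∀ k ≤ m, ∀ f : NC ι K, OrdGE k (tsub X f - tsub Y f) := by
    intro k
    induction k with
    | zero => intro _ f; exact ordGE_zero _
    | succ k ih =>
      intro hk f
      have e : tsub X f - tsub Y f = ∑ i, ((X i - Y i) * tsub X (ld i f) +
          Y i * (tsub X (ld i f) - tsub Y (ld i f))) := by
        rw [tsub_eq X (fun i => ordGE_nil (hX i)) f, tsub_eq Y (fun i => ordGE_nil (hY i)) f,
          Finset.sum_add_distrib]
        simp only [sub_mul, mul_sub, Finset.sum_sub_distrib]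
        abel
      rw [e]
      refine OrdGE.sum _ _ fun i _ => OrdGE.add ((h i).mul_right.mono hk) ?_
      rw [add_comm k 1]
      exact (hY i).mul (ih (by omega) (ld i f))
  exact key m le_rfl f

theorem tsub_sub_C (hX : ∀ i, OrdGE 1 (X i)) (f : NC ι K) : OrdGE 1 (tsub X f - C (f [])) := by
  rw [tsub_eq X (fun i => ordGE_nil (hX i)) f, add_sub_cancel_left]
  exact OrdGE.sum _ _ fun i _ => (hX i).mul_right

/-- level 1 -/
theorem tsub_congr1 (m : ℕ) (hY : ∀ i, OrdGE 1 (Y i)) (hZ : ∀ i, OrdGE m (Z i)) (hm : 1 ≤ m)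
    (f : NC ι K) :
    OrdGE (m + 1) (tsub (fun i => Y i + Z i) f - (tsub Y f + lin f Z)) := by
  have hX : ∀ i, OrdGE 1 (Y i + Z i) := fun i => (hY i).add ((hZ i).mono hm)
  have hd : ∀ i, OrdGE m ((Y i + Z i) - Y i) := fun i => by rw [add_sub_cancel_left]; exact hZ i
  have e : tsub (fun i => Y i + Z i) f - (tsub Y f + lin f Z) =
      ∑ i, (Z i * (tsub (fun i => Y i + Z i) (ld i f) - C (f [i])) +
          Y i * (tsub (fun i => Y i + Z i) (ld i f) - tsub Y (ld i f))) := by
    rw [tsub_eq _ (fun i => ordGE_nil (hX i)) f, tsub_eq Y (fun i => ordGE_nil (hY i)) f,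
      Finset.sum_add_distrib]
    simp only [add_mul, mul_sub, Finset.sum_sub_distrib, Finset.sum_add_distrib, lin, C_mul_comm]
    abel
  rw [e]
  refine OrdGE.sum _ _ fun i _ => OrdGE.add ?_ ?_
  · exact (hZ i).mul (tsub_sub_C _ hX (ld i f))
  · rw [add_comm m 1]
    exact (hY i).mul (tsub_congr0 _ _ m hX hY hd (ld i f))

theorem tsub_lin (hX : ∀ i, OrdGE 1 (X i)) (f : NC ι K) :
    OrdGE 2 (tsub X f - (C (f []) + lin f X)) := by
  have e : tsub X f - (C (f []) + lin f X) =
      ∑ i, X i * (tsub X (ld i f) - C (f [i])) := by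
    rw [tsub_eq _ (fun i => ordGE_nil (hX i)) f]
    simp only [mul_sub, Finset.sum_sub_distrib, lin, C_mul_comm]
    abel
  rw [e]
  exact OrdGE.sum _ _ fun i _ => (hX i).mul (tsub_sub_C _ hX (ld i f))

theorem tsub_quad (hX : ∀ i, OrdGE 1 (X i)) (f : NC ι K) :
    OrdGE 3 (tsub X f - (C (f []) + lin f X + quad f X X)) := by
  have e : tsub X f - (C (f []) + lin f X + quad f X X) =
      ∑ i, X i * (tsub X (ld i f) - (C ((ld i f) []) + lin (ld i f) X)) := by
    rw [tsub_eq _ (fun i => ordGE_nil (hX i)) f]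
    have h : quad f X X = ∑ i, X i * lin (ld i f) X := by
      unfold quad lin
      refine Finset.sum_congr rfl fun i _ => ?_
      rw [Finset.mul_sum]
      refine Finset.sum_congr rfl fun j _ => ?_
      rw [ld_apply, ← mul_assoc, ← mul_assoc, C_mul_comm, ]
    rw [h]
    simp only [mul_sub, mul_add, Finset.sum_sub_distrib, Finset.sum_add_distrib, ld_apply]
    simp only [lin, C_mul_comm]
    abel
  rw [e]
  exact OrdGE.sum _ _ fun i _ => (hX i).mul (tsub_lin _ hX (ld i f))

/-- level 2 -/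
theorem tsub_congr2 (m : ℕ) (hY : ∀ i, OrdGE 1 (Y i)) (hZ : ∀ i, OrdGE m (Z i)) (hm : 2 ≤ m)
    (f : NC ι K) :
    OrdGE (m + 2) (tsub (fun i => Y i + Z i) f - (tsub Y f + lin f Z + quad f Z Y + quad f Y Z)) := by
  have hX : ∀ i, OrdGE 1 (Y i + Z i) := fun i => (hY i).add ((hZ i).mono (by omega))
  have hquad : ∀ A B : ι → NC σ K, quad f A B = ∑ i, A i * lin (ld i f) B := by
    intro A B
    unfold quad lin
    refine Finset.sum_congr rfl fun i _ => ?_
    rw [Finset.mul_sum]
    refine Finset.sum_congr rfl fun j _ => ?_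
    rw [ld_apply, ← mul_assoc, ← mul_assoc, C_mul_comm]
  have e : tsub (fun i => Y i + Z i) f - (tsub Y f + lin f Z + quad f Z Y + quad f Y Z) =
      ∑ i, (Z i * (tsub (fun i => Y i + Z i) (ld i f) - (C (f [i]) + lin (ld i f) Y)) +
          Y i * (tsub (fun i => Y i + Z i) (ld i f) - (tsub Y (ld i f) + lin (ld i f) Z))) := by
    rw [tsub_eq _ (fun i => ordGE_nil (hX i)) f, tsub_eq Y (fun i => ordGE_nil (hY i)) f, hquad,
      hquad, Finset.sum_add_distrib]
    have h1 : lin f Z = ∑ i, Z i * (C (f [i]) : NC σ K) := by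
      unfold lin; exact Finset.sum_congr rfl fun i _ => C_mul_comm _ _
    rw [h1]
    simp only [add_mul, mul_sub, mul_add, Finset.sum_sub_distrib, Finset.sum_add_distrib]
    abel
  rw [e]
  refine OrdGE.sum _ _ fun i _ => OrdGE.add ?_ ?_
  · refine (hZ i).mul ?_
    have h1 := tsub_lin _ hX (ld i f)
    have h2 : OrdGE 2 (lin (ld i f) Z) := (lin_ordGE Z (ld i f) hZ).mono hm
    have h3 := h1.add h2
    rw [lin_add] at h3
    have e2 : tsub (fun i => Y i + Z i) (ld i f) -
        (C ((ld i f) []) + (lin (ld i f) Y + lin (ld i f) Z)) + lin (ld i f) Z =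
        tsub (fun i => Y i + Z i) (ld i f) - (C (f [i]) + lin (ld i f) Y) := by
      rw [ld_apply]; abel
    rwa [e2] at h3
  · have := (hY i).mul (tsub_congr1 Y Z m hY hZ (by omega) (ld i f))
    rwa [show 1 + (m + 1) = m + 2 by omega] at this

end TSub

section Solver

variable {ι κ K : Type} [Field K] [CharZero K] [Fintype ι] [Fintype κ]

/-- matrix entry of the quadratic form attached to `h` -/
def qco (Θ : κ → NC ι K) (h : κ → K) (i j : ι) : K := ∑ c, h c * Θ c [i, j]

/-- bilinear form attached to `h` -/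
def qf (Θ : κ → NC ι K) (h : κ → K) (x y : ι → K) : K := ∑ i, ∑ j, qco Θ h i j * x i * y j

/-- the combination `∑ h_c Θ_c` -/
noncomputable def hc (Θ : κ → NC ι K) (h : κ → K) : NC ι K := ∑ c, (C (h c) : NC ι K) * Θ c

omit [CharZero K] [Fintype ι] in
theorem hc_apply (Θ : κ → NC ι K) (h : κ → K) (w : List ι) :
    hc Θ h w = ∑ c, h c * Θ c w := by
  unfold hc
  rw [sum_apply]
  exact Finset.sum_congr rfl fun c _ => C_mul_apply _ _ _

omit [CharZero K] in
theorem tsub_hc (Θ : κ → NC ι K) (h : κ → K) {σ : Type} (X : ι → NC σ K) :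
    tsub X (hc Θ h) = ∑ c, (C (h c) : NC σ K) * tsub X (Θ c) := by
  unfold hc
  rw [map_sum]
  exact Finset.sum_congr rfl fun c _ => by rw [map_mul, tsub_C]

omit [CharZero K] [Fintype ι] in
theorem C_hc_nil (Θ : κ → NC ι K) (h : κ → K) {σ : Type} :
    (C (hc Θ h []) : NC σ K) = ∑ c, (C (h c) : NC σ K) * C (Θ c []) := by
  rw [hc_apply, map_sum]
  exact Finset.sum_congr rfl fun c _ => by rw [map_mul]

omit [CharZero K] in
/-- bilinear expansion of `quad` on sums of "scalar vector times series" -/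
theorem quad_vec (f : NC ι K) (x y : ι → K) {σ : Type} (A B : NC σ K) :
    quad f (fun i => (C (x i) : NC σ K) * A) (fun i => (C (y i) : NC σ K) * B) =
      (C (∑ i, ∑ j, f [i, j] * x i * y j) : NC σ K) * (A * B) := by
  unfold quad
  simp only [map_sum, Finset.sum_mul]
  refine Finset.sum_congr rfl fun i _ => Finset.sum_congr rfl fun j _ => ?_
  rw [map_mul, map_mul]
  have h1 : (C (x i) : NC σ K) * A * ((C (y j) : NC σ K) * B) =
      (C (x i) : NC σ K) * C (y j) * (A * B) := by
    rw [mul_assoc (C (x i)) A, ← mul_assoc A (C (y j)), ← C_mul_comm (y j) A]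
    simp only [mul_assoc]
  rw [h1]
  simp only [mul_assoc]

omit [CharZero K] in
theorem quad_sum_left (f : NC ι K) {σ α : Type} [Fintype α] (X : α → ι → NC σ K) (Y : ι → NC σ K) :
    quad f (fun i => ∑ a, X a i) Y = ∑ a, quad f (X a) Y := by
  unfold quad
  simp only [Finset.sum_mul, Finset.mul_sum]
  have h : ∀ i, ∑ j, ∑ a, (C (f [i, j]) : NC σ K) * (X a i * Y j) =
      ∑ a, ∑ j, (C (f [i, j]) : NC σ K) * (X a i * Y j) := fun i => Finset.sum_comm
  simp only [h]
  exact Finset.sum_comm

omit [CharZero K] in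
theorem quad_sum_right (f : NC ι K) {σ α : Type} [Fintype α] (X : ι → NC σ K) (Y : α → ι → NC σ K) :
    quad f X (fun i => ∑ a, Y a i) = ∑ a, quad f X (Y a) := by
  unfold quad
  simp only [Finset.mul_sum]
  have h : ∀ i, ∑ j, ∑ a, (C (f [i, j]) : NC σ K) * (X i * Y a j) =
      ∑ a, ∑ j, (C (f [i, j]) : NC σ K) * (X i * Y a j) := fun i => Finset.sum_comm
  simp only [h]
  exact Finset.sum_comm

omit [CharZero K] in
theorem quad_add_right (f : NC ι K) {σ : Type} (X Y Z : ι → NC σ K) :
    quad f X (fun i => Y i + Z i) = quad f X Y + quad f X Z := by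
  simp only [quad, mul_add, Finset.sum_add_distrib]

omit [CharZero K] in
theorem quad_neg_right (f : NC ι K) {σ : Type} (X Y : ι → NC σ K) :
    quad f X (fun i => - Y i) = - quad f X Y := by
  simp only [quad, mul_neg, Finset.sum_neg_distrib]

omit [CharZero K] in
theorem quad_neg_left (f : NC ι K) {σ : Type} (X Y : ι → NC σ K) :
    quad f (fun i => - X i) Y = - quad f X Y := by
  simp only [quad, mul_neg, neg_mul, Finset.sum_neg_distrib]

/-- The data used by the solver: the annihilator basis `h`, the vectors `u₁ u₂` and the dual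
vectors. -/
structure SolverData (Θ : κ → NC ι K) (s : ℕ) (h : Fin s → κ → K) (u₁ u₂ : ι → K)
    (v₁ v₂ : Fin s → ι → K) : Prop where
  hann : ∀ a i, ∑ c, h a c * Θ c [i] = 0
  hlin : ∀ r : κ → K, (∀ a, ∑ c, h a c * r c = 0) → ∃ y : ι → K, ∀ c, ∑ i, Θ c [i] * y i = r c
  ku₁ : ∀ c, ∑ i, Θ c [i] * u₁ i = 0
  ku₂ : ∀ c, ∑ i, Θ c [i] * u₂ i = 0
  kv₁ : ∀ b c, ∑ i, Θ c [i] * v₁ b i = 0
  kv₂ : ∀ b c, ∑ i, Θ c [i] * v₂ b i = 0
  alt : ∀ a (x y : ι → K), (∀ c, ∑ i, Θ c [i] * x i = 0) → (∀ c, ∑ i, Θ c [i] * y i = 0) →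
    qf Θ (h a) x y + qf Θ (h a) y x = 0
  q12 : ∀ a, qf Θ (h a) u₁ u₂ = 0
  d11 : ∀ a b, qf Θ (h a) u₁ (v₁ b) = if a = b then 1 else 0
  d21 : ∀ a b, qf Θ (h a) u₂ (v₁ b) = 0
  d12 : ∀ a b, qf Θ (h a) u₁ (v₂ b) = 0
  d22 : ∀ a b, qf Θ (h a) u₂ (v₂ b) = if a = b then 1 else 0

section Data

variable {Θ : κ → NC ι K} {s : ℕ} {h : Fin s → κ → K} {u₁ u₂ : ι → K} {v₁ v₂ : Fin s → ι → K}

omit [CharZero K] in
theorem qf_eq (h' : κ → K) (x y : ι → K) :
    ∑ i, ∑ j, (hc Θ h') [i, j] * x i * y j = qf Θ h' x y := by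
  unfold qf
  simp only [hc_apply, qco]

/-- the initial approximation `u₁ P + u₂ Q` -/
noncomputable def X1 (u₁ u₂ : ι → K) (i : ι) : NC (Fin 2) K :=
  (C (u₁ i) : NC (Fin 2) K) * X 0 + (C (u₂ i) : NC (Fin 2) K) * X 1

omit [CharZero K] [Fintype ι] in
theorem X1_ordGE (i : ι) : OrdGE 1 (X1 u₁ u₂ i) :=
  (ordGE_X 0).mul_left.add (ordGE_X 1).mul_left

omit [CharZero K] in
theorem quad_X1_left (f : NC ι K) (y : ι → K) (B : NC (Fin 2) K) :
    quad f (X1 u₁ u₂) (fun i => (C (y i) : NC (Fin 2) K) * B) =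
      (C (∑ i, ∑ j, f [i, j] * u₁ i * y j) : NC (Fin 2) K) * (X 0 * B) +
      (C (∑ i, ∑ j, f [i, j] * u₂ i * y j) : NC (Fin 2) K) * (X 1 * B) := by
  unfold X1
  rw [quad_add_left, quad_vec, quad_vec]

omit [CharZero K] in
theorem quad_X1_right (f : NC ι K) (y : ι → K) (B : NC (Fin 2) K) :
    quad f (fun i => (C (y i) : NC (Fin 2) K) * B) (X1 u₁ u₂) =
      (C (∑ i, ∑ j, f [i, j] * y i * u₁ j) : NC (Fin 2) K) * (B * X 0) +
      (C (∑ i, ∑ j, f [i, j] * y i * u₂ j) : NC (Fin 2) K) * (B * X 1) := by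
  unfold X1
  rw [quad_add_right, quad_vec, quad_vec]

omit [CharZero K] in
theorem lin_vec (f : NC ι K) (y : ι → K) {σ : Type} (B : NC σ K) :
    lin f (fun i => (C (y i) : NC σ K) * B) = (C (∑ i, f [i] * y i) : NC σ K) * B := by
  unfold lin
  rw [map_sum, Finset.sum_mul]
  exact Finset.sum_congr rfl fun i _ => by rw [map_mul, mul_assoc]

omit [CharZero K] in
theorem lin_hc_eq_zero (h' : κ → K) (hh : ∀ i, ∑ c, h' c * Θ c [i] = 0) {σ : Type}
    (X : ι → NC σ K) : lin (hc Θ h') X = 0 := by
  unfold lin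
  refine Finset.sum_eq_zero fun i _ => ?_
  rw [hc_apply, hh i, map_zero, zero_mul]


/-- approximate solution of order `n` -/
def Approx (Θ : κ → NC ι K) (u₁ u₂ : ι → K) (n : ℕ) (X : ι → NC (Fin 2) K) : Prop :=
  (∀ i, OrdGE 2 (X i - X1 u₁ u₂ i)) ∧ ∀ c, OrdGE (n + 1) (tsub X (Θ c) - C (Θ c []))

theorem Approx.ordGE {Θ : κ → NC ι K} {n : ℕ} {X : ι → NC (Fin 2) K}
    (hX : Approx Θ u₁ u₂ n X) (i : ι) : OrdGE 1 (X i) := by
  have h1 := ((hX.1 i).mono (by norm_num : 1 ≤ 2)).add (X1_ordGE (u₁ := u₁) (u₂ := u₂) i)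
  rwa [sub_add_cancel] at h1




end Data

end Solver

end NC

end Crest.Agent.R180
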